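import Crest.Agent.R312.ZEul

/-!
# Row 312 (B): Möbius inversion and the logarithmic derivative

Products of absolutely convergent series are regrouped along the fibres of `(A, B) ↦ A * B`
(`HasSum.tsum_fiberwise`, compare `LZC.conv_weight` in `R17/LZeroAuxC.lean`).
`∑_{D ∣ J} μ(D) = [J = ⊤]` for `J ≠ ⊥`, `∑_{(P,k) : P^{k+1} ∣ I} log N P = log N I`.
-/

set_option autoImplicit false

noncomputable section

namespace Crest.Agent.R312

open NumberField MeasureTheory Filter
open scoped Topology ENNReal NNReal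

variable {F : Type} [Field F] [NumberField F]

open UniqueFactorizationMonoid in
theorem zconv_norm_moebius (I : Ideal (𝓞 F)) : ‖((moebius I : ℤ) : ℂ)‖ ≤ 1 := by
  by_cases h : Squarefree I
  · rw [h.moebius_eq]; simp
  · rw [moebius_of_not_squarefree h]; simp

theorem zconv_finite_dvd {J : Ideal (𝓞 F)} (hJ : J ≠ ⊥) :
    ∃ S : Finset (Ideal (𝓞 F)), ∀ D, D ∈ S ↔ D ∣ J := by
  have h : {D : Ideal (𝓞 F) | D ∣ J}.Finite := by
    refine (Ideal.finite_setOfPred_absNorm_le (S := 𝓞 F) (Ideal.absNorm J)).subset ?_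
    intro D hD
    exact Nat.le_of_dvd (Nat.pos_of_ne_zero (by simpa [Ideal.absNorm_eq_zero_iff] using hJ))
      (map_dvd Ideal.absNorm hD)
  exact ⟨h.toFinset, fun D => by simp⟩

open Classical UniqueFactorizationMonoid in
theorem zconv_sum_moebius {J : Ideal (𝓞 F)} (hJ : J ≠ ⊥) (S : Finset (Ideal (𝓞 F)))
    (hS : ∀ D, D ∈ S ↔ D ∣ J) : ∑ D ∈ S, moebius D = if J = ⊤ then 1 else 0 := by
  split_ifs with h
  · have : S = {⊤} := by
      ext D
      rw [hS, h, Finset.mem_singleton, Ideal.dvd_iff_le, top_le_iff]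
    rw [this, Finset.sum_singleton, ← Ideal.one_eq_top, moebius_one]
  · obtain ⟨P, hP, hPJ⟩ := WfDvdMonoid.exists_irreducible_factor
      (a := J) (by simpa [Ideal.isUnit_iff] using h) hJ
    have hP0 : P ≠ 0 := hP.ne_zero
    rw [← Finset.sum_filter_add_sum_filter_not S (fun D => P ∣ D)]
    have h1 : ∑ D ∈ S.filter (fun D => P ∣ D), moebius D =
        ∑ D ∈ (S.filter (fun D => ¬ P ∣ D)).image (fun D => P * D), moebius D := by
      symm
      apply Finset.sum_subset
      · intro D hD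
        obtain ⟨E, hE, rfl⟩ := Finset.mem_image.1 hD
        rw [Finset.mem_filter, hS] at hE ⊢
        exact ⟨(hP.isRelPrime_iff_not_dvd.2 hE.2).mul_dvd hPJ hE.1, dvd_mul_right _ _⟩
      · intro D hD hD'
        rw [Finset.mem_filter, hS] at hD
        obtain ⟨hDJ, E, rfl⟩ := hD
        apply moebius_of_not_squarefree
        intro hsq
        apply hD'
        refine Finset.mem_image.2 ⟨E, ?_, rfl⟩
        rw [Finset.mem_filter, hS]
        refine ⟨(dvd_mul_left _ _).trans hDJ, fun hPE => ?_⟩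
        exact hP.not_isUnit (hsq P (mul_dvd_mul_left P hPE))
    rw [h1, Finset.sum_image (fun a _ b _ hab => mul_left_cancel₀ hP0 hab), ← Finset.sum_add_distrib]
    refine Finset.sum_eq_zero fun D hD => ?_
    rw [Finset.mem_filter] at hD
    rw [(hP.isRelPrime_iff_not_dvd.2 hD.2).moebius_mul, hP.moebius_eq]
    ring

theorem zconv_mul {f g a c h : Ideal (𝓞 F) → ℂ} (hf : ∀ I, ‖f I‖ ≤ 1) (hg : ∀ I, ‖g I‖ ≤ 1)
    (hfg : ∀ A B, f A * g B = a A * c (A * B))
    (hh : ∀ I, I ≠ ⊥ → ∀ S : Finset (Ideal (𝓞 F)), (∀ D, D ∈ S ↔ D ∣ I) →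
      (∑ D ∈ S, a D) * c I = h I) {s : ℂ} (hs : 1 < s.re) :
    Dz F f s * Dz F g s = Dz F h s := by
  have hs0 : -s ≠ 0 := by
    intro h0
    have : s = 0 := neg_eq_zero.1 h0
    rw [this] at hs; norm_num at hs
  have h1 := summable_norm_Dz hf hs
  have h2 := summable_norm_Dz hg hs
  have h3 := (summable_mul_of_summable_norm h1 h2).hasSum
  rw [← tsum_mul_tsum_of_summable_norm h1 h2] at h3
  have h4 := h3.tsum_fiberwise (fun p : Ideal (𝓞 F) × Ideal (𝓞 F) => p.1 * p.2)
  unfold Dz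
  rw [← h4.tsum_eq]
  refine tsum_congr fun I => ?_
  have h5 : ∀ b : (fun p : Ideal (𝓞 F) × Ideal (𝓞 F) => p.1 * p.2) ⁻¹' {I},
      f b.1.1 * (Ideal.absNorm b.1.1 : ℂ) ^ (-s) * (g b.1.2 * (Ideal.absNorm b.1.2 : ℂ) ^ (-s)) =
        a b.1.1 * (c I * (Ideal.absNorm I : ℂ) ^ (-s)) := by
    rintro ⟨⟨A, B⟩, hb⟩
    have hb' : A * B = I := hb
    subst hb'
    simp only [map_mul, Nat.cast_mul, Complex.natCast_mul_natCast_cpow]
    rw [mul_mul_mul_comm, hfg, mul_assoc]
  rw [tsum_congr h5]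
  by_cases hI : I = ⊥
  · subst hI
    simp [Complex.zero_cpow hs0]
  · obtain ⟨S, hS⟩ := zconv_finite_dvd hI
    rw [tsum_mul_right, ← hh I hI S hS, mul_assoc]
    congr 1
    let e : ((fun p : Ideal (𝓞 F) × Ideal (𝓞 F) => p.1 * p.2) ⁻¹' {I}) → {D // D ∈ S} :=
      fun b => ⟨b.1.1, (hS _).2 ⟨b.1.2, (b.2 : b.1.1 * b.1.2 = I).symm⟩⟩
    have he : Function.Bijective e := by
      constructor
      · rintro ⟨⟨A, B⟩, hb⟩ ⟨⟨A', B'⟩, hb'⟩ hbb
        have h6 : A * B = I := hb
        have h7 : A' * B' = I := hb'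
        have h8 : A = A' := congrArg Subtype.val hbb
        subst h8
        have hA : A ≠ 0 := by
          rintro rfl
          exact hI (by simpa using h6.symm)
        have : B = B' := mul_left_cancel₀ hA (h6.trans h7.symm)
        subst this
        rfl
      · rintro ⟨D, hD⟩
        obtain ⟨B, hB⟩ := (hS D).1 hD
        exact ⟨⟨(D, B), hB.symm⟩, rfl⟩
    rw [← Finset.tsum_subtype S a, ← (Equiv.ofBijective e he).tsum_eq]
    rfl

open Classical in
theorem zconv_Dz_top (s : ℂ) : Dz F (fun I => if I = ⊤ then 1 else 0) s = 1 := by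
  unfold Dz
  rw [tsum_eq_single ⊤ (fun I hI => by simp [hI])]
  simp

open UniqueFactorizationMonoid in
theorem zconv_mob_zeta {s : ℂ} (hs : 1 < s.re) :
    Dz F (fun I => ((moebius I : ℤ) : ℂ)) s * Dz F (fun _ => 1) s = 1 := by
  classical
  refine Eq.trans (zconv_mul (F := F) (a := fun I => ((moebius I : ℤ) : ℂ)) (c := fun _ => 1)
    zconv_norm_moebius (fun _ => by simp) (fun _ _ => rfl) (fun I hI S hS => ?_) hs)
    (zconv_Dz_top s)
  rw [mul_one, ← Int.cast_sum, zconv_sum_moebius hI S hS]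
  split_ifs <;> simp

open Classical in
/-- `ζ(s) E(s) = ∑_{(I,m)=1} N I^{-s}` with `E(s) = ∑_{D ∣ (m)} μ(D) N D^{-s}`. -/
theorem exists_mob_inv {m : ℕ} (hm : m ≠ 0) : ∃ E : ℂ → ℂ, Differentiable ℂ E ∧ ∀ s : ℂ, 1 < s.re →
    Dz F (fun _ => 1) s * E s * Dz F (fun I => if IsCoprime I (Ideal.span {(m : 𝓞 F)}) then
      ((UniqueFactorizationMonoid.moebius I : ℤ) : ℂ) else 0) s = 1 := by
  set M : Ideal (𝓞 F) := Ideal.span {(m : 𝓞 F)} with hM
  have hM0 : M ≠ ⊥ := by
    rw [hM, Ne, Ideal.span_singleton_eq_bot]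
    exact_mod_cast hm
  obtain ⟨T, hT⟩ := zconv_finite_dvd hM0
  refine ⟨fun s => ∑ D ∈ T, ((UniqueFactorizationMonoid.moebius D : ℤ) : ℂ) *
    (Ideal.absNorm D : ℂ) ^ (-s), ?_, fun s hs => ?_⟩
  · refine Differentiable.fun_sum fun D hD => Differentiable.const_mul ?_ _
    refine Differentiable.const_cpow differentiable_neg (Or.inl ?_)
    have hD0 : D ≠ ⊥ := by
      rintro rfl
      exact hM0 (le_bot_iff.1 (Ideal.dvd_iff_le.1 ((hT _).1 hD)))
    simpa [Ideal.absNorm_eq_zero_iff] using hD0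
  · have h1 : ∑ D ∈ T, ((UniqueFactorizationMonoid.moebius D : ℤ) : ℂ) *
        (Ideal.absNorm D : ℂ) ^ (-s) = Dz F (fun D => if D ∣ M then
          ((UniqueFactorizationMonoid.moebius D : ℤ) : ℂ) else 0) s := by
      unfold Dz
      rw [tsum_eq_sum (s := T) (fun D hD => by simp [← hT, hD])]
      exact Finset.sum_congr rfl fun D hD => by simp [← hT, hD]
    have h2 : Dz F (fun D => if D ∣ M then
        ((UniqueFactorizationMonoid.moebius D : ℤ) : ℂ) else 0) s * Dz F (fun _ => 1) s =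
          Dz F (fun I => if IsCoprime I M then 1 else 0) s := by
      refine zconv_mul (a := fun D => if D ∣ M then
        ((UniqueFactorizationMonoid.moebius D : ℤ) : ℂ) else 0) (c := fun _ => 1) (fun I => ?_)
        (fun _ => by simp) (fun _ _ => rfl) (fun I hI S hS => ?_) hs
      · split_ifs
        · exact zconv_norm_moebius I
        · simp
      · have h3 : I ⊔ M ≠ ⊥ := fun h0 => hI (le_bot_iff.1 (h0 ▸ le_sup_left))
        rw [mul_one, ← Finset.sum_filter, ← Int.cast_sum,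
          zconv_sum_moebius h3 _ (fun D => ?_), Ideal.isCoprime_iff_sup_eq]
        · split_ifs <;> simp
        · rw [Finset.mem_filter, hS]
          simp only [Ideal.dvd_iff_le, sup_le_iff]
    have h3 : Dz F (fun I => if IsCoprime I M then
        ((UniqueFactorizationMonoid.moebius I : ℤ) : ℂ) else 0) s *
          Dz F (fun I => if IsCoprime I M then 1 else 0) s = 1 := by
      refine Eq.trans (zconv_mul (F := F)
        (a := fun D => ((UniqueFactorizationMonoid.moebius D : ℤ) : ℂ))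
        (c := fun I => if IsCoprime I M then 1 else 0) (fun I => ?_) (fun I => ?_)
        (fun A B => ?_) (fun I hI S hS => ?_) hs) (zconv_Dz_top s)
      · split_ifs
        · exact zconv_norm_moebius I
        · simp
      · split_ifs <;> simp
      · simp only [IsCoprime.mul_left_iff]
        by_cases hA : IsCoprime A M <;> by_cases hB : IsCoprime B M <;> simp [hA, hB]
      · rw [← Int.cast_sum, zconv_sum_moebius hI S hS]
        by_cases hI' : I = ⊤
        · subst hI'
          have : IsCoprime (⊤ : Ideal (𝓞 F)) M := by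
            rw [← Ideal.one_eq_top]; exact isCoprime_one_left
          simp [this]
        · simp [hI']
    simp only
    rw [h1, mul_comm (Dz F (fun _ => 1) s), h2, mul_comm, h3]

/-- `ζ(s) ∑ μ(I) N I^{-s} = 1` and `norm_Dz_le`. -/
theorem le_norm_zeta {s : ℂ} (hs : 2 ≤ s.re) :
    Real.exp (-(2 * Module.finrank ℚ F)) ≤ ‖Dz F (fun _ => 1) s‖ := by
  have h1 := zconv_mob_zeta (F := F) (s := s) (by linarith)
  have h2 := norm_Dz_le (F := F) zconv_norm_moebius hs
  have h3 := congrArg norm h1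
  rw [norm_mul, norm_one] at h3
  rw [Real.exp_neg, inv_le_iff_one_le_mul₀' (Real.exp_pos _), ← h3]
  exact mul_le_mul_of_nonneg_right h2 (norm_nonneg _)

theorem zeta_ne_zero {s : ℂ} (hs : 1 < s.re) : Dz F (fun _ => 1) s ≠ 0 := by
  intro h
  have h1 := zconv_mob_zeta (F := F) hs
  rw [h, mul_zero] at h1
  exact zero_ne_one h1

end Crest.Agent.R312
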