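import Crest.Agent.R312.ZDefs
import Crest.Agent.R17.Contour

/-!
# Row 312 (B): smooth sums over a general index set

Generic versions of `R17.WeightB.Sm_eq_integral` and `R17.LZC.integral_Tt` (copy the proofs).
-/

set_option autoImplicit false

noncomputable section

namespace Crest.Agent.R312

open NumberField MeasureTheory Filter
open scoped Topology ENNReal NNReal

open Crest.Agent.R17

theorem Wc_zero (y : ℝ) : Wc y 0 = (Wr y : ℂ) := by
  simp [Wc, Wr]

theorem Wr_pos (y : ℝ) : 0 < Wr y := Real.exp_pos _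

theorem Wr_le_one (y : ℝ) : Wr y ≤ 1 := Real.exp_le_one_iff.2 (neg_nonpos.2 (sq_nonneg _))

theorem Wr_le_rpow (A : ℝ) {y : ℝ} (hy : 0 < y) : Wr y ≤ Real.exp (A ^ 2 / 4) * y ^ (-A) := by
  rw [Real.rpow_def_of_pos hy, ← Real.exp_add]
  exact Real.exp_le_exp.2 (by nlinarith [sq_nonneg (Real.log y - A / 2)])

variable {ι : Type} [Countable ι] {a : ι → ℂ} {N : ι → ℝ}

omit [Countable ι] in
theorem ZGen_term_le (hN : ∀ i, 1 ≤ N i) {σ A : ℝ} (hA : σ ≤ A) {y : ℝ} (hy : 0 < y) (i : ι) :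
    ‖a i * Wc (N i / y) 0‖ ≤ Real.exp (A ^ 2 / 4) * y ^ A * (‖a i‖ * N i ^ (-σ)) := by
  have h0 : 0 < N i := one_pos.trans_le (hN i)
  have h1 := Wr_le_rpow A (div_pos h0 hy)
  have h2 : N i ^ (-A) ≤ N i ^ (-σ) := Real.rpow_le_rpow_of_exponent_le (hN i) (neg_le_neg hA)
  rw [Real.div_rpow h0.le hy.le, Real.rpow_neg hy.le, div_inv_eq_mul] at h1
  rw [norm_mul, Wc_zero, Complex.norm_of_nonneg (Wr_pos _).le]
  calc ‖a i‖ * Wr (N i / y) ≤ ‖a i‖ * (Real.exp (A ^ 2 / 4) * (N i ^ (-A) * y ^ A)) := by gcongr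
    _ ≤ ‖a i‖ * (Real.exp (A ^ 2 / 4) * (N i ^ (-σ) * y ^ A)) := by gcongr
    _ = _ := by ring

theorem summable_smooth (hN : ∀ i, 1 ≤ N i) {σ : ℝ} (h : Summable fun i => ‖a i‖ * N i ^ (-σ))
    {y : ℝ} (hy : 0 < y) : Summable fun i => ‖a i * Wc (N i / y) 0‖ :=
  Summable.of_nonneg_of_le (fun _ => norm_nonneg _) (ZGen_term_le hN le_rfl hy) (h.mul_left _)

theorem smooth_eq_integral (hN : ∀ i, 1 ≤ N i) {σ : ℝ}
    (h : Summable fun i => ‖a i‖ * N i ^ (-σ)) {y : ℝ} (hy : 0 < y) :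
    ∑' i, a i * Wc (N i / y) 0 = (1 / (2 * Real.pi) : ℂ) * ∫ u : ℝ,
      Wm (σ + u * Complex.I + 0) * (y : ℂ) ^ ((σ : ℂ) + u * Complex.I) *
        ∑' i, a i * (N i : ℂ) ^ (-((σ : ℂ) + u * Complex.I)) := by
  have h0 : ∀ i, 0 < N i := fun i => one_pos.trans_le (hN i)
  have hy' : (y : ℂ) ≠ 0 := Complex.ofReal_ne_zero.2 hy.ne'
  have hW : Integrable fun u : ℝ => ‖Wm (σ + u * Complex.I + 0)‖ := by
    simpa only [pow_zero, mul_one, add_zero] using integrable_Wm_mul_pow σ 0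
  have hn : ∀ (i : ι) (u : ℝ), ‖Wm (σ + u * Complex.I + 0) * (y : ℂ) ^ ((σ : ℂ) + u * Complex.I) *
      (a i * (N i : ℂ) ^ (-((σ : ℂ) + u * Complex.I)))‖ =
      y ^ σ * (‖a i‖ * N i ^ (-σ)) * ‖Wm (σ + u * Complex.I + 0)‖ := by
    intro i u
    rw [norm_mul, norm_mul, norm_mul, Complex.norm_cpow_eq_rpow_re_of_pos hy,
      Complex.norm_cpow_eq_rpow_re_of_pos (h0 i)]
    simp only [Complex.add_re, Complex.neg_re, Complex.ofReal_re, Complex.mul_re, Complex.I_re,
      Complex.ofReal_im, Complex.I_im, mul_zero, zero_mul, sub_self, add_zero]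
    ring
  have hi : ∀ i : ι, Integrable fun u : ℝ => Wm (σ + u * Complex.I + 0) *
      (y : ℂ) ^ ((σ : ℂ) + u * Complex.I) * (a i * (N i : ℂ) ^ (-((σ : ℂ) + u * Complex.I))) := by
    intro i
    refine (hW.const_mul _).mono' (Continuous.aestronglyMeasurable ?_)
      (Filter.Eventually.of_forall fun u => (hn i u).le)
    refine ((differentiable_Wm.continuous.comp (by fun_prop)).mul
      (Continuous.const_cpow (by fun_prop) (Or.inl hy'))).mul (continuous_const.mul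
      (Continuous.const_cpow (by fun_prop) (Or.inl ?_)))
    exact Complex.ofReal_ne_zero.2 (h0 i).ne'
  simp only [← tsum_mul_left]
  rw [← integral_tsum_of_summable_integral_norm hi, ← tsum_mul_left]
  · refine tsum_congr fun i => ?_
    rw [Wc_eq_integral (div_pos (h0 i) hy) σ 0, mul_left_comm, ← integral_const_mul]
    congr 2
    funext u
    rw [Complex.ofReal_div, Complex.div_cpow_ofReal_nonneg (h0 i).le hy.le,
      Complex.cpow_neg (y : ℂ), div_inv_eq_mul]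
    ring
  · simp only [hn, integral_const_mul]
    exact (h.mul_left _).mul_right _

theorem continuous_smooth (hN : ∀ i, 1 ≤ N i) {σ : ℝ} (hσ : 0 ≤ σ)
    (h : Summable fun i => ‖a i‖ * N i ^ (-σ)) :
    Continuous fun w : ℝ => ∑' i, a i * Wc (N i / Real.exp w) 0 := by
  refine continuous_iff_continuousAt.2 fun w₀ => ?_
  refine (continuousOn_tsum (s := Set.Iio (w₀ + 1))
    (u := fun i => Real.exp (σ ^ 2 / 4) * Real.exp (w₀ + 1) ^ σ * (‖a i‖ * N i ^ (-σ)))
    (fun i => Continuous.continuousOn ?_) (h.mul_left _) fun i w hw => ?_).continuousAt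
    (Iio_mem_nhds (lt_add_one w₀))
  · have h0 : 0 < N i := one_pos.trans_le (hN i)
    simp only [Wc, Real.log_div h0.ne' (Real.exp_pos _).ne', Real.log_exp]
    fun_prop
  · have h0 : 0 < N i := one_pos.trans_le (hN i)
    refine (ZGen_term_le hN (le_refl σ) (Real.exp_pos w) i).trans ?_
    gcongr
    exact le_of_lt hw

/-- small scales -/
theorem norm_smooth_le (hN : ∀ i, 1 ≤ N i) {σ : ℝ} (h : Summable fun i => ‖a i‖ * N i ^ (-σ))
    {A : ℝ} (hA : σ ≤ A) : ∃ C : ℝ, ∀ y : ℝ, 0 < y →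
      ‖∑' i, a i * Wc (N i / y) 0‖ ≤ C * y ^ A := by
  refine ⟨Real.exp (A ^ 2 / 4) * ∑' i, ‖a i‖ * N i ^ (-σ), fun y hy => ?_⟩
  refine (tsum_of_norm_bounded (h.hasSum.mul_left _) (ZGen_term_le hN hA hy)).trans_eq ?_
  ring

theorem integral_smooth (hN : ∀ i, 1 ≤ N i) {s : ℂ}
    (h : Summable fun i => ‖a i‖ * N i ^ (-s.re)) :
    ∫ w : ℝ, (∑' i, a i * Wc (N i / Real.exp w) 0) * Complex.exp (-s * w) =
      Wm s * ∑' i, a i * (N i : ℂ) ^ (-s) := by
  have h0 : ∀ i, 0 < N i := fun i => one_pos.trans_le (hN i)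
  let k : ℝ → ℂ := fun y => Complex.exp (-1 * (y : ℂ) ^ 2 + s * y + 0)
  have hk : Integrable k := integrable_cexp_quadratic' (by simp) s 0
  have hk' : ∫ y, k y = Wm s := by
    rw [WA.gauss_one, zero_add, Wm]
  have e : ∀ (i : ι) (w : ℝ), a i * Wc (N i / Real.exp w) 0 * Complex.exp (-s * w) =
      a i * (N i : ℂ) ^ (-s) * k (Real.log (N i) - w) := fun i w => by
    rw [Wc, Real.log_div (h0 i).ne' (Real.exp_pos w).ne', Real.log_exp,
      Complex.cpow_def_of_ne_zero (Complex.ofReal_ne_zero.2 (h0 i).ne'),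
      ← Complex.ofReal_log (h0 i).le, mul_assoc, mul_assoc, ← Complex.exp_add, ← Complex.exp_add]
    congr 2
    push_cast
    ring
  simp only [← tsum_mul_right, e]
  rw [← integral_tsum_of_summable_integral_norm, ← tsum_mul_left]
  · refine tsum_congr fun i => ?_
    rw [integral_const_mul, integral_sub_left_eq_self, hk', mul_comm]
  · exact fun i => (hk.comp_sub_left _).const_mul _
  · refine (h.mul_right (∫ y, ‖k y‖)).congr fun i => ?_
    simp only [norm_mul (a i * _)]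
    rw [integral_const_mul, integral_sub_left_eq_self (fun y => ‖k y‖), norm_mul,
      Complex.norm_cpow_eq_rpow_re_of_pos (h0 i), Complex.neg_re]

end Crest.Agent.R312
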