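import Crest.Agent.R312.ZEul
import Crest.Agent.R312.ZGen

/-!
# Row 312 (B): from prime powers to primes of degree one

The pairs `(P, 0)` with `N P` prime give `thW` (an ideal of prime norm is prime); for all the other pairs
over `p` use `Wr (N/y) ≤ C (y/N)^{3/4}`, `log N P ≤ C N P^{1/12}`, so that the sum over `k` is
`≤ C y^{3/4} p^{-4/3}`, and `tsum_primes_le`.
-/

set_option autoImplicit false

noncomputable section

namespace Crest.Agent.R312

open NumberField MeasureTheory Filter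
open scoped Topology ENNReal NNReal

theorem ZJ_summable {y : ℝ} (hy : 0 < y) :
    Summable fun r : ℕ => if r.Prime then Real.log r * Wr (r / y) else 0 := by
  have h0 : Summable fun r : ℕ => (r : ℝ) ^ (-2 : ℝ) := Real.summable_nat_rpow.2 (by norm_num)
  refine Summable.of_nonneg_of_le (fun r => ?_) (fun r => ?_)
    (h0.mul_left (Real.exp (3 ^ 2 / 4) * y ^ (3 : ℝ)))
  · split_ifs
    · exact mul_nonneg (Real.log_natCast_nonneg r) (Wr_pos _).le
    · exact le_rfl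
  · split_ifs with hr
    · have hr0 : (0 : ℝ) < r := Nat.cast_pos.2 hr.pos
      have h1 : Real.log r ≤ r := (Real.log_le_sub_one_of_pos hr0).trans (by linarith)
      refine (mul_le_mul h1 (Wr_le_rpow 3 (div_pos hr0 hy)) (Wr_pos _).le hr0.le).trans_eq ?_
      have h2 : (r : ℝ) ^ (-2 : ℝ) = r * (r : ℝ) ^ (-3 : ℝ) := by
        rw [show (-2 : ℝ) = 1 + -3 by norm_num, Real.rpow_add hr0, Real.rpow_one]
      rw [Real.div_rpow hr0.le hy.le, Real.rpow_neg hy.le, h2, div_inv_eq_mul]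
      ring
    · positivity

theorem summable_thW (F : Type) [Field F] [NumberField F] {y : ℝ} (hy : 0 < y) :
    Summable fun r : ℕ =>
      if r.Prime then (deg1 F r : ℝ) * (Real.log r * Wr (r / y)) else 0 := by
  refine Summable.of_nonneg_of_le (fun r => ?_) (fun r => ?_)
    ((ZJ_summable hy).mul_left (Module.finrank ℚ F : ℝ))
  · split_ifs
    · exact mul_nonneg (Nat.cast_nonneg _) (mul_nonneg (Real.log_natCast_nonneg r) (Wr_pos _).le)
    · exact le_rfl
  · split_ifs with hr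
    · exact mul_le_mul_of_nonneg_right (Nat.cast_le.2 (deg1_le hr))
        (mul_nonneg (Real.log_natCast_nonneg r) (Wr_pos _).le)
    · rw [mul_zero]

/-- The primes of prime norm give `thW`. -/
theorem ZJ_good (F : Type) [Field F] [NumberField F] {y : ℝ} (hy : 0 < y) :
    HasSum (fun q : PP F => if q.2 = 0 ∧ (Ideal.absNorm q.1.asIdeal).Prime then
      q.lam * Wr (q.nm / y) else 0) (thW F y) := by
  classical
  set h : ℕ → ℝ := fun r => if r.Prime then Real.log r * Wr (r / y) else 0 with hh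
  have hh0 : ∀ r, 0 ≤ h r := fun r => by
    simp only [hh]
    split_ifs
    · exact mul_nonneg (Real.log_natCast_nonneg r) (Wr_pos _).le
    · exact le_rfl
  have h1 : Summable fun P : IsDedekindDomain.HeightOneSpectrum (𝓞 F) =>
      h (Ideal.absNorm P.asIdeal) := by
    refine (tsum_primes_le (fun P => hh0 _) hh0 (ZJ_summable hy) fun P p hp hd => ?_).1
    by_cases hP : (Ideal.absNorm P.asIdeal).Prime
    · rw [(Nat.prime_dvd_prime_iff_eq hp hP).1 hd]
    · simp only [hh, if_neg hP]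
      exact hh0 p
  have hinj : Function.Injective
      fun P : IsDedekindDomain.HeightOneSpectrum (𝓞 F) => P.asIdeal :=
    fun _ _ e => IsDedekindDomain.HeightOneSpectrum.ext e
  have hsupp : ∀ I : Ideal (𝓞 F), I ∉ Set.range
      (fun P : IsDedekindDomain.HeightOneSpectrum (𝓞 F) => P.asIdeal) →
      h (Ideal.absNorm I) = 0 := by
    intro I hI
    simp only [hh]
    refine if_neg fun hp => hI ⟨⟨I, Ideal.isPrime_of_irreducible_absNorm hp, ?_⟩, rfl⟩
    rintro rfl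
    rw [Ideal.absNorm_bot] at hp
    exact Nat.not_prime_zero hp
  have h2 : HasSum (fun I : Ideal (𝓞 F) => h (Ideal.absNorm I))
      (∑' P : IsDedekindDomain.HeightOneSpectrum (𝓞 F), h (Ideal.absNorm P.asIdeal)) :=
    (hinj.hasSum_iff hsupp).1 h1.hasSum
  have h3 : ∑' P : IsDedekindDomain.HeightOneSpectrum (𝓞 F), h (Ideal.absNorm P.asIdeal) =
      thW F y := by
    rw [← (h2.tsum_fiberwise fun I => Ideal.absNorm I).tsum_eq, thW]
    refine tsum_congr fun r => ?_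
    have h4 : ∀ I : (fun I : Ideal (𝓞 F) => Ideal.absNorm I) ⁻¹' {r},
        h (Ideal.absNorm (I : Ideal (𝓞 F))) = h r := fun I => congrArg h I.2
    rw [tsum_congr h4, tsum_const, nsmul_eq_mul]
    change (deg1 F r : ℝ) * h r = _
    simp only [hh]
    split_ifs
    · rfl
    · rw [mul_zero]
  have hinj2 : Function.Injective
      fun P : IsDedekindDomain.HeightOneSpectrum (𝓞 F) => ((P, 0) : PP F) :=
    fun _ _ e => congrArg Prod.fst e
  rw [← h3]
  refine (hinj2.hasSum_iff fun q hq => ?_).1 ?_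
  · exact if_neg fun h5 => hq ⟨q.1, Prod.ext rfl h5.1.symm⟩
  · convert h1.hasSum using 2 with P
    simp only [Function.comp_apply, hh, true_and, PP.lam, PP.nm, zero_add, pow_one]

/-- The bound for the other prime powers. -/
theorem ZJ_bad {F : Type} [Field F] [NumberField F] {y : ℝ} (hy : 0 < y) (q : PP F) {p : ℕ}
    (hp : p.Prime) (hd : p ∣ Ideal.absNorm q.1.asIdeal)
    (hq : ¬ (q.2 = 0 ∧ (Ideal.absNorm q.1.asIdeal).Prime)) :
    q.lam * Wr (q.nm / y) ≤ 24 * Real.exp ((3 / 4) ^ 2 / 4) * y ^ (3 / 4 : ℝ) *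
      (p : ℝ) ^ (-(4 / 3) : ℝ) * ((2 : ℝ) ^ (-(1 / 24) : ℝ)) ^ q.2 := by
  obtain ⟨P, k⟩ := q
  obtain ⟨p', f, hp', hf, hN⟩ := exists_under P
  simp only at hd hq
  have hpp : p = p' := (Nat.prime_dvd_prime_iff_eq hp hp').1 (hp.dvd_of_dvd_pow (hN ▸ hd))
  subst hpp
  set N := Ideal.absNorm P.asIdeal with hNdef
  have hpN : p ≤ N := by
    rw [hN]
    exact Nat.le_self_pow (by omega) p
  have h2 : p ^ 2 ≤ N ^ (k + 1) := by
    rcases Nat.eq_zero_or_pos k with rfl | hk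
    · have hf1 : f ≠ 1 := fun h => hq ⟨rfl, by rw [hN, h, pow_one]; exact hp⟩
      rw [zero_add, pow_one, hN]
      exact Nat.pow_le_pow_right hp.pos (by omega)
    · exact (Nat.pow_le_pow_left hpN 2).trans
        (Nat.pow_le_pow_right (hp.pos.trans_le hpN) (by omega))
  have h3 : 2 ^ k ≤ N ^ (k + 1) :=
    (Nat.pow_le_pow_left (hp.two_le.trans hpN) k).trans
      (Nat.pow_le_pow_right (hp.pos.trans_le hpN) (by omega))
  have hN1 : (1 : ℝ) ≤ N := by exact_mod_cast hp.one_le.trans hpN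
  set x : ℝ := (N : ℝ) ^ (k + 1) with hx
  have hx1 : 1 ≤ x := one_le_pow₀ hN1
  have hx0 : 0 < x := one_pos.trans_le hx1
  have hp0 : (0 : ℝ) < p := Nat.cast_pos.2 hp.pos
  have h4 : Real.log N ≤ 24 * x ^ (1 / 24 : ℝ) := by
    have h5 : Real.log N ≤ Real.log x :=
      Real.log_le_log (by linarith) (le_self_pow₀ hN1 (by omega))
    have h6 := Real.log_le_rpow_div hx0.le (show (0 : ℝ) < 1 / 24 by norm_num)
    linarith
  have h5 : x ^ (-(2 / 3) : ℝ) ≤ (p : ℝ) ^ (-(4 / 3) : ℝ) := by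
    have h6 : (p : ℝ) ^ 2 ≤ x := by rw [hx]; exact_mod_cast h2
    refine (Real.rpow_le_rpow_of_nonpos (by positivity) h6 (by norm_num)).trans_eq ?_
    rw [← Real.rpow_natCast, ← Real.rpow_mul hp0.le]
    norm_num
  have h6 : x ^ (-(1 / 24) : ℝ) ≤ ((2 : ℝ) ^ (-(1 / 24) : ℝ)) ^ k := by
    have h7 : (2 : ℝ) ^ k ≤ x := by rw [hx]; exact_mod_cast h3
    refine (Real.rpow_le_rpow_of_nonpos (by positivity) h7 (by norm_num)).trans_eq ?_
    rw [← Real.rpow_natCast, ← Real.rpow_natCast, ← Real.rpow_mul zero_le_two,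
      ← Real.rpow_mul zero_le_two, mul_comm]
  have h7 : x ^ (1 / 24 : ℝ) * x ^ (-(3 / 4) : ℝ) =
      x ^ (-(2 / 3) : ℝ) * x ^ (-(1 / 24) : ℝ) := by
    rw [← Real.rpow_add hx0, ← Real.rpow_add hx0]
    norm_num
  change Real.log N * Wr (x / y) ≤ _
  calc Real.log N * Wr (x / y) ≤ 24 * x ^ (1 / 24 : ℝ) *
        (Real.exp ((3 / 4) ^ 2 / 4) * (x / y) ^ (-(3 / 4) : ℝ)) :=
        mul_le_mul h4 (Wr_le_rpow (3 / 4) (div_pos hx0 hy)) (Wr_pos _).le (by positivity)
    _ = 24 * Real.exp ((3 / 4) ^ 2 / 4) * y ^ (3 / 4 : ℝ) *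
        (x ^ (-(2 / 3) : ℝ) * x ^ (-(1 / 24) : ℝ)) := by
        rw [← h7, Real.div_rpow hx0.le hy.le, Real.rpow_neg hy.le, div_inv_eq_mul]
        ring
    _ ≤ 24 * Real.exp ((3 / 4) ^ 2 / 4) * y ^ (3 / 4 : ℝ) *
        ((p : ℝ) ^ (-(4 / 3) : ℝ) * ((2 : ℝ) ^ (-(1 / 24) : ℝ)) ^ k) :=
        mul_le_mul_of_nonneg_left (mul_le_mul h5 h6 (by positivity) (by positivity))
          (by positivity)
    _ = _ := by ring

theorem psiW_sub_thW : ∃ C : ℝ, 0 < C ∧ ∀ (F : Type) [Field F] [NumberField F] (y : ℝ), 1 ≤ y →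
    |psiW F y - thW F y| ≤ C * Module.finrank ℚ F * y ^ (3 / 4 : ℝ) := by
  classical
  set ρ : ℝ := (2 : ℝ) ^ (-(1 / 24) : ℝ) with hρ
  have hρ0 : 0 ≤ ρ := by positivity
  have hρ1 : ρ < 1 := Real.rpow_lt_one_of_one_lt_of_neg one_lt_two (by norm_num)
  have hs : Summable fun p : ℕ => (p : ℝ) ^ (-(4 / 3) : ℝ) :=
    Real.summable_nat_rpow.2 (by norm_num)
  have hT : 0 ≤ ∑' p : ℕ, (p : ℝ) ^ (-(4 / 3) : ℝ) := tsum_nonneg fun p => by positivity
  have hρ2 : 0 < (1 - ρ)⁻¹ := inv_pos.2 (by linarith)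
  set K : ℝ := 24 * Real.exp ((3 / 4) ^ 2 / 4) with hK
  have hK0 : 0 < K := by positivity
  refine ⟨K * (1 - ρ)⁻¹ * (∑' p : ℕ, (p : ℝ) ^ (-(4 / 3) : ℝ)) + 1, by positivity,
    fun F _ _ y hy => ?_⟩
  have hy0 : 0 < y := one_pos.trans_le hy
  set b : PP F → ℝ := fun q => if q.2 = 0 ∧ (Ideal.absNorm q.1.asIdeal).Prime then 0 else
    q.lam * Wr (q.nm / y) with hb
  have hb0 : ∀ q, 0 ≤ b q := fun q => by
    simp only [hb]
    split_ifs
    · exact le_rfl
    · exact mul_nonneg q.lam_nonneg (Wr_pos _).le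
  have hb1 : ∀ (P : IsDedekindDomain.HeightOneSpectrum (𝓞 F)) (p : ℕ), p.Prime →
      p ∣ Ideal.absNorm P.asIdeal → ∀ k : ℕ,
      b (P, k) ≤ K * y ^ (3 / 4 : ℝ) * (p : ℝ) ^ (-(4 / 3) : ℝ) * ρ ^ k := by
    intro P p hp hd k
    simp only [hb]
    split_ifs with h
    · positivity
    · exact ZJ_bad hy0 (P, k) hp hd h
  have hg := hasSum_geometric_of_lt_one hρ0 hρ1
  have hb2 : ∀ P : IsDedekindDomain.HeightOneSpectrum (𝓞 F), Summable fun k : ℕ => b (P, k) := by
    intro P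
    obtain ⟨p, f, hp, hf, hN⟩ := exists_under P
    exact Summable.of_nonneg_of_le (fun k => hb0 _)
      (hb1 P p hp (hN ▸ dvd_pow_self p (by omega))) (hg.summable.mul_left _)
  obtain ⟨h1, h2⟩ := tsum_primes_le (F := F) (g := fun P => ∑' k : ℕ, b (P, k))
    (h := fun p => K * y ^ (3 / 4 : ℝ) * (1 - ρ)⁻¹ * (p : ℝ) ^ (-(4 / 3) : ℝ))
    (fun P => tsum_nonneg fun k => hb0 _) (fun p => by positivity) (hs.mul_left _)
    fun P p hp hd => by
      refine ((hb2 P).tsum_le_tsum (hb1 P p hp hd) (hg.summable.mul_left _)).trans_eq ?_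
      rw [(hg.mul_left _).tsum_eq]
      ring
  have h3 : Summable b := (summable_prod_of_nonneg hb0).2 ⟨hb2, h1⟩
  have h4 : psiW F y = thW F y + ∑' q, b q := by
    rw [psiW, ← ((ZJ_good F hy0).add h3.hasSum).tsum_eq]
    refine tsum_congr fun q => ?_
    simp only [hb]
    split_ifs
    · rw [add_zero]
    · rw [zero_add]
  rw [h4, add_sub_cancel_left, abs_of_nonneg (tsum_nonneg hb0), h3.tsum_prod' hb2]
  refine h2.trans ?_
  rw [tsum_mul_left]
  have h5 : (0 : ℝ) ≤ Module.finrank ℚ F * y ^ (3 / 4 : ℝ) := by positivity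
  nlinarith [h5]

end Crest.Agent.R312
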