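import Crest.Agent.R312.ZEul

/-!
# Row 312 (B): the logarithmic derivative of the zeta function

Differentiate termwise (`hasDerivAt_tsum_of_isPreconnected` on a half plane, or
`Complex.hasSum_deriv_of_summable_norm`), regroup `Lam · ζ` along the fibres of
`((P,k), J) ↦ P^{k+1} J` and use `∑_{(P,k) : P^{k+1} ∣ I} log N P = log N I` (induction on the
factorisation of `I ≠ ⊥`).
-/

set_option autoImplicit false

noncomputable section

namespace Crest.Agent.R312

open NumberField MeasureTheory Filter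
open scoped Topology ENNReal NNReal

variable {F : Type} [Field F] [NumberField F]

open IsDedekindDomain

open Classical in
/-- `∑_{P^{k+1} ∣ I} log N P = log N I`. -/
theorem zLam_hasSum_log (I : Ideal (𝓞 F)) (hI : I ≠ 0) :
    HasSum (fun q : PP F => if q.1.asIdeal ^ (q.2 + 1) ∣ I then q.lam else 0)
      (Real.log (Ideal.absNorm I : ℝ)) := by
  induction I using UniqueFactorizationMonoid.induction_on_prime with
  | h₁ => exact absurd rfl hI
  | h₂ x hx =>
    have h1 : ∀ q : PP F, ¬ q.1.asIdeal ^ (q.2 + 1) ∣ x := fun q h =>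
      q.1.prime.not_isUnit (isUnit_of_dvd_unit ((dvd_pow_self _ (Nat.succ_ne_zero _)).trans h) hx)
    rw [Ideal.isUnit_iff.1 hx] at h1 ⊢
    simp only [h1, if_false, Ideal.absNorm_top, Nat.cast_one, Real.log_one]
    exact hasSum_zero
  | h₃ a p ha hp ih =>
    have hfin : FiniteMultiplicity p a := FiniteMultiplicity.of_prime_left hp ha
    have hN : ∀ J : Ideal (𝓞 F), J ≠ 0 → (Ideal.absNorm J : ℝ) ≠ 0 := fun J hJ =>
      Nat.cast_ne_zero.2 fun h => hJ (Ideal.absNorm_eq_zero_iff.1 h)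
    rw [map_mul, Nat.cast_mul, Real.log_mul (hN p hp.ne_zero) (hN a ha)]
    have h1 := (hasSum_ite_eq ((HeightOneSpectrum.ofPrime hp, multiplicity p a) : PP F)
      (Real.log (Ideal.absNorm p : ℝ))).add (ih ha)
    convert h1 using 2 with q
    obtain ⟨P, k⟩ := q
    by_cases hP : P = HeightOneSpectrum.ofPrime hp
    · subst hP
      have h2 : p ^ (k + 1) ∣ p * a ↔ k ≤ multiplicity p a := by
        rw [pow_succ', mul_dvd_mul_iff_left hp.ne_zero, hfin.pow_dvd_iff_le_multiplicity]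
      have h3 : p ^ (k + 1) ∣ a ↔ k + 1 ≤ multiplicity p a := hfin.pow_dvd_iff_le_multiplicity
      change (if p ^ (k + 1) ∣ p * a then Real.log (Ideal.absNorm p : ℝ) else 0) = _ +
        if p ^ (k + 1) ∣ a then Real.log (Ideal.absNorm p : ℝ) else 0
      simp only [h2, h3, Prod.mk.injEq, true_and]
      split_ifs <;> first | omega | simp
    · have h2 : ¬ P.asIdeal ∣ p := fun h => hP (HeightOneSpectrum.ext
        ((HeightOneSpectrum.ofPrime hp).isMaximal.eq_of_le P.isPrime.ne_top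
          (Ideal.le_of_dvd h)).symm)
      have h3 : P.asIdeal ^ (k + 1) ∣ p * a ↔ P.asIdeal ^ (k + 1) ∣ a :=
        ⟨P.prime.pow_dvd_of_dvd_mul_left _ h2, fun h => h.mul_left p⟩
      simp only [h3, Prod.mk.injEq, hP, false_and, if_false, zero_add]

theorem zLam_fiber (I : Ideal (𝓞 F)) (hI : I ≠ 0) :
    HasSum (fun x : (fun x : PP F × Ideal (𝓞 F) => x.1.1.asIdeal ^ (x.1.2 + 1) * x.2) ⁻¹' {I} =>
      x.1.1.lam) (Real.log (Ideal.absNorm I : ℝ)) := by
  classical
  have hinj : Function.Injective fun x : (fun x : PP F × Ideal (𝓞 F) =>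
      x.1.1.asIdeal ^ (x.1.2 + 1) * x.2) ⁻¹' {I} => x.1.1 := by
    rintro ⟨⟨q, J⟩, h⟩ ⟨⟨q', J'⟩, h'⟩ hq
    obtain rfl : q = q' := hq
    have h1 : q.1.asIdeal ^ (q.2 + 1) * J = q.1.asIdeal ^ (q.2 + 1) * J' := Eq.trans h h'.symm
    obtain rfl : J = J' := mul_left_cancel₀ (pow_ne_zero _ q.1.prime.ne_zero) h1
    rfl
  have h1 := (hinj.hasSum_iff (f := fun q : PP F =>
    if q.1.asIdeal ^ (q.2 + 1) ∣ I then q.lam else 0) ?_).2 (zLam_hasSum_log I hI)
  · convert h1 using 2 with x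
    exact (if_pos ⟨x.1.2, Eq.symm x.2⟩).symm
  · intro q hq
    refine if_neg ?_
    rintro ⟨J, hJ⟩
    exact hq ⟨⟨(q, J), hJ.symm⟩, rfl⟩

theorem zLam_prod {α β γ : Type} {a : α → ℂ} {b : β → ℂ} (ha : Summable fun i => ‖a i‖)
    (hb : Summable fun j => ‖b j‖) (m : α × β → γ) :
    HasSum (fun c => ∑' x : m ⁻¹' {c}, a x.1.1 * b x.1.2) ((∑' i, a i) * ∑' j, b j) := by
  have hab : Summable fun x : α × β => a x.1 * b x.2 := by
    apply summable_mul_of_summable_norm ha hb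
  exact (ha.of_norm.hasSum.mul hb.of_norm.hasSum hab).tsum_fiberwise m

theorem zLam_hasSum_mul {s : ℂ} (hs : 1 < s.re) :
    HasSum (fun I : Ideal (𝓞 F) =>
      (Real.log (Ideal.absNorm I : ℝ) : ℂ) * (Ideal.absNorm I : ℂ) ^ (-s))
      (Lam F s * Dz F (fun _ => 1) s) := by
  have hs0 : -s ≠ 0 := by
    rw [neg_ne_zero]
    rintro rfl
    norm_num at hs
  have ha : Summable fun q : PP F => ‖(q.lam : ℂ) * (q.nm : ℂ) ^ (-s)‖ := by
    refine (summable_lam (F := F) hs).congr fun q => ?_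
    rw [norm_mul, Complex.norm_real, Real.norm_of_nonneg q.lam_nonneg,
      Complex.norm_cpow_eq_rpow_re_of_pos (by linarith [q.two_le_nm]), Complex.neg_re]
  have hb := summable_norm_Dz (F := F) (g := fun _ => 1) (fun _ => by simp) hs
  have h1 := zLam_prod ha hb fun x => x.1.1.asIdeal ^ (x.1.2 + 1) * x.2
  refine HasSum.congr_fun h1 fun I => ?_
  have h2 : ∀ x : (fun x : PP F × Ideal (𝓞 F) => x.1.1.asIdeal ^ (x.1.2 + 1) * x.2) ⁻¹' {I},
      (x.1.1.lam : ℂ) * (x.1.1.nm : ℂ) ^ (-s) * (1 * (Ideal.absNorm x.1.2 : ℂ) ^ (-s)) =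
        (x.1.1.lam : ℂ) * (Ideal.absNorm I : ℂ) ^ (-s) := by
    rintro ⟨⟨q, J⟩, h⟩
    obtain rfl : q.1.asIdeal ^ (q.2 + 1) * J = I := h
    have h3 : (q.nm : ℂ) = (Ideal.absNorm (q.1.asIdeal ^ (q.2 + 1)) : ℕ) := by
      simp [PP.nm]
    rw [map_mul, Nat.cast_mul, Complex.natCast_mul_natCast_cpow, h3, one_mul, mul_assoc]
  rw [tsum_congr h2, tsum_mul_right]
  by_cases hI : I = 0
  · rw [hI, map_zero, Nat.cast_zero (R := ℂ), Complex.zero_cpow hs0, mul_zero, mul_zero]
  · rw [← Complex.ofReal_tsum, (zLam_fiber I hI).tsum_eq]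

theorem zLam_hasDerivAt (n : ℕ) {s : ℂ} (hs : 0 < s.re) :
    HasDerivAt (fun w : ℂ => 1 * (n : ℂ) ^ (-w)) (-((Real.log n : ℂ) * (n : ℂ) ^ (-s))) s := by
  rcases eq_or_ne n 0 with rfl | hn
  · have h0 : ∀ w : ℂ, 0 < w.re → ((0 : ℕ) : ℂ) ^ (-w) = 0 := fun w hw => by
      rw [Nat.cast_zero, Complex.zero_cpow]
      rw [neg_ne_zero]
      rintro rfl
      simp at hw
    rw [h0 s hs, mul_zero, neg_zero]
    refine (hasDerivAt_const s (0 : ℂ)).congr_of_eventuallyEq ?_
    filter_upwards [(isOpen_lt continuous_const Complex.continuous_re).mem_nhds hs] with w hw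
    rw [h0 w hw, mul_zero]
  · have h1 := ((hasDerivAt_neg s).const_cpow (c := (n : ℂ))
      (Or.inl (Nat.cast_ne_zero.2 hn))).const_mul 1
    refine h1.congr_deriv ?_
    rw [Complex.natCast_log]
    ring

theorem hasDerivAt_zeta {s : ℂ} (hs : 1 < s.re) :
    HasDerivAt (Dz F fun _ => 1) (-(Lam F s * Dz F (fun _ => 1) s)) s := by
  have hσ : 1 < (1 + s.re) / 2 := by linarith
  have hU : IsOpen {w : ℂ | (1 + s.re) / 2 < w.re} :=
    isOpen_lt continuous_const Complex.continuous_re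
  have hsU : s ∈ {w : ℂ | (1 + s.re) / 2 < w.re} := by
    change (1 + s.re) / 2 < s.re
    linarith
  have hu := summable_absNorm_rpow (F := F) hσ
  have hd : ∀ I : Ideal (𝓞 F), DifferentiableOn ℂ (fun w : ℂ => 1 * (Ideal.absNorm I : ℂ) ^ (-w))
      {w : ℂ | (1 + s.re) / 2 < w.re} := fun I w hw =>
    (zLam_hasDerivAt _ (by linarith [hw.out])).differentiableAt.differentiableWithinAt
  have hle : ∀ (I : Ideal (𝓞 F)) (w : ℂ), w ∈ {w : ℂ | (1 + s.re) / 2 < w.re} →
      ‖1 * (Ideal.absNorm I : ℂ) ^ (-w)‖ ≤ (Ideal.absNorm I : ℝ) ^ (-((1 + s.re) / 2)) := by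
    intro I w hw
    rw [one_mul, Complex.norm_natCast_cpow_of_re_ne_zero _
      (by rw [Complex.neg_re]; linarith [hw.out]), Complex.neg_re]
    rcases Nat.eq_zero_or_pos (Ideal.absNorm I) with h | h
    · rw [h, Nat.cast_zero, Real.zero_rpow (by linarith [hw.out]), Real.zero_rpow (by linarith)]
    · exact Real.rpow_le_rpow_of_exponent_le (by exact_mod_cast h) (by linarith [hw.out])
  have h1 := (Complex.differentiableOn_tsum_of_summable_norm hu hd hU hle).differentiableAt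
    (hU.mem_nhds hsU)
  have h2 := Complex.hasSum_deriv_of_summable_norm hu hd hU hle hsU
  simp only [(zLam_hasDerivAt _ (zero_lt_one.trans hs)).deriv] at h2
  rw [← h2.unique (zLam_hasSum_mul hs).neg]
  exact h1.hasDerivAt

end Crest.Agent.R312
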