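import Crest.Agent.R312.ZDefs
import Crest.Agent.R8.VLandau

/-!
# Row 312 (B): the logarithmic derivative in the zero-free region

Borel-Carathéodory (`Complex.borelCaratheodory_zero`) for the logarithm (`exists_log` in
`R8/VLandau.lean`, compare `disc` there) on the disc of centre `2 + i t` and radius `13/12`, Cauchy's
estimate on discs of radius `1/96`.
-/

set_option autoImplicit false

noncomputable section

namespace Crest.Agent.R312

open NumberField MeasureTheory Filter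
open scoped Topology ENNReal NNReal

open Metric in
/-- The zero-free disc of radius `13/12`. -/
theorem zlog_disc {f : ℂ → ℂ} {c : ℂ} {M : ℝ} (hM : 0 < M)
    (hf : DifferentiableOn ℂ f (ball c (13 / 12))) (h0 : ∀ z ∈ ball c (13 / 12), f z ≠ 0)
    (hB : ∀ z ∈ ball c (13 / 12), ‖f z‖ ≤ Real.exp M * ‖f c‖) {s : ℂ} (hs : ‖s - c‖ ≤ 25 / 24) :
    ‖deriv f s / f s‖ ≤ 4896 * M := by
  have hR : (0 : ℝ) < 13 / 12 := by norm_num
  obtain ⟨g, hg, hg0, hfg⟩ := R8.VLandau.exists_log hR hf h0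
  have hgd : DifferentiableOn ℂ g (ball c (13 / 12)) := fun z hz =>
    (hg z hz).differentiableAt.differentiableWithinAt
  have hc : 0 < ‖f c‖ := norm_pos_iff.2 (h0 c (mem_ball_self hR))
  have hmem : ∀ w ∈ ball (0 : ℂ) (13 / 12), c + w ∈ ball c (13 / 12) := fun w hw => by
    simpa [mem_ball, dist_eq_norm] using hw
  have hre : ∀ w ∈ ball c (13 / 12), (g w).re ≤ M := fun w hw => by
    have h1 := hB w hw
    rw [hfg w hw, norm_mul, Complex.norm_exp, mul_comm] at h1
    exact Real.exp_le_exp.1 (le_of_mul_le_mul_right h1 hc)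
  have hb : ∀ z, ‖z - c‖ ≤ 51 / 48 → ‖g z‖ ≤ 102 * M := fun z hz => by
    have hzc : z - c ∈ ball (0 : ℂ) (13 / 12) := mem_ball_zero_iff.2 (by linarith)
    have h := Complex.borelCaratheodory_zero (f := fun w => g (c + w)) hM
      (hgd.comp (by fun_prop) hmem) (fun w hw => hre _ (hmem w hw)) hR hzc (by simpa using hg0)
    simp only [add_sub_cancel] at h
    refine h.trans ?_
    rw [div_le_iff₀ (by linarith)]
    nlinarith
  have hsb : s ∈ ball c (13 / 12) := mem_ball_iff_norm.2 (by linarith)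
  have htri : ∀ x, ‖x - s‖ ≤ 1 / 48 → ‖x - c‖ ≤ 51 / 48 := fun x hx => by
    have := norm_sub_le_norm_sub_add_norm_sub x s c
    linarith
  have hsub : closedBall s (1 / 48) ⊆ ball c (13 / 12) := fun x hx =>
    mem_ball_iff_norm.2 (by linarith [htri x (mem_closedBall_iff_norm.1 hx)])
  have h2 := Complex.norm_deriv_le_of_forall_mem_sphere_norm_le (c := s) (R := 1 / 48)
    (C := 102 * M) (by positivity) (hgd.diffContOnCl_ball hsub) fun x hx =>
      hb x (htri x (mem_sphere_iff_norm.1 hx).le)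
  rw [(hg s hsb).deriv] at h2
  exact h2.trans_eq (by ring)

theorem logderiv_le : ∃ C : ℝ, 0 < C ∧ ∀ (Z : ℂ → ℂ) (A : ℝ), 1 ≤ A → DifferentiableOn ℂ Z Str →
    (∀ s : ℂ, 11 / 12 < s.re → s.re < 4 → Z s ≠ 0) →
    (∀ s : ℂ, 1 / 2 ≤ s.re → s.re < 4 → ‖Z s‖ ≤ Real.exp (A * (1 + |s.im|))) →
    (∀ s : ℂ, s.re = 2 → Real.exp (-A) ≤ ‖Z s‖) →
    ∀ s : ℂ, 23 / 24 ≤ s.re → s.re ≤ 2 → ‖deriv Z s / Z s‖ ≤ C * A * (1 + |s.im|) := by
  refine ⟨4896 * 4, by norm_num, fun Z A hA hZ h0 hB h2 s hs hs' => ?_⟩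
  set c : ℂ := ⟨2, s.im⟩ with hc
  have hm : ∀ z ∈ Metric.ball c (13 / 12), 11 / 12 < z.re ∧ z.re < 4 ∧ |z.im| ≤ |s.im| + 2 := by
    intro z hz
    have h := mem_ball_iff_norm.1 hz
    have h1 := abs_lt.1 ((Complex.abs_re_le_norm _).trans_lt h)
    have h3 := (Complex.abs_im_le_norm _).trans_lt h
    simp only [Complex.sub_re, Complex.sub_im, hc] at h1 h3
    refine ⟨by linarith [h1.1], by linarith [h1.2], ?_⟩
    linarith [abs_sub_abs_le_abs_sub z.im s.im]
  have ht := abs_nonneg s.im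
  have hsc : ‖s - c‖ ≤ 25 / 24 := by
    have e : s - c = ((s.re - 2 : ℝ) : ℂ) := Complex.ext (by simp [hc]) (by simp [hc])
    rw [e, Complex.norm_real, Real.norm_eq_abs, abs_le]
    constructor <;> linarith
  refine (zlog_disc (M := 4 * A * (1 + |s.im|)) (by positivity)
    (hZ.mono fun z hz => ⟨by linarith [(hm z hz).1], (hm z hz).2.1⟩)
    (fun z hz => h0 z (hm z hz).1 (hm z hz).2.1) (fun z hz => ?_) hsc).trans_eq (by ring)
  obtain ⟨a1, a2, a3⟩ := hm z hz
  refine (hB z (by linarith) a2).trans (le_trans ?_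
    (mul_le_mul_of_nonneg_left (h2 c rfl) (Real.exp_pos _).le))
  rw [← Real.exp_add]
  refine Real.exp_le_exp.2 ?_
  nlinarith

end Crest.Agent.R312
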