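import Crest.Agent.R312.ZClass
import Crest.Agent.R312.ZConv
import Crest.Agent.R312.ZLam
import Crest.Agent.R312.ZLog
import Crest.Agent.R312.ZJunk

/-!
# Row 312 (B): the smooth prime ideal theorem

On `Re s = 2`: `Lam s = G s / (s - 1)` with `G s = 1 - (s - 1) Z'(s)/Z(s)` (`hasDerivAt_zeta`).
`smooth_eq_integral` (σ = 2), `R17.Wm_shift_pole` (ρ = 1, σ₀ = 23/24), `R17.norm_integral_Wm_le`.
-/

set_option autoImplicit false

noncomputable section

namespace Crest.Agent.R312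

open NumberField MeasureTheory Filter
open scoped Topology ENNReal NNReal

theorem zpit_finrank_le (F : Type) [Field F] [NumberField F] :
    (Module.finrank ℚ F : ℝ) ≤ cnd F := by
  have : (1 : ℝ) ≤ |(discr F : ℝ)| := by exact_mod_cast Int.one_le_abs (discr_ne_zero F)
  exact le_add_of_nonneg_right (Real.log_nonneg this)

theorem zpit_isOpen : IsOpen Str :=
  (isOpen_lt continuous_const Complex.continuous_re).inter
    (isOpen_lt Complex.continuous_re continuous_const)

theorem zpit_lam {F : Type} [Field F] [NumberField F] {Z : ℂ → ℂ} (hZ : IsZ F (fun _ => 1) Z)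
    {s : ℂ} (hs : s.re = 2) : Lam F s = (1 - (s - 1) * (deriv Z s / Z s)) / (s - 1) := by
  have h1 : 1 < s.re := by rw [hs]; norm_num
  have h4 : s.re < 4 := by rw [hs]; norm_num
  have hs1 : s - 1 ≠ 0 := by
    intro h
    have := congrArg Complex.re h
    simp [hs] at this
    norm_num at this
  have hz := zeta_ne_zero (F := F) h1
  have hev : Z =ᶠ[𝓝 s] fun w => (w - 1) * Dz F (fun _ => 1) w := by
    have ho : IsOpen {w : ℂ | 1 < w.re ∧ w.re < 4} :=
      (isOpen_lt continuous_const Complex.continuous_re).inter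
        (isOpen_lt Complex.continuous_re continuous_const)
    filter_upwards [ho.mem_nhds ⟨h1, h4⟩] with w hw using hZ.2 w hw.1 hw.2
  have hd := (((hasDerivAt_id s).sub_const 1).mul (hasDerivAt_zeta (F := F) h1)).deriv
  have hd' : deriv Z s = 1 * Dz F (fun _ => 1) s +
      (s - 1) * -(Lam F s * Dz F (fun _ => 1) s) := by
    rw [hev.deriv_eq]
    exact hd
  rw [hd', hZ.2 s h1 h4]
  field_simp
  ring

theorem zpit_psi_eq {F : Type} [Field F] [NumberField F] {y : ℝ} (hy : 0 < y) :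
    (psiW F y : ℂ) = (1 / (2 * Real.pi) : ℂ) * ∫ u : ℝ,
      R17.Wm ((2 : ℝ) + u * Complex.I + 0) * (y : ℂ) ^ (((2 : ℝ) : ℂ) + u * Complex.I) *
        Lam F (((2 : ℝ) : ℂ) + u * Complex.I) := by
  have : Countable (IsDedekindDomain.HeightOneSpectrum (𝓞 F)) :=
    Function.Injective.countable (f := fun P => P.asIdeal)
      fun _ _ h => IsDedekindDomain.HeightOneSpectrum.ext h
  have h := smooth_eq_integral (ι := PP F) (a := fun q => (q.lam : ℂ)) (N := fun q => q.nm)
    (fun q => by linarith [q.two_le_nm]) (σ := 2) (by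
      refine (summable_lam (F := F) (σ := 2) (by norm_num)).congr fun q => ?_
      rw [Complex.norm_real, Real.norm_of_nonneg q.lam_nonneg]) hy
  unfold Lam
  rw [← h, psiW, Complex.ofReal_tsum]
  refine tsum_congr fun q => ?_
  rw [Wc_zero, Complex.ofReal_mul]

theorem pit_psi : ∃ C : ℝ, 0 < C ∧ ∀ (F : Type) [Field F] [NumberField F] [IsTotallyComplex F],
    ZF F → ∀ y : ℝ, 1 ≤ y →
      |psiW F y - Real.sqrt Real.pi * Real.exp (1 / 4) * y| ≤ C * cnd F * y ^ (23 / 24 : ℝ) := by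
  obtain ⟨C₁, hC₁, hZ⟩ := exists_Z
  obtain ⟨C₂, hC₂, hL⟩ := logderiv_le
  obtain ⟨A₀, hA₀, hI⟩ := R17.norm_integral_Wm_le 1 2
  refine ⟨A₀ * (24 * (1 + C₂ * (C₁ + 2))), by positivity, fun F _ _ _ hF y hy => ?_⟩
  obtain ⟨Z, hZ1, -, hZ3⟩ := hZ F
  have hc1 := one_le_cnd (F := F)
  have hn := zpit_finrank_le F
  have hy0 : 0 < y := by linarith
  have hne := hF Z hZ1
  set A : ℝ := (C₁ + 2) * cnd F with hA
  have hA1 : 1 ≤ A := by nlinarith
  have hlog := hL Z A hA1 hZ1.1 hne (fun s hs hs' => (hZ3 s hs hs').trans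
    (Real.exp_le_exp.2 (mul_le_mul_of_nonneg_right (by nlinarith) (by positivity))))
    (fun s hs => by
      rw [hZ1.2 s (by rw [hs]; norm_num) (by rw [hs]; norm_num), norm_mul]
      have h1 : 1 ≤ ‖s - 1‖ := by
        refine le_trans ?_ (Complex.re_le_norm _)
        simp [hs]
        norm_num
      have h2 := le_norm_zeta (F := F) hs.ge
      have h3 : Real.exp (-A) ≤ Real.exp (-(2 * Module.finrank ℚ F)) :=
        Real.exp_le_exp.2 (by nlinarith)
      exact (h3.trans h2).trans (le_mul_of_one_le_left (norm_nonneg _) h1))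
  set G : ℂ → ℂ := fun s => 1 - (s - 1) * (deriv Z s / Z s) with hG
  have hsub : R17.strip (23 / 24) 2 ⊆ Str := fun s hs =>
    ⟨by linarith [hs.1], by linarith [hs.2]⟩
  have hGd : DifferentiableOn ℂ G (R17.strip (23 / 24) 2) := by
    refine (differentiableOn_const 1).sub ((differentiableOn_id.sub_const 1).mul
      (((hZ1.1.deriv zpit_isOpen).mono hsub).div (hZ1.1.mono hsub) fun s hs => ?_))
    exact hne s (by linarith [hs.1]) (by linarith [hs.2])
  have hGb : ∀ s ∈ R17.strip (23 / 24) 2, ‖G s‖ ≤ (1 + C₂ * A) * (1 + |s.im|) ^ 2 := by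
    intro s hs
    have h1 : ‖s - 1‖ ≤ 1 + |s.im| := by
      refine (Complex.norm_le_abs_re_add_abs_im _).trans ?_
      simp only [Complex.sub_re, Complex.one_re, Complex.sub_im, Complex.one_im, sub_zero]
      have : |s.re - 1| ≤ 1 := abs_le.2 ⟨by linarith [hs.1], by linarith [hs.2]⟩
      linarith
    have h2 := hlog s hs.1 hs.2
    have h3 := abs_nonneg s.im
    have h4 : ‖(s - 1) * (deriv Z s / Z s)‖ ≤ (1 + |s.im|) * (C₂ * A * (1 + |s.im|)) := by
      rw [norm_mul]
      exact mul_le_mul h1 h2 (norm_nonneg _) (by positivity)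
    have h5 : ‖G s‖ ≤ 1 + ‖(s - 1) * (deriv Z s / Z s)‖ := by
      simpa [hG] using norm_sub_le (1 : ℂ) ((s - 1) * (deriv Z s / Z s))
    nlinarith
  have hshift := R17.Wm_shift_pole (G := G) (σ₀ := 23 / 24) (σ₁ := 2) (T := 0) (ρ := 1)
    (by norm_num) (by norm_num) hy0 0 hGd (fun w hw _ => hGb w hw)
  have hpsi := zpit_psi_eq (F := F) hy0
  have hint : ∫ u : ℝ, R17.Wm ((2 : ℝ) + u * Complex.I + 0) *
      (y : ℂ) ^ (((2 : ℝ) : ℂ) + u * Complex.I) * Lam F (((2 : ℝ) : ℂ) + u * Complex.I) =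
      ∫ u : ℝ, R17.Wm ((2 : ℝ) + u * Complex.I + 0) *
      (y : ℂ) ^ (((2 : ℝ) : ℂ) + u * Complex.I) * G (((2 : ℝ) : ℂ) + u * Complex.I) /
        (((2 : ℝ) : ℂ) + u * Complex.I - 1) := by
    refine integral_congr_ae (Eventually.of_forall fun u => ?_)
    simp only
    rw [zpit_lam hZ1 (by simp), mul_div_assoc]
  have hbd := hI (fun u => G (((23 / 24 : ℝ) : ℂ) + u * Complex.I) /
    (((23 / 24 : ℝ) : ℂ) + u * Complex.I - 1)) (23 / 24) (24 * (1 + C₂ * A)) y 0 hy0
    (by rw [Complex.zero_re, add_zero, abs_of_pos] <;> norm_num) (fun u => by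
      have h1 := hGb (((23 / 24 : ℝ) : ℂ) + u * Complex.I) (by
        constructor
        · simp
        · simp
          norm_num)
      have h2 : (((23 / 24 : ℝ) : ℂ) + u * Complex.I).im = u := by simp
      rw [h2] at h1
      have h3 : 1 / 24 ≤ ‖((23 / 24 : ℝ) : ℂ) + u * Complex.I - 1‖ := by
        refine le_trans ?_ (Complex.abs_re_le_norm _)
        have : (((23 / 24 : ℝ) : ℂ) + u * Complex.I - 1).re = -(1 / 24) := by
          simp
          norm_num
        rw [this, abs_neg, abs_of_pos (by norm_num)]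
      rw [norm_div, div_le_iff₀ (by linarith)]
      have h4 : 0 ≤ (1 + C₂ * A) * (1 + |u|) ^ 2 := by positivity
      nlinarith)
  simp only [← mul_div_assoc] at hbd
  have hG1 : G 1 = 1 := by simp [hG]
  rw [hint, hshift, hG1] at hpsi
  set J := ∫ u : ℝ, R17.Wm ((23 / 24 : ℝ) + u * Complex.I + 0) *
      (y : ℂ) ^ (((23 / 24 : ℝ) : ℂ) + u * Complex.I) * G (((23 / 24 : ℝ) : ℂ) + u * Complex.I) /
        (((23 / 24 : ℝ) : ℂ) + u * Complex.I - 1) with hJ
  have hpi : (Real.pi : ℂ) ≠ 0 := by exact_mod_cast Real.pi_ne_zero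
  have hdiff : ((psiW F y - Real.sqrt Real.pi * Real.exp (1 / 4) * y : ℝ) : ℂ) =
      (1 / (2 * Real.pi) : ℂ) * J := by
    rw [Complex.ofReal_sub, hpsi, R17.Wm]
    push_cast
    simp only [add_zero, one_pow, Complex.cpow_one]
    field_simp
    ring
  rw [← Real.norm_eq_abs, ← Complex.norm_real, hdiff, norm_mul]
  have hp : ‖(1 / (2 * Real.pi) : ℂ)‖ ≤ 1 := by
    have := Real.pi_gt_three
    rw [norm_div, norm_mul, Complex.norm_real, Real.norm_of_nonneg Real.pi_pos.le]
    simp only [norm_one, Complex.norm_ofNat]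
    rw [div_le_one (by linarith)]
    linarith
  refine (mul_le_of_le_one_left (norm_nonneg _) hp).trans (hbd.trans ?_)
  simp only [Complex.zero_im, abs_zero, add_zero, one_pow, mul_one]
  refine mul_le_mul_of_nonneg_right ?_ (by positivity)
  rw [mul_assoc A₀]
  refine mul_le_mul_of_nonneg_left ?_ hA₀.le
  rw [hA]
  nlinarith

theorem pit : ∃ C : ℝ, 0 < C ∧ ∀ (F : Type) [Field F] [NumberField F] [IsTotallyComplex F],
    ZF F → ∀ y : ℝ, 1 ≤ y →
      |thW F y - Real.sqrt Real.pi * Real.exp (1 / 4) * y| ≤ C * cnd F * y ^ (23 / 24 : ℝ) := by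
  obtain ⟨C₁, hC₁, h₁⟩ := pit_psi
  obtain ⟨C₂, hC₂, h₂⟩ := psiW_sub_thW
  refine ⟨C₁ + C₂, by positivity, fun F _ _ _ hF y hy => ?_⟩
  have h3 := h₁ F hF y hy
  have h4 := h₂ F y hy
  have hn := zpit_finrank_le F
  have h5 : y ^ (3 / 4 : ℝ) ≤ y ^ (23 / 24 : ℝ) :=
    Real.rpow_le_rpow_of_exponent_le hy (by norm_num)
  have h6 : C₂ * Module.finrank ℚ F * y ^ (3 / 4 : ℝ) ≤ C₂ * cnd F * y ^ (23 / 24 : ℝ) :=
    mul_le_mul (mul_le_mul_of_nonneg_left hn hC₂.le) h5 (by positivity)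
      (mul_nonneg hC₂.le ((Nat.cast_nonneg _).trans hn))
  have h7 := abs_sub_le (thW F y) (psiW F y) (Real.sqrt Real.pi * Real.exp (1 / 4) * y)
  rw [abs_sub_comm (thW F y) (psiW F y)] at h7
  nlinarith

end Crest.Agent.R312
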