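import Crest.Agent.R312.ZTwistAux

/-!
# Row 312 (B) / row 27: continuation of `L(s, χ ∘ N)`

Choose class representatives `A` prime to `M` (`IsDedekindDomain.exists_sup_span_eq`), put
`f x = χ(N x) χ⁻¹(N A)`; `f` is periodic modulo `M A`.  Split `x ∈ A` in classes modulo `M A`, apply
`theta_ideal` to `M A` with the shift `c`, and `mel_cont` with `R = thz A f`,
`R' v = (N A / N(M A)) ∑_{y ≠ 0} (∑_c f c eTr(y c/t)) gsZ y (-v - lz t)`, `‖R'‖ ≤ ‖thz B 1 (-v - lz t)‖`.
-/

set_option autoImplicit false

noncomputable section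

namespace Crest.Agent.R312

open NumberField MeasureTheory Filter
open scoped Topology ENNReal NNReal

variable {F : Type} [Field F] [NumberField F] [IsTotallyComplex F]

theorem exists_Z_twist {M : ℕ} (hM : M ≠ 0) (χ : DirichletCharacter ℂ M) :
    ∃ Z, IsZ F (fun I => χ (Ideal.absNorm I : ZMod M)) Z :=
  ZTw.exists_Z_twist hM χ

end Crest.Agent.R312
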