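import Crest.Agent.R312.ZClass
import Crest.Agent.R312.ZConv
import Crest.Agent.R312.ZGen

/-!
# Row 312 (B): the Möbius bound gives a zero-free half plane

Let `M(y)` be the smooth Möbius sum (index it by the non-zero ideals to use `ZGen`, `μ ⊥ = 0`),
`G s = ∫ M(e^w) e^{-s w} dw`.  `G` is holomorphic on `11/12 + ε < Re s < 4`
(`differentiableOn_laplace` with the variable `-w`), `Z E G = (s - 1) Wm s` for `Re s > 1`
(`integral_smooth`, `exists_mob_inv`), hence on the whole strip; `Z 1 ≠ 0` by `exists_Z` and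
`IsZ.unique`.
-/

set_option autoImplicit false

noncomputable section

namespace Crest.Agent.R312

open NumberField MeasureTheory Filter
open scoped Topology ENNReal NNReal

theorem isTotallyComplex_of_om {F : Type} [Field F] [NumberField F]
    (h : ∃ ω : F, ω ^ 2 + ω + 1 = 0) : IsTotallyComplex F := by
  obtain ⟨ω, hω⟩ := h
  refine ⟨fun v => InfinitePlace.not_isReal_iff_isComplex.1 fun hv => ?_⟩
  have h1 := congrArg (InfinitePlace.embedding_of_isReal hv) hω
  simp only [map_add, map_pow, map_one, map_zero] at h1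
  nlinarith [sq_nonneg (2 * InfinitePlace.embedding_of_isReal hv ω + 1)]

theorem ZZ_integrable {R : ℝ → ℂ} (hR : Continuous R) {C C' α β c : ℝ} (h1 : α < c) (h2 : c < β)
    (hC : ∀ w, 0 ≤ w → ‖R w‖ ≤ C * Real.exp w ^ α) (hC' : ∀ w, ‖R w‖ ≤ C' * Real.exp w ^ β) :
    Integrable fun w : ℝ => ‖R w‖ * Real.exp (c * -w) := by
  have hm : Continuous fun w : ℝ => ‖R w‖ * Real.exp (c * -w) := by fun_prop
  have key : ∀ (K γ w : ℝ), ‖R w‖ ≤ K * Real.exp w ^ γ →
      ‖‖R w‖ * Real.exp (c * -w)‖ ≤ K * Real.exp ((γ - c) * w) := by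
    intro K γ w h
    rw [Real.norm_of_nonneg (by positivity), show (γ - c) * w = w * γ + c * -w by ring,
      Real.exp_add, Real.exp_mul w γ, ← mul_assoc]
    exact mul_le_mul_of_nonneg_right h (by positivity)
  rw [← integrableOn_univ, ← Set.Iic_union_Ioi (a := (0 : ℝ))]
  refine IntegrableOn.union ?_ ?_
  · exact ((integrableOn_exp_mul_Iic (sub_pos.2 h2) 0).const_mul C').mono'
      hm.aestronglyMeasurable (Eventually.of_forall fun w => key _ _ _ (hC' w))
  · refine ((integrableOn_exp_mul_Ioi (sub_neg.2 h1) 0).const_mul C).mono'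
      hm.aestronglyMeasurable ?_
    exact (ae_restrict_mem measurableSet_Ioi).mono fun w hw => key _ _ _ (hC w (le_of_lt hw))

theorem zf_of_mob {F : Type} [Field F] [NumberField F] [IsTotallyComplex F] (h : MobBound F) :
    ZF F := by
  classical
  obtain ⟨m, hm, h⟩ := h
  intro Z hZ s₀ hs₀ hs₀' h0
  obtain ⟨E, hE, hinv⟩ := exists_mob_inv (F := F) hm
  set a : Ideal (𝓞 F) → ℂ := fun I => if IsCoprime I (Ideal.span {(m : 𝓞 F)}) then
      ((UniqueFactorizationMonoid.moebius I : ℤ) : ℂ) else 0 with ha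
  set N : Ideal (𝓞 F) → ℝ := fun I => max 1 (Ideal.absNorm I : ℝ) with hN
  have hN1 : ∀ I, 1 ≤ N I := fun I => le_max_left _ _
  have hcase : ∀ I, a I = 0 ∨ N I = (Ideal.absNorm I : ℝ) := by
    intro I
    rcases eq_or_ne I 0 with rfl | hI
    · left
      simp only [ha, UniqueFactorizationMonoid.moebius_zero, Int.cast_zero, ite_self]
    · right
      have : Ideal.absNorm I ≠ 0 := mt Ideal.absNorm_eq_zero_iff.1 hI
      exact max_eq_right (by exact_mod_cast Nat.pos_of_ne_zero this)
  have ha1 : ∀ I, ‖a I‖ ≤ 1 := by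
    intro I
    simp only [ha]
    split_ifs
    · exact zconv_norm_moebius I
    · simp
  have hsum : ∀ σ : ℝ, 1 < σ → Summable fun I => ‖a I‖ * N I ^ (-σ) := by
    intro σ hσ
    refine Summable.of_nonneg_of_le (fun I => mul_nonneg (norm_nonneg _)
      (Real.rpow_nonneg (zero_le_one.trans (hN1 I)) _)) (fun I => ?_) (summable_absNorm_rpow hσ)
    rcases hcase I with h | h
    · rw [h, norm_zero, zero_mul]; positivity
    · rw [h]; exact mul_le_of_le_one_left (by positivity) (ha1 I)
  set R : ℝ → ℂ := fun w => ∑' I, a I * R17.Wc (N I / Real.exp w) 0 with hR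
  have hRc : Continuous R := continuous_smooth hN1 (by norm_num) (hsum 2 (by norm_num))
  obtain ⟨C, hC⟩ := h ((s₀.re - 11 / 12) / 4) (by linarith)
  obtain ⟨C', hC'⟩ := norm_smooth_le hN1 (hsum 2 (by norm_num)) (show (2 : ℝ) ≤ 5 by norm_num)
  have hC1 : ∀ w, 0 ≤ w → ‖R w‖ ≤ C * Real.exp w ^ (11 / 12 + (s₀.re - 11 / 12) / 4) := by
    intro w hw
    refine le_of_eq_of_le ?_ (hC _ (Real.one_le_exp hw))
    congr 1
    refine tsum_congr fun I => ?_
    change a I * _ = a I * _
    rcases hcase I with h | h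
    · rw [h, zero_mul, zero_mul]
    · rw [h]
  have hC2 : ∀ w, ‖R w‖ ≤ C' * Real.exp w ^ (5 : ℝ) := fun w => hC' _ (Real.exp_pos w)
  set α : ℝ := min (11 / 12 + (s₀.re - 11 / 12) / 2) 1 with hα
  have hα1 : α ≤ 1 := min_le_right _ _
  have hα2 : α < s₀.re := (min_le_left _ _).trans_lt (by linarith)
  have hα3 : 11 / 12 < α := lt_min (by linarith) (by norm_num)
  by_cases hs1 : 1 < s₀.re
  · rw [hZ.2 s₀ hs1 hs₀'] at h0
    refine mul_ne_zero (sub_ne_zero.2 ?_) (zeta_ne_zero hs1) h0
    rintro rfl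
    simp at hs1
  have hα4 : 11 / 12 + (s₀.re - 11 / 12) / 4 < α := lt_min (by linarith) (by linarith)
  have hG := differentiableOn_laplace (μ := volume) (w := fun x : ℝ => -x) measurable_neg
    hRc.aestronglyMeasurable (ZZ_integrable hRc hα4 (by linarith) hC1 hC2)
    (ZZ_integrable (c := 4) hRc (by linarith) (by norm_num) hC1 hC2)
  set G : ℂ → ℂ := fun s => ∫ x : ℝ, R x * Complex.exp (s * ((-x : ℝ) : ℂ)) with hGd
  set U : Set ℂ := {s | α < s.re ∧ s.re < 4} with hU
  have hUo : IsOpen U :=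
    (isOpen_lt continuous_const Complex.continuous_re).inter
      (isOpen_lt Complex.continuous_re continuous_const)
  have hUc : Convex ℝ U := (convex_halfSpace_re_gt α).inter (convex_halfSpace_re_lt 4)
  have hZU : DifferentiableOn ℂ Z U := hZ.1.mono fun s hs => ⟨by linarith [hs.1], hs.2⟩
  have hf : AnalyticOnNhd ℂ (fun s => Z s * E s * G s) U :=
    ((hZU.mul hE.differentiableOn).mul hG).analyticOnNhd hUo
  have hg : AnalyticOnNhd ℂ (fun s => (s - 1) * R17.Wm s) U :=
    ((differentiable_id.sub_const 1).mul R17.differentiable_Wm).differentiableOn.analyticOnNhd hUo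
  have hV : {s : ℂ | 1 < s.re ∧ s.re < 4} ∈ 𝓝 (2 : ℂ) :=
    ((isOpen_lt continuous_const Complex.continuous_re).inter
      (isOpen_lt Complex.continuous_re continuous_const)).mem_nhds (by constructor <;> norm_num)
  have heq : Set.EqOn (fun s => Z s * E s * G s) (fun s => (s - 1) * R17.Wm s) U := by
    refine hf.eqOn_of_preconnected_of_eventuallyEq hg hUc.isPreconnected (z₀ := 2)
      ⟨by simp only [Complex.re_ofNat]; linarith, by norm_num⟩ ?_
    filter_upwards [hV] with s hs
    have h1 : G s = R17.Wm s * Dz F a s := by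
      have h2 := integral_smooth hN1 (hsum s.re hs.1)
      have h3 : ∑' I, a I * (N I : ℂ) ^ (-s) = Dz F a s := by
        refine tsum_congr fun I => ?_
        rcases hcase I with h | h
        · rw [h, zero_mul, zero_mul]
        · rw [h, Complex.ofReal_natCast]
      rw [← h3, ← h2]
      simp only [hGd, hR, Complex.ofReal_neg, mul_neg, neg_mul]
    rw [h1, hZ.2 s hs.1 hs.2]
    linear_combination (s - 1) * R17.Wm s * hinv s hs.1
  have h1 := heq (show s₀ ∈ U from ⟨hα2, hs₀'⟩)
  simp only [h0, zero_mul] at h1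
  have h2 : s₀ = 1 := sub_eq_zero.1 ((mul_eq_zero.1 h1.symm).resolve_right (R17.Wm_ne_zero _))
  obtain ⟨_, -, hex⟩ := exists_Z
  obtain ⟨Z', hZ', hZ1, -⟩ := hex F
  refine hZ1 ?_
  rw [← hZ.unique hZ' (show (1 : ℂ) ∈ Str by constructor <;> norm_num), ← h2, h0]

end Crest.Agent.R312
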