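import Crest.Agent.R312.AlgCrv

/-!
# Row 312, algorithm half: coordinates in the function field
-/

set_option autoImplicit false
open Polynomial Finset
open scoped Classical

noncomputable section
namespace Crest.Agent.R312
namespace Crv
variable {E : Type} [Field E] {c : Crv E}

theorem b1_of_injective : Function.Injective c.of := c.of.toRingHom.injective

theorem po_injective : Function.Injective c.po := by
  intro g h e
  rw [← c.of_algebraMap, ← c.of_algebraMap] at e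
  exact IsFractionRing.injective E[X] (RatFunc E) (b1_of_injective e)

theorem po_ne {g : E[X]} (h : g ≠ 0) : c.po g ≠ 0 :=
  fun e => h (po_injective (by rw [e, map_zero]))

theorem x_ne : c.x ≠ 0 := by
  have := po_ne (c := c) (X_ne_zero (R := E))
  simpa [po] using this

theorem y_ne : c.y ≠ 0 := by
  intro h
  have := c.y_pow
  rw [h, zero_pow c.l_pos.ne'] at this
  exact po_ne c.f_ne this.symm

@[simp] theorem po_X : c.po X = c.x := by simp [po]

@[simp] theorem po_C (a : E) : c.po (C a) = algebraMap E c.L a := by simp [po]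

@[simp] theorem sg_zero (φ : c.L) : c.sg 0 φ = φ := by
  have : (c.sg 0 : c.L →+* c.L) = RingHom.id _ :=
    c.ringHom_ext (fun a => by simp) (by simp) (by simp)
  exact DFunLike.congr_fun this φ

theorem sg_sg (a b : ℕ) (φ : c.L) : c.sg a (c.sg b φ) = c.sg (a + b) φ := by
  have : (c.sg a : c.L →+* c.L).comp (c.sg b : c.L →+* c.L) = (c.sg (a + b) : c.L →+* c.L) :=
    c.ringHom_ext (fun a => by simp) (by simp) (by simp [smul_smul, pow_add, mul_comm])
  exact DFunLike.congr_fun this φ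

@[simp] theorem sg_l (φ : c.L) : c.sg c.l φ = φ := by
  have : (c.sg c.l : c.L →+* c.L) = RingHom.id _ :=
    c.ringHom_ext (fun a => by simp) (by simp) (by simp [c.ζ_pow])
  exact DFunLike.congr_fun this φ

theorem sg_ne {φ : c.L} (h : φ ≠ 0) (k : ℕ) : c.sg k φ ≠ 0 :=
  (map_ne_zero (c.sg k)).2 h

theorem sg_of_fixed {φ : c.L} (h : c.sg 1 φ = φ) (k : ℕ) : c.sg k φ = φ := by
  induction k with
  | zero => exact sg_zero φ
  | succ k ih => rw [← sg_sg, h, ih]

/-! ### rational coordinates -/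

theorem rc_add (φ ψ : c.L) (j : ℕ) : c.rc (φ + ψ) j = c.rc φ j + c.rc ψ j := by
  have := (AdjoinRoot.modByMonicHom c.P_monic).map_add φ ψ
  unfold rc
  rw [← coeff_add, ← this]
  rfl

theorem rc_of_mul (r : RatFunc E) (φ : c.L) (j : ℕ) : c.rc (c.of r * φ) j = r * c.rc φ j := by
  have := (AdjoinRoot.modByMonicHom c.P_monic).map_smul r φ
  rw [Algebra.smul_def] at this
  unfold rc
  rw [← smul_eq_mul r, ← coeff_smul, ← this]
  rfl

theorem b1_degree (φ : c.L) : (AdjoinRoot.modByMonicHom c.P_monic φ).degree < c.l := by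
  obtain ⟨p, rfl⟩ := AdjoinRoot.mk_surjective (g := c.P) φ
  rw [AdjoinRoot.modByMonicHom_mk]
  have := degree_modByMonic_lt p c.P_monic
  rwa [degree_eq_natDegree c.P_monic.ne_zero, c.P_natDegree] at this

theorem rc_eq_zero (φ : c.L) {j : ℕ} (h : c.l ≤ j) : c.rc φ j = 0 :=
  coeff_eq_zero_of_degree_lt ((b1_degree φ).trans_le (by exact_mod_cast h))

theorem b1_mk (r : ℕ → RatFunc E) :
    (AdjoinRoot.mk c.P (∑ i ∈ range c.l, C (r i) * X ^ i) : c.L) =
      ∑ i ∈ range c.l, c.of (r i) * c.y ^ i := by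
  rw [map_sum]
  refine Finset.sum_congr rfl fun i _ => ?_
  rw [map_mul, map_pow]
  rfl

theorem sum_rc (φ : c.L) : ∑ j ∈ range c.l, c.of (c.rc φ j) * c.y ^ j = φ := by
  rw [← b1_mk]
  have h1 : (∑ i ∈ range c.l, C (c.rc φ i) * X ^ i) = AdjoinRoot.modByMonicHom c.P_monic φ := by
    ext j
    simp only [finsetSum_coeff, coeff_C_mul_X_pow, Finset.sum_ite_eq, Finset.mem_range]
    split_ifs with hj
    · rfl
    · exact (rc_eq_zero φ (not_lt.1 hj)).symm
  rw [h1]
  exact AdjoinRoot.mk_leftInverse c.P_monic φ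

theorem rc_sum (r : ℕ → RatFunc E) {j : ℕ} (h : j < c.l) :
    c.rc (∑ i ∈ range c.l, c.of (r i) * c.y ^ i) j = r j := by
  rw [← b1_mk]
  unfold rc
  rw [AdjoinRoot.modByMonicHom_mk, (modByMonic_eq_self_iff c.P_monic).2]
  · simp only [finsetSum_coeff, coeff_C_mul_X_pow, Finset.sum_ite_eq, Finset.mem_range, h,
      if_true]
  · rw [degree_eq_natDegree c.P_monic.ne_zero, c.P_natDegree, degree_lt_iff_coeff_zero]
    intro m hm
    simp only [finsetSum_coeff, coeff_C_mul_X_pow, Finset.sum_ite_eq, Finset.mem_range,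
      not_lt.2 hm, if_false]

theorem b1_rc_sg (k : ℕ) (φ : c.L) (j : ℕ) :
    c.rc (c.sg k φ) j = algebraMap E (RatFunc E) (c.ζ ^ (k * j)) * c.rc φ j := by
  rcases lt_or_ge j c.l with hj | hj
  · rw [← rc_sum (c := c) (fun i => algebraMap E (RatFunc E) (c.ζ ^ (k * i)) * c.rc φ i) hj]
    congr 1
    conv_lhs => rw [← sum_rc φ, map_sum]
    refine Finset.sum_congr rfl fun i _ => ?_
    rw [map_mul, map_pow, sg_of, sg_y, map_mul, c.of.commutes, Algebra.smul_def, mul_pow,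
      ← map_pow, ← pow_mul]
    ring
  · rw [rc_eq_zero _ hj, rc_eq_zero _ hj, mul_zero]

/-- Fixed elements of `σ` are rational functions of `x`. -/
theorem exists_of_fixed {φ : c.L} (h : c.sg 1 φ = φ) :
    ∃ g h : E[X], h ≠ 0 ∧ φ = c.po g / c.po h := by
  have h0 : ∀ j, j < c.l → j ≠ 0 → c.rc φ j = 0 := by
    intro j hj hj0
    have e := b1_rc_sg 1 φ j
    rw [h, one_mul] at e
    have hne : c.ζ ^ j ≠ 1 := c.hζ.pow_ne_one_of_pos_of_lt hj0 hj
    by_contra hr
    have : algebraMap E (RatFunc E) (c.ζ ^ j) = 1 := by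
      apply mul_right_cancel₀ hr
      rw [← e, one_mul]
    exact hne ((algebraMap E (RatFunc E)).injective (by rw [this, map_one]))
  refine ⟨(c.rc φ 0).num, (c.rc φ 0).denom, RatFunc.denom_ne_zero _, ?_⟩
  rw [← c.of_algebraMap, ← c.of_algebraMap, ← map_div₀, RatFunc.num_div_denom]
  conv_lhs => rw [← sum_rc φ]
  rw [Finset.sum_eq_single 0, pow_zero, mul_one]
  · intro j hj hj0
    rw [h0 j (Finset.mem_range.1 hj) hj0, map_zero, zero_mul]
  · intro hn
    exact absurd (Finset.mem_range.2 c.l_pos) hn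

theorem b1_mkp_mem {N : ℕ} {g : ℕ → E[X]}
    (h : ∀ j < c.l, (g j).degree < (N + 1 - j * c.m : ℕ)) : c.mkp g ∈ c.S N := by
  refine Submodule.sum_mem _ fun j hj => ?_
  have hj := Finset.mem_range.1 hj
  rw [(g j).as_sum_support_C_mul_X_pow, map_sum, Finset.sum_mul]
  refine Submodule.sum_mem _ fun a ha => ?_
  rw [map_mul, map_pow, po_C, po_X, mul_assoc, ← Algebra.smul_def]
  refine Submodule.smul_mem _ _ (Submodule.subset_span ⟨a, j, hj, ?_, rfl⟩)
  have h1 : ((a : ℕ) : WithBot ℕ) < (N + 1 - j * c.m : ℕ) :=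
    (le_degree_of_ne_zero (mem_support_iff.1 ha)).trans_lt (h j hj)
  have h2 : a < N + 1 - j * c.m := by exact_mod_cast h1
  omega

/-- Every function is a quotient with polynomial denominator. -/
theorem exists_frac (φ : c.L) : ∃ h : E[X], h ≠ 0 ∧ ∃ N, c.po h * φ ∈ c.S N := by
  obtain ⟨b, hb⟩ := IsLocalization.exist_integer_multiples (nonZeroDivisors E[X]) (range c.l)
    (fun j => c.rc φ j)
  choose! g hg using hb
  refine ⟨b, nonZeroDivisors.coe_ne_zero b,
    (range c.l).sup (fun j => (g j).natDegree) + c.l * c.m, ?_⟩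
  have e : c.po b * φ = c.mkp g := by
    conv_lhs => rw [← sum_rc φ, Finset.mul_sum]
    refine Finset.sum_congr rfl fun j hj => ?_
    rw [← c.of_algebraMap (g j), hg j hj, Algebra.smul_def, map_mul, c.of_algebraMap, mul_assoc]
  rw [e]
  refine b1_mkp_mem fun j hj => degree_le_natDegree.trans_lt ?_
  have h1 : (g j).natDegree ≤ (range c.l).sup (fun j => (g j).natDegree) :=
    Finset.le_sup (f := fun j => (g j).natDegree) (Finset.mem_range.2 hj)
  have h2 : j * c.m ≤ c.l * c.m := Nat.mul_le_mul_right _ hj.le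
  exact_mod_cast (by omega)

/-! ### polynomial coordinates -/

theorem b1_rc_mkp (g : ℕ → E[X]) {j : ℕ} (h : j < c.l) :
    c.rc (c.mkp g) j = algebraMap E[X] (RatFunc E) (g j) := by
  rw [← rc_sum (c := c) (fun i => algebraMap E[X] (RatFunc E) (g i)) h]
  simp only [mkp, c.of_algebraMap]

theorem pc_mkp (g : ℕ → E[X]) {j : ℕ} (h : j < c.l) : c.pc (c.mkp g) j = g j := by
  rw [pc, b1_rc_mkp g h, RatFunc.num_algebraMap]

theorem pc_eq_zero (φ : c.L) {j : ℕ} (h : c.l ≤ j) : c.pc φ j = 0 := by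
  rw [pc, rc_eq_zero φ h, RatFunc.num_zero]

theorem b1_mkp_single (g : E[X]) {i : ℕ} (hi : i < c.l) :
    c.mkp (fun j => if j = i then g else 0) = c.po g * c.y ^ i := by
  unfold mkp
  rw [Finset.sum_eq_single i]
  · simp only [if_true]
  · intro j _ hj
    simp only [hj, if_false, map_zero, zero_mul]
  · intro hn
    exact absurd (Finset.mem_range.2 hi) hn

theorem mem_S {N : ℕ} {φ : c.L} : φ ∈ c.S N ↔
    ∃ g : ℕ → E[X], φ = c.mkp g ∧ ∀ j < c.l, (g j).degree < (N + 1 - j * c.m : ℕ) := by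
  refine ⟨fun h => ?_, fun ⟨g, e, hg⟩ => e ▸ b1_mkp_mem hg⟩
  induction h using Submodule.span_induction with
  | mem φ h =>
    obtain ⟨a, i, hi, ha, rfl⟩ := h
    refine ⟨fun j => if j = i then X ^ a else 0, by rw [b1_mkp_single _ hi, map_pow, po_X], ?_⟩
    intro j _
    beta_reduce
    split_ifs with hj
    · subst hj
      rw [degree_X_pow]
      exact_mod_cast (by omega)
    · rw [degree_zero]
      exact WithBot.bot_lt_coe _
  | zero =>
    refine ⟨fun _ => 0, by simp [mkp], fun j _ => ?_⟩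
    rw [degree_zero]
    exact WithBot.bot_lt_coe _
  | add φ ψ _ _ h h' =>
    obtain ⟨g, rfl, hg⟩ := h
    obtain ⟨g', rfl, hg'⟩ := h'
    refine ⟨fun j => g j + g' j, ?_, fun j hj => ?_⟩
    · simp only [mkp, map_add, add_mul, Finset.sum_add_distrib]
    · exact (degree_add_le _ _).trans_lt (max_lt (hg j hj) (hg' j hj))
  | smul a φ _ h =>
    obtain ⟨g, rfl, hg⟩ := h
    refine ⟨fun j => a • g j, ?_, fun j hj => ?_⟩
    · simp only [mkp, map_smul, smul_mul_assoc, Finset.smul_sum]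
    · exact (degree_smul_le _ _).trans_lt (hg j hj)

theorem mkp_pc {N : ℕ} {φ : c.L} (h : φ ∈ c.S N) : c.mkp (c.pc φ) = φ := by
  obtain ⟨g, rfl, -⟩ := mem_S.1 h
  exact Finset.sum_congr rfl fun j hj => by rw [pc_mkp g (Finset.mem_range.1 hj)]

theorem degree_pc_lt {N : ℕ} {φ : c.L} (h : φ ∈ c.S N) (j : ℕ) :
    (c.pc φ j).degree < (N + 1 - j * c.m : ℕ) := by
  rcases lt_or_ge j c.l with hj | hj
  · obtain ⟨g, rfl, hg⟩ := mem_S.1 h
    rw [pc_mkp g hj]
    exact hg j hj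
  · rw [pc_eq_zero φ hj, degree_zero]
    exact WithBot.bot_lt_coe _

theorem natDegree_pc_le {N : ℕ} {φ : c.L} (h : φ ∈ c.S N) (j : ℕ) : (c.pc φ j).natDegree ≤ N := by
  by_cases h0 : c.pc φ j = 0
  · rw [h0, natDegree_zero]
    exact Nat.zero_le _
  · have := (natDegree_lt_iff_degree_lt h0).2 (degree_pc_lt h j)
    omega

@[simp] theorem pc_zero (j : ℕ) : c.pc 0 j = 0 := by
  have := rc_of_mul (c := c) 0 0 j
  rw [mul_zero, zero_mul] at this
  rw [pc, this, RatFunc.num_zero]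

theorem b1_rc_pc {N : ℕ} {φ : c.L} (h : φ ∈ c.S N) (j : ℕ) :
    c.rc φ j = algebraMap E[X] (RatFunc E) (c.pc φ j) := by
  rcases lt_or_ge j c.l with hj | hj
  · rw [← b1_rc_mkp (c := c) (c.pc φ) hj, mkp_pc h]
  · rw [rc_eq_zero φ hj, pc_eq_zero φ hj, map_zero]

theorem pc_add {N M : ℕ} {φ ψ : c.L} (h : φ ∈ c.S N) (h' : ψ ∈ c.S M) (j : ℕ) :
    c.pc (φ + ψ) j = c.pc φ j + c.pc ψ j := by
  rw [pc, rc_add, b1_rc_pc h, b1_rc_pc h', ← map_add, RatFunc.num_algebraMap]

theorem pc_smul {N : ℕ} {φ : c.L} (h : φ ∈ c.S N) (a : E) (j : ℕ) :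
    c.pc (a • φ) j = a • c.pc φ j := by
  rw [pc, Algebra.smul_def, ← po_C, ← c.of_algebraMap, rc_of_mul, b1_rc_pc h, ← map_mul,
    RatFunc.num_algebraMap, smul_eq_C_mul]

theorem pc_sum {ι : Type} {N : ℕ} (s : Finset ι) {φ : ι → c.L} (h : ∀ i ∈ s, φ i ∈ c.S N) (j : ℕ) :
    c.pc (∑ i ∈ s, φ i) j = ∑ i ∈ s, c.pc (φ i) j := by
  induction s using Finset.induction_on with
  | empty => simp
  | insert a s ha ih =>
    have hs : ∀ i ∈ s, φ i ∈ c.S N := fun i hi => h i (Finset.mem_insert_of_mem hi)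
    rw [Finset.sum_insert ha, Finset.sum_insert ha,
      pc_add (h a (Finset.mem_insert_self _ _)) (Submodule.sum_mem _ hs), ih hs]

theorem pc_sg {N : ℕ} {φ : c.L} (h : φ ∈ c.S N) (k j : ℕ) :
    c.pc (c.sg k φ) j = (c.ζ ^ (k * j)) • c.pc φ j := by
  rw [pc, b1_rc_sg, b1_rc_pc h, IsScalarTower.algebraMap_apply E E[X] (RatFunc E), ← map_mul,
    RatFunc.num_algebraMap, Algebra.smul_def]

theorem b1_mkp_mul (g g' : ℕ → E[X]) : c.mkp g * c.mkp g' = c.mkp fun j => ∑ i ∈ range c.l,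
    if i ≤ j then g i * g' (j - i) else c.f * (g i * g' (j + c.l - i)) := by
  simp only [mkp, map_sum, Finset.sum_mul]
  rw [Finset.sum_comm]
  refine Finset.sum_congr rfl fun i hi => ?_
  have hi := Finset.mem_range.1 hi
  rw [Finset.mul_sum]
  refine Finset.sum_nbij' (fun k => if i + k < c.l then i + k else i + k - c.l)
    (fun j => if i ≤ j then j - i else j + c.l - i) ?_ ?_ ?_ ?_ ?_
  · intro k hk
    simp only [Finset.mem_range] at hk ⊢
    split_ifs <;> omega
  · intro k hk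
    simp only [Finset.mem_range] at hk ⊢
    split_ifs <;> omega
  · intro k hk
    simp only [Finset.mem_range] at hk ⊢
    split_ifs <;> omega
  · intro k hk
    simp only [Finset.mem_range] at hk ⊢
    split_ifs <;> omega
  · intro k hk
    have hk := Finset.mem_range.1 hk
    by_cases h1 : i + k < c.l
    · simp only [h1, if_true, Nat.le_add_right, Nat.add_sub_cancel_left, map_mul]
      ring
    · have h2 : ¬ i ≤ i + k - c.l := by omega
      have h3 : i + k - c.l + c.l - i = k := by omega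
      have h4 : c.y ^ i * c.y ^ k = c.po c.f * c.y ^ (i + k - c.l) := by
        rw [← c.y_pow, ← pow_add, ← pow_add]
        congr 1
        omega
      simp only [h1, h2, h3, if_false, map_mul]
      linear_combination (c.po (g i) * c.po (g' k)) * h4

/-- Multiplication table (`y ^ l = f`). -/
theorem pc_mul {N M : ℕ} {φ ψ : c.L} (h : φ ∈ c.S N) (h' : ψ ∈ c.S M) {j : ℕ} (hj : j < c.l) :
    c.pc (φ * ψ) j = ∑ i ∈ range c.l,
      if i ≤ j then c.pc φ i * c.pc ψ (j - i) else c.f * (c.pc φ i * c.pc ψ (j + c.l - i)) := by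
  conv_lhs => rw [← mkp_pc h, ← mkp_pc h', b1_mkp_mul, pc_mkp _ hj]

theorem b1_pc_single (g : E[X]) {i : ℕ} (hi : i < c.l) (j : ℕ) :
    c.pc (c.po g * c.y ^ i) j = if j = i then g else 0 := by
  rcases lt_or_ge j c.l with hj | hj
  · rw [← b1_mkp_single g hi, pc_mkp _ hj]
  · rw [pc_eq_zero _ hj, if_neg (by omega)]

theorem pc_po (g : E[X]) (j : ℕ) : c.pc (c.po g) j = if j = 0 then g else 0 := by
  rw [← b1_pc_single g c.l_pos j, pow_zero, mul_one]

theorem pc_monomial (a : ℕ) {i : ℕ} (hi : i < c.l) (j : ℕ) :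
    c.pc (c.x ^ a * c.y ^ i) j = if j = i then X ^ a else 0 := by
  rw [← b1_pc_single (X ^ a) hi j, map_pow, po_X]

/-! ### the spaces `S N` -/

theorem b2_mono_mem {N a j : ℕ} (hj : j < c.l) (h : a + j * c.m ≤ N) :
    c.x ^ a * c.y ^ j ∈ c.S N := Submodule.subset_span ⟨a, j, hj, h, rfl⟩

theorem b2_po_mul_mem {N j : ℕ} {g : E[X]} (hj : j < c.l) (h : g.natDegree + j * c.m ≤ N) :
    c.po g * c.y ^ j ∈ c.S N := by
  rw [← b1_mkp_single g hj]
  refine b1_mkp_mem fun i _ => ?_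
  split_ifs with hi
  · subst hi
    exact degree_le_natDegree.trans_lt (by exact_mod_cast (by omega))
  · rw [degree_zero]
    exact WithBot.bot_lt_coe _

theorem S_mono {N M : ℕ} (h : N ≤ M) : c.S N ≤ c.S M :=
  Submodule.span_mono fun _ ⟨a, j, hj, ha, e⟩ => ⟨a, j, hj, ha.trans h, e⟩

theorem mul_mem_S {N M : ℕ} {φ ψ : c.L} (h : φ ∈ c.S N) (h' : ψ ∈ c.S M) :
    φ * ψ ∈ c.S (N + M) := by
  have h1 := Submodule.mul_mem_mul h h'
  rw [S, S, Submodule.span_mul_span] at h1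
  refine Submodule.span_le.2 ?_ h1
  rintro _ ⟨_, ⟨a, i, hi, ha, rfl⟩, _, ⟨b, j, hj, hb, rfl⟩, rfl⟩
  show c.x ^ a * c.y ^ i * (c.x ^ b * c.y ^ j) ∈ c.S (N + M)
  rw [mul_mul_mul_comm, ← pow_add, ← pow_add]
  rcases lt_or_ge (i + j) c.l with h2 | h2
  · exact b2_mono_mem h2 (by rw [add_mul]; omega)
  · obtain ⟨k, hk⟩ := Nat.exists_eq_add_of_le h2
    have h3 : c.l * c.m + k * c.m = i * c.m + j * c.m := by rw [← add_mul, ← hk, add_mul]
    rw [hk, pow_add c.y, c.y_pow, ← mul_assoc, ← po_X, ← map_pow, ← map_mul]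
    refine b2_po_mul_mem (by omega) ?_
    rw [(monic_X_pow _).natDegree_mul c.monic, natDegree_X_pow, c.deg]
    omega

theorem one_mem_S (N : ℕ) : (1 : c.L) ∈ c.S N := by
  simpa using b2_mono_mem (c := c) (N := N) (a := 0) c.l_pos (by simp)

theorem pow_mem_S {N : ℕ} {φ : c.L} (h : φ ∈ c.S N) (k : ℕ) : φ ^ k ∈ c.S (k * N) := by
  induction k with
  | zero => rw [pow_zero]; exact one_mem_S _
  | succ k ih => rw [pow_succ, Nat.succ_mul]; exact mul_mem_S ih h

theorem prod_mem_S {ι : Type} {N : ℕ} (s : Finset ι) {φ : ι → c.L} (h : ∀ i ∈ s, φ i ∈ c.S N) :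
    ∏ i ∈ s, φ i ∈ c.S (s.card * N) := by
  induction s using Finset.induction_on with
  | empty => rw [Finset.prod_empty]; exact one_mem_S _
  | insert a s ha ih =>
    rw [Finset.prod_insert ha, Finset.card_insert_of_notMem ha, Nat.succ_mul, add_comm]
    exact mul_mem_S (h a (Finset.mem_insert_self _ _))
      (ih fun i hi => h i (Finset.mem_insert_of_mem hi))

theorem po_mem_S {N : ℕ} {g : E[X]} (h : g.natDegree ≤ N) : c.po g ∈ c.S N := by
  simpa using b2_po_mul_mem (c := c) (N := N) (g := g) c.l_pos (by simpa using h)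

theorem x_mem_S : c.x ∈ c.S 1 := by
  rw [← po_X]
  exact po_mem_S natDegree_X_le

theorem y_mem_S : c.y ∈ c.S c.m := by
  simpa using b2_mono_mem (c := c) (N := c.m) (a := 0) (j := 1) c.two_le_l (by simp)

theorem algebraMap_mem_S (a : E) (N : ℕ) : algebraMap E c.L a ∈ c.S N := by
  rw [Algebra.algebraMap_eq_smul_one]
  exact Submodule.smul_mem _ _ (one_mem_S N)

theorem sg_mem_S {N : ℕ} {φ : c.L} (h : φ ∈ c.S N) (k : ℕ) : c.sg k φ ∈ c.S N := by
  refine (Submodule.span_le (p := (c.S N).comap (c.sg k).toLinearMap)).2 ?_ h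
  rintro _ ⟨a, j, hj, ha, rfl⟩
  show c.sg k (c.x ^ a * c.y ^ j) ∈ c.S N
  rw [map_mul, map_pow, map_pow, sg_x, sg_y, _root_.smul_pow, mul_smul_comm]
  exact Submodule.smul_mem _ _ (b2_mono_mem hj ha)

theorem mem_S_zero {φ : c.L} (h : φ ∈ c.S 0) : ∃ a : E, φ = algebraMap E c.L a := by
  have h1 : φ ∈ Submodule.span E {(1 : c.L)} := by
    refine Submodule.span_mono ?_ h
    rintro _ ⟨a, j, -, ha, rfl⟩
    have h2 : a = 0 := by omega
    have h3 : j = 0 := (Nat.mul_eq_zero.1 (by omega : j * c.m = 0)).resolve_right c.hm.ne'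
    simp [h2, h3]
  obtain ⟨a, rfl⟩ := Submodule.mem_span_singleton.1 h1
  exact ⟨a, (Algebra.algebraMap_eq_smul_one a).symm⟩

theorem mono_mem (N k : ℕ) : c.mono N k ∈ c.S N := by
  unfold mono
  split_ifs with h
  · exact b2_mono_mem (Nat.mod_lt _ c.l_pos) h
  · exact Submodule.zero_mem _

/-! ### scalar coordinates -/

@[simp] theorem cv_zero (k : ℕ) : c.cv 0 k = 0 := by
  rw [cv, pc_zero, coeff_zero]

theorem cv_add {N M : ℕ} {φ ψ : c.L} (h : φ ∈ c.S N) (h' : ψ ∈ c.S M) (k : ℕ) :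
    c.cv (φ + ψ) k = c.cv φ k + c.cv ψ k := by
  rw [cv, pc_add h h', coeff_add, cv, cv]

theorem cv_smul {N : ℕ} {φ : c.L} (h : φ ∈ c.S N) (a : E) (k : ℕ) :
    c.cv (a • φ) k = a * c.cv φ k := by
  rw [cv, pc_smul h, coeff_smul, cv, smul_eq_mul]

theorem cv_sum {ι : Type} {N : ℕ} (s : Finset ι) {φ : ι → c.L} (h : ∀ i ∈ s, φ i ∈ c.S N) (k : ℕ) :
    c.cv (∑ i ∈ s, φ i) k = ∑ i ∈ s, c.cv (φ i) k := by
  simp only [cv, pc_sum s h, finsetSum_coeff]

theorem cv_eq_zero {N : ℕ} {φ : c.L} (h : φ ∈ c.S N) {k : ℕ} (hk : c.dimN N ≤ k) :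
    c.cv φ k = 0 := by
  refine coeff_eq_zero_of_natDegree_lt ((natDegree_pc_le h _).trans_lt ?_)
  rw [Nat.lt_iff_add_one_le, Nat.le_div_iff_mul_le c.l_pos, mul_comm]
  exact hk

theorem coeff_pc (φ : c.L) {j : ℕ} (hj : j < c.l) (a : ℕ) :
    (c.pc φ j).coeff a = c.cv φ (a * c.l + j) := by
  rw [cv, Nat.mul_add_mod_of_lt hj, mul_comm, Nat.mul_add_div c.l_pos, Nat.div_eq_of_lt hj,
    add_zero]

theorem cv_mono (N k k' : ℕ) : c.cv (c.mono N k) k' =
    if k' = k ∧ k / c.l + (k % c.l) * c.m ≤ N then 1 else 0 := by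
  unfold mono
  by_cases h : k / c.l + (k % c.l) * c.m ≤ N
  · rw [if_pos h, cv, pc_monomial _ (Nat.mod_lt _ c.l_pos)]
    by_cases hk : k' = k
    · simp [hk, h]
    · rw [if_neg fun h' : _ ∧ _ => hk h'.1]
      split_ifs with h1
      · rw [coeff_X_pow, if_neg fun h2 => hk (by
          rw [← Nat.div_add_mod k' c.l, h1, h2, Nat.div_add_mod])]
      · exact coeff_zero _
  · rw [if_neg h, cv_zero, if_neg fun h' : _ ∧ _ => h h'.2]

theorem b2_ext {N M : ℕ} {φ ψ : c.L} (h : φ ∈ c.S N) (h' : ψ ∈ c.S M)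
    (e : ∀ k, c.cv φ k = c.cv ψ k) : φ = ψ := by
  rw [← mkp_pc h, ← mkp_pc h']
  refine Finset.sum_congr rfl fun j hj => ?_
  congr 2
  ext a
  rw [coeff_pc φ (Finset.mem_range.1 hj), coeff_pc ψ (Finset.mem_range.1 hj), e]

theorem sum_cv_mono {N : ℕ} {φ : c.L} (h : φ ∈ c.S N) :
    ∑ k ∈ range (c.dimN N), c.cv φ k • c.mono N k = φ := by
  have h1 : ∀ k ∈ range (c.dimN N), c.cv φ k • c.mono N k ∈ c.S N := fun k _ =>
    Submodule.smul_mem _ _ (mono_mem N k)
  refine b2_ext (Submodule.sum_mem _ h1) h fun k => ?_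
  rw [cv_sum _ h1, Finset.sum_eq_single k, cv_smul (mono_mem N k), cv_mono]
  · split_ifs with h2
    · exact mul_one _
    · rw [mul_zero]
      refine (coeff_eq_zero_of_degree_lt ((degree_pc_lt h _).trans_le ?_)).symm
      have : ¬ k / c.l + (k % c.l) * c.m ≤ N := fun h3 => h2 ⟨rfl, h3⟩
      generalize k / c.l = a at *
      exact_mod_cast (by omega)
  · intro j _ hj
    rw [cv_smul (mono_mem N j), cv_mono, if_neg fun h2 : _ ∧ _ => hj h2.1.symm, mul_zero]
  · intro hk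
    rw [cv_eq_zero h (not_lt.1 (mt Finset.mem_range.2 hk)), zero_smul, cv_zero]

theorem eq_zero_of_cv {N : ℕ} {φ : c.L} (h : φ ∈ c.S N) (h0 : ∀ k < c.dimN N, c.cv φ k = 0) :
    φ = 0 := by
  rw [← sum_cv_mono h]
  exact Finset.sum_eq_zero fun k hk => by rw [h0 k (Finset.mem_range.1 hk), zero_smul]

/-- The parametrisation of `S N` by the polynomial coordinates. -/
def b2_par (c : Crv E) (N : ℕ) :
    (∀ j : Fin c.l, degreeLT E (N + 1 - j * c.m)) →ₗ[E] c.L where
  toFun g := ∑ j : Fin c.l, c.po (g j) * c.y ^ (j : ℕ)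
  map_add' g g' := by simp [add_mul, Finset.sum_add_distrib]
  map_smul' a g := by simp [Finset.smul_sum]

theorem b2_par_eq (N : ℕ) (g : ∀ j : Fin c.l, degreeLT E (N + 1 - j * c.m)) :
    b2_par c N g = c.mkp fun j => if h : j < c.l then (g ⟨j, h⟩ : E[X]) else 0 := by
  rw [mkp, Finset.sum_range]
  show ∑ j : Fin c.l, c.po (g j) * c.y ^ (j : ℕ) = _
  exact Finset.sum_congr rfl fun j _ => by rw [dif_pos j.2]

theorem b2_par_inj (N : ℕ) : Function.Injective (b2_par c N) := by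
  intro g g' e
  funext j
  have h := congrArg (fun φ => c.pc φ j) e
  simp only [b2_par_eq, pc_mkp _ j.2, dif_pos j.2] at h
  exact Subtype.ext h

theorem b2_par_range (N : ℕ) : LinearMap.range (b2_par c N) = c.S N := by
  ext φ
  constructor
  · rintro ⟨g, rfl⟩
    rw [b2_par_eq]
    exact b1_mkp_mem fun j hj => by
      rw [dif_pos hj]
      exact mem_degreeLT.1 (g ⟨j, hj⟩).2
  · intro h
    refine ⟨fun j => ⟨c.pc φ j, mem_degreeLT.2 (degree_pc_lt h j)⟩, ?_⟩
    conv_rhs => rw [← mkp_pc h, mkp, Finset.sum_range]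
    rfl

instance finite_S (N : ℕ) : Module.Finite E (c.S N) := by
  rw [← b2_par_range]
  have : ∀ n, Module.Finite E (degreeLT E n) := fun n => Module.Finite.equiv (degreeLTEquiv E n).symm
  infer_instance

/-- `S N ≃ ∏_{j < l} degreeLT (N + 1 - j m)`. -/
theorem finrank_S (N : ℕ) :
    Module.finrank E (c.S N) = ∑ j ∈ range c.l, (N + 1 - j * c.m) := by
  have : ∀ n, Module.Finite E (degreeLT E n) := fun n => Module.Finite.equiv (degreeLTEquiv E n).symm
  rw [← b2_par_range, LinearMap.finrank_range_of_inj (b2_par_inj N), Module.finrank_pi_fintype,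
    Finset.sum_range]
  exact Finset.sum_congr rfl fun j _ => by
    rw [(degreeLTEquiv E _).finrank_eq, Module.finrank_fin_fun]

theorem finrank_S_ge (N : ℕ) : c.l * (N + 1) ≤ Module.finrank E (c.S N) + c.gg := by
  rw [finrank_S, gg, ← Finset.sum_add_distrib]
  calc c.l * (N + 1) = ∑ _j ∈ range c.l, (N + 1) := by simp
    _ ≤ _ := Finset.sum_le_sum fun j _ => by omega

theorem finrank_S_eq {N : ℕ} (h : c.B0 ≤ N + 1) :
    Module.finrank E (c.S N) + c.gg = c.l * (N + 1) := by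
  rw [finrank_S, gg, ← Finset.sum_add_distrib]
  calc _ = ∑ _j ∈ range c.l, (N + 1) := Finset.sum_congr rfl fun j hj => by
        have h1 : j * c.m ≤ c.B0 :=
          Nat.mul_le_mul_right _ (Nat.le_sub_one_of_lt (Finset.mem_range.1 hj))
        omega
    _ = _ := by simp

theorem b2_two_mul_gg : 2 * c.gg = c.l * c.B0 := by
  rw [gg, ← Finset.sum_mul, ← mul_assoc, mul_comm 2, Finset.sum_range_id_mul_two, B0, mul_assoc]

theorem gg_le : c.gg ≤ c.l * c.B0 := by
  rw [← b2_two_mul_gg]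
  omega

theorem two_mul_gg : 2 * c.gg = c.l * c.B0 := b2_two_mul_gg

/-! ### the norm -/

theorem b3_step (φ : c.L) (j : ℕ) :
    φ * c.sg 1 (∏ k ∈ range j, c.sg k φ) = ∏ k ∈ range (j + 1), c.sg k φ := by
  rw [Finset.prod_range_succ', sg_zero, mul_comm, map_prod]
  simp only [sg_sg, add_comm 1]

theorem nrm_mul (φ ψ : c.L) : c.nrm (φ * ψ) = c.nrm φ * c.nrm ψ := by
  simp only [nrm, map_mul, Finset.prod_mul_distrib]

theorem nrm_div (φ ψ : c.L) : c.nrm (φ / ψ) = c.nrm φ / c.nrm ψ := by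
  simp only [nrm, map_div₀, Finset.prod_div_distrib]

theorem nrm_pow (φ : c.L) (k : ℕ) : c.nrm (φ ^ k) = c.nrm φ ^ k := by
  simp only [nrm, map_pow, Finset.prod_pow]

theorem nrm_ne {φ : c.L} (h : φ ≠ 0) : c.nrm φ ≠ 0 := by
  exact Finset.prod_ne_zero_iff.2 fun k _ => sg_ne h k

theorem sg_nrm (φ : c.L) : c.sg 1 (c.nrm φ) = c.nrm φ := by
  rcases eq_or_ne φ 0 with rfl | h
  · have : c.nrm 0 = 0 := Finset.prod_eq_zero (Finset.mem_range.2 c.l_pos) (map_zero _)
    rw [this, map_zero]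
  · refine mul_left_cancel₀ h ?_
    rw [nrm, b3_step, Finset.prod_range_succ, sg_l, mul_comm]

theorem nrm_of_fixed {φ : c.L} (h : c.sg 1 φ = φ) : c.nrm φ = φ ^ c.l := by
  simp only [nrm, sg_of_fixed h, Finset.prod_const, Finset.card_range]

theorem nrm_smul (a : E) (φ : c.L) : c.nrm (a • φ) = a ^ c.l • c.nrm φ := by
  simp only [nrm, map_smul, Finset.prod_smul, Finset.prod_const, Finset.card_range]

/-- Hilbert 90 (Poincaré series `∑_j ψ σψ ⋯ σ^{j-1}ψ σ^j(y^i)`, one of which is not zero by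
Vandermonde). -/
theorem hilbert90 {ψ : c.L} (h : c.nrm ψ = 1) : ∃ χ : c.L, χ ≠ 0 ∧ ψ * c.sg 1 χ = χ := by
  have key : ∀ u : c.L, ψ * c.sg 1 (∑ j ∈ range c.l, (∏ k ∈ range j, c.sg k ψ) * c.sg j u) =
      ∑ j ∈ range c.l, (∏ k ∈ range j, c.sg k ψ) * c.sg j u := by
    intro u
    have h1 := Finset.sum_range_succ (fun j => (∏ k ∈ range j, c.sg k ψ) * c.sg j u) c.l
    rw [Finset.sum_range_succ', sg_l, sg_zero, Finset.prod_range_zero, ← nrm, h] at h1
    refine Eq.trans ?_ (add_right_cancel h1)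
    rw [map_sum, Finset.mul_sum]
    refine Finset.sum_congr rfl fun j _ => ?_
    rw [map_mul, ← mul_assoc, b3_step, sg_sg, add_comm 1 j]
  by_contra hne
  push Not at hne
  have h0 : ∀ i : ℕ, ∑ j ∈ range c.l, (c.ζ ^ j) ^ i • ∏ k ∈ range j, c.sg k ψ = 0 := by
    intro i
    by_contra h1
    refine hne _ ?_ (key (c.y ^ i))
    intro h2
    refine mul_ne_zero h1 (pow_ne_zero i y_ne) (Eq.trans ?_ h2)
    rw [Finset.sum_mul]
    refine Finset.sum_congr rfl fun j _ => ?_
    rw [map_pow, sg_y, _root_.smul_pow, smul_mul_assoc, mul_smul_comm]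
  have h3 := Finset.sum_eq_zero fun i (_ : i ∈ range c.l) => h0 i
  rw [Finset.sum_comm, Finset.sum_eq_single 0] at h3
  · simp only [pow_zero, one_pow, Finset.prod_range_zero, one_smul, Finset.sum_const,
      Finset.card_range, nsmul_eq_mul, mul_one] at h3
    exact c.l_ne ((algebraMap E c.L).injective (by rw [map_natCast, h3, map_zero]))
  · intro j hj hj0
    have h4 : c.ζ ^ j ≠ 1 := c.hζ.pow_ne_one_of_pos_of_lt hj0 (Finset.mem_range.1 hj)
    rw [← Finset.sum_smul, geom_sum_eq h4, ← pow_mul, mul_comm, pow_mul, c.ζ_pow, one_pow,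
      sub_self, zero_div, zero_smul]
  · intro hn
    exact absurd (Finset.mem_range.2 c.l_pos) hn

/-! ### roots -/

theorem mem_rts {a : E} : a ∈ c.rts ↔ c.f.eval a = 0 := by
  rw [rts, Multiset.mem_toFinset, mem_roots c.f_ne, IsRoot.def]

theorem card_rts [IsAlgClosed E] : c.rts.card = c.l * c.m := by
  rw [rts, Multiset.toFinset_card_of_nodup (nodup_roots c.sep), IsAlgClosed.card_roots_eq_natDegree,
    c.deg]

theorem f_eq_prod [IsAlgClosed E] : c.f = ∏ a ∈ c.rts, (X - C a) := by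
  rw [rts, Finset.prod, Multiset.toFinset_val, (nodup_roots c.sep).dedup]
  exact (IsAlgClosed.splits c.f).eq_prod_roots_of_monic c.monic

theorem derivative_ne {a : E} (h : c.f.eval a = 0) : c.f.derivative.eval a ≠ 0 := by
  simpa using c.sep.aeval_derivative_ne_zero (x := a) (by simpa using h)

/-! ### Frobenius -/

theorem Sym.aut_smul (T : c.Sym) (a : E) (φ : c.L) : T.aut (a • φ) = T.θ a • T.aut φ := by
  rw [Algebra.smul_def, Algebra.smul_def, map_mul, T.aut_algebraMap]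

theorem Sym.aut_sg (T : c.Sym) (k : ℕ) (φ : c.L) : T.aut (c.sg k φ) = c.sg k (T.aut φ) := by
  have : T.aut.comp (c.sg k : c.L →+* c.L) = (c.sg k : c.L →+* c.L).comp T.aut :=
    c.ringHom_ext (fun a => by simp) (by simp) (by simp [T.aut_smul, T.hζ])
  exact DFunLike.congr_fun this φ

theorem Sym.aut_of_cv (T : c.Sym) {N : ℕ} {φ : c.L} (h : φ ∈ c.S N)
    (hk : ∀ k, T.θ (c.cv φ k) = c.cv φ k) : T.aut φ = φ := by
  conv_lhs => rw [← mkp_pc h]
  conv_rhs => rw [← mkp_pc h]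
  unfold mkp
  rw [map_sum]
  refine Finset.sum_congr rfl fun j hj => ?_
  have hj := Finset.mem_range.1 hj
  rw [map_mul, map_pow, T.aut_y, T.aut_po]
  congr 2
  ext a
  have := hk (a * c.l + j)
  rw [cv, Nat.mul_add_mod_of_lt hj, add_comm, Nat.add_mul_div_right _ _ c.l_pos,
    Nat.div_eq_of_lt hj, zero_add] at this
  rw [coeff_map]
  exact this

end Crv
end Crest.Agent.R312
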