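import Crest.Agent.R312.AlgCR

/-!
# Row 312, algorithm half: `colon` and `red` are computable
Each statement: unfold the definition in `AlgFun.lean` and apply the closure lemmas.
(Write `_root_.funext`: `Polynomial.funext` is open.)
-/

set_option autoImplicit false
open Finset Polynomial Crest.Agent.Lib.PolyTime
open scoped Classical

noncomputable section
namespace Crest.Agent.R312
namespace Ctx
variable {α : Type} [PEnc α] {E : α → Type} [∀ a, Field (E a)] {ι : α → Type} {C : Ctx α E ι}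
  {c : ∀ a, Crv (E a)} {β γ : Type} [PEnc β] [PEnc γ] {rt : ∀ a, E a → E a} {π : β → α}
  {s u : ∀ b, ι (π b) → (c (π b)).L} {z : ∀ b, ι (π b) → E (π b)} {n r B N M e δ τ j k d : β → ℕ}
  {W a : ∀ b, ι (π b) → ℕ → (c (π b)).L}

theorem CR.lin (H : C.CrvOK c rt) (hπ : Poly π) (hn : PN n) (hW : C.CFb c π n W)
    {v : ∀ b, ι (π b) → ℕ → E (π b)} (hv : C.CP (fun p : Ix n => π p.1) fun p i => v p.1 i p.2) :
    C.CR c π fun b i => (c (π b)).lin (n b) (W b i) (v b i) := by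
  exact CR.sum H hπ hn (W := fun b i k => v b i k • W b i k) (CR.smul H hv hW)

theorem CR.comb (H : C.CrvOK c rt) (hπ : Poly π) (hr : PN r) (hW : C.CFb c π r W) (hk : Poly k) :
    C.CR c π fun b i => (c (π b)).comb (r b) (W b i) (k b) := by
  exact CR.sum H hπ hr (W := fun b i j => ((k b : E (π b)) ^ j) • W b i j)
    (CR.smul H ((CP.natCast H.ok (hπ.comp (poly_ix1 r)) (hk.comp (poly_ix1 r))).pow H.ok (poly_ix2 r))
      hW)

theorem CF.prodF (H : C.CrvOK c rt) (hπ : Poly π) (hn : PN n) (hr : PN r)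
    {V : ∀ b, ι (π b) → ℕ → ℕ → (c (π b)).L}
    (hV : C.CFb c (fun p : Ix n => π p.1) (fun p => r p.1) fun p i => V p.1 i p.2) :
    C.CF c π fun b i => (c (π b)).prodF (n b) (r b) (V b i) := by
  have g1 : Poly fun q : Ix fun p : β × ℕ => n p.1 => q.1.1 := (poly_ix1 _).fst
  exact CR.prod H (hπ.comp Poly.id'.fst) hn.fst
    (W := fun (p : β × ℕ) i j => (c (π p.1)).comb (r p.1) (V p.1 i j) p.2)
    (CR.comb H (hπ.comp g1) (hr.comp g1)
      (hV.comp (g := fun q : Ix fun p : β × ℕ => n p.1 => (⟨q.1.1, q.2⟩ : Ix n))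
        (poly_ixMk g1 (poly_ix2 _) fun q => q.2.2)) (poly_ix1 _).snd)

/-- `CN.fst`, `CF.cut`, `CR.sel`. -/
theorem CR.fnz (H : C.CrvOK c rt) (hπ : Poly π) (hr : PN r) (hW : C.CFb c π r W) :
    C.CR c π fun b i => (c (π b)).fnz (r b) (W b i) := by
  exact CR.sel H hπ (CN.fst H.ok hπ hr (p := fun b i k => W b i k ≠ 0) (CR.ne_zero H hW))
    ((CF.cut H hπ hr hW).b _)

theorem CF1_kerv2 (H : C.OK) (hπ : Poly π) {r' : β → ℕ} (hn : PN n) (hr : PN r) (hr' : PN r')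
    {A : ∀ b, ι (π b) → ℕ → ℕ → ℕ → E (π b)}
    (hA : C.CP (fun q : Ix fun p : Ix fun o : Ix r => r' o.1 => n p.1.1 => π q.1.1.1)
      fun q i => A q.1.1.1 i q.1.1.2 q.1.2 q.2)
    {g : γ → β} (hg : Poly g) {d j : γ → ℕ} (hd : Poly d) (hj : Poly j) :
    C.CP (fun x => π (g x)) fun x i =>
      kerv2 (n (g x)) (r (g x)) (r' (g x)) (A (g x) i) (d x) (j x) := by
  have a1 := poly_ix1 fun p : Ix fun o : Ix fun x => r (g x) => r' (g o.1) => n (g p.1.1)
  have a2 := a1.sigmaFst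
  exact CP.kerv2 H (hπ.comp hg) (hn.comp hg) (hr.comp hg) (hr'.comp hg) (M := fun x i => A (g x) i)
    (hA.comp (g := fun q : Ix fun p : Ix fun o : Ix fun x => r (g x) => r' (g o.1) => n (g p.1.1) =>
        ⟨⟨⟨g q.1.1.1, q.1.1.2⟩, q.1.2⟩, q.2⟩)
      (poly_ixMk (n := fun p : Ix fun o : Ix r => r' o.1 => n p.1.1)
        (poly_ixMk (n := fun o : Ix r => r' o.1)
          (poly_ixMk (n := r) (hg.comp a2.sigmaFst) a2.sigmaFinVal fun q => q.1.1.2.2)
          a1.sigmaFinVal fun q => q.1.2.2) (poly_ix2 _) fun q => q.2.2)) hd hj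

theorem CF1_rsd (H : C.CrvOK c rt) (hN : PN N) (hM : PN M) (hs : C.CR c π s) (hu : C.CR c π u)
    (he : Poly e) : C.CP π fun b i => rsd ((c (π b)).dimN (N b)) ((c (π b)).dimN (M b))
      (fun k => (c (π b)).cv (s b i * (c (π b)).mono (M b) k)) ((c (π b)).cv (u b i)) (e b) := by
  have hπ := hs.poly
  have a1 := poly_ix1 fun p : Ix fun b => (c (π b)).dimN (M b) => (c (π p.1)).dimN (N p.1)
  have a2 := a1.sigmaFst
  exact CP.rsd H.ok hπ (H.dimN hπ hN) (H.dimN hπ hM)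
    (M := fun b i k => (c (π b)).cv (s b i * (c (π b)).mono (M b) k))
    ((CR.mul H (hs.comp a2) (CR.mono H (hπ.comp a2) (hM.comp a2) a1.sigmaFinVal)).cv' (poly_ix2 _))
    hu.cv he

theorem CF1_ent (H : C.CrvOK c rt) (hB : PN B) (hN : PN N) (hM : PN M) (hW : C.CFb c π r W)
    (hs : C.CR c π s) (n r' : β → ℕ) :
    C.CP (fun q : Ix fun p : Ix fun o : Ix r => r' o.1 => n p.1.1 => π q.1.1.1) fun q i =>
      rsd ((c (π q.1.1.1)).dimN (B q.1.1.1 + N q.1.1.1 + M q.1.1.1)) ((c (π q.1.1.1)).dimN (M q.1.1.1))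
        (fun i' => (c (π q.1.1.1)).cv (s q.1.1.1 i * (c (π q.1.1.1)).mono (M q.1.1.1) i'))
        ((c (π q.1.1.1)).cv ((c (π q.1.1.1)).mono (N q.1.1.1) q.2 * W q.1.1.1 i q.1.1.2)) q.1.2 := by
  have a1 := poly_ix1 fun p : Ix fun o : Ix r => r' o.1 => n p.1.1
  have a2 := a1.sigmaFst
  have a3 : Poly fun q : Ix fun p : Ix fun o : Ix r => r' o.1 => n p.1.1 => q.1.1.1 := a2.sigmaFst
  exact CF1_rsd H (((hB.add hN).add hM).comp a3) (hM.comp a3) (hs.comp a3)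
    (CR.mul H (CR.mono H (hs.poly.comp a3) (hN.comp a3) (poly_ix2 _))
      (hW.app a3 a2.sigmaFinVal fun q => q.1.1.2.2)) a1.sigmaFinVal

/-- `CF.cut`, `CR.lin`, `CP.kerv2`, `CP.rsd`. -/
theorem CF.colon (H : C.CrvOK c rt) (hr : PN r) (hB : PN B) (hN : PN N) (hM : PN M) (hW : C.CFb c π r W)
    (hs : C.CR c π s) :
    C.CF c π fun b i => (c (π b)).colon (r b) (B b) (W b i) (s b i) (N b) (M b) := by
  have hπ := hs.poly
  have b1 := poly_ix1 fun p : Ix fun b => (c (π b)).dimN (N b) => (c (π p.1)).dimN (N p.1)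
  have b2 : Poly fun q : Ix fun p : Ix fun b => (c (π b)).dimN (N b) => (c (π p.1)).dimN (N p.1) =>
    q.1.1 := b1.sigmaFst
  have h1 := CF1_kerv2 H.ok hπ (H.dimN hπ hN) hr (H.dimN hπ ((hB.add hN).add hM))
    (A := fun b i k e j => rsd ((c (π b)).dimN (B b + N b + M b)) ((c (π b)).dimN (M b))
      (fun i' => (c (π b)).cv (s b i * (c (π b)).mono (M b) i'))
      ((c (π b)).cv ((c (π b)).mono (N b) j * W b i k)) e)
    (CF1_ent H hB hN hM hW hs (fun b => (c (π b)).dimN (N b)) fun b => (c (π b)).dimN (B b + N b + M b))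
    b2 b1.sigmaFinVal (poly_ix2 _)
  refine CF.cut H hπ (H.dimN hπ hN) ?_
  exact CR.lin H (π := fun p : Ix fun b => (c (π b)).dimN (N b) => π p.1) (hπ.comp (poly_ix1 _))
    ((H.dimN hπ hN).ix _) (W := fun p _ => (c (π p.1)).mono (N p.1))
    (CR.mono H (hπ.comp b2) (hN.comp b2) (poly_ix2 _)) h1

theorem CN.minN (H : C.CrvOK c rt) (hr : PN r) (hB : PN B) (hN : PN N) (hW : C.CFb c π r W) (hs : C.CR c π s) :
    C.CN π (fun b => N b + 1 + 1) fun b i => (c (π b)).minN (r b) (B b) (W b i) (s b i) (N b) := by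
  have hπ := hs.poly
  have hπ' : Poly fun q : Ix fun b => N b + 1 => π q.1 := hπ.comp (poly_ix1 _)
  have hv := hN.succ.var
  exact CN.fst H.ok hπ hN.succ
    (p := fun b i N' => ∃ d < (c (π b)).dimN N', (c (π b)).colon (r b) (B b) (W b i) (s b i) N' N' d ≠ 0)
    (CB.exists_lt H.ok hπ' (H.dimN hπ' hv)
      (p := fun q i d => (c (π q.1)).colon (r q.1) (B q.1) (W q.1 i) (s q.1 i) q.2 q.2 d ≠ 0)
      (CR.ne_zero H ((CF.colon H (hr.ix _) (hB.ix _) hv hv (hW.ix _) (hs.ix _)).b _)))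

theorem CF.redA (H : C.CrvOK c rt) (hπ : Poly π) (hr : PN r) (hB : PN B) (hN : PN N) (hW : C.CFb c π r W) :
    C.CF c π fun b i => (c (π b)).redA (r b) (B b) (W b i) (N b) := by
  have h1 := ((H.pl hπ).mul hB).add (H.B0 hπ)
  have h2 := CR.fnz H hπ hr hW
  exact CF.colon H (H.dimN hπ h1) h1 (H.Ns hπ) (((H.Ns hπ).add h1).sub hN.poly)
    ((CF.colon H hr hB h1 h1 hW h2).b _)
    (CR.fnz H hπ (H.dimN hπ hN) ((CF.colon H hr hB hN hN hW h2).b _))

/-- `CF.sel` with `CN.minN`. -/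
theorem CF.red (H : C.CrvOK c rt) (hπ : Poly π) (hr : PN r) (hB : PN B) (hW : C.CFb c π r W) :
    C.CF c π fun b i => (c (π b)).red (r b) (B b) (W b i) := by
  have h1 := CN.minN H hr hB (hB.add (H.B0 hπ)) hW (CR.fnz H hπ hr hW)
  exact CF.sel H hπ h1 (V := fun b i N' => (c (π b)).redA (r b) (B b) (W b i) N')
    (CF.redA H (hπ.comp (poly_ix1 _)) (hr.ix _) (hB.ix _) h1.pn.var (hW.ix _))

end Ctx
end Crest.Agent.R312
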