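import Crest.Agent.R312.AlgCF1

/-!
# Row 312, algorithm half: good sections, norms and `adj` are computable
Each statement: unfold the definition in `AlgFun.lean` and apply the closure lemmas.
(Write `_root_.funext`: `Polynomial.funext` is open.)
-/

set_option autoImplicit false
open Finset Polynomial Crest.Agent.Lib.PolyTime
open scoped Classical

noncomputable section
namespace Crest.Agent.R312
namespace Ctx
variable {α : Type} [PEnc α] {E : α → Type} [∀ a, Field (E a)] {ι : α → Type} {C : Ctx α E ι}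
  {c : ∀ a, Crv (E a)} {β γ : Type} [PEnc β] [PEnc γ] {rt : ∀ a, E a → E a} {π : β → α}
  {s u : ∀ b, ι (π b) → (c (π b)).L} {z : ∀ b, ι (π b) → E (π b)} {n r B N M e δ τ j k d : β → ℕ}
  {W a : ∀ b, ι (π b) → ℕ → (c (π b)).L}

theorem CR.pS (H : C.CrvOK c rt) (hW : C.CF c π W) (hτ : Poly τ) :
    C.CR c π fun b i => (c (π b)).pS (W b i) (τ b) := by
  have hπ := hW.poly
  exact CR.comb H hπ (H.rs hπ) (hW.b _) (hτ.div (H.T2 hπ).poly)

theorem CF.pW (H : C.CrvOK c rt) (hW : C.CF c π W) (hτ : Poly τ) :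
    C.CF c π fun b i => (c (π b)).pW (W b i) (τ b) := by
  have hπ := hW.poly
  exact CF.colon H (H.rs hπ) (H.Ns hπ) (H.N4 hπ) (H.N4 hπ) (hW.b _) (CR.pS H hW hτ)

theorem CR.pB (H : C.CrvOK c rt) (hW : C.CF c π W) (hτ : Poly τ) :
    C.CR c π fun b i => (c (π b)).pB (W b i) (τ b) := by
  have hπ := hW.poly
  exact CR.comb H hπ (H.r4 hπ) ((CF.pW H hW hτ).b _) (hτ.mod (H.T2 hπ).poly)

/-- The condition at the roots: `SplitOK.forall`, `CR.up`, `CrvOK.pt`, `CR.ev0` in `C.sp c`. -/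
theorem CB.good (H : C.CrvOK c rt) (hW : C.CF c π W) (hτ : Poly τ) :
    C.CB π fun b i => (c (π b)).good (W b i) (τ b) := by
  have hπ := hW.poly
  have hB := CR.pB H hW hτ
  have h1 := (CR.pS H hW hτ).ne_zero H
  have h2 : C.CB π fun b i => ∀ a ∈ (c (π b)).rts,
      (c (π b)).ev0 ((c (π b)).pB (W b i) (τ b)) a ≠ 0 :=
    H.splitOK.forall (P := fun b i a => (c (π b)).ev0 ((c (π b)).pB (W b i) (τ b)) a ≠ 0)
      (CB.ne_zero H.sp.ok (CR.ev0 H.sp (hB.up H) (H.pt hπ)))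
  have h3 : C.CB π fun b i => ∀ t < (c (π b)).l,
      (c (π b)).topv (c (π b)).N4 t ((c (π b)).pB (W b i) (τ b)) ≠ 0 :=
    CB.forall_lt H.ok hπ (H.pl hπ)
      (p := fun b i t => (c (π b)).topv (c (π b)).N4 t ((c (π b)).pB (W b i) (τ b)) ≠ 0)
      (CB.ne_zero H.ok (CR.topv H (hB.ix _) ((H.N4 hπ).ix _).poly (poly_ix2 _)))
  exact (h1.and H.ok (h2.and H.ok h3)).congr fun b i => Iff.rfl

theorem CN.tau (H : C.CrvOK c rt) (hW : C.CF c π W) :
    C.CN π (fun b => (c (π b)).T1 * (c (π b)).T2 + 1) fun b i => (c (π b)).tau (W b i) := by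
  have hπ := hW.poly
  exact CN.fst H.ok hπ ((H.T1 hπ).mul (H.T2 hπ)) (p := fun b i τ => (c (π b)).good (W b i) τ)
    (CB.good H (hW.ix _) (poly_ix2 _))

theorem CR.sec (H : C.CrvOK c rt) (hW : C.CF c π W) :
    C.CR c π fun b i => (c (π b)).sec (W b i) := by
  have hπ := hW.poly
  exact CR.sel H hπ (CN.tau H hW) (W := fun b i τ => (c (π b)).pS (W b i) τ)
    (CR.pS H (hW.ix _) (poly_ix2 _))

theorem CF.Wj (H : C.CrvOK c rt) (hW : C.CF c π W) (hj : PN j) :
    C.CF c π fun b i => (c (π b)).Wj (W b i) (j b) := by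
  have hπ := hW.poly
  exact CF.prodF H hπ hj (H.rs hπ) (V := fun b i a k => (c (π b)).sg a (W b i k))
    (CR.sg H (hW.app (g := fun q : Ix fun p : Ix j => (c (π p.1)).rs => q.1.1)
      ((poly_ix1 _).comp (poly_ix1 _)) (poly_ix2 _)) ((poly_ix2 _).comp (poly_ix1 _)))

theorem CR.sj (H : C.CrvOK c rt) (hs : C.CR c π s) (hj : PN j) :
    C.CR c π fun b i => (c (π b)).sj (s b i) (j b) := by
  have hπ := hs.poly
  exact CR.prod H hπ hj (W := fun b i k => (c (π b)).sg k (s b i))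
    (CR.sg H (hs.ix _) (poly_ix2 _))

theorem CF.Cj (H : C.CrvOK c rt) (hW : C.CF c π W) (hs : C.CR c π s) (hj : PN j) (hN : PN N) :
    C.CF c π fun b i => (c (π b)).Cj (W b i) (s b i) (j b) (N b) := by
  have hπ := hW.poly
  exact CF.colon H (H.rl hπ) (H.Nl hπ) hN hN ((CF.Wj H hW hj).b _) (CR.sj H hs hj)

theorem CN.del (H : C.CrvOK c rt) (hW : C.CF c π W) :
    C.CN π (fun b => (c (π b)).Nl + 1 + 1) fun b i => (c (π b)).del (W b i) := by
  have hπ := hW.poly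
  exact CN.minN H (H.rl hπ) (H.Nl hπ) (H.Nl hπ) ((CF.Wj H hW (H.pl hπ)).b _)
    (CR.sj H (CR.sec H hW) (H.pl hπ))

theorem CR.uA (H : C.CrvOK c rt) (hW : C.CF c π W) (hδ : PN δ) :
    C.CR c π fun b i => (c (π b)).uA (W b i) (δ b) := by
  have hπ := hW.poly
  exact CR.fnz H hπ (H.dimN hπ hδ) ((CF.Cj H hW (CR.sec H hW) (H.pl hπ) hδ).b _)

theorem CR.uN (H : C.CrvOK c rt) (hz : C.CP π z) (hW : C.CF c π W) (hδ : PN δ) :
    C.CR c π fun b i => (c (π b)).uN (z b i) (W b i) (δ b) := by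
  have hu := CR.uA H hW hδ
  exact CR.smul H ((CR.ev0 H hu hz).inv H.ok) hu

theorem CF.famP (H : C.CrvOK c rt) (hz : C.CP π z) :
    C.CF c π fun b i => (c (π b)).famP (z b i) := by
  have hπ : Poly fun p : β × ℕ => π p.1 := hz.poly.comp Poly.id'.fst
  exact (CR.ite' (p := fun p : β × ℕ => p.2 = 0)
    (Poly.decide_eq Poly.id'.snd (Lib.PolyTime.Poly.const 0)) (CR.y H hπ)
    (CR.ite' (p := fun p : β × ℕ => p.2 = 1)
      (Poly.decide_eq Poly.id'.snd (Lib.PolyTime.Poly.const 1))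
      ((CR.x H hπ).sub H (CR.const H hz.fst)) (CR.zero H hπ))).congr fun p i => rfl

theorem CF.famI (H : C.CrvOK c rt) (hπ : Poly π) :
    C.CF c π fun b _ => (c (π b)).famI := by
  have hπ' : Poly fun p : Ix fun b => (c (π b)).rs => π p.1 := hπ.comp (poly_ix1 _)
  have hm := CR.mono H hπ' (H.Ns hπ') (poly_ix2 _)
  exact CF.cut H hπ (H.rs hπ) (W := fun b _ k => (c (π b)).mono (c (π b)).Ns k -
      (c (π b)).topv (c (π b)).Ns 0 ((c (π b)).mono (c (π b)).Ns k) • (c (π b)).x ^ (c (π b)).Ns)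
    (hm.sub H (CR.smul H (CR.topv H hm (H.Ns hπ').poly (Lib.PolyTime.Poly.const 0))
      (CR.x_pow H hπ' (H.Ns hπ'))))

theorem CF.adjA (H : C.CrvOK c rt) (hz : C.CP π z) (hW : C.CF c π W) (hδ : Poly δ) :
    C.CF c π fun b i => (c (π b)).adjA (z b i) (W b i) (δ b) := by
  have hπ := hW.poly
  have hn : PN fun b => δ b % (c (π b)).l + 1 :=
    ((H.pl hπ).of_le (hδ.mod (H.pl hπ).poly) fun b => (Nat.mod_lt _ (c (π b)).l_pos).le).succ
  have hg : Poly fun q : Ix fun p : Ix fun b => δ b % (c (π b)).l + 1 => (c (π p.1)).rs => q.1.1 :=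
    (poly_ix1 _).comp (poly_ix1 _)
  have hV : C.CFb c (fun p : Ix fun b => δ b % (c (π b)).l + 1 => π p.1) (fun p => (c (π p.1)).rs)
      fun p i => if (p.2 : ℕ) = 0 then W p.1 i else (c (π p.1)).famP (z p.1 i) :=
    (CR.ite' (p := fun q : Ix fun p : Ix fun b => δ b % (c (π b)).l + 1 => (c (π p.1)).rs =>
        (q.1.2 : ℕ) = 0)
      (Poly.decide_eq ((poly_ix2 _).comp (poly_ix1 _)) (Lib.PolyTime.Poly.const 0))
      (hW.app hg (poly_ix2 _)) ((CF.famP H hz).app hg (poly_ix2 _))).congr fun q i => by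
        by_cases h : (q.1.2 : ℕ) = 0 <;> simp only [h, if_true, if_false]
  exact CF.red H hπ (H.rl hπ) (H.Nl hπ) ((CF.prodF H hπ hn (H.rs hπ)
    (V := fun b i a => if a = 0 then W b i else (c (π b)).famP (z b i)) hV).b _)

theorem CF.adj (H : C.CrvOK c rt) (hz : C.CP π z) (hW : C.CF c π W) :
    C.CF c π fun b i => (c (π b)).adj (z b i) (W b i) := by
  have hπ := hW.poly
  exact CF.sel H hπ (CN.del H hW) (V := fun b i δ => (c (π b)).adjA (z b i) (W b i) δ)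
    (CF.adjA H (hz.ix _) (hW.ix _) (poly_ix2 _))

end Ctx
end Crest.Agent.R312
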