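import Crest.Agent.R312.AlgCF2

/-!
# Row 312, algorithm half: division by `λ` is computable
Each statement: unfold the definition in `AlgFun.lean` and apply the closure lemmas.
(Write `_root_.funext`: `Polynomial.funext` is open.)
-/

set_option autoImplicit false
open Finset Polynomial Crest.Agent.Lib.PolyTime
open scoped Classical

noncomputable section
namespace Crest.Agent.R312
namespace Ctx
variable {α : Type} [PEnc α] {E : α → Type} [∀ a, Field (E a)] {ι : α → Type} {C : Ctx α E ι}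
  {c : ∀ a, Crv (E a)} {β γ : Type} [PEnc β] [PEnc γ] {rt : ∀ a, E a → E a} {π : β → α}
  {s u : ∀ b, ι (π b) → (c (π b)).L} {z : ∀ b, ι (π b) → E (π b)} {n r B N M e δ τ j k d : β → ℕ}
  {W a : ∀ b, ι (π b) → ℕ → (c (π b)).L}

theorem CR.zv (H : C.CrvOK c rt) (hW : C.CF c π W) (he : PN e) (hk : PN k) :
    C.CR c π fun b i => (c (π b)).zv (W b i) (e b) (k b) := by
  have hq := hk.div (H.nC hW.poly).poly
  exact (CF.Cj H hW (CR.sec H hW) hq ((H.B0 hW.poly).add (hq.mul he))).app'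
    (hk.poly.mod (H.nC hW.poly).poly)

/-- `SplitOK.itp`, `CX.coeff`; in `C.sp c`: `CR.up`, `CR.pc`, `CX.eval`, `CrvOK.pt`. -/
theorem CP.zM (H : C.CrvOK c rt) {ρ : ∀ b, ι (π b) → E (π b) → E (π b)}
    (hρ : (C.sp c).CP π fun b i => ρ b i.1 i.2.1) (hW : C.CF c π W) (he : PN e) (hj : Poly j) (hd : Poly d)
    (hk : PN k) :
    C.CP π fun b i => (c (π b)).zM (ρ b i) (W b i) (e b) (j b) (d b) (k b) := by
  have hπ := hW.poly
  have hl := (H.pl hπ).poly
  have hq := hk.div (H.nC hπ).poly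
  have hv := CR.zv H hW he hk
  have ho := H.sp.ok
  refine CP.ite' (hd.decide_lt ((H.pl hπ).mul (H.pm hπ)).poly)
    (CP.ite' ((((hj.div hl).add (hj.mod hl)).add (Lib.PolyTime.Poly.const 1)).decide_lt hl) ?_
      (CP.zero H.ok hπ))
    (CP.ite' (hq.poly.decide_eq hj) (CR.topv H hv ((H.B0 hπ).add (hq.mul he)).poly
      (Lib.PolyTime.Poly.const 0)) (CP.zero H.ok hπ))
  exact (H.splitOK.itp (F := fun b i x => ((c (π b)).pc ((c (π b)).zv (W b i) (e b) (k b))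
      (j b % (c (π b)).l)).eval x * (ρ b i x * (c (π b)).ζ ^ (j b / (c (π b)).l)) ^ (k b / (c (π b)).nC))
    ((((hv.up H).pc H.sp (hj.mod hl)).eval ho (H.pt hπ)).mul ho
      ((hρ.mul ho ((H.sp.cζ hπ).pow ho (hj.div hl))).pow ho hq.poly))).coeff hd

theorem CF3_zK (H : C.CrvOK c rt) {ρ : ∀ b, ι (π b) → E (π b) → E (π b)}
    (hρ : (C.sp c).CP π fun b i => ρ b i.1 i.2.1) (hW : C.CF c π W) (he : PN e) (hd : Poly d)
    (hj : Poly j) : C.CP π fun b i => kerv2 ((c (π b)).l * (c (π b)).nC) ((c (π b)).l * (c (π b)).l)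
      ((c (π b)).l * (c (π b)).m + 1) ((c (π b)).zM (ρ b i) (W b i) (e b)) (d b) (j b) := by
  have hπ := hW.poly
  have hn := (H.pl hπ).mul (H.nC hπ)
  have a0 := poly_ix1 fun p : Ix fun o : Ix fun b => (c (π b)).l * (c (π b)).l =>
    (c (π o.1)).l * (c (π o.1)).m + 1 => (c (π p.1.1)).l * (c (π p.1.1)).nC
  have a1 := a0.sigmaFst.sigmaFst
  exact CP.kerv2 H.ok hπ hn ((H.pl hπ).mul (H.pl hπ)) ((H.pl hπ).mul (H.pm hπ)).succ
    (CP.zM H (hρ.comp a1) (hW.comp a1) (he.comp a1) a0.sigmaFst.sigmaFinVal a0.sigmaFinVal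
      ((hn.ix _).ix _).var) hd hj

theorem CR.zA (H : C.CrvOK c rt) {ρ : ∀ b, ι (π b) → E (π b) → E (π b)}
    (hρ : (C.sp c).CP π fun b i => ρ b i.1 i.2.1) (hW : C.CF c π W) (he : PN e) (hd : Poly d) (hj : PN j) :
    C.CR c π fun b i => (c (π b)).zA (ρ b i) (W b i) (e b) (d b) (j b) := by
  have hn := H.nC hW.poly
  have hq := ((hj.mul hn).ix _).add hn.var
  refine CR.lin H hW.poly hn
    (W := fun b i k => (c (π b)).zv (W b i) (e b) (j b * (c (π b)).nC + k)) ?_ ?_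
  · exact CR.zv H (hW.ix _) (he.ix _) hq
  · exact CF3_zK H (hρ.ix _) (hW.ix _) (he.ix _) (hd.comp (poly_ix1 _)) hq.poly

theorem CFb.zd (H : C.CrvOK c rt) {ρ : ∀ b, ι (π b) → E (π b) → E (π b)}
    (hρ : (C.sp c).CP π fun b i => ρ b i.1 i.2.1) (hW : C.CF c π W) (he : PN e) :
    C.CFb c π (fun b => (c (π b)).l) fun b i => (c (π b)).zd (ρ b i) (W b i) (e b) := by
  have hπ := hW.poly
  have key : ∀ n : β → ℕ, C.CR c (fun q : Ix fun p : Ix n => (c (π p.1)).l => π q.1.1) fun q i =>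
      (c (π q.1.1)).zA (ρ q.1.1 i) (W q.1.1 i) (e q.1.1) q.1.2 q.2 := fun n =>
    CR.zA H ((hρ.ix _).ix _) ((hW.ix _).ix _) ((he.ix _).ix _) (poly_ix1 _).sigmaFinVal
      ((H.pl hπ).ix _).var
  exact CFb.sel H hπ (V := fun b i => (c (π b)).zA (ρ b i) (W b i) (e b))
    (CN.fst H.ok hπ ((H.pl hπ).mul (H.nC hπ))
      (CB.exists_lt H.ok (hπ.comp (poly_ix1 _)) ((H.pl hπ).ix _) ((key _).ne_zero H))) (key _)

/-- Use the position `if j ≤ k then 0 else k + l - j` in the second branch. -/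
theorem CR.kY (H : C.CrvOK c rt) (hu : C.CR c π u) (ha : C.CFb c π (fun b => (c (π b)).l) a) (hj : Poly j)
    (hk : Poly k) (hjl : ∀ b, j b < (c (π b)).l) (hkl : ∀ b, k b < (c (π b)).l) :
    C.CR c π fun b i => (c (π b)).kY (u b i) (a b i) (j b) (k b) := by
  have hl := (H.pl hu.poly).poly
  have hp := hj.decide_le hk
  refine (CR.ite' hp (hu.mul H ((ha.app Poly.id' (hk.sub hj) fun b =>
    (Nat.sub_le _ _).trans_lt (hkl b)).sg H hj)) ((ha.app Poly.id'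
      (Lib.PolyTime.Poly.ite hp (Lib.PolyTime.Poly.const 0) ((hk.add hl).sub hj))
      fun b => ?_).sg H hj)).congr fun b i => ?_
  · have := hjl b
    split_ifs <;> omega
  · exact ite_congr rfl (fun _ => rfl) fun h => by rw [if_neg h]

theorem CF3_kK (H : C.CrvOK c rt) (hu : C.CR c π u) (ha : C.CFb c π (fun b => (c (π b)).l) a)
    (hr : Poly r) (hd : Poly d) (hj : Poly j) : C.CP π fun b i =>
      kerv2 ((c (π b)).l * (c (π b)).nK) (c (π b)).l ((c (π b)).dimN ((c (π b)).kN + (c (π b)).kM))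
        (fun k e z => if z / (c (π b)).nK ≤ r b then (c (π b)).cv ((c (π b)).mono (c (π b)).kN
          (z % (c (π b)).nK) * (c (π b)).kY (u b i) (a b i) (z / (c (π b)).nK) k) e else 0)
        (d b) (j b) := by
  have hπ := hu.poly
  have a0 := poly_ix1 fun p : Ix fun o : Ix fun b => (c (π b)).l =>
    (c (π o.1)).dimN ((c (π o.1)).kN + (c (π o.1)).kM) => (c (π p.1.1)).l * (c (π p.1.1)).nK
  have a1 := a0.sigmaFst.sigmaFst
  have h1 := hπ.comp a1
  have a2 := (poly_ix2 _).div (H.nK h1).poly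
  exact CP.kerv2 H.ok hπ ((H.pl hπ).mul (H.nK hπ)) (H.pl hπ) (H.dimN hπ ((H.kN hπ).add (H.kM hπ)))
    (CP.ite' (a2.decide_le (hr.comp a1))
      (((CR.mono H h1 (H.kN h1) ((poly_ix2 _).mod (H.nK h1).poly)).mul H
        (CR.kY H (hu.comp a1) (ha.comp a1) a2 a0.sigmaFst.sigmaFinVal
          (fun q => Nat.div_lt_of_lt_mul (q.2.2.trans_eq (mul_comm _ _))) fun q => q.1.1.2.2)).cv'
        a0.sigmaFinVal) (CP.zero H.ok h1)) hd hj

theorem CR.kC (H : C.CrvOK c rt) (hu : C.CR c π u) (ha : C.CFb c π (fun b => (c (π b)).l) a) (hr : Poly r)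
    (hd : Poly d) (hj : Poly j) :
    C.CR c π fun b i => (c (π b)).kC (u b i) (a b i) (r b) (d b) (j b) := by
  have hn := H.nK hu.poly
  refine CR.lin H hu.poly hn (W := fun b _ => (c (π b)).mono (c (π b)).kN) ?_ ?_
  · exact CR.mono H (hu.poly.comp (poly_ix1 _)) ((H.kN hu.poly).ix _) (poly_ix2 _)
  · exact CF3_kK H (hu.ix _) (ha.ix _) (hr.comp (poly_ix1 _)) (hd.comp (poly_ix1 _))
      (((hj.mul hn.poly).comp (poly_ix1 _)).add (poly_ix2 _))

theorem CN.kT (H : C.CrvOK c rt) (hu : C.CR c π u) (ha : C.CFb c π (fun b => (c (π b)).l) a)  :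
    C.CN π (fun b => (c (π b)).l * ((c (π b)).l * (c (π b)).nK) + 1) fun b i => (c (π b)).kT (u b i) (a b i) := by
  have hπ := hu.poly
  have hm := (H.pl hπ).mul (H.nK hπ)
  have hn := (H.pl hπ).mul hm
  have h1 := hn.var.div (hm.ix _).poly
  exact CN.fst H.ok hπ hn (CB.exists_lt H.ok (hπ.comp (poly_ix1 _)) h1.succ
    ((CR.kC H ((hu.ix _).ix _) ((ha.ix _).ix _) (h1.ix _).poly
      ((hn.var.mod (hm.ix _).poly).ix _).poly (poly_ix2 _)).ne_zero H))

theorem CrvOK.rinv (H : C.CrvOK c rt) (hπ : Poly π) (hr : Poly r) :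
    PN fun b => (c (π b)).rinv (r b) :=
  PN.fst' (H.pl hπ) (p := fun b k => r b * k % (c (π b)).l = 1)
    ((Poly.decide_eq (((hr.comp (poly_ix1 _)).mul (poly_ix2 _)).mod ((H.pl hπ).ix _).poly)
      (Lib.PolyTime.Poly.const 1)).congr fun _ => decide_eq_decide.2 Iff.rfl)

theorem CR.kAl (H : C.CrvOK c rt) (hu : C.CR c π u) (ha : C.CFb c π (fun b => (c (π b)).l) a) (hτ : PN τ) :
    C.CR c π fun b i => (c (π b)).kAl (u b i) (a b i) (τ b) := by
  have hπ := hu.poly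
  have h1 := ((H.pl hπ).mul (H.nK hπ)).poly
  have h2 := hτ.poly.div h1
  exact CR.pow H (CR.kC H hu ha h2 (hτ.poly.mod h1) h2) (H.rinv hπ h2)

theorem CR.kBe (H : C.CrvOK c rt) (hu : C.CR c π u) (ha : C.CFb c π (fun b => (c (π b)).l) a) (hτ : PN τ) :
    C.CR c π fun b i => (c (π b)).kBe (u b i) (a b i) (τ b) := by
  have hπ := hu.poly
  have h1 := ((H.pl hπ).mul (H.nK hπ)).poly
  have h2 := hτ.div h1
  exact CR.mul H (CR.pow H (CR.kC H hu ha h2.poly (hτ.poly.mod h1) (Lib.PolyTime.Poly.const 0))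
    (H.rinv hπ h2.poly)) (CR.pow H hu ((h2.mul (H.rinv hπ h2.poly)).div (H.pl hπ).poly))

theorem CF3b_prod (H : C.CrvOK c rt) (hs : C.CR c π s) (hj : Poly j) :
    C.CR c π fun b i => ∏ k ∈ range (c (π b)).l,
      if j b ≤ k then (c (π b)).sg k (s b i) else 1 := by
  have h1 := CR.ite' ((hj.comp (poly_ix1 fun b => (c (π b)).l)).decide_le (poly_ix2 _))
    (CR.sg H (hs.ix _) (poly_ix2 _)) (CR.one H (hs.poly.comp (poly_ix1 _)))
  exact CR.prod H hs.poly (H.pl hs.poly)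
    (W := fun b i k => if j b ≤ k then (c (π b)).sg k (s b i) else 1) h1

theorem CFb.hF (H : C.CrvOK c rt) (hW : C.CF c π W) (hs : C.CR c π s) {A A' : ∀ b, ι (π b) → (c (π b)).L}
    (hA : C.CR c π A) (hA' : C.CR c π A') (he : PN e) :
    C.CFb c π (fun b => (c (π b)).hr) fun b i => (c (π b)).hF (W b i) (s b i) (A b i) (A' b i) (e b) := by
  have hπ := (hs.ix fun b => (c (π b)).hr).poly
  have hz := PN.var (H.hr hs.poly)
  have h2 := ((PN.const 2).mul (H.rl hπ)).poly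
  have hj := hz.div h2
  have hl := H.pl hπ
  have t1 := (CF.Wj H (hW.ix _) hj).app' ((hz.poly.mod h2).div (Lib.PolyTime.Poly.const 2))
  have t2 := CR.sj H (hA.ix _) hj
  have t3 := CF3b_prod H ((CR.mul H hA' hs).ix _) hj.poly
  have t4 := CR.ite' (Poly.decide_eq (hz.poly.mod (Lib.PolyTime.Poly.const 2))
    (Lib.PolyTime.Poly.const 0)) (CR.one H hπ)
    (CR.x_pow H hπ (((hl.sub (Lib.PolyTime.Poly.const 1)).sub hj.poly).mul (he.ix _)))
  exact CR.mul H (CR.mul H (CR.mul H t1 t2) t3) t4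

theorem CF.dvB (H : C.CrvOK c rt) (hW : C.CF c π W) (hu : C.CR c π u) (ha : C.CFb c π (fun b => (c (π b)).l) a) 
    (he : PN e) (hτ : PN τ) :
    C.CF c π fun b i => (c (π b)).dvB (W b i) (u b i) (a b i) (e b) (τ b) :=
  CF.red H hu.poly (H.hr hu.poly) (H.hN hu.poly)
    (CFb.hF H hW (CR.sec H hW) (CR.kAl H hu ha hτ) (CR.kBe H hu ha hτ) he)

/-- `CF.sel` with `CN.kT`; `ρ` by `CP.root`, `CP.inv`, `CR.ev0` in `C.sp c` (`H.sp`). -/
theorem CF.dvA (H : C.CrvOK c rt) (hz : C.CP π z) (hW : C.CF c π W) (hδ : PN δ) :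
    C.CF c π fun b i => (c (π b)).dvA (rt (π b)) (z b i) (W b i) (δ b) := by
  have hπ := hz.poly
  have hu := CR.uN H hz hW hδ
  have he := hδ.div (H.pl hπ).poly
  have ha := CFb.zd H
    (ρ := fun b i x => rt (π b) ((c (π b)).ev0 ((c (π b)).uN (z b i) (W b i) (δ b)) x)⁻¹)
    (CP.root H.sp (CP.inv H.sp.ok (CR.ev0 H.sp (CR.up H hu) (H.pt hπ)))) hW he
  have hT := CN.kT H hu ha
  exact CF.sel H hπ hT (CF.dvB H (hW.ix _) (hu.ix _) (ha.ix _) (he.ix _) (PN.var hT.pn))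

theorem CF.dvd (H : C.CrvOK c rt) (hz : C.CP π z) (hW : C.CF c π W) :
    C.CF c π fun b i => (c (π b)).dvd (rt (π b)) (z b i) (W b i) :=
  CF.sel H hz.poly (CN.del H hW) (V := fun b i => (c (π b)).dvA (rt (π b)) (z b i) (W b i))
    (CF.dvA H (hz.ix _) (hW.ix _) (PN.var (CN.del H hW).pn))

end Ctx
end Crest.Agent.R312
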