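import Mathlib

/-!
# Row 312, algorithm half: modules over `ℤ[ζ_l]`
-/

set_option autoImplicit false
open Finset

namespace Crest.Agent.R312

variable {G : Type} [AddCommGroup G]

open Polynomial in
theorem AlgMod_comm {a b : Module.End ℤ G} (h : Commute a b) (p : ℤ[X]) :
    Commute a (aeval b p) :=
  Algebra.commute_of_mem_adjoin_singleton_of_commute (aeval_mem_adjoin_singleton ℤ b) h

open Polynomial in
theorem AlgMod_key {l : ℕ} (hl : l.Prime) {σ : Module.End ℤ G}
    (hσ : ∑ k ∈ range l, σ ^ k = 0) :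
    (1 - σ) ^ (l - 1) * aeval σ (∏ j ∈ range (l - 1), ∑ k ∈ range (j + 1), (X : ℤ[X]) ^ k) = l := by
  obtain ⟨n, rfl⟩ : ∃ n, l = n + 1 := ⟨l - 1, by have := hl.pos; omega⟩
  have := Fact.mk hl
  have hζ := Complex.isPrimitiveRoot_exp (n + 1) hl.ne_zero
  have e : ((1 - X) ^ n * ∏ j ∈ range n, ∑ k ∈ range (j + 1), (X : ℤ[X]) ^ k) =
      ∏ j ∈ range n, (1 - X ^ (j + 1)) := by
    rw [← prod_congr rfl fun j _ => mul_neg_geom_sum (X : ℤ[X]) (j + 1), prod_mul_distrib,
      prod_const, card_range]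
  have h1 : cyclotomic (n + 1) ℤ ∣ ∏ j ∈ range n, (1 - X ^ (j + 1)) - ((n + 1 : ℕ) : ℤ[X]) := by
    rw [cyclotomic_eq_minpoly hζ hl.pos]
    refine minpoly.isIntegrallyClosed_dvd (hζ.isIntegral hl.pos) ?_
    simp only [map_sub, map_prod, map_one, map_pow, aeval_X, map_natCast]
    rw [hζ.prod_one_sub_pow_eq_order]
    simp
  obtain ⟨q, hq⟩ := h1
  have h2 := congrArg (aeval σ) hq
  rw [← e, cyclotomic_prime] at h2
  simp only [map_sub, map_mul, map_one, map_pow, aeval_X, map_natCast, map_sum, hσ,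
    zero_mul] at h2
  exact sub_eq_zero.1 h2

/-- `∏_{j=1}^{l-1} (1 - σ ^ j) = l` when `1 + σ + ⋯ + σ ^ (l-1) = 0`
(the polynomial identity modulo `cyclotomic l ℤ`: `IsPrimitiveRoot.prod_one_sub_pow_eq_order`
in `ℂ` and `cyclotomic_eq_minpoly`, `minpoly.isIntegrallyClosed_dvd`), written with
`1 - σ ^ j = (1 - σ) (1 + ⋯ + σ ^ (j-1))`.  `U j` is the result of `j` steps of the recursion used
by the algorithm. -/
theorem lam_pow_iter {l : ℕ} (hl : l.Prime) {σ : Module.End ℤ G}
    (hσ : ∑ k ∈ range l, σ ^ k = 0) (U : ℕ → G)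
    (hU : ∀ j, U (j + 1) = ∑ k ∈ range (j % (l - 1) + 1), (σ ^ k) (U j)) (v : ℕ) :
    ((1 - σ) ^ ((l - 1) * v)) (U ((l - 1) * v)) = ((l : ℤ) ^ v) • U 0 := by
  have h1 : ∀ v j, j ≤ l - 1 → U ((l - 1) * v + j) = Polynomial.aeval σ
      (∏ i ∈ range j, ∑ k ∈ range (i + 1), (Polynomial.X : Polynomial ℤ) ^ k)
      (U ((l - 1) * v)) := by
    intro v j
    induction j with
    | zero => simp
    | succ j ih =>
      intro hj
      rw [← add_assoc, hU, ih (by omega), Nat.mul_add_mod, Nat.mod_eq_of_lt (by omega),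
        prod_range_succ_comm, map_mul]
      simp
  induction v with
  | zero => simp
  | succ v ih =>
    rw [mul_add_one, h1 v _ le_rfl, pow_add, Module.End.mul_apply,
      ← Module.End.mul_apply ((1 - σ) ^ (l - 1)), AlgMod_key hl hσ, Module.End.natCast_apply,
      map_nsmul, ih, pow_succ', mul_smul, natCast_zsmul]

/-- `l` is divisible by `(1 - σ) ^ (l - 1)`. -/
theorem exists_l_eq {l : ℕ} (hl : l.Prime) {σ : Module.End ℤ G}
    (hσ : ∑ k ∈ range l, σ ^ k = 0) :
    ∃ ε : Module.End ℤ G, Commute ε σ ∧ (l : Module.End ℤ G) = ε * (1 - σ) ^ (l - 1) :=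
  ⟨_, (AlgMod_comm (Commute.refl σ) _).symm, (AlgMod_key hl hσ).symm.trans
    ((AlgMod_comm ((Commute.one_left σ).sub_left (Commute.refl σ)) _).pow_left _).eq⟩

/-- Rationality of division points.  `F` commutes with `σ` and fixes the kernel of `λ = 1 - σ`;
if `F` fixes `λ ^ j z` with `j ≤ (l - 1) v` then `F ^ (l ^ v)` fixes `z`.
Put `η_s = F ^ (l ^ s) - 1`.  Then `λ ^ j η_0 z = 0`; every `η_s` maps `ker λ ^ (i+1)` to `ker λ ^ i`;
`η_{s+1} = η_s (η_s ^ (l-1) + l q)` with `q` commuting with everything (binomial theorem,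
`l ∣ choose l i`), and the second factor maps `ker λ ^ i` to `ker λ ^ (i - (l-1))`. -/
theorem pow_fix {l : ℕ} (hl : l.Prime) {σ F : Module.End ℤ G}
    (hσ : ∑ k ∈ range l, σ ^ k = 0) (hF : Commute F σ) (hker : ∀ z, (1 - σ) z = 0 → F z = z)
    {v j : ℕ} (hj : j ≤ (l - 1) * v) {z : G} (hz : F (((1 - σ) ^ j) z) = ((1 - σ) ^ j) z) :
    (F ^ l ^ v) z = z := by
  obtain ⟨ε, -, hε⟩ := exists_l_eq hl hσ
  obtain ⟨T, hT⟩ : ∃ T, T = 1 - σ := ⟨_, rfl⟩
  have hc : Commute T F := hT ▸ (Commute.one_left F).sub_left hF.symm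
  rw [← hT] at hker hz hε
  have hn : ∀ n, Commute T (F ^ n - 1) := fun n => (hc.pow_right n).sub_right (Commute.one_right T)
  have sw : ∀ {A : Module.End ℤ G}, Commute T A → ∀ i w, (T ^ i) (A w) = A ((T ^ i) w) :=
    fun h i w => by rw [← Module.End.mul_apply, (h.pow_left i).eq, Module.End.mul_apply]
  have h1 : ∀ n i w, (T ^ i) w = 0 →
      (T ^ (i - 1)) ((F ^ n - 1 : Module.End ℤ G) w) = 0 := by
    intro n i w h
    rw [sw (hn n)]
    have h2 : F ((T ^ (i - 1)) w) = (T ^ (i - 1)) w := by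
      refine hker _ ?_
      rcases i with _ | i
      · simp only [pow_zero, Module.End.one_apply] at h
        simp [h]
      · rwa [pow_succ', Module.End.mul_apply] at h
    rw [LinearMap.sub_apply, Module.End.pow_apply, Function.iterate_fixed h2,
      Module.End.one_apply, sub_self]
  have h2 : ∀ n m i w, (T ^ i) w = 0 →
      (T ^ (i - m)) (((F ^ n - 1) ^ m : Module.End ℤ G) w) = 0 := by
    intro n m i w h
    induction m with
    | zero => simpa using h
    | succ m ih => rw [pow_succ', Module.End.mul_apply, ← Nat.sub_sub]; exact h1 n _ _ ih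
  have h3 : ∀ s, (T ^ (j - (l - 1) * s)) ((F ^ l ^ s - 1 : Module.End ℤ G) z) = 0 := by
    intro s
    induction s with
    | zero => simpa [sw hc, sub_eq_zero] using hz
    | succ s ih =>
      obtain ⟨r, hr⟩ := exists_add_pow_prime_eq hl (Polynomial.X : Polynomial ℤ) 1
      have e := congrArg (Polynomial.aeval (F ^ l ^ s - 1)) hr
      rw [mul_one, mul_right_comm] at e
      simp only [map_add, map_pow, map_mul, map_one, map_natCast, Polynomial.aeval_X, one_pow,
        sub_add_cancel] at e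
      rw [pow_succ l, pow_mul F, e, add_sub_right_comm, add_sub_cancel_right, mul_add_one,
        ← Nat.sub_sub, LinearMap.add_apply, map_add]
      obtain ⟨i, hi⟩ : ∃ i, i = j - (l - 1) * s := ⟨_, rfl⟩
      rw [← hi] at ih ⊢
      have e1 := h2 (l ^ s) (l - 1) _ _ ih
      rw [← Module.End.mul_apply _ _ z, ← pow_succ, Nat.sub_add_cancel hl.pos] at e1
      rw [e1, zero_add, Module.End.mul_apply, Module.End.mul_apply,
        sw (Nat.commute_cast T l), hε, Module.End.mul_apply,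
        ← Module.End.mul_apply (T ^ (l - 1)), ← pow_add, sw (AlgMod_comm (hn _) r),
        show l - 1 + (i - (l - 1)) = (l - 1 - i) + i by omega, pow_add, Module.End.mul_apply, ih]
      simp
  have h4 := h3 v
  rwa [Nat.sub_eq_zero_of_le hj, pow_zero, Module.End.one_apply, LinearMap.sub_apply,
    sub_eq_zero] at h4

/-- The last non-zero term. -/
theorem exists_last {T : Module.End ℤ G} {z : G} (hz : z ≠ 0) {k : ℕ} (h : (T ^ k) z = 0) :
    ∃ j < k, (T ^ j) z ≠ 0 ∧ T ((T ^ j) z) = 0 := by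
  induction k with
  | zero => exact absurd h hz
  | succ k ih =>
    by_cases hk : (T ^ k) z = 0
    · obtain ⟨j, hj, h'⟩ := ih hk
      exact ⟨j, hj.trans k.lt_succ_self, h'⟩
    · exact ⟨k, k.lt_succ_self, hk, by rwa [pow_succ', Module.End.mul_apply] at h⟩

end Crest.Agent.R312
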