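import Crest.Agent.R312.AlgDvd
import Crest.Agent.R312.AlgMod

/-!
# Row 312, algorithm half: decoding and the main theorem on the curve
-/

set_option autoImplicit false
open Finset Polynomial
open scoped Classical

noncomputable section
namespace Crest.Agent.R312
namespace Crv
variable {E : Type} [Field E] {c : Crv E} [IsAlgClosed E]

omit [IsAlgClosed E] in
theorem ch1_big {T : ℕ} (hB : Big E c.thr) {j r : ℕ} (hj : j ≤ c.l) (hr : r ≤ c.r4)
    (hT : T ≤ j * r) : Big E T := by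
  refine hB.mono (hT.trans ?_)
  have h1 : c.l ≤ c.l * c.m := Nat.le_mul_of_pos_right _ c.hm
  have h2 : j * r ≤ (2 * (c.l * c.m) + 2) * c.r4 := Nat.mul_le_mul (by omega) hr
  unfold thr
  omega

/-- The function computed by `decA` is a non-zero multiple of `ψ σβ`. -/
theorem ch1_decA {W : ℕ → c.L} {Δ D : c.Div} (h : Prep W Δ D) (hB : Big E c.thr) {ψ : c.L}
    (hψ : ψ ≠ 0) (hD : D - c.sD 1 D = c.div ψ) (hβ : c.pB W (c.tau W) ≠ 0) :
    ∃ κ : E, κ ≠ 0 ∧ c.decA W (c.tau W) = κ • (ψ * c.sg 1 (c.pB W (c.tau W))) := by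
  have hβS : c.pB W (c.tau W) ∈ c.S c.N4 := LL_le_S h.nonneg h.pB_mem
  have hσβ : c.sg 1 (c.pB W (c.tau W)) ≠ 0 := sg_ne hβ 1
  have hs : c.pS W (c.tau W) ≠ 0 := h.ne
  have hsS : c.pS W (c.tau W) ∈ c.S c.N4 := S_mono Ns_le_N4 h.sec_mem
  set F : ℕ → ℕ → c.L := fun i =>
    if i = 0 then fun d => c.sg 1 (c.pW W (c.tau W) d) else c.cut c.rs W with hF
  have hG : c.IsG (2 * c.r4 + 1) (c.prodF 2 c.r4 F)
      (∑ i ∈ range 2, if i = 0 then c.sD 1 (D - (c.N4 : ℤ) • c.Dinf) else Δ) := by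
    refine IsG.prod (range 2) (r := c.r4) (F := F) ?_ ?_ (by simp)
    · intro i _
      by_cases hi : i = 0
      · simp only [hF, hi, if_true]
        exact h.isG'.sg 1
      · simp only [hF, hi, if_false]
        exact h.isG.cut rs_le_r4
    · exact ch1_big hB c.two_le_l le_rfl (by simp)
  have hIn : c.In (2 * c.r4 + 1) (2 * c.N4) (c.prodF 2 c.r4 F) := by
    intro t _
    refine prodF_mem (fun i _ => ?_) t
    by_cases hi : i = 0
    · simp only [hF, hi, if_true]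
      exact fun k _ => sg_mem_S (colon_mem _ _ _ _ _ _ _) 1
    · simp only [hF, hi, if_false]
      exact (h.mem.cut c.r4).mono le_rfl Ns_le_N4
  have hss : c.sg 1 (c.pB W (c.tau W)) * c.pS W (c.tau W) ∈ c.S (2 * c.N4) := by
    rw [two_mul]
    exact mul_mem_S (sg_mem_S hβS 1) hsS
  have hsp := hG.colon (N := c.N4) (M := c.N4) hIn hss (mul_ne_zero hσβ hs)
  have hdiv : (∑ i ∈ range 2, if i = 0 then c.sD 1 (D - (c.N4 : ℤ) • c.Dinf) else Δ) -
      c.div (c.sg 1 (c.pB W (c.tau W)) * c.pS W (c.tau W)) + (c.N4 : ℤ) • c.Dinf =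
      -c.div (ψ * c.sg 1 (c.pB W (c.tau W))) := by
    have e : c.div (c.pS W (c.tau W)) = D + Δ := by
      have := h.eq
      rw [this]
      simp [sec]
    rw [div_mul hσβ hs, div_mul hψ hσβ, ← hD, e, Finset.sum_range_succ, Finset.sum_range_one]
    simp only [if_true, one_ne_zero, if_false, map_sub, map_zsmul, sD_Dinf]
    abel
  rw [hdiv] at hsp
  have hmem : ψ * c.sg 1 (c.pB W (c.tau W)) ∈ c.S c.N4 := by
    refine LL_le_S h.nonneg ?_
    have h1 := mul_mem_LL (self_mem_LL ψ) (sg_mem_LL h.pB_mem 1)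
    have e : -c.div ψ + c.sD 1 ((c.N4 : ℤ) • c.Dinf - D) = (c.N4 : ℤ) • c.Dinf - D := by
      rw [← hD]
      simp only [map_sub, map_zsmul, sD_Dinf]
      abel
    rwa [e] at h1
  have hex := hsp.exists_ne.2 (by
    intro hbot
    have : ψ * c.sg 1 (c.pB W (c.tau W)) ∈ c.S c.N4 ⊓ c.LL (-c.div (ψ * c.sg 1 (c.pB W (c.tau W)))) :=
      ⟨hmem, self_mem_LL _⟩
    rw [hbot] at this
    exact mul_ne_zero hψ hσβ (by simpa using this))
  obtain ⟨hne, k, hk, e⟩ := fnz_spec hex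
  have hU := hsp.1 k hk
  rw [← e] at hU
  obtain ⟨κ, hκ⟩ := exists_smul_of_mem_LL (mul_ne_zero hψ hσβ) hU.2
  refine ⟨κ, ?_, hκ⟩
  rintro rfl
  exact hne (by rw [hκ, zero_smul])

/-- `D - σ D = div ψ`; the `colon` in `decA` spans the line through `ψ σβ`, so
`dec W a = κ ψ(ram a)`; `cl_eq_zero_of_const`, `exists_pow_eq_const`. -/
theorem Std.dec {W : ℕ → c.L} {z : c.G} (h : c.Std W z) (hB : Big E c.thr) (hz : c.lam z = 0)
    (hne : z ≠ 0) :
    (∃ κ : E, κ ≠ 0 ∧ ∀ a ∈ c.rts, c.dec W a ^ c.l = κ) ∧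
      ∃ a ∈ c.rts, ∃ a' ∈ c.rts, c.dec W a ≠ c.dec W a' := by
  obtain ⟨hW, Δ, hΔ, rfl⟩ := h
  obtain ⟨D, hP⟩ := exists_prep hB hΔ hW
  have hlam : c.lam (c.cl D) = 0 := by rw [hP.cl_eq, map_neg, hz, neg_zero]
  obtain ⟨ψ, hψ, hD⟩ := exists_div_of_lam hlam
  have hrts : c.rts.Nonempty := by
    rw [← Finset.card_pos, card_rts]
    exact Nat.mul_pos c.l_pos c.hm
  obtain ⟨a₀, ha₀⟩ := hrts
  have hβ : c.pB W (c.tau W) ≠ 0 := by
    intro e
    apply hP.pB_ne a₀ (mem_rts.1 ha₀)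
    rw [e]
    simp [ev0, pc_zero]
  have hβS : c.pB W (c.tau W) ∈ c.S c.N4 := LL_le_S hP.nonneg hP.pB_mem
  obtain ⟨κ, hκ, hdec⟩ := ch1_decA hP hB hψ hD hβ
  have hdS : c.decA W (c.tau W) ∈ c.S c.N4 :=
    In.fnz (N := c.N4) fun k _ => colon_mem _ _ _ _ _ _ _
  have key : ∀ a (ha : c.f.eval a = 0), c.dec W a = κ * c.co (c.ram a ha) 0 ψ := by
    intro a ha
    have g1 : c.Ge (c.ram a ha) 0 ψ := by
      rw [ge_iff hψ, ← div_apply, ← hD]
      simp [hP.ram a ha]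
    have g2 : c.Ge (c.ram a ha) 0 (c.sg 1 (c.pB W (c.tau W))) :=
      ge_S_fin (α := a) rfl (sg_mem_S hβS 1)
    have e1 := g1.co_mul g2
    rw [add_zero, co_sg, zpow_zero, one_mul, sP_ram, co_ram_eq_ev0 a ha hβS] at e1
    unfold Crv.dec
    rw [← co_ram_eq_ev0 a ha hdS, hdec, co_smul, e1, mul_assoc, mul_assoc,
      mul_inv_cancel₀ (hP.pB_ne a ha), mul_one]
  refine ⟨?_, ?_⟩
  · obtain ⟨κ', hκ', hc⟩ := exists_pow_eq_const hψ hD
    refine ⟨κ ^ c.l * κ', mul_ne_zero (pow_ne_zero _ hκ) hκ', fun a ha => ?_⟩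
    rw [key a (mem_rts.1 ha), mul_pow, hc]
  · by_contra hcon
    push Not at hcon
    have h0 : c.cl D = 0 := by
      refine cl_eq_zero_of_const hψ hD hP.ram (v := c.co (c.ram a₀ (mem_rts.1 ha₀)) 0 ψ) ?_
      intro a ha
      have := hcon a (mem_rts.2 ha) a₀ ha₀
      rw [key a ha, key a₀ (mem_rts.1 ha₀)] at this
      exact mul_left_cancel₀ hκ this
    rw [hP.cl_eq, neg_eq_zero] at h0
    exact hne h0

/-- Products of at most `l` conjugates of a standard family. -/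
theorem ch1_prod {W : ℕ → c.L} {z : c.G} (h : c.Std W z) (hB : Big E c.thr) {j : ℕ} (hj : j ≤ c.l)
    (e : ℕ → ℕ) :
    c.Std (c.red c.rl c.Nl (c.prodF j c.rs fun i d => c.sg (e i) (W d)))
      (∑ i ∈ range j, (c.sG ^ e i) z) := by
  refine Rep.red (Rep.prod (range j) (r := c.rs) (N := c.Ns)
    (F := fun i d => c.sg (e i) (W d)) (fun i _ => Rep.sg h (e i)) ?_ ?_ ?_)
  · exact ch1_big hB hj rs_le_r4 (by simp)
  · rw [Finset.card_range]
    exact Nat.lt_succ_of_le (Nat.mul_le_mul_right _ hj)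
  · rw [Finset.card_range]
    exact Nat.mul_le_mul_right _ hj

theorem Std.lamF {W : ℕ → c.L} {z : c.G} (h : c.Std W z) (hB : Big E c.thr) :
    c.Std (c.lamF W) (c.lam z) := by
  have h1 := ch1_prod h hB le_rfl fun i => if i = 0 then 0 else i + 1
  have e : ∑ i ∈ range c.l, (c.sG ^ (if i = 0 then 0 else i + 1)) z = c.lam z := by
    have h2 : ∑ i ∈ range c.l, (c.sG ^ (i + 1)) z = 0 := by
      have h3 := congrArg (fun T : Module.End ℤ c.G => c.sG (T z)) (sum_sG_pow (c := c))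
      simp only [LinearMap.sum_apply, map_sum, LinearMap.zero_apply, map_zero] at h3
      rw [← h3]
      exact Finset.sum_congr rfl fun i _ => by rw [pow_succ', Module.End.mul_apply]
    obtain ⟨n, hn⟩ : ∃ n, c.l = n + 1 := ⟨c.l - 1, by have := c.l_pos; omega⟩
    rw [hn, Finset.sum_range_succ'] at h2 ⊢
    simp only [Nat.succ_ne_zero, if_false, if_true, pow_zero, Module.End.one_apply, zero_add,
      pow_one] at h2 ⊢
    rw [eq_neg_of_add_eq_zero_left h2, lam, LinearMap.sub_apply, Module.End.one_apply]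
    abel
  rw [e] at h1
  exact h1

theorem Std.Wj {W : ℕ → c.L} {z : c.G} (h : c.Std W z) (hB : Big E c.thr) {j : ℕ} (hj : j ≤ c.l) :
    c.Std (c.red c.rl c.Nl (c.Wj W j)) (∑ k ∈ range j, (c.sG ^ k) z) :=
  ch1_prod h hB hj fun i => i

theorem famU_std (hB : Big E c.thr) (v : ℕ) :
    ∃ z, c.Std (c.famU ((c.l - 1) * v)) z ∧
      (c.lam ^ ((c.l - 1) * v)) z = ((c.l : ℤ) ^ v) • (gI : c.G) ∧ c.dG z ≠ 0 := by
  have : Fact c.l.Prime := ⟨c.hl⟩
  have h2 := c.two_le_l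
  let U : ℕ → c.G := iter (fun j z => ∑ k ∈ range (j % (c.l - 1) + 1), (c.sG ^ k) z) gI
  have hlt : ∀ j, j % (c.l - 1) + 1 < c.l := fun j => by
    have := Nat.mod_lt j (show 0 < c.l - 1 by omega)
    omega
  have hU : ∀ j, c.Std (c.famU j) (U j) ∧ c.dG (U j) ≠ 0 := by
    intro j
    induction j with
    | zero => exact ⟨famI_std, by rw [show U 0 = gI from rfl, dG_gI]; exact one_ne_zero⟩
    | succ j ih =>
      refine ⟨ih.1.Wj hB (hlt j).le, ?_⟩
      rw [show U (j + 1) = ∑ k ∈ range (j % (c.l - 1) + 1), (c.sG ^ k) (U j) from rfl, map_sum]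
      simp only [dG_sG_pow, Finset.sum_const, Finset.card_range, nsmul_eq_mul]
      refine mul_ne_zero ?_ ih.2
      rw [Ne, ZMod.natCast_eq_zero_iff]
      exact fun hd => absurd (Nat.le_of_dvd (Nat.succ_pos _) hd) (not_le.2 (hlt j))
  exact ⟨U _, (hU _).1, lam_pow_iter c.hl sum_sG_pow U (fun _ => rfl) v, (hU _).2⟩

/-- Induction on `j` (`Std.rational` with `T.pow (l ^ v)`, `pow_fix`, `mem_span_of_lam`). -/
theorem chain_std (hB : Big E c.thr) (T : c.Sym) {v : ℕ} {rt : E → E}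
    (hrt : ∀ w, (T.pow (c.l ^ v)).θ w = w → rt (w ^ c.l) ^ c.l = w ^ c.l) {a₀ : E}
    (h₀ : c.f.eval a₀ = 0)
    (hK : ∀ j < (c.l - 1) * v, ∀ k < c.rs,
      (T.pow (c.l ^ v)).aut (c.chain rt a₀ j k) = c.chain rt a₀ j k)
    {j : ℕ} (hj : j ≤ (c.l - 1) * v) :
    ∃ z, c.Std (c.chain rt a₀ j) z ∧ (c.lam ^ j) z = gI - gP a₀ ∧ c.dG z = 0 := by

  induction j with
  | zero =>
    obtain ⟨n, h1, h2⟩ := (famI_std (c := c)).adj hB h₀
    have h3 : (gI : c.G) + n • gP a₀ = gI - gP a₀ := by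
      rw [map_add, map_zsmul, dG_gI, dG_gP h₀, zsmul_eq_mul, mul_one] at h2
      obtain ⟨k, hk⟩ : (c.l : ℤ) ∣ n + 1 :=
        (ZMod.intCast_zmod_eq_zero_iff_dvd _ _).1 (by push_cast; rw [add_comm, h2])
      have h4 : (n + 1) • (gP a₀ : c.G) = 0 := by rw [hk, mul_comm, mul_smul, l_smul_gP, smul_zero]
      rw [add_smul, one_smul] at h4
      rw [eq_neg_of_add_eq_zero_left h4, sub_eq_add_neg]
    exact ⟨_, h1, by rw [pow_zero, Module.End.one_apply, h3], h2⟩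
  | succ j ih =>
    obtain ⟨z, h1, h2, h3⟩ := ih (Nat.le_of_succ_le hj)
    have hker : ∀ y : c.G, (1 - c.sG) y = 0 → T.g y = y := fun y hy => by
      refine Submodule.span_induction (p := fun y _ => T.g y = y) ?_ (map_zero _)
        (fun _ _ _ _ ha hb => by rw [map_add, ha, hb]) (fun _ _ _ ha => by rw [map_smul, ha])
        (mem_span_of_lam hy)
      rintro _ ⟨a, rfl⟩
      exact T.g_gP a
    have hT : ∀ z', c.lam z' = z → (T.pow (c.l ^ v)).g z' = z' := fun z' hz' => by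
      have h4 : ((1 - c.sG) ^ (j + 1)) z' = gI - gP a₀ := by
        rw [pow_succ, Module.End.mul_apply, ← h2, ← hz']
        rfl
      rw [T.g_pow]
      exact pow_fix c.hl sum_sG_pow T.g_comm hker hj (by rw [h4, map_sub, T.g_gI, T.g_gP])
    obtain ⟨z', h4, h5⟩ := h1.dvd hB h3 h₀ (rt := rt) fun a ha => by
      obtain ⟨w, hw, hw'⟩ := h1.rational hB h3 h₀ (T.pow (c.l ^ v)) (hK j hj) hT ha
      rw [← hw']
      exact hrt w hw
    obtain ⟨n, h6, h7⟩ := h4.adj hB h₀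
    refine ⟨_, h6, ?_, h7⟩
    rw [pow_succ, Module.End.mul_apply, map_add, map_zsmul, lam_gP, smul_zero, add_zero, h5, h2]

/-- **Main theorem on the curve**: one of the candidate sets is a proper non-empty set of roots. -/
theorem cand_spec (hB : Big E c.thr) (T : c.Sym) {v m' : ℕ} (hn : c.l * c.m = c.l ^ v * m')
    (hm' : ¬c.l ∣ m') {rt : E → E}
    (hrt : ∀ w, (T.pow (c.l ^ v)).θ w = w → rt (w ^ c.l) ^ c.l = w ^ c.l)
    (hK : ∀ a₀ ∈ c.rts, ∀ j < (c.l - 1) * v, ∀ k < c.rs,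
      (T.pow (c.l ^ v)).aut (c.chain rt a₀ j k) = c.chain rt a₀ j k)
    (hK' : ∀ j < (c.l - 1) * v, ∀ a ∈ c.rts,
      (T.pow (c.l ^ v)).θ (c.dec (c.famZ rt ((c.l - 1) * v) m' j) a) =
        c.dec (c.famZ rt ((c.l - 1) * v) m' j) a) :
    ∃ z < (c.l - 1) * v * c.l, (∃ a ∈ c.rts, c.cand rt ((c.l - 1) * v) m' z a) ∧
      ∃ a ∈ c.rts, ¬c.cand rt ((c.l - 1) * v) m' z a := by

  have : Fact c.l.Prime := ⟨c.hl⟩
  choose! z hz using fun a (ha : a ∈ c.rts) =>
    chain_std hB T hrt (mem_rts.1 ha) (hK a ha) le_rfl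
  obtain ⟨u, hu1, hu2, hu3⟩ := famU_std hB v
  have hr := rs_le_r4 (c := c)
  have hv : v ≠ 0 := by
    rintro rfl
    rw [pow_zero, one_mul] at hn
    exact hm' ⟨_, hn.symm⟩
  have hl : m' * (c.l - 1) ≤ c.l * c.m := by
    rw [hn, mul_comm]
    exact Nat.mul_le_mul_right _ ((Nat.sub_le _ _).trans (Nat.le_self_pow hv _))
  have htr : c.Std (c.trF rt ((c.l - 1) * v)) (∑ a ∈ c.rts, z a) :=
    (Rep.prod c.rts (fun a ha => (hz a ha).1)
      (hB.mono (by
        rw [card_rts]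
        exact (Nat.mul_le_mul (by omega) hr).trans (Nat.le_succ _)))
      (by rw [card_rts]; exact Nat.lt_succ_self _) (by rw [card_rts])).red
  have hsum : ∑ i ∈ range (m' * (c.l - 1) + 1), (if i = 0 then ∑ a ∈ c.rts, z a
      else (c.sG ^ ((i - 1) % (c.l - 1) + 1)) u) = ∑ a ∈ c.rts, z a - (m' : ℤ) • u := by
    have h1 : ∑ k ∈ range (c.l - 1), (c.sG ^ (k + 1)) u = -u := by
      have h2 := congrArg (fun f : Module.End ℤ c.G => f u) (sum_sG_pow (c := c))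
      simp only [LinearMap.sum_apply, LinearMap.zero_apply] at h2
      rw [← Nat.sub_add_cancel c.l_pos, sum_range_succ', pow_zero, Module.End.one_apply] at h2
      exact eq_neg_of_add_eq_zero_left h2
    rw [sum_range_succ', if_pos rfl]
    simp only [Nat.add_one_ne_zero, if_false, Nat.add_sub_cancel]
    rw [sum_range_mul, sum_congr rfl (g := fun _ => -u) fun j _ => ?_, sum_const, card_range,
      smul_neg, natCast_zsmul, neg_add_eq_sub]
    rw [← h1]
    refine sum_congr rfl fun k hk => ?_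
    rw [Nat.mul_add_mod_self_right, Nat.mod_eq_of_lt (mem_range.1 hk)]
  have hZ0 : c.Std (c.famZ0 rt ((c.l - 1) * v) m') (∑ a ∈ c.rts, z a - (m' : ℤ) • u) := by
    rw [← hsum]
    refine (Rep.prod (range (m' * (c.l - 1) + 1)) (fun i _ => ?_)
      (hB.mono (by
        rw [card_range]
        exact (Nat.mul_le_mul (by omega) hr).trans (Nat.le_succ _)))
      (by rw [card_range]; exact Nat.lt_succ_self _) (by rw [card_range])).red
    split_ifs
    · exact htr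
    · exact Rep.sg hu1 _
  have hkill : (c.lam ^ ((c.l - 1) * v)) (∑ a ∈ c.rts, z a - (m' : ℤ) • u) = 0 := by
    rw [map_sub, map_sum, map_zsmul, hu2, sum_congr rfl fun a ha => (hz a ha).2.1, sum_sub_distrib,
      sum_gP, sub_zero, sum_const, card_rts, hn, smul_smul, ← natCast_zsmul]
    push_cast
    rw [mul_comm, sub_self]
  have hne : ∑ a ∈ c.rts, z a - (m' : ℤ) • u ≠ 0 := fun h => by
    have h1 := congrArg c.dG h
    rw [map_sub, map_sum, map_zsmul, sum_eq_zero fun a ha => (hz a ha).2.2, zero_sub, map_zero,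
      neg_eq_zero, zsmul_eq_mul, Int.cast_natCast, mul_eq_zero, ZMod.natCast_eq_zero_iff] at h1
    exact h1.elim hm' hu3
  obtain ⟨j, hj, hj1, hj2⟩ := exists_last hne hkill
  have hZ : ∀ i, c.Std (c.famZ rt ((c.l - 1) * v) m' i)
      ((c.lam ^ i) (∑ a ∈ c.rts, z a - (m' : ℤ) • u)) := fun i => by
    induction i with
    | zero => exact hZ0
    | succ i ih =>
      rw [pow_succ', Module.End.mul_apply]
      exact ih.lamF hB
  obtain ⟨⟨κ, hκ, hκ'⟩, a, ha, a', ha', hne'⟩ := (hZ j).dec hB hj2 hj1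
  have h1 := hrt _ (hK' j hj a ha)
  rw [hκ' a ha] at h1
  have h2 : rt κ ≠ 0 := fun h => hκ (by rw [← h1, h, zero_pow c.l_pos.ne'])
  have : NeZero c.l := ⟨c.l_pos.ne'⟩
  obtain ⟨i, hi, hi'⟩ := c.hζ.eq_pow_of_pow_eq_one
    (ξ := c.dec (c.famZ rt ((c.l - 1) * v) m' j) a / rt κ)
    (by rw [_root_.div_pow, hκ' a ha, h1, div_self hκ])
  have e1 : (j * c.l + i) / c.l = j := by
    rw [mul_comm, Nat.mul_add_div c.l_pos, Nat.div_eq_of_lt hi, add_zero]
  have e2 : (j * c.l + i) % c.l = i := by rw [Nat.mul_add_mod_self_right, Nat.mod_eq_of_lt hi]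
  refine ⟨j * c.l + i, ?_, ⟨a, ha, ?_⟩, a', ha', fun h => hne' ?_⟩
  · calc j * c.l + i < (j + 1) * c.l := by rw [add_mul, one_mul]; omega
      _ ≤ _ := Nat.mul_le_mul_right _ hj
  · rw [cand, e1, e2, hκ' a ha, hi', div_mul_cancel₀ _ h2]
  · rw [cand, e1, e2, hκ' a' ha', hi', div_mul_cancel₀ _ h2] at h
    exact h.symm

end Crv
end Crest.Agent.R312
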