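import Crest.Agent.R312.AlgCF3
import Crest.Agent.R312.AlgChain

/-!
# Row 312, algorithm half: the candidate sets are computable
Each statement: unfold the definition in `AlgFun.lean` and apply the closure lemmas.
(Write `_root_.funext`: `Polynomial.funext` is open.)
-/

set_option autoImplicit false
open Finset Polynomial Crest.Agent.Lib.PolyTime
open scoped Classical

noncomputable section
namespace Crest.Agent.R312
namespace Ctx
variable {α : Type} [PEnc α] {E : α → Type} [∀ a, Field (E a)] {ι : α → Type} {C : Ctx α E ι}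
  {c : ∀ a, Crv (E a)} {β γ : Type} [PEnc β] [PEnc γ] {rt : ∀ a, E a → E a} {π : β → α}
  {s u : ∀ b, ι (π b) → (c (π b)).L} {z : ∀ b, ι (π b) → E (π b)} {n r B N M e δ τ j k d : β → ℕ}
  {W a : ∀ b, ι (π b) → ℕ → (c (π b)).L}

theorem _root_.Crest.Agent.R312.Crv.shp_famI {F : Type} [Field F] (c : Crv F) :
    c.Shp c.rs c.Ns c.famI :=
  ⟨fun k => Crv.famI_in (k + 1) k k.lt_succ_self, fun _ h => Crv.famI_eq_zero h⟩

theorem CF4_adj {F : Type} [Field F] (c : Crv F) (a₀ : F) (W : ℕ → c.L) :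
    c.Shp c.rs c.Ns (c.adj a₀ W) := c.shp_red ..

/-- `CF.iter` with `r = rs`, `N = Ns` (`Crv.shp_red`). -/
theorem CF.chain (H : C.CrvOK c rt) (hz : C.CP π z) (hj : PN j) :
    C.CF c π fun b i => (c (π b)).chain (rt (π b)) (z b i) (j b) :=
  CF.iter H hj (H.rs hz.poly) (H.Ns hz.poly)
    (step := fun b i _ W => (c (π b)).adj (z b i) ((c (π b)).dvd (rt (π b)) (z b i) W))
    (fun _ _ k _ => by cases k <;> exact CF4_adj ..) (CF.adj H hz (CF.famI H hz.poly))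
    fun _ _ _ _ _ hg _ _ hS => CF.adj H (hz.comp hg) (CF.dvd H (hz.comp hg) hS)

/-- `CF.chain` in `C.sp c` with `z = CrvOK.pt`, `CR.comb`, `CR.prod_rts`. -/
theorem CF.trF (H : C.CrvOK c rt) (hπ : Poly π) (hk : PN k) :
    C.CF c π fun b _ => (c (π b)).trF (rt (π b)) (k b) := by
  have h1 := hπ.comp (poly_ix1 fun b => (c (π b)).l * (c (π b)).m * (c (π b)).rs + 1)
  have h2 := CR.comb H.sp h1 (H.rs h1) ((CF.chain H.sp (H.pt h1) (hk.ix _)).b _) (poly_ix2 _)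
  exact CF.red H hπ (((H.pl hπ).mul (H.pm hπ)).mul (H.rs hπ)).succ
    (((H.pl hπ).mul (H.pm hπ)).mul (H.Ns hπ))
    (W := fun b _ t => ∏ a ∈ (c (π b)).rts,
      (c (π b)).comb (c (π b)).rs ((c (π b)).chain (rt (π b)) a (k b)) t)
    (CR.prod_rts H (V := fun (p : Ix _) _ a => (c (π p.1)).comb (c (π p.1)).rs
      ((c (π p.1)).chain (rt (π p.1)) a (k p.1)) p.2) h2)

theorem CF.famU (H : C.CrvOK c rt) (hπ : Poly π) (hj : PN j) :
    C.CF c π fun b _ => (c (π b)).famU (j b) :=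
  CF.iter H hj (H.rs hπ) (H.Ns hπ)
    (step := fun b _ j W => (c (π b)).red (c (π b)).rl (c (π b)).Nl
      ((c (π b)).Wj W (j % ((c (π b)).l - 1) + 1)))
    (fun _ _ k _ => by cases k; exacts [Crv.shp_famI _, Crv.shp_red ..]) (CF.famI H hπ)
    fun _ _ _ _ _ hg hk lt hS => CF.red H hS.poly (H.rl hS.poly) (H.Nl hS.poly)
      ((CF.Wj H hS (((hj.comp hg).of_le hk fun x => (lt x).le).mod
        ((H.pl hS.poly).sub (Lib.PolyTime.Poly.const 1)).poly).succ).b _)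

theorem CF.famZ0 (H : C.CrvOK c rt) (hπ : Poly π) (hk : PN k) (hn : PN n) :
    C.CF c π fun b _ => (c (π b)).famZ0 (rt (π b)) (k b) (n b) := by
  have h1 := (hn.mul ((H.pl hπ).sub (Lib.PolyTime.Poly.const 1))).succ
  refine CF.red H hπ (h1.mul (H.rs hπ)).succ (h1.mul (H.Ns hπ))
    ((CF.prodF H hπ h1 (H.rs hπ) (CF.b ?_ _)).b _)
  have h2 : Poly fun q : (Ix fun b => n b * ((c (π b)).l - 1) + 1) × ℕ => (q.1.2 : ℕ) :=
    (poly_ix2 _).comp Poly.id'.fst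
  have h3 := (CF.famU H hπ hk).ix fun b => n b * ((c (π b)).l - 1) + 1
  exact (CR.ite' (Poly.decide_eq h2 (Lib.PolyTime.Poly.const 0)) ((CF.trF H hπ hk).ix _)
    (CR.sg H h3 (((h2.sub (Lib.PolyTime.Poly.const 1)).mod ((H.pl (CR.poly h3)).poly.sub
      (Lib.PolyTime.Poly.const 1))).add (Lib.PolyTime.Poly.const 1)))).congr
    fun _ _ => by dsimp only; split_ifs <;> rfl

theorem CF.lamF (H : C.CrvOK c rt) (hW : C.CF c π W) :
    C.CF c π fun b i => (c (π b)).lamF (W b i) := by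
  have hπ := hW.poly
  refine CF.red H hπ (H.rl hπ) (H.Nl hπ) ((CF.prodF H hπ (H.pl hπ) (H.rs hπ) (CF.b ?_ _)).b _)
  have h2 : Poly fun q : (Ix fun b => (c (π b)).l) × ℕ => (q.1.2 : ℕ) :=
    (poly_ix2 _).comp Poly.id'.fst
  exact CR.sg H (hW.ix _) (Poly.ite (Poly.decide_eq h2 (Lib.PolyTime.Poly.const 0))
    (Lib.PolyTime.Poly.const 0) (h2.add (Lib.PolyTime.Poly.const 1)))

theorem CF.famZ (H : C.CrvOK c rt) (hπ : Poly π) (hk : PN k) (hn : PN n) (hj : PN j) :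
    C.CF c π fun b _ => (c (π b)).famZ (rt (π b)) (k b) (n b) (j b) :=
  CF.iter H hj (H.rs hπ) (H.Ns hπ) (step := fun b _ _ W => (c (π b)).lamF W)
    (fun _ _ k _ => by cases k <;> exact Crv.shp_red ..) (CF.famZ0 H hπ hk hn)
    fun _ _ _ _ _ _ _ _ hS => CF.lamF H hS

theorem CR.decA (H : C.CrvOK c rt) (hW : C.CF c π W) (hτ : Poly τ) :
    C.CR c π fun b i => (c (π b)).decA (W b i) (τ b) := by
  have hπ := hW.poly
  refine CR.fnz H hπ (H.r4 hπ) ((CF.colon H ((PN.const 2).mul (H.r4 hπ)).succ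
    ((PN.const 2).mul (H.N4 hπ)) (H.N4 hπ) (H.N4 hπ)
    ((CF.prodF H hπ (PN.const 2) (H.r4 hπ) (CF.b ?_ _)).b _)
    ((CR.sg H (CR.pB H hW hτ) (Lib.PolyTime.Poly.const 1)).mul H (CR.pS H hW hτ))).b _)
  have h2 : Poly fun q : (Ix fun _ : β => 2) × ℕ => (q.1.2 : ℕ) := (poly_ix2 _).comp Poly.id'.fst
  exact (CR.ite' (Poly.decide_eq h2 (Lib.PolyTime.Poly.const 0))
    (CR.sg H ((CF.pW H hW hτ).ix _) (Lib.PolyTime.Poly.const 1))
    ((CF.cut H hπ (H.rs hπ) (hW.b _)).ix _)).congr fun _ _ => by dsimp only; split_ifs <;> rfl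

/-- `CP.sel` with `CN.tau`. -/
theorem CP.dec (H : C.CrvOK c rt) (hW : C.CF c π W) (hz : C.CP π z) :
    C.CP π fun b i => (c (π b)).dec (W b i) (z b i) :=
  CP.sel H.ok hW.poly (CN.tau H hW) (V := fun b i τ =>
      (c (π b)).ev0 ((c (π b)).decA (W b i) τ) (z b i) *
        ((c (π b)).ev0 ((c (π b)).pB (W b i) τ) (z b i))⁻¹)
    ((CR.ev0 H (CR.decA H (hW.ix _) (poly_ix2 _)) (hz.ix _)).mul H.ok
      ((CR.ev0 H (CR.pB H (hW.ix _) (poly_ix2 _)) (hz.ix _)).inv H.ok))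

theorem CB.cand (H : C.CrvOK c rt) (hk : PN k) (hn : PN n) (hj : PN j) (hz : C.CP π z) :
    C.CB π fun b i => (c (π b)).cand (rt (π b)) (k b) (n b) (j b) (z b i) := by
  have hπ := hz.poly
  have hl := (H.pl hπ).poly
  have h1 := CP.dec H (CF.famZ H hπ hk hn (hj.div hl)) hz
  exact CB.eq H.ok h1 (((H.cζ hπ).pow H.ok (hj.poly.mod hl)).mul H.ok
    (CP.root H (h1.pow H.ok hl)))

/-- `cand_spec` without the rationality hypotheses: they follow from computability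
(`CR.fixed` applied to `CF.chain` in `C.sp c`, `CP.mem` applied to `CP.dec`; take `β := α`, `π := id`). -/
theorem CrvOK.cand_spec [∀ a, IsAlgClosed (E a)] (H : C.CrvOK c rt) {v m' : α → ℕ} (hv : PN v)
    (hm : PN m') (a : α) (i : ι a) (T : (c a).Sym) (hn : (c a).l * (c a).m = (c a).l ^ v a * m' a)
    (hm' : ¬(c a).l ∣ m' a) (hK : ∀ w, (T.pow ((c a).l ^ v a)).θ w = w ↔ w ∈ C.K a)
    (hrt : ∀ w ∈ C.K a, rt a (w ^ (c a).l) ^ (c a).l = w ^ (c a).l) :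
    ∃ z < ((c a).l - 1) * v a * (c a).l,
      (∃ x ∈ (c a).rts, (c a).cand (rt a) (((c a).l - 1) * v a) (m' a) z x) ∧
        ∃ x ∈ (c a).rts, ¬(c a).cand (rt a) (((c a).l - 1) * v a) (m' a) z x := by
  have h1 : PN fun a => ((c a).l - 1) * v a := (H.l.sub (Lib.PolyTime.Poly.const 1)).mul hv
  refine Crv.cand_spec (H.big a) T hn hm' (fun w hw => hrt w ((hK w).1 hw))
    (fun a₀ h₀ j _ k _ => ?_) fun j _ x hx => (hK _).2 ?_
  · exact CR.fixed H.sp.ok ((CF.chain H.sp (H.pt Poly.id') (PN.const j)).app'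
      (Lib.PolyTime.Poly.const k)) a (i, ⟨a₀, h₀⟩) _ fun w hw => (hK w).2 hw
  · exact CP.mem H.sp.ok (CP.dec H.sp (CF.famZ H.sp Poly.id' h1 hm (PN.const j)) (H.pt Poly.id'))
      a (i, ⟨x, hx⟩)

end Ctx
end Crest.Agent.R312
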