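import Crest.Agent.R312.AlgExt

/-!
# Row 312, algorithm half: elimination, root extraction and the tournament in all components
-/

set_option autoImplicit false
open Finset Crest.Agent.Lib.PolyTime
open scoped Classical

noncomputable section
namespace Crest.Agent.R312

theorem CLin_projStep_congr {E : Type} [Field E] {n : ℕ} {v v' : ℕ → E} (h : ∀ j < n, v j = v' j)
    (H : ℕ → ℕ → E) : projStep n v H = projStep n v' H := by
  have h1 : ∀ j < n, red1 n H v j = red1 n H v' j := fun j hj => by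
    rw [red1, red1, h j hj, sum_congr rfl fun k hk => by rw [h k (mem_range.1 hk)]]
  have h2 : fst n (fun i => red1 n H v i ≠ 0) = fst n fun i => red1 n H v' i ≠ 0 := by
    have h3 := fst_le n fun i => red1 n H v' i ≠ 0
    exact fst_eq_iff.2 ⟨h3, fun h4 => by rw [h1 _ h4]; exact fst_of_lt h4,
      fun j hj => by rw [h1 j (hj.trans_le h3)]; exact fst_min hj⟩
  funext k j
  rw [projStep, projStep, h2]
  by_cases hkj : k < n ∧ j < n
  · rw [if_pos hkj, if_pos hkj, h1 j hkj.2]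
    rcases (fst_le n fun i => red1 n H v' i ≠ 0).eq_or_lt with h3 | h3
    · have h4 : red1 n H v' j = 0 := not_not.1 (fst_min (h3.symm ▸ hkj.2))
      simp only [h4, mul_zero]
    · rw [h1 _ h3]
  · rw [if_neg hkj, if_neg hkj]

theorem proj_congr {E : Type} [Field E] {n r : ℕ} {M M' : ℕ → ℕ → E}
    (h : ∀ e < r, ∀ j < n, M e j = M' e j) : proj n r M = proj n r M' := by
  induction r with
  | zero => rfl
  | succ r ih =>
    have h1 : proj n r M = proj n r M' := ih fun e he => h e (by omega)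
    change projStep n (M r) (proj n r M) = projStep n (M' r) (proj n r M')
    rw [h1, CLin_projStep_congr (h r (by omega))]

namespace Ctx
variable {α : Type} [PEnc α] {E : α → Type} [∀ a, Field (E a)] {ι : α → Type} {C : Ctx α E ι}
  {β γ : Type} [PEnc β] [PEnc γ] {π : β → α} {n r r' : β → ℕ}

variable (C) in
/-- Matrices (the positions are given in binary). -/
def CLinM (π : β → α) (S : ∀ b, ι (π b) → ℕ → ℕ → E (π b)) : Prop :=
  C.CP (fun p : β × ℕ × ℕ => π p.1) fun p i => S p.1 i p.2.1 p.2.2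

theorem CLinM.app {S : ∀ b, ι (π b) → ℕ → ℕ → E (π b)} (h : C.CLinM π S) {g : γ → β} (hg : Poly g)
    {k j : γ → ℕ} (hk : Poly k) (hj : Poly j) :
    C.CP (fun c => π (g c)) fun c i => S (g c) i (k c) (j c) :=
  CP.comp h (g := fun c => (g c, k c, j c)) (hg.pair (hk.pair hj))

theorem CLinM.red1 (H : C.OK) (hn : PN n) {S : ∀ b, ι (π b) → ℕ → ℕ → E (π b)} (h : C.CLinM π S)
    {z : ∀ b, ι (π b) → ℕ → E (π b)} (hz : C.CV π z) :
    C.CV π fun b i => red1 (n b) (S b i) (z b i) :=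
  CP.sub H hz (CP.sum H (π := fun p : β × ℕ => π p.1) (CP.poly hz) hn.fst
    (V := fun p i k => z p.1 i k * S p.1 i k p.2)
    ((hz.app (poly_ix1 _).fst (poly_ix2 _)).mul H
      (h.app (poly_ix1 _).fst (poly_ix2 _) (poly_ix1 _).snd)))

theorem CLinM.projStep (H : C.OK) (hn : PN n) {S : ∀ b, ι (π b) → ℕ → ℕ → E (π b)}
    (h : C.CLinM π S) {z : ∀ b, ι (π b) → ℕ → E (π b)} (hz : C.CV π z) :
    C.CLinM π fun b i => projStep (n b) (z b i) (S b i) := by
  have hw := h.red1 H hn hz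
  have hπ := CP.poly h
  have hf := (CN.fst H hz.poly hn (p := fun b i k => R312.red1 (n b) (S b i) (z b i) k ≠ 0)
    (CB.ne_zero H (hw.app (poly_ix1 _) (poly_ix2 _)))).comp
      (g := fun p : β × ℕ × ℕ => p.1) Poly.id'.fst
  have a1 := (poly_ix1 fun p : β × ℕ × ℕ => n p.1 + 1).fst
  have a2 := (poly_ix1 fun p : β × ℕ × ℕ => n p.1 + 1).snd.fst
  have a3 := (poly_ix1 fun p : β × ℕ × ℕ => n p.1 + 1).snd.snd
  have a4 := poly_ix2 fun p : β × ℕ × ℕ => n p.1 + 1
  have hs := CP.sel H hπ hf (V := fun p i t => S p.1 i p.2.1 p.2.2 +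
      ((if p.2.1 = t then 1 else 0) - S p.1 i p.2.1 t) *
        ((R312.red1 (n p.1) (S p.1 i) (z p.1 i) t)⁻¹ * R312.red1 (n p.1) (S p.1 i) (z p.1 i) p.2.2))
    ((h.app a1 a2 a3).add H (((CP.ite' (a2.decide_eq a4) (CP.one H (hz.poly.comp a1))
      (CP.zero H (hz.poly.comp a1))).sub H (h.app a1 a2 a4)).mul H
        (((hw.app a1 a4).inv H).mul H (hw.app a1 a3))))
  exact CP.ite' (p := fun p : β × ℕ × ℕ => p.2.1 < n p.1 ∧ p.2.2 < n p.1)
    ((Poly.id'.snd.fst.decide_lt hn.fst.poly).decide_and (Poly.id'.snd.snd.decide_lt hn.fst.poly))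
    hs (CP.zero H hπ)

theorem CLinM.of_ix (H : C.OK) (hπ : Poly π) (hn : Poly n) (hr : Poly r)
    {M : ∀ b, ι (π b) → ℕ → ℕ → E (π b)}
    (hM : C.CP (fun q : Ix fun p : Ix r => n p.1 => π q.1.1) fun q i => M q.1.1 i q.1.2 q.2) :
    C.CLinM π fun b i e j => if e < r b ∧ j < n b then M b i e j else 0 :=
  CP.dite' (π := fun p : β × ℕ × ℕ => π p.1) (F := fun p i => M p.1 i p.2.1 p.2.2)
    (p := fun p : β × ℕ × ℕ => p.2.1 < r p.1 ∧ p.2.2 < n p.1)
    ((Poly.id'.snd.fst.decide_lt (hr.comp Poly.id'.fst)).decide_and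
      (Poly.id'.snd.snd.decide_lt (hn.comp Poly.id'.fst)))
    (hM.comp (g := fun p : {p : β × ℕ × ℕ // p.2.1 < r p.1 ∧ p.2.2 < n p.1} =>
        ⟨⟨p.1.1, ⟨p.1.2.1, p.2.1⟩⟩, ⟨p.1.2.2, p.2.2⟩⟩)
      (poly_ixMk (n := fun p : Ix r => n p.1)
        (poly_ixMk Poly.id'.val.fst Poly.id'.val.snd.fst fun p => p.2.1)
        Poly.id'.val.snd.snd fun p => p.2.2))
    (CP.zero H (hπ.comp Poly.id'.fst))

theorem CLin_de_en {F : Type} [Zero F] {n : ℕ} {s : ℕ → ℕ → F}
    (h : ∀ k j, ¬(k < n ∧ j < n) → s k j = 0) (k j : ℕ) :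
    (if k < n ∧ j < n then
      if k * n + j < n * n then s ((k * n + j) / n) ((k * n + j) % n) else 0 else 0) = s k j := by
  split_ifs with h1 h2
  · rw [mul_comm k, Nat.mul_add_div (by omega), Nat.mul_add_mod, Nat.div_eq_of_lt h1.2,
      Nat.mod_eq_of_lt h1.2, add_zero]
  · exact absurd (by nlinarith [h1.1, h1.2]) h2
  · exact (h k j h1).symm

theorem CLinM.of_cv (H : C.OK) (hn : Poly n) {S : ∀ b, ι (π b) → ℕ → ℕ → E (π b)}
    (hS : ∀ b i k j, ¬(k < n b ∧ j < n b) → S b i k j = 0)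
    (h : C.CV π fun b i j => if j < n b * n b then S b i (j / n b) (j % n b) else 0) :
    C.CLinM π S := by
  have hn' := hn.comp (g := fun p : β × ℕ × ℕ => p.1) Poly.id'.fst
  exact (CP.ite' (p := fun p : β × ℕ × ℕ => p.2.1 < n p.1 ∧ p.2.2 < n p.1)
    ((Poly.id'.snd.fst.decide_lt hn').decide_and (Poly.id'.snd.snd.decide_lt hn'))
    (h.app Poly.id'.fst ((Poly.id'.snd.fst.mul hn').add Poly.id'.snd.snd))
    (CP.zero H (h.poly.comp Poly.id'.fst))).congr fun p i => CLin_de_en (hS p.1 i) _ _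

theorem CLinM.to_cv (H : C.OK) (hn : Poly n) {S : ∀ b, ι (π b) → ℕ → ℕ → E (π b)}
    (h : C.CLinM π S) :
    C.CV π fun b i j => if j < n b * n b then S b i (j / n b) (j % n b) else 0 := by
  have hn' := hn.comp (g := fun p : β × ℕ => p.1) Poly.id'.fst
  have h1 := h.app Poly.id'.fst (Poly.id'.snd.div hn') (Poly.id'.snd.mod hn')
  exact CP.ite' (p := fun p : β × ℕ => p.2 < n p.1 * n p.1)
    (Poly.id'.snd.decide_lt (hn'.mul hn')) h1 (CP.zero H h1.poly)

theorem CLinM.proj (H : C.OK) (hπ : Poly π) (hn : PN n) (hr : PN r)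
    {M : ∀ b, ι (π b) → ℕ → ℕ → E (π b)}
    (hM : C.CP (fun q : Ix fun p : Ix r => n p.1 => π q.1.1) fun q i => M q.1.1 i q.1.2 q.2) :
    C.CLinM π fun b i => proj (n b) (r b) (M b i) := by
  have hM' := CLinM.of_ix H hπ hn.poly hr.poly hM
  have h1 := CV.iter H hr (hn.mul hn) (π := π) (σ := fun b => ℕ → ℕ → E (π b))
    (fun b s j => if j < n b * n b then s (j / n b) (j % n b) else 0)
    (fun b v k j => if k < n b ∧ j < n b then v (k * n b + j) else 0)
    (fun b _ _ s => ∀ k j, ¬(k < n b ∧ j < n b) → s k j = 0)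
    (fun b i k s hs => funext fun k => funext fun j => CLin_de_en hs k j)
    (fun b i k s _ j hj => if_neg hj.not_gt)
    (step := fun b i e s =>
      R312.projStep (n b) (fun j => if e < r b ∧ j < n b then M b i e j else 0) s)
    (init := fun _ _ _ _ => 0)
    (fun b i e _ k j hkj => proj_eq_zero (n b) e
      (fun e j => if e < r b ∧ j < n b then M b i e j else 0) hkj)
    (CLinM.to_cv H hn.poly (π := π) (S := fun _ _ _ _ => 0) (CP.zero H (hπ.comp Poly.id'.fst)))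
    fun γ _ g k S hg hk _ hS h => CLinM.to_cv H (hn.poly.comp hg)
      (CLinM.projStep H (hn.comp hg) (CLinM.of_cv H (hn.poly.comp hg) hS h)
        (hM'.app (g := fun p : γ × ℕ => g p.1) (hg.comp Poly.id'.fst) (hk.comp Poly.id'.fst)
          Poly.id'.snd))
  have h2 : C.CLinM π fun b i =>
      R312.proj (n b) (r b) fun e j => if e < r b ∧ j < n b then M b i e j else 0 :=
    CLinM.of_cv H hn.poly (fun b i k j hkj => proj_eq_zero _ _ _ hkj) h1
  exact CP.congr h2 fun p i => congrFun₂ (proj_congr (M' := M p.1 i)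
    (M := fun e j => if e < r p.1 ∧ j < n p.1 then M p.1 i e j else 0)
    fun e he j hj => if_pos ⟨he, hj⟩) _ _

/-- `CV.iter` with the matrix stored row by row. -/
theorem CP.proj (H : C.OK) (hπ : Poly π) (hn : PN n) (hr : PN r)
    {M : ∀ b, ι (π b) → ℕ → ℕ → E (π b)}
    (hM : C.CP (fun q : Ix fun p : Ix r => n p.1 => π q.1.1) fun q i => M q.1.1 i q.1.2 q.2)
    {k j : β → ℕ} (hk : Poly k) (hj : Poly j) :
    C.CP π fun b i => proj (n b) (r b) (M b i) (k b) (j b) := by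
  exact (CLinM.proj H hπ hn hr hM).app Poly.id' hk hj

theorem CP.rsd (H : C.OK) (hπ : Poly π) (hn : PN n) (hr : PN r)
    {M : ∀ b, ι (π b) → ℕ → ℕ → E (π b)}
    (hM : C.CP (fun q : Ix fun p : Ix r => n p.1 => π q.1.1) fun q i => M q.1.1 i q.1.2 q.2)
    {z : ∀ b, ι (π b) → ℕ → E (π b)} (hz : C.CV π z) {j : β → ℕ} (hj : Poly j) :
    C.CP π fun b i => rsd (n b) (r b) (M b i) (z b i) (j b) := by
  exact ((CLinM.proj H hπ hn hr hM).red1 H hn hz).app' hj

theorem CP.kerv (H : C.OK) (hπ : Poly π) (hn : PN n) (hr : PN r)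
    {M : ∀ b, ι (π b) → ℕ → ℕ → E (π b)}
    (hM : C.CP (fun q : Ix fun p : Ix r => n p.1 => π q.1.1) fun q i => M q.1.1 i q.1.2 q.2)
    {d j : β → ℕ} (hd : Poly d) (hj : Poly j) :
    C.CP π fun b i => kerv (n b) (r b) (M b i) (d b) (j b) := by
  exact (CP.ite' (hj.decide_eq hd) (CP.one H hπ) (CP.zero H hπ)).sub H
    (CP.proj H hπ hn hr hM hj hd)

theorem CP.kerv2 (H : C.OK) (hπ : Poly π) (hn : PN n) (hr : PN r) (hr' : PN r')
    {M : ∀ b, ι (π b) → ℕ → ℕ → ℕ → E (π b)}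
    (hM : C.CP (fun q : Ix fun p : Ix fun o : Ix r => r' o.1 => n p.1.1 => π q.1.1.1)
      fun q i => M q.1.1.1 i q.1.1.2 q.1.2 q.2)
    {d j : β → ℕ} (hd : Poly d) (hj : Poly j) :
    C.CP π fun b i => kerv2 (n b) (r b) (r' b) (M b i) (d b) (j b) := by
  have a1 := (poly_ix1 fun p : Ix fun b => r b * r' b => n p.1).sigmaFst
  have a2 := (poly_ix1 fun p : Ix fun b => r b * r' b => n p.1).sigmaFinVal
  have a3 := poly_ix2 fun p : Ix fun b => r b * r' b => n p.1
  have b1 : ∀ q : Ix fun p : Ix fun b => r b * r' b => n p.1, q.1.2 / r' q.1.1 < r q.1.1 :=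
    fun q => Nat.div_lt_of_lt_mul (mul_comm (r q.1.1) _ ▸ q.1.2.2)
  have b2 : ∀ q : Ix fun p : Ix fun b => r b * r' b => n p.1, q.1.2 % r' q.1.1 < r' q.1.1 :=
    fun q => Nat.mod_lt _ (Nat.pos_of_mul_pos_left (Nat.zero_lt_of_lt q.1.2.2))
  exact CP.kerv H hπ hn (hr.mul hr') (M := fun b i e => M b i (e / r' b) (e % r' b))
    (hM.comp (g := fun q : Ix fun p : Ix fun b => r b * r' b => n p.1 =>
        ⟨⟨⟨q.1.1, ⟨q.1.2 / r' q.1.1, b1 q⟩⟩, ⟨q.1.2 % r' q.1.1, b2 q⟩⟩, q.2⟩)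
      (poly_ixMk (n := fun p : Ix fun o : Ix r => r' o.1 => n p.1.1)
        (poly_ixMk (n := fun o : Ix r => r' o.1)
          (poly_ixMk a1 (a2.div (hr'.poly.comp a1)) b1) (a2.mod (hr'.poly.comp a1)) b2)
        a3 fun q => q.2.2)) hd hj

theorem CLin2.pn_rtV {l Q : β → ℕ} (hl : Poly l) (hQ : Poly Q) :
    PN fun b => rtV (l b) (Q b) := by
  have hs : PN fun b => (Q b).size := ⟨hQ.size, PB.size hQ⟩
  refine PN.fst' hs (p := fun b j => ¬l b ^ (j + 1) ∣ Q b - 1) ?_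
  have h1 := hs.var.succ
  exact (Poly.decide_not (Poly.decide_dvd ((hl.comp (poly_ix1 _)).pow h1.poly h1.pb)
    ((hQ.comp (poly_ix1 _)).sub (Lib.PolyTime.Poly.const 1)))).congr fun _ =>
      decide_eq_decide.2 Iff.rfl

theorem CLin2.poly_rtI {l T : β → ℕ} (hl : PN l) (hT : Poly T) :
    Poly fun b => rtI (l b) (T b) := by
  have h : PN fun b => R312.fst (l b) fun k => l b ∣ 1 + k * T b := by
    refine PN.fst' hl (p := fun b k => l b ∣ 1 + k * T b) ?_
    exact (Poly.decide_dvd (hl.poly.comp (poly_ix1 _)) ((Lib.PolyTime.Poly.const 1).add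
      ((poly_ix2 _).mul (hT.comp (poly_ix1 _))))).congr fun _ => decide_eq_decide.2 Iff.rfl
  exact ((Lib.PolyTime.Poly.const 1).add (h.poly.mul hT)).div hl.poly

theorem CP.rtF (H : C.OK) {l Q : β → ℕ} (hl : PN l) (hQ : Poly Q) {g z : ∀ b, ι (π b) → E (π b)}
    (hg : C.CP π g) (hz : C.CP π z) : C.CP π fun b i => rtF (l b) (Q b) (g b i) (z b i) := by
  have hV := CLin2.pn_rtV hl.poly hQ
  have hn : PN fun b => (rtV (l b) (Q b) - 1) * l b :=
    (hV.sub (Lib.PolyTime.Poly.const 1)).mul hl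
  have hQ1 : Poly fun b => Q b - 1 := hQ.sub (Lib.PolyTime.Poly.const 1)
  have hW : C.CP π fun b i =>
      R312.iter (rtStep (l b) (Q b) (g b i) (z b i)) 1 ((rtV (l b) (Q b) - 1) * l b) := by
    refine CP.iter H hn (step := fun b i => rtStep (l b) (Q b) (g b i) (z b i))
      (CP.one H hg.poly) fun δ _ φ k S hφ hk hlt hS => ?_
    have hl' := hl.comp hφ
    have hk' : PN fun c => k c / l (φ c) :=
      ((hn.comp hφ).of_le hk fun c => (hlt c).le).div hl'.poly
    have hk2 := hk'.add (PN.const 2)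
    exact CP.ite H (CB.eq H ((((hS.pow H hl'.poly).mul H ((hz.comp hφ).inv H))).pow H
      ((hQ1.comp hφ).div (hl'.poly.pow hk2.poly hk2.pb))) (CP.one H hS.poly)) hS
      (hS.mul H ((hg.comp hφ).pow H (hl'.poly.pow hk'.poly hk'.pb)))
  exact hW.mul H ((hz.mul H ((hW.pow H hl.poly).inv H)).pow H
    (CLin2.poly_rtI hl (hQ1.div (hl.poly.pow hV.poly hV.pb))))

theorem SplitOK.tour {s : ∀ a, Finset (E a)} (H : C.SplitOK s) {Q : β → ℕ} (hQ : Poly Q)
    {g : ∀ b, ι (π b) → E (π b)} (hg : C.CP π g) {k : β → ℕ} (hk : Poly k) :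
    (C.split s).CB π fun b i => tour (s (π b)) (rtF 2 (Q b) (g b i.1)) (k b) i.2.1 := by
  have hπ := hg.poly
  have H2 := H.split.split_ok
  have ha := H.split.up (H.pt hπ)
  have ha' := H.split.pt hπ
  have hd := ha.sub H2 ha'
  have hP := CB.and H2 (CB.not H2 (CB.eq H2 ha ha')) (CB.eq H2 (CP.rtF H2 (PN.const 2) hQ
    (H.split.up (H.up hg)) (hd.pow H2 (Lib.PolyTime.Poly.const 2))) hd)
  exact CB.eq H.split_ok (H.split.sum (F := fun b i a' =>
    if i.2.1 ≠ a' ∧ rtF 2 (Q b) (g b i.1) ((i.2.1 - a') ^ 2) = i.2.1 - a' then 1 else 0)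
    (CP.congr hP fun _ _ => by congr 1)) (CP.natCast H.split_ok hπ hk)

end Ctx
end Crest.Agent.R312
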