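import Mathlib

/-!
# Row 312, algorithm half: search, iteration, branch-free linear algebra, root extraction
DO NOT change the definitions.
-/

set_option autoImplicit false
open Finset Polynomial
open scoped Classical

noncomputable section
namespace Crest.Agent.R312

/-- The first `k < n` with `p k`, or `n`. -/
def fst (n : ℕ) (p : ℕ → Prop) : ℕ := if h : ∃ k, k < n ∧ p k then Nat.find h else n

theorem fst_le (n : ℕ) (p : ℕ → Prop) : fst n p ≤ n := by
  unfold fst; split_ifs with h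
  exacts [(Nat.find_spec h).1.le, le_rfl]

theorem fst_spec {n : ℕ} {p : ℕ → Prop} (h : ∃ k < n, p k) : fst n p < n ∧ p (fst n p) := by
  unfold fst; rw [dif_pos h]; exact Nat.find_spec h

theorem fst_of_lt {n : ℕ} {p : ℕ → Prop} (h : fst n p < n) : p (fst n p) := by
  by_cases h' : ∃ k < n, p k
  · exact (fst_spec h').2
  · unfold fst at h; rw [dif_neg h'] at h; omega

theorem fst_min {n : ℕ} {p : ℕ → Prop} {k : ℕ} (h : k < fst n p) : ¬p k := by
  have hn := fst_le n p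
  unfold fst at h hn
  split_ifs at h hn with h'
  · exact fun hp => Nat.find_min h' h ⟨by omega, hp⟩
  · exact fun hp => h' ⟨k, h, hp⟩

theorem fst_le_of {n : ℕ} {p : ℕ → Prop} {k : ℕ} (h : p k) : fst n p ≤ k :=
  not_lt.1 fun h' => fst_min h' h

theorem fst_eq_iff {n : ℕ} {p : ℕ → Prop} {k : ℕ} :
    fst n p = k ↔ k ≤ n ∧ (k < n → p k) ∧ ∀ j < k, ¬p j := by
  constructor
  · rintro rfl
    exact ⟨fst_le _ _, fst_of_lt, fun _ => fst_min⟩
  · rintro ⟨h1, h2, h3⟩
    rcases lt_trichotomy (fst n p) k with h | h | h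
    · exact absurd (fst_of_lt (by omega)) (h3 _ h)
    · exact h
    · exact absurd (h2 (lt_of_lt_of_le h (fst_le _ _))) (fst_min h)

/-- Iteration with a counter. -/
def iter {σ : Type} (step : ℕ → σ → σ) (s : σ) (n : ℕ) : σ := Nat.rec s step n

@[simp] theorem iter_zero {σ : Type} (step : ℕ → σ → σ) (s : σ) : iter step s 0 = s := rfl

@[simp] theorem iter_succ {σ : Type} (step : ℕ → σ → σ) (s : σ) (n : ℕ) :
    iter step s (n + 1) = step n (iter step s n) := rfl

variable {E : Type} [Field E]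

/-- The naturals up to `T` are distinct in `E`. -/
def Big (E : Type) [Field E] (T : ℕ) : Prop := ∀ a ≤ T, ∀ b ≤ T, (a : E) = b → a = b

theorem Big.mono {T T' : ℕ} (h : Big E T) (h' : T' ≤ T) : Big E T' :=
  fun a ha b hb => h a (ha.trans h') b (hb.trans h')

/-- Finitely many non-zero polynomials of degree `< r` have a common non-root among
`0, …, card * r`. -/
theorem Big.exists_ne {ι : Type} (s : Finset ι) {r : ℕ} (h : Big E (s.card * r))
    (a : ι → ℕ → E) (ha : ∀ i ∈ s, ∃ k < r, a i k ≠ 0) :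
    ∃ t ≤ s.card * r, ∀ i ∈ s, ∑ k ∈ range r, (t : E) ^ k * a i k ≠ 0 := by
  by_contra hc
  push Not at hc
  have h0 : (∏ i ∈ s, ∑ k ∈ range r, monomial k (a i k) : E[X]) ≠ 0 := by
    refine prod_ne_zero_iff.2 fun i hi h1 => ?_
    obtain ⟨k, hk, hk'⟩ := ha i hi
    have h2 := congrArg (coeff · k) h1
    simp only [finsetSum_coeff, coeff_monomial, sum_ite_eq', mem_range, hk, if_true,
      coeff_zero] at h2
    exact hk' h2
  refine h0 (eq_zero_of_natDegree_lt_card_of_eval_eq_zero' _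
    ((range (s.card * r + 1)).image fun t : ℕ => (t : E)) (fun x hx => ?_) ?_)
  · obtain ⟨t, ht, rfl⟩ := mem_image.1 hx
    obtain ⟨i, hi, h1⟩ := hc t (Nat.lt_succ_iff.1 (mem_range.1 ht))
    rw [eval_prod]
    refine prod_eq_zero hi ?_
    rw [eval_finsetSum, ← h1]
    exact sum_congr rfl fun k _ => by rw [eval_monomial, mul_comm]
  · rw [card_image_of_injOn fun x hx y hy e => h x (Nat.lt_succ_iff.1 (mem_range.1 hx)) y
      (Nat.lt_succ_iff.1 (mem_range.1 hy)) e, card_range, Nat.lt_succ_iff]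
    refine (natDegree_prod_le _ _).trans ((sum_le_card_nsmul _ _ r fun i _ => ?_).trans_eq
      (smul_eq_mul _ _))
    exact natDegree_sum_le_of_forall_le _ _ fun k hk =>
      (natDegree_monomial_le _).trans (mem_range.1 hk).le

/-- Residue of the row vector `z` modulo the row space of the idempotent `H`: `z (1 - H)`. -/
def red1 (n : ℕ) (H : ℕ → ℕ → E) (z : ℕ → E) (j : ℕ) : E := z j - ∑ k ∈ range n, z k * H k j

/-- One step of elimination: add the row `v` to the idempotent `H`. -/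
def projStep (n : ℕ) (v : ℕ → E) (H : ℕ → ℕ → E) (k j : ℕ) : E :=
  if k < n ∧ j < n then
    H k j + ((if k = fst n (fun i => red1 n H v i ≠ 0) then 1 else 0) -
        H k (fst n fun i => red1 n H v i ≠ 0)) *
      ((red1 n H v (fst n fun i => red1 n H v i ≠ 0))⁻¹ * red1 n H v j)
  else 0

/-- An idempotent `n × n` matrix with the same row space as the rows `M e`, `e < r`. -/
def proj (n r : ℕ) (M : ℕ → ℕ → E) : ℕ → ℕ → E :=
  iter (fun e H => projStep n (M e) H) (fun _ _ => 0) r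

/-- Residue of `z` modulo the row space of `M`. -/
def rsd (n r : ℕ) (M : ℕ → ℕ → E) (z : ℕ → E) : ℕ → E := red1 n (proj n r M) z

/-- `n` vectors (index `d`) spanning the solutions of the `r` equations `∑_{j<n} M e j * z j = 0`. -/
def kerv (n r : ℕ) (M : ℕ → ℕ → E) (d j : ℕ) : E := (if j = d then 1 else 0) - proj n r M j d

/-- The same with equations indexed by pairs. -/
def kerv2 (n r₁ r₂ : ℕ) (M : ℕ → ℕ → ℕ → E) : ℕ → ℕ → E :=
  kerv n (r₁ * r₂) fun e => M (e / r₂) (e % r₂)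

theorem proj_eq_zero (n r : ℕ) (M : ℕ → ℕ → E) {k j : ℕ} (h : ¬(k < n ∧ j < n)) :
    proj n r M k j = 0 := by
  cases r with
  | zero => rfl
  | succ r => exact if_neg h

/-- the pivot -/
theorem linA_piv (n : ℕ) (w : ℕ → E) :
    (fst n (fun i => w i ≠ 0) < n ∧ w (fst n fun i => w i ≠ 0) ≠ 0) ∨ ∀ j < n, w j = 0 := by
  by_cases h : ∃ k < n, w k ≠ 0
  · exact Or.inl (fst_spec (p := fun i => w i ≠ 0) h)
  · exact Or.inr fun j hj => not_not.1 fun h' => h ⟨j, hj, h'⟩

theorem linA_step (n : ℕ) (v : ℕ → E) (H : ℕ → ℕ → E) (x : ℕ → E) {j : ℕ} (hj : j < n) :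
    ∑ i ∈ range n, x i * projStep n v H i j = ∑ i ∈ range n, x i * H i j +
      red1 n H x (fst n fun i => red1 n H v i ≠ 0) *
        ((red1 n H v (fst n fun i => red1 n H v i ≠ 0))⁻¹ * red1 n H v j) := by
  rw [sum_congr rfl fun i hi => by rw [projStep, if_pos ⟨mem_range.1 hi, hj⟩]]
  rcases linA_piv n (red1 n H v) with ⟨h, -⟩ | h
  · simp only [mul_add, sum_add_distrib, ← mul_assoc, ← sum_mul, mul_sub, sum_sub_distrib, mul_ite,
      mul_one, mul_zero, sum_ite_eq', mem_range, h, if_true]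
    rfl
  · simp only [h j hj, mul_zero, add_zero]

theorem linA_red {n : ℕ} {H : ℕ → ℕ → E}
    (h : ∀ k < n, ∀ j < n, ∑ i ∈ range n, H k i * H i j = H k j) (v : ℕ → E) {j : ℕ}
    (hj : j < n) : ∑ i ∈ range n, red1 n H v i * H i j = 0 := by
  simp only [red1, sub_mul, sum_sub_distrib, sum_mul]
  rw [sum_comm, sub_eq_zero]
  refine sum_congr rfl fun k hk => ?_
  rw [← h k (mem_range.1 hk) j hj, mul_sum]
  exact sum_congr rfl fun i _ => (mul_assoc _ _ _).symm

/-- Invariants of the elimination (`H' = H + q w` with `q = (1 - H) e`, `w H = 0`, `H q = 0`,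
`w q = 1` or `w = 0`): `H² = H`, the rows of `M` are fixed by `H`, the rows of `H` are
combinations of the rows of `M`. -/
theorem proj_spec (n r : ℕ) (M : ℕ → ℕ → E) :
    (∀ k < n, ∀ j < n, ∑ i ∈ range n, proj n r M k i * proj n r M i j = proj n r M k j) ∧
    (∀ e < r, ∀ j < n, ∑ i ∈ range n, M e i * proj n r M i j = M e j) ∧
    (∀ k < n, ∃ a : ℕ → E, ∀ j < n, proj n r M k j = ∑ e ∈ range r, a e * M e j) := by
  induction r with
  | zero =>
    exact ⟨fun k _ j _ => sum_eq_zero fun i _ => zero_mul _, fun e he => absurd he (by omega),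
      fun k _ => ⟨0, fun j _ => rfl⟩⟩
  | succ r ih =>
    obtain ⟨h1, h2, h3⟩ := ih
    rw [show proj n (r + 1) M = projStep n (M r) (proj n r M) from rfl]
    generalize proj n r M = H at h1 h2 h3
    refine ⟨fun k hk j hj => ?_, fun e he j hj => ?_, fun k hk => ?_⟩
    · have e1 : ∀ j < n, ∑ i ∈ range n, projStep n (M r) H k i * H i j = H k j := fun j hj => by
        rw [sum_congr rfl fun i hi => by rw [projStep, if_pos ⟨hk, mem_range.1 hi⟩]]
        simp only [add_mul, sum_add_distrib, mul_assoc, ← mul_sum, linA_red h1 _ hj, h1 k hk j hj,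
          mul_zero, add_zero]
      rw [linA_step _ _ _ _ hj, e1 j hj]
      conv_rhs => rw [projStep, if_pos ⟨hk, hj⟩]
      rcases linA_piv n (red1 n H (M r)) with ⟨h, h'⟩ | h
      · rw [red1.eq_1 n H (projStep n (M r) H k), e1 _ h, projStep, if_pos ⟨hk, h⟩,
          inv_mul_cancel₀ h', mul_one, add_sub_cancel_left]
      · simp only [h j hj, mul_zero]
    · rw [linA_step _ _ _ _ hj]
      rcases (Nat.lt_succ_iff.1 he).lt_or_eq with he | rfl
      · rw [h2 e he j hj, add_eq_left]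
        rcases linA_piv n (red1 n H (M r)) with ⟨h, -⟩ | h
        · rw [red1.eq_1 n H (M e), h2 e he _ h, sub_self, zero_mul]
        · rw [h j hj, mul_zero, mul_zero]
      · rcases linA_piv n (red1 n H (M e)) with ⟨-, h'⟩ | h
        · rw [mul_inv_cancel_left₀ h', red1, add_sub_cancel]
        · rw [h j hj, mul_zero, mul_zero, add_zero]
          exact (sub_eq_zero.1 (h j hj)).symm
    · choose! a ha using h3
      obtain ⟨c, hc⟩ : ∃ c : E, ∀ j < n, projStep n (M r) H k j = H k j + c * red1 n H (M r) j :=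
        ⟨_, fun j hj => by rw [projStep, if_pos ⟨hk, hj⟩, ← mul_assoc]⟩
      refine ⟨fun e => if e = r then c else a k e - c * ∑ i ∈ range n, M r i * a i e,
        fun j hj => ?_⟩
      dsimp only
      rw [hc j hj, sum_range_succ, if_pos rfl,
        sum_congr rfl fun e he => by rw [if_neg (mem_range.1 he).ne], red1, ha k hk j hj,
        sum_congr (s₁ := range n) rfl fun i hi => by rw [ha i (mem_range.1 hi) j hj, mul_sum],
        sum_comm]
      simp only [sub_mul, sum_sub_distrib, mul_assoc, ← mul_sum, sum_mul]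
      ring

theorem rsd_eq_zero_iff (n r : ℕ) (M : ℕ → ℕ → E) (z : ℕ → E) :
    (∀ j < n, rsd n r M z j = 0) ↔ ∃ a : ℕ → E, ∀ j < n, z j = ∑ e ∈ range r, a e * M e j := by
  obtain ⟨-, h2, h3⟩ := proj_spec n r M
  constructor
  · intro h
    choose! a ha using h3
    refine ⟨fun e => ∑ k ∈ range n, z k * a k e, fun j hj => ?_⟩
    rw [sub_eq_zero.1 (h j hj), sum_congr rfl fun k hk => by
      rw [ha k (mem_range.1 hk) j hj, mul_sum], sum_comm]
    simp only [sum_mul, mul_assoc]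
  · rintro ⟨a, ha⟩ j hj
    rw [rsd, red1, sub_eq_zero, ha j hj, sum_congr (s₁ := range n) rfl fun k hk => by
      rw [ha k (mem_range.1 hk), sum_mul], sum_comm]
    refine sum_congr rfl fun e he => ?_
    rw [← h2 e (mem_range.1 he) j hj, mul_sum]
    exact sum_congr rfl fun i _ => (mul_assoc _ _ _).symm

theorem rsd_sum (n r : ℕ) (M : ℕ → ℕ → E) (s : ℕ) (a : ℕ → E) (z : ℕ → ℕ → E) (j : ℕ) :
    rsd n r M (fun k => ∑ i ∈ range s, a i * z i k) j = ∑ i ∈ range s, a i * rsd n r M (z i) j := by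
  simp only [rsd, red1, mul_sub, sum_sub_distrib, sum_mul, mul_sum, mul_assoc]
  rw [sum_comm]

theorem kerv_sol (n r : ℕ) (M : ℕ → ℕ → E) {d : ℕ} (hd : d < n) {e : ℕ} (he : e < r) :
    ∑ j ∈ range n, M e j * kerv n r M d j = 0 := by
  simp only [kerv, mul_sub, sum_sub_distrib, mul_ite, mul_one, mul_zero, sum_ite_eq', mem_range, hd,
    if_true]
  rw [(proj_spec n r M).2.1 e he d hd, sub_self]

theorem kerv_span (n r : ℕ) (M : ℕ → ℕ → E) {z : ℕ → E}
    (hz : ∀ e < r, ∑ j ∈ range n, M e j * z j = 0) {j : ℕ} (hj : j < n) :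
    z j = ∑ d ∈ range n, z d * kerv n r M d j := by
  obtain ⟨a, ha⟩ := (proj_spec n r M).2.2 j hj
  simp only [kerv, mul_sub, sum_sub_distrib, mul_ite, mul_one, mul_zero, sum_ite_eq, mem_range, hj,
    if_true]
  rw [sum_congr rfl fun d hd => by rw [ha d (mem_range.1 hd), mul_sum], sum_comm,
    sum_eq_zero fun e he => ?_, sub_zero]
  rw [← mul_zero (a e), ← hz e (mem_range.1 he), mul_sum]
  exact sum_congr rfl fun d _ => by ring

theorem kerv2_sol (n r₁ r₂ : ℕ) (M : ℕ → ℕ → ℕ → E) {d : ℕ} (hd : d < n) {e₁ e₂ : ℕ}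
    (h₁ : e₁ < r₁) (h₂ : e₂ < r₂) : ∑ j ∈ range n, M e₁ e₂ j * kerv2 n r₁ r₂ M d j = 0 := by
  have h0 : 0 < r₂ := by omega
  have h3 : e₁ * r₂ + e₂ < r₁ * r₂ := by
    have := Nat.mul_le_mul_right r₂ (Nat.succ_le_of_lt h₁)
    rw [Nat.succ_mul] at this
    omega
  have h := kerv_sol n (r₁ * r₂) (fun e => M (e / r₂) (e % r₂)) hd h3
  rwa [Nat.mul_add_mod', Nat.mod_eq_of_lt h₂, mul_comm e₁, Nat.mul_add_div h0,
    Nat.div_eq_of_lt h₂, add_zero] at h

theorem kerv2_span (n r₁ r₂ : ℕ) (M : ℕ → ℕ → ℕ → E) {z : ℕ → E}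
    (hz : ∀ e₁ < r₁, ∀ e₂ < r₂, ∑ j ∈ range n, M e₁ e₂ j * z j = 0) {j : ℕ} (hj : j < n) :
    z j = ∑ d ∈ range n, z d * kerv2 n r₁ r₂ M d j := by
  refine kerv_span n (r₁ * r₂) _ (fun e he => hz _ ?_ _ (Nat.mod_lt _ ?_)) hj
  · exact Nat.div_lt_of_lt_mul (by rwa [mul_comm])
  · exact Nat.pos_of_ne_zero fun h => by simp [h] at he

/-- Splitting a sum over `range (a * b)`. -/
theorem sum_range_mul {M : Type} [AddCommMonoid M] (a b : ℕ) (F : ℕ → M) :
    ∑ z ∈ range (a * b), F z = ∑ j ∈ range a, ∑ k ∈ range b, F (j * b + k) := by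
  induction a with
  | zero => simp
  | succ a ih => rw [Nat.succ_mul, sum_range_add, ih, sum_range_succ]

/-! ### `l`-th roots in a finite field with `Q` elements, `g` a non-residue -/

/-- Exponent of `l` in `Q - 1`. -/
def rtV (l Q : ℕ) : ℕ := fst (Nat.size Q) fun j => ¬l ^ (j + 1) ∣ Q - 1

/-- One correction step; `z / l + 1` is the level. -/
def rtStep (l Q : ℕ) (g b : E) (z : ℕ) (w : E) : E :=
  if (w ^ l * b⁻¹) ^ ((Q - 1) / l ^ (z / l + 2)) = 1 then w else w * g ^ l ^ (z / l)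

/-- Inverse of `l` modulo the `l`-free part `T` of `Q - 1`, in the form `(1 + k T) / l`. -/
def rtI (l T : ℕ) : ℕ := (1 + fst l (fun k => l ∣ 1 + k * T) * T) / l

/-- Adleman–Manders–Miller root extraction. -/
def rtF (l Q : ℕ) (g b : E) : E :=
  iter (rtStep l Q g b) 1 ((rtV l Q - 1) * l) *
    (b * (iter (rtStep l Q g b) 1 ((rtV l Q - 1) * l) ^ l)⁻¹) ^ rtI l ((Q - 1) / l ^ rtV l Q)

theorem rtF_V {l Q : ℕ} (hl : l.Prime) (hQ : 2 ≤ Q) (hd : l ∣ Q - 1) :
    1 ≤ rtV l Q ∧ l ^ rtV l Q ∣ Q - 1 ∧ ¬l ^ (rtV l Q + 1) ∣ Q - 1 := by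
  have h0 : 0 < Nat.size Q := Nat.size_pos.2 (by omega)
  have h1 : 1 ≤ rtV l Q := by
    by_contra h
    have h2 : rtV l Q = 0 := by omega
    have h3 := (fst_eq_iff.1 h2).2.1 h0
    exact h3 (by simpa using hd)
  refine ⟨h1, ?_, (fst_spec (p := fun j => ¬l ^ (j + 1) ∣ Q - 1)
    ⟨Nat.size Q - 1, by omega, fun h => ?_⟩).2⟩
  · have h2 := fst_min (n := Nat.size Q) (p := fun j => ¬l ^ (j + 1) ∣ Q - 1) (k := rtV l Q - 1)
      (by unfold rtV at h1 ⊢; omega)
    rwa [not_not, Nat.sub_add_cancel h1] at h2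
  · rw [Nat.sub_add_cancel h0] at h
    have h2 := Nat.le_of_dvd (by omega) h
    have h3 := Nat.lt_size_self Q
    have h4 := Nat.pow_le_pow_left hl.two_le (Nat.size Q)
    omega

theorem rtF_I {l T : ℕ} (hl : l.Prime) (hT : ¬l ∣ T) : ∃ k, rtI l T * l = 1 + k * T := by
  have h : ∃ k < l, l ∣ 1 + k * T := by
    have := Fact.mk hl
    have h0 : (T : ZMod l) ≠ 0 := fun h => hT ((ZMod.natCast_eq_zero_iff T l).1 h)
    refine ⟨(-(T : ZMod l)⁻¹).val, ZMod.val_lt _, (ZMod.natCast_eq_zero_iff _ l).1 ?_⟩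
    push_cast
    rw [ZMod.natCast_zmod_val, neg_mul, inv_mul_cancel₀ h0, add_neg_cancel]
  exact ⟨_, Nat.div_mul_cancel (fst_spec h).2⟩

theorem rtF_level {l : ℕ} (hl : l.Prime) {ζ : E} (h1 : ζ ^ l = 1) (h2 : ζ ≠ 1) (η : ℕ → E)
    (h0 : η 0 ^ l = 1) (hs : ∀ i < l, η (i + 1) = if η i = 1 then 1 else η i * ζ) : η l = 1 := by
  have := Fact.mk hl
  have hζ : IsPrimitiveRoot ζ l := IsPrimitiveRoot.iff_orderOf.2 (orderOf_eq_prime h1 h2)
  obtain ⟨a, ha, e⟩ := hζ.eq_pow_of_pow_eq_one (ξ := (η 0)⁻¹) (by rw [inv_pow, h0, inv_one])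
  have hne : η 0 ≠ 0 := fun h => by simp [h, hl.ne_zero] at h0
  have key : ∀ i ≤ l, η i = 1 ∨ (η i = η 0 * ζ ^ i ∧ i ≤ a) := by
    intro i
    induction i with
    | zero => exact fun _ => Or.inr ⟨by simp, Nat.zero_le _⟩
    | succ i ih =>
      intro hi
      rw [hs i hi]
      split_ifs with h
      · exact Or.inl rfl
      · obtain ⟨h3, h4⟩ := (ih (by omega)).resolve_left h
        refine Or.inr ⟨by rw [h3, pow_succ, mul_assoc], lt_of_le_of_ne h4 ?_⟩
        rintro rfl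
        exact h (by rw [h3, e, mul_inv_cancel₀ hne])
  exact (key l le_rfl).resolve_right fun h => by omega

theorem rtF_ne {l Q : ℕ} {g b : E} (hg : g ≠ 0) (n : ℕ) : iter (rtStep l Q g b) 1 n ≠ 0 := by
  induction n with
  | zero => exact one_ne_zero
  | succ n ih =>
    rw [iter_succ, rtStep]
    split_ifs
    exacts [ih, mul_ne_zero ih (pow_ne_zero _ hg)]

theorem rtF_inv {l Q : ℕ} (hl : l.Prime) {g b : E} (hg : g ^ (Q - 1) = 1)
    (hg' : g ^ ((Q - 1) / l) ≠ 1) (hb : b ^ ((Q - 1) / l) = 1) (j : ℕ) (hj : l ^ (j + 1) ∣ Q - 1) :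
    (iter (rtStep l Q g b) 1 (j * l) ^ l * b⁻¹) ^ ((Q - 1) / l ^ (j + 1)) = 1 := by
  induction j with
  | zero => simp [hb]
  | succ j ih =>
    have ih' := ih ((pow_dvd_pow l (Nat.le_succ _)).trans hj)
    obtain ⟨m, hm⟩ := hj
    have hp := hl.pos
    have e1 : (Q - 1) / l ^ (j + 1 + 1) = m := by
      rw [hm, Nat.mul_div_cancel_left _ (by positivity)]
    have e2 : (Q - 1) / l ^ (j + 1) = m * l := by
      rw [hm, pow_succ, mul_assoc, Nat.mul_div_cancel_left _ (by positivity), mul_comm]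
    have e3 : (Q - 1) / l = l ^ j * l * m := by
      rw [hm, pow_succ' l (j + 1), mul_assoc, Nat.mul_div_cancel_left _ hp, pow_succ]
    rw [e2, pow_mul] at ih'
    rw [e1, add_mul, one_mul]
    refine rtF_level hl (ζ := g ^ ((Q - 1) / l)) ?_ hg'
      (fun i => (iter (rtStep l Q g b) 1 (j * l + i) ^ l * b⁻¹) ^ m) ih' fun i hi => ?_
    · rw [← pow_mul, e3, ← hg, hm]
      congr 1
      ring
    · have e4 : (j * l + i) / l = j := by
        rw [add_comm, Nat.add_mul_div_right _ _ hp, Nat.div_eq_of_lt hi, zero_add]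
      rw [← add_assoc, iter_succ, rtStep, e4, e1]
      split_ifs with h
      · exact h
      · rw [e3, pow_mul, pow_mul, ← mul_pow, mul_pow _ _ l, mul_right_comm]

/-- With `ε = w ^ l / b`: after `j l` steps `ε ^ ((Q-1) / l ^ (j+1)) = 1`; within a level
`ε ^ ((Q-1) / l ^ (j+2))` is an `l`-th root of unity and each multiplication multiplies it by the
primitive root `g ^ ((Q-1)/l)`, so it becomes `1` after at most `l - 1` steps and then stays. -/
theorem rtF_pow {l Q : ℕ} (hl : l.Prime) (hQ : 2 ≤ Q) (hd : l ∣ Q - 1) {g : E} (hg : g ^ (Q - 1) = 1)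
    (hg' : g ^ ((Q - 1) / l) ≠ 1) {z : E} (hz : z ^ Q = z) : rtF l Q g (z ^ l) ^ l = z ^ l := by
  obtain ⟨h1, h2, h3⟩ := rtF_V hl hQ hd
  obtain ⟨k, hk⟩ := rtF_I (T := (Q - 1) / l ^ rtV l Q) hl fun h => h3 (by
    rw [pow_succ]
    exact Nat.mul_dvd_of_dvd_div h2 h)
  rw [rtF, mul_pow, ← pow_mul _ _ l, hk, pow_add, pow_one]
  rcases eq_or_ne z 0 with rfl | hz0
  · simp [hl.ne_zero]
  have hg0 : g ≠ 0 := fun h => by
    rw [h, zero_pow (by omega)] at hg
    exact zero_ne_one hg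
  have hb : (z ^ l) ^ ((Q - 1) / l) = 1 := by
    rw [← pow_mul, Nat.mul_div_cancel' hd]
    refine mul_right_cancel₀ hz0 ?_
    rw [← pow_succ, Nat.sub_add_cancel (by omega), hz, one_mul]
  have h4 := rtF_inv hl hg hg' hb (rtV l Q - 1) (by rwa [Nat.sub_add_cancel h1])
  rw [Nat.sub_add_cancel h1] at h4
  have h5 := pow_ne_zero l (rtF_ne (l := l) (Q := Q) (b := z ^ l) hg0 ((rtV l Q - 1) * l))
  generalize iter (rtStep l Q g (z ^ l)) 1 ((rtV l Q - 1) * l) ^ l = W at h4 h5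
  rw [mul_comm k, pow_mul, show z ^ l * W⁻¹ = (W * (z ^ l)⁻¹)⁻¹ by rw [mul_inv_rev, inv_inv],
    inv_pow, h4, inv_one, one_pow, mul_one, mul_inv_rev, inv_inv, mul_left_comm,
    mul_inv_cancel₀ h5, mul_one]

/-- Interpolation polynomial of `F` on the finite set `s`. -/
def itp (s : Finset E) (F : E → E) : E[X] := Lagrange.interpolate s id F

/-- The tournament `a → a'` iff the chosen square root of `(a - a') ^ 2` is `a - a'`;
indicator of out-degree `k`. -/
def tour (s : Finset E) (rt : E → E) (k : ℕ) (a : E) : Prop :=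
  (∑ a' ∈ s, if a ≠ a' ∧ rt ((a - a') ^ 2) = a - a' then (1 : E) else 0) = k

/-- A tournament on an even number of points is not regular. -/
theorem tour_spec {s : Finset E} (hs : Even s.card) (hne : s.Nonempty) (hB : Big E s.card)
    {rt : E → E} (hrt : ∀ a ∈ s, ∀ a' ∈ s, rt ((a - a') ^ 2) ^ 2 = (a - a') ^ 2) :
    ∃ k < s.card, (∃ a ∈ s, tour s rt k a) ∧ ∃ a ∈ s, ¬tour s rt k a := by
  obtain ⟨d, hd⟩ : ∃ d : E → ℕ, ∀ a, d a =
      ∑ a' ∈ s, if a ≠ a' ∧ rt ((a - a') ^ 2) = a - a' then 1 else 0 := ⟨_, fun _ => rfl⟩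
  have hpos := hne.card_pos
  have hsub : ∀ a ∈ s, ∑ a' ∈ s, (if a ≠ a' then 1 else 0) = s.card - 1 := fun a ha => by
    rw [← card_filter, filter_ne, card_erase_of_mem ha]
  have hlt : ∀ a ∈ s, d a < s.card := fun a ha => by
    have : d a ≤ ∑ a' ∈ s, (if a ≠ a' then 1 else 0) := by
      rw [hd]
      refine sum_le_sum fun a' _ => ?_
      split_ifs with h1 h2
      exacts [le_rfl, absurd h1.1 h2, Nat.zero_le _, le_rfl]
    rw [hsub a ha] at this
    omega
  have ht : ∀ k a, tour s rt k a ↔ (d a : E) = k := fun k a => by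
    rw [tour, hd]
    push_cast
    rfl
  obtain ⟨a₀, ha₀⟩ := hne
  refine ⟨d a₀, hlt a₀ ha₀, ⟨a₀, ha₀, (ht _ _).2 rfl⟩, ?_⟩
  by_contra hc
  push Not at hc
  have hall : ∀ a ∈ s, d a = d a₀ := fun a ha =>
    hB _ (hlt a ha).le _ (hlt a₀ ha₀).le ((ht _ _).1 (hc a ha))
  obtain ⟨r, hr⟩ := hs
  have h2 : (2 : E) ≠ 0 := fun h => by
    have := hB 2 (by omega) 0 (Nat.zero_le _) (by simpa using h)
    omega
  have h3 : ∑ a ∈ s, d a + ∑ a ∈ s, d a = ∑ a ∈ s, ∑ a' ∈ s, (if a ≠ a' then 1 else 0) := by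
    simp only [hd]
    conv_lhs => lhs; rw [sum_comm]
    rw [← sum_add_distrib]
    refine sum_congr rfl fun a ha => ?_
    rw [← sum_add_distrib]
    refine sum_congr rfl fun a' ha' => ?_
    by_cases h : a = a'
    · simp [h]
    have h4 : a - a' ≠ a' - a := fun e => h (sub_eq_zero.1 (by
      have : 2 * (a - a') = 0 := by linear_combination e
      exact (mul_eq_zero.1 this).resolve_left h2))
    rw [show (a' - a) ^ 2 = (a - a') ^ 2 by ring]
    rcases sq_eq_sq_iff_eq_or_eq_neg.1 (hrt a ha a' ha') with e | e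
    · simp [h, e, h4]
    · rw [neg_sub] at e
      simp [h, Ne.symm h, e, h4.symm]
  rw [sum_congr rfl hall, sum_congr rfl hsub, sum_const, sum_const, smul_eq_mul, smul_eq_mul,
    ← mul_add] at h3
  have := Nat.eq_of_mul_eq_mul_left hpos h3
  omega

end Crest.Agent.R312
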