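import Crest.Agent.Lib.PolyTime.More
import Crest.Agent.Lib.PolyTime.Arith
import Crest.Agent.R312.AlgLin

/-!
# Row 312, algorithm half: simultaneous computation in all components of a product of fields

A context `C` codes functions `ι a → E a` (values in the finite subfield `C.K a` with `z ^ Q = z`).
`C.CP π F` says that a code of the function `F b : ι (π b) → E (π b)` is computable from `b` in
polynomial time (`β` is any index type with a polynomial-time map `π` to the instances).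
`CB`: predicates (indicator functions), `CV`: vectors, `CN`: bounded naturals depending on the
component, `Ix n`: the index type of a loop `k < n b`.
DO NOT change the definitions.
-/

set_option autoImplicit false
open Finset Crest.Agent.Lib.PolyTime
open scoped Classical

noncomputable section
namespace Crest.Agent.R312

/-- Computable and polynomially bounded naturals. -/
structure PN {β : Type} [PEnc β] (n : β → ℕ) : Prop where
  poly : Poly n
  pb : PB n

/-- Index type of a loop. -/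
abbrev Ix {β : Type} (n : β → ℕ) : Type := Σ b, Fin (n b)

section pn
variable {β γ : Type} [PEnc β] [PEnc γ] {n n' : β → ℕ}

theorem poly_ix1 (n : β → ℕ) : Poly fun p : Ix n => p.1 := Poly.id'.sigmaFst
theorem poly_ix2 (n : β → ℕ) : Poly fun p : Ix n => (p.2 : ℕ) := Poly.id'.sigmaFinVal

theorem poly_ixMk {g : γ → β} (hg : Poly g) {k : γ → ℕ} (hk : Poly k) (h : ∀ c, k c < n (g c)) :
    Poly fun c => (⟨g c, ⟨k c, h c⟩⟩ : Ix n) :=
  Poly.sigmaMk hg (Poly.of_enc hk.enc' fun _ => rfl)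

theorem PN.comp (h : PN n) {g : γ → β} (hg : Poly g) : PN fun c => n (g c) :=
  ⟨h.poly.comp hg, h.pb.comp' hg.pb_sz⟩
theorem PN.ix (h : PN n) (m : β → ℕ) : PN fun p : Ix m => n p.1 := h.comp (poly_ix1 m)
theorem PN.fst (h : PN n) : PN fun p : β × γ => n p.1 := h.comp Poly.id'.fst
theorem PN.of_le (h : PN n) (h' : Poly n') (le : ∀ b, n' b ≤ n b) : PN n' := ⟨h', h.pb.mono le⟩
theorem PN.var (h : PN n) : PN fun p : Ix n => (p.2 : ℕ) :=
  (h.ix n).of_le (poly_ix2 n) fun p => p.2.2.le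
theorem PN.const (k : ℕ) : PN fun _ : β => k := ⟨Lib.PolyTime.Poly.const k, PB.const k⟩
theorem PN.add (h : PN n) (h' : PN n') : PN fun b => n b + n' b :=
  ⟨h.poly.add h'.poly, h.pb.add h'.pb⟩
theorem PN.mul (h : PN n) (h' : PN n') : PN fun b => n b * n' b :=
  ⟨h.poly.mul h'.poly, h.pb.mul h'.pb⟩
theorem PN.succ (h : PN n) : PN fun b => n b + 1 := h.add (PN.const 1)
theorem PN.sub (h : PN n) (h' : Poly n') : PN fun b => n b - n' b :=
  h.of_le (h.poly.sub h') fun _ => Nat.sub_le _ _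
theorem PN.div (h : PN n) (h' : Poly n') : PN fun b => n b / n' b :=
  h.of_le (h.poly.div h') fun _ => Nat.div_le_self _ _
theorem PN.mod (h : PN n) (h' : Poly n') : PN fun b => n b % n' b :=
  h.of_le (h.poly.mod h') fun _ => Nat.mod_le _ _

/-- A bound on a loop which does not depend on the loop variable (`PB.exists_clock`). -/
theorem PN.exists_unif (hn : PN n) {B : Ix n → ℕ} (hB : PB B) :
    ∃ B' : β → ℕ, PN B' ∧ ∀ p : Ix n, B p ≤ B' p.1 := by
  obtain ⟨q, hq⟩ := hB
  obtain ⟨K, hK, hKb, hle⟩ := ((PB.sz_id.add (((PB.const 4).mul hn.pb).add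
    (PB.const 2))).eval q).exists_clock
  refine ⟨K, ⟨hK, hKb⟩, fun p => ((hq p).trans (eval_mono q ?_)).trans (hle p.1)⟩
  have h1 := sz_le_self (p.2 : ℕ)
  have h2 := p.2.2
  rw [sz_sigma, sz_fin]
  omega

/-- Uniform search. -/
theorem PN.fst' (hn : PN n) {p : β → ℕ → Prop}
    (hp : Poly fun q : Ix n => decide (p q.1 q.2)) : PN fun b => R312.fst (n b) (p b) := by
  refine hn.of_le (((Poly.ofFn (f := fun b (k : Fin (n b)) => decide (p b k)) hn.poly hn.pb
    hp).findIdx (f := fun _ x => x) Poly.id'.snd).congr fun b => (fst_eq_iff.2 ⟨?_, ?_, ?_⟩).symm)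
    fun b => fst_le _ _
  · exact List.findIdx_le_length.trans (by simp)
  · intro h
    have := List.findIdx_getElem (p := fun x => x)
      (xs := List.ofFn fun k : Fin (n b) => decide (p b k)) (w := by simpa using h)
    simpa using this
  · intro j hj
    have := List.not_of_lt_findIdx hj
    simpa using this

end pn

/-- Codes for functions `ι a → E a`. -/
structure Ctx (α : Type) (E : α → Type) [∀ a, Field (E a)] (ι : α → Type) where
  Cd : Type
  pe : PEnc Cd
  val : ∀ a, Cd → ι a → E a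
  Good : α → Cd → Prop
  K : ∀ a, Subfield (E a)
  Q : α → ℕ

namespace Ctx
variable {α : Type} [PEnc α] {E : α → Type} [∀ a, Field (E a)] {ι : α → Type} (C : Ctx α E ι)

instance : PEnc C.Cd := C.pe

variable {β γ : Type} [PEnc β] [PEnc γ]

/-- Computable families of functions on the components. -/
def CP (π : β → α) (F : ∀ b, ι (π b) → E (π b)) : Prop :=
  Poly π ∧ ∃ g : β → C.Cd, Poly g ∧ ∀ b, C.Good (π b) (g b) ∧ C.val (π b) (g b) = F b

/-- Predicates. -/
def CB (π : β → α) (P : ∀ b, ι (π b) → Prop) : Prop := C.CP π fun b i => if P b i then 1 else 0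

/-- Vectors (the position is given in binary). -/
def CV (π : β → α) (F : ∀ b, ι (π b) → ℕ → E (π b)) : Prop :=
  C.CP (fun p : β × ℕ => π p.1) fun p i => F p.1 i p.2

/-- Naturals below `B` depending on the component. -/
structure CN (π : β → α) (B : β → ℕ) (e : ∀ b, ι (π b) → ℕ) : Prop where
  pn : PN B
  lt : ∀ b i, e b i < B b
  cb : C.CB (fun p : Ix B => π p.1) fun p i => e p.1 i = p.2

/-- The axioms of a context. -/
structure OK : Prop where
  mem : ∀ a v, C.Good a v → ∀ i, C.val a v i ∈ C.K a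
  szb : ∃ B : α → ℕ, PB B ∧ ∀ a v, C.Good a v → sz v ≤ B a
  polyQ : Poly C.Q
  two_le : ∀ a, 2 ≤ C.Q a
  pow_Q : ∀ a, ∀ z ∈ C.K a, z ^ C.Q a = z
  negOne : C.CP (fun a => a) fun _ _ => -1
  add : ∀ (β : Type) [PEnc β] (π : β → α) (F G : ∀ b, ι (π b) → E (π b)),
    C.CP π F → C.CP π G → C.CP π fun b i => F b i + G b i
  mul : ∀ (β : Type) [PEnc β] (π : β → α) (F G : ∀ b, ι (π b) → E (π b)),
    C.CP π F → C.CP π G → C.CP π fun b i => F b i * G b i

variable {C} {π : β → α} {F G : ∀ b, ι (π b) → E (π b)} {P R : ∀ b, ι (π b) → Prop} {n : β → ℕ}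

theorem CP.poly (h : C.CP π F) : Poly π := h.1

theorem CP.congr (h : C.CP π F) (e : ∀ b i, F b i = G b i) : C.CP π G := by
  have e' : F = G := funext fun b => funext (e b)
  subst e'
  exact h

theorem CP.comp (h : C.CP π F) {g : γ → β} (hg : Poly g) :
    C.CP (fun c => π (g c)) fun c i => F (g c) i := by
  obtain ⟨hπ, v, hv, e⟩ := h
  exact ⟨hπ.comp hg, fun c => v (g c), hv.comp hg, fun c => e (g c)⟩

theorem CP.ix (h : C.CP π F) (n : β → ℕ) : C.CP (fun p : Ix n => π p.1) fun p i => F p.1 i :=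
  h.comp (poly_ix1 n)

theorem CP.fst (h : C.CP π F) : C.CP (fun p : β × γ => π p.1) fun p i => F p.1 i :=
  h.comp Poly.id'.fst

theorem CP.mem (H : C.OK) (h : C.CP π F) (b : β) (i : ι (π b)) : F b i ∈ C.K (π b) := by
  obtain ⟨-, v, -, e⟩ := h
  rw [← (e b).2]
  exact H.mem _ _ (e b).1 i

theorem CP.add (H : C.OK) (h : C.CP π F) (h' : C.CP π G) : C.CP π fun b i => F b i + G b i :=
  H.add β π F G h h'

theorem CP.mul (H : C.OK) (h : C.CP π F) (h' : C.CP π G) : C.CP π fun b i => F b i * G b i :=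
  H.mul β π F G h h'

theorem CP.neg (H : C.OK) (h : C.CP π F) : C.CP π fun b i => -F b i :=
  ((H.negOne.comp h.poly).mul H h).congr fun _ _ => by simp

theorem CP.sub (H : C.OK) (h : C.CP π F) (h' : C.CP π G) : C.CP π fun b i => F b i - G b i :=
  (h.add H (h'.neg H)).congr fun _ _ => by ring

theorem CP.one (H : C.OK) (hπ : Poly π) : C.CP π fun _ _ => 1 :=
  ((H.negOne.comp hπ).neg H).congr fun _ _ => by simp

theorem CP.zero (H : C.OK) (hπ : Poly π) : C.CP π fun _ _ => 0 :=
  ((CP.one H hπ).sub H (CP.one H hπ)).congr fun _ _ => by simp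

/-- Uniform case distinction. -/
theorem CP.ite' {p : β → Prop} [DecidablePred p] (hp : Poly fun b => decide (p b)) (h : C.CP π F)
    (h' : C.CP π G) : C.CP π fun b i => if p b then F b i else G b i := by
  obtain ⟨hπ, v, hv, e⟩ := h
  obtain ⟨-, w, hw, e'⟩ := h'
  refine ⟨hπ, fun b => if p b then v b else w b, Poly.ite hp hv hw, fun b => ?_⟩
  by_cases hb : p b <;> simp only [hb, if_true, if_false]
  exacts [e b, e' b]

/-- Uniform case distinction where the first branch is only computable under the promise. -/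
theorem CP.dite' {p : β → Prop} [DecidablePred p] (hp : Poly fun b => decide (p b))
    (h : C.CP (fun b : {b // p b} => π b.1) fun b i => F b.1 i)
    (h' : C.CP π G) : C.CP π fun b i => if p b then F b i else G b i := by
  obtain ⟨-, v, hv, e⟩ := h
  obtain ⟨hπ, w, hw, e'⟩ := h'
  refine ⟨hπ, fun b => if hb : p b then v ⟨b, hb⟩ else w b,
    Poly.dite (f := fun b hb => v ⟨b, hb⟩) (g := fun b _ => w b) hp hv (hw.restrict _),
    fun b => ?_⟩
  by_cases hb : p b <;> simp only [hb, dite_true, dite_false, if_true, if_false]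
  exacts [e ⟨b, hb⟩, e' b]

/-- A table. -/
theorem CV.of_ix (H : C.OK) (hπ : Poly π) (hn : PN n) {V : ∀ b, ι (π b) → ℕ → E (π b)}
    (h : C.CP (fun p : Ix n => π p.1) fun p i => V p.1 i p.2) :
    C.CV π fun b i k => if k < n b then V b i k else 0 :=
  CP.dite' (π := fun q : β × ℕ => π q.1) (p := fun q : β × ℕ => q.2 < n q.1)
    (F := fun q i => V q.1 i q.2) (G := fun _ _ => 0)
    (Poly.id'.snd.decide_lt (hn.poly.comp Poly.id'.fst))
    (h.comp (g := fun q : {q : β × ℕ // q.2 < n q.1} => ⟨q.1.1, ⟨q.1.2, q.2⟩⟩)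
      (poly_ixMk Poly.id'.val.fst Poly.id'.val.snd fun q => q.2))
    (CP.zero H (hπ.comp Poly.id'.fst))

theorem CV.app {V : ∀ b, ι (π b) → ℕ → E (π b)} (h : C.CV π V) {g : γ → β} (hg : Poly g)
    {k : γ → ℕ} (hk : Poly k) : C.CP (fun c => π (g c)) fun c i => V (g c) i (k c) :=
  CP.comp h (g := fun c => (g c, k c)) (hg.pair hk)

theorem CV.app' {V : ∀ b, ι (π b) → ℕ → E (π b)} (h : C.CV π V) {k : β → ℕ} (hk : Poly k) :
    C.CP π fun b i => V b i (k b) := h.app Poly.id' hk

theorem CV.comp {V : ∀ b, ι (π b) → ℕ → E (π b)} (h : C.CV π V) {g : γ → β} (hg : Poly g) :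
    C.CV (fun c => π (g c)) fun c i => V (g c) i :=
  h.app (g := fun p : γ × ℕ => g p.1) (hg.comp Poly.id'.fst) Poly.id'.snd

theorem CV.congr {V V' : ∀ b, ι (π b) → ℕ → E (π b)} (h : C.CV π V)
    (e : ∀ b i k, V b i k = V' b i k) : C.CV π V' := CP.congr h fun p i => e p.1 i p.2

theorem CV.poly {V : ∀ b, ι (π b) → ℕ → E (π b)} (h : C.CV π V) : Poly π :=
  (h.app' (Lib.PolyTime.Poly.const 0)).poly

/-- The list `l` codes the vector `V`. -/
def CPa_Tab (C : Ctx α E ι) (a : α) (z : C.Cd) (len : ℕ) (l : List C.Cd) (V : ι a → ℕ → E a) :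
    Prop :=
  l.length ≤ len ∧ (∀ v ∈ l, C.Good a v) ∧ ∀ j, C.val a (l.getD j z) = fun i => V i j

theorem CPa_tab {V : ∀ b, ι (π b) → ℕ → E (π b)} (h : C.CV π V) {z : β → C.Cd}
    (hz : ∀ b, C.val (π b) (z b) = fun _ => 0) {len : β → ℕ} (hlen : PN len)
    (hs : ∀ b i j, len b ≤ j → V b i j = 0) :
    ∃ L : β → List C.Cd, Poly L ∧ ∀ b, CPa_Tab C (π b) (z b) (len b) (L b) (V b) := by
  obtain ⟨-, w, hw, e⟩ := h
  refine ⟨fun b => (List.range (len b)).map fun j => w (b, j),
    (hlen.poly.range hlen.pb).map (f := fun b j => w (b, j)) hw, fun b => ⟨by simp, ?_, ?_⟩⟩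
  · intro v hv
    obtain ⟨j, -, rfl⟩ := List.mem_map.1 hv
    exact (e (b, j)).1
  · intro j
    by_cases hj : j < len b
    · rw [List.getD_eq_getElem _ _ (by simpa using hj), List.getElem_map, List.getElem_range]
      exact (e (b, j)).2
    · rw [List.getD_eq_default _ _ (by simpa using hj), hz]
      exact funext fun i => (hs b i j (not_lt.1 hj)).symm

theorem CPa_untab {V : ∀ b, ι (π b) → ℕ → E (π b)} (hπ : Poly π) {z : β → C.Cd} (hz : Poly z)
    (hz' : ∀ b, C.Good (π b) (z b)) {len : β → ℕ} {L : β → List C.Cd} (hL : Poly L)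
    (h : ∀ b, CPa_Tab C (π b) (z b) (len b) (L b) (V b)) : C.CV π V := by
  refine ⟨hπ.comp Poly.id'.fst, fun q => (L q.1).getD q.2 (z q.1),
    (hL.comp Poly.id'.fst).listGetD Poly.id'.snd (hz.comp Poly.id'.fst),
    fun q => ⟨?_, (h q.1).2.2 q.2⟩⟩
  beta_reduce
  by_cases hj : q.2 < (L q.1).length
  · rw [List.getD_eq_getElem _ _ hj]
    exact (h q.1).2.1 _ (List.getElem_mem hj)
  · rw [List.getD_eq_default _ _ (not_lt.1 hj)]
    exact hz' q.1

/-- **Loops.**  The state `s : σ b` is coded by the vector `en b s` of length `len b`. -/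
theorem CV.iter (H : C.OK) (hn : PN n) {len : β → ℕ} (hlen : PN len) {σ : β → Type}
    (en : ∀ b, σ b → ℕ → E (π b)) (de : ∀ b, (ℕ → E (π b)) → σ b)
    (Inv : ∀ b, ι (π b) → ℕ → σ b → Prop) (hde : ∀ b i k s, Inv b i k s → de b (en b s) = s)
    (hsupp : ∀ b i k s, Inv b i k s → ∀ j, len b ≤ j → en b s j = 0)
    {step : ∀ b, ι (π b) → ℕ → σ b → σ b} {init : ∀ b, ι (π b) → σ b}
    (hinv : ∀ b i, ∀ k ≤ n b, Inv b i k (R312.iter (step b i) (init b i) k))
    (h0 : C.CV π fun b i => en b (init b i))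
    (hs : ∀ (γ : Type) [PEnc γ] (g : γ → β) (k : γ → ℕ) (S : ∀ c, ι (π (g c)) → σ (g c)),
      Poly g → Poly k → (∀ c, k c < n (g c)) → (∀ c i, Inv (g c) i (k c) (S c i)) →
      C.CV (fun c => π (g c)) (fun c i => en (g c) (S c i)) →
      C.CV (fun c => π (g c)) fun c i => en (g c) (step (g c) i (k c) (S c i))) :
    C.CV π fun b i => en b (R312.iter (step b i) (init b i) (n b)) := by
  have hπ := h0.poly
  obtain ⟨-, z, hz, ez⟩ := CP.zero H hπ
  let St : Type := {x : β × ℕ × List C.Cd // x.2.1 ≤ n x.1 ∧ CPa_Tab C (π x.1) (z x.1) (len x.1)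
    x.2.2 fun i => en x.1 (R312.iter (step x.1 i) (init x.1 i) x.2.1)}
  let Γ : Type := {s : St // s.1.2.1 < n s.1.1}
  have g1 : Poly fun s : St => s.1.1 := Poly.id'.val.fst
  have g2 : Poly fun s : St => s.1.2.1 := Poly.id'.val.snd.fst
  have g3 : Poly fun s : St => s.1.2.2 := Poly.id'.val.snd.snd
  have gv : Poly fun c : Γ => c.1 := Poly.id'.val
  obtain ⟨L₀, hL₀, e₀⟩ := CPa_tab h0 (fun b => (ez b).2) hlen fun b i j hj =>
    hsupp b i 0 _ (hinv b i 0 (Nat.zero_le _)) j hj
  obtain ⟨L, hL, e⟩ := CPa_tab (hs Γ (fun c => c.1.1.1) (fun c => c.1.1.2.1)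
    (fun c i => R312.iter (step c.1.1.1 i) (init c.1.1.1 i) c.1.1.2.1) (g1.comp gv) (g2.comp gv)
    (fun c => c.2) (fun c i => hinv _ i _ c.2.le)
    (CPa_untab (hπ.comp (g1.comp gv)) (hz.comp (g1.comp gv)) (fun c => (ez _).1) (g3.comp gv)
      fun c => c.1.2.2))
    (z := fun c => z c.1.1.1) (fun c => (ez _).2) (hlen.comp (g1.comp gv)) fun c i j hj =>
      hsupp _ i (c.1.1.2.1 + 1) _ (hinv _ i _ c.2) j hj
  let st : St → St := fun s =>
    if h : s.1.2.1 < n s.1.1 then ⟨(s.1.1, s.1.2.1 + 1, L ⟨s, h⟩), h, e ⟨s, h⟩⟩ else s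
  have hst : Poly st :=
    Poly.dite (f := fun (s : St) (h : s.1.2.1 < n s.1.1) =>
        (⟨(s.1.1, s.1.2.1 + 1, L ⟨s, h⟩), h, e ⟨s, h⟩⟩ : St)) (g := fun s _ => s)
      (g2.decide_lt (hn.poly.comp g1))
      (Poly.subtype_mk ((g1.comp gv).pair (((g2.comp gv).add (Lib.PolyTime.Poly.const 1)).pair hL))
        _) Poly.id'.val
  let ini : β → St := fun b => ⟨(b, 0, L₀ b), Nat.zero_le _, e₀ b⟩
  have hini : Poly ini :=
    Poly.subtype_mk (Poly.id'.pair ((Lib.PolyTime.Poly.const 0).pair hL₀)) _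
  have key : ∀ b k, k ≤ n b → (st^[k] (ini b)).1.1 = b ∧ (st^[k] (ini b)).1.2.1 = k := by
    intro b k
    induction k with
    | zero => exact fun _ => ⟨rfl, rfl⟩
    | succ k ih =>
      intro hk
      obtain ⟨h1, h2⟩ := ih (by omega)
      rw [Function.iterate_succ_apply']
      generalize st^[k] (ini b) = s at h1 h2
      have h3 : s.1.2.1 < n s.1.1 := by rw [h1, h2]; omega
      simp only [st, dif_pos h3]
      exact ⟨h1, by rw [h2]⟩
  obtain ⟨B, hB, hsz⟩ := H.szb
  have hit : Poly fun b => st^[n b] (ini b) := by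
    refine Poly.iterate (h := fun _ => st) hn.poly hn.pb hini (hst.comp Poly.id'.snd)
      (B := fun b => sz b + (4 * n b + (len b * (B (π b) + 1) + 4)))
      (PB.sz_id.add (((PB.const 4).mul hn.pb).add
        ((hlen.pb.mul ((hB.comp hπ).add (PB.const 1))).add (PB.const 4)))) fun b k hk => ?_
    obtain ⟨h1, h2⟩ := key b k hk
    generalize st^[k] (ini b) = s at h1 h2
    obtain ⟨⟨b', k', l⟩, h3, h4, h5, h8⟩ := s
    dsimp only at h1 h2 h3 h4 h5
    subst h1
    have h6 := sz_le_self k'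
    have h7 := (sz_list_le fun v hv => hsz _ v (h5 v hv)).trans
      (Nat.add_le_add_right (Nat.mul_le_mul_right _ h4) 1)
    rw [sz_subtype, sz_pair, sz_pair]
    omega
  refine CPa_untab (len := len) hπ hz (fun b => (ez b).1) (g3.comp hit) fun b => ?_
  obtain ⟨h1, h2⟩ := key b (n b) le_rfl
  show CPa_Tab C (π b) (z b) (len b) (st^[n b] (ini b)).1.2.2 _
  generalize st^[n b] (ini b) = s at h1 h2
  obtain ⟨⟨b', k', l⟩, h3, h4⟩ := s
  dsimp only at h1 h2 h4
  subst h1
  subst h2
  exact h4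

/-- A scalar as a vector of length one. -/
theorem cp2_toCV (H : C.OK) (h : C.CP π F) :
    C.CV π fun b i j => if j = 0 then F b i else 0 :=
  CP.ite' (p := fun p : β × ℕ => p.2 = 0)
    (Poly.decide_eq Poly.id'.snd (Lib.PolyTime.Poly.const 0)) h.fst
    (CP.zero H (h.poly.comp Poly.id'.fst))

/-- Loops with a scalar state. -/
theorem CP.iter (H : C.OK) (hn : PN n) {step : ∀ b, ι (π b) → ℕ → E (π b) → E (π b)}
    (h0 : C.CP π F)
    (hs : ∀ (γ : Type) [PEnc γ] (g : γ → β) (k : γ → ℕ) (S : ∀ c, ι (π (g c)) → E (π (g c))),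
      Poly g → Poly k → (∀ c, k c < n (g c)) → C.CP (fun c => π (g c)) S →
      C.CP (fun c => π (g c)) fun c i => step (g c) i (k c) (S c i)) :
    C.CP π fun b i => R312.iter (step b i) (F b i) (n b) := by
  have key := CV.iter (C := C) (π := π) H hn (len := fun _ => 1) (PN.const 1)
    (σ := fun b => E (π b)) (fun _ s j => if j = 0 then s else 0) (fun _ f => f 0)
    (fun _ _ _ _ => True) (fun _ _ _ _ _ => by simp)
    (fun _ _ _ _ _ j hj => if_neg (by omega)) (step := step) (init := F)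
    (fun _ _ _ _ => trivial) (cp2_toCV H h0) (fun γ _ g k S hg hk hlt _ hS => by
      have h1 : C.CP (fun c => π (g c)) S :=
        (CV.app' hS (Lib.PolyTime.Poly.const 0)).congr fun _ _ => by simp
      exact cp2_toCV H (hs γ g k S hg hk hlt h1))
  exact (CV.app' key (Lib.PolyTime.Poly.const 0)).congr fun _ _ => by simp

theorem CP.sum (H : C.OK) (hπ : Poly π) (hn : PN n) {V : ∀ b, ι (π b) → ℕ → E (π b)}
    (h : C.CP (fun p : Ix n => π p.1) fun p i => V p.1 i p.2) :
    C.CP π fun b i => ∑ k ∈ range (n b), V b i k := by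
  have key := CP.iter H hn (step := fun b i k s => s + V b i k) (CP.zero H hπ)
    (fun γ _ g k S hg hk hlt hS =>
      hS.add H (h.comp (g := fun c => (⟨g c, ⟨k c, hlt c⟩⟩ : Ix n)) (poly_ixMk hg hk hlt)))
  refine key.congr fun b i => ?_
  induction n b with
  | zero => simp
  | succ m ih => rw [iter_succ, ih, Finset.sum_range_succ]

theorem CP.prod (H : C.OK) (hπ : Poly π) (hn : PN n) {V : ∀ b, ι (π b) → ℕ → E (π b)}
    (h : C.CP (fun p : Ix n => π p.1) fun p i => V p.1 i p.2) :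
    C.CP π fun b i => ∏ k ∈ range (n b), V b i k := by
  have key := CP.iter H hn (step := fun b i k s => s * V b i k) (CP.one H hπ)
    (fun γ _ g k S hg hk hlt hS =>
      hS.mul H (h.comp (g := fun c => (⟨g c, ⟨k c, hlt c⟩⟩ : Ix n)) (poly_ixMk hg hk hlt)))
  refine key.congr fun b i => ?_
  induction n b with
  | zero => simp
  | succ m ih => rw [iter_succ, ih, Finset.prod_range_succ]

/-- The prefixes of the binary expansion. -/
theorem cp2_prefix {e k : ℕ} (hk : k < e.size) :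
    e / 2 ^ (e.size - (k + 1)) =
      2 * (e / 2 ^ (e.size - k)) + e / 2 ^ (e.size - (k + 1)) % 2 := by
  have h1 : e.size - k = e.size - (k + 1) + 1 := by omega
  rw [h1, pow_succ, ← Nat.div_div_eq_div_mul]
  omega

theorem cp2_prefix_zero (e : ℕ) : e / 2 ^ (e.size - 0) = 0 :=
  Nat.div_eq_of_lt (by simpa using Nat.lt_size_self e)

theorem cp2_bit {e : β → ℕ} (he : Poly e) {g : γ → β} (hg : Poly g) {k : γ → ℕ} (hk : Poly k) :
    Poly fun c => decide (e (g c) / 2 ^ ((e (g c)).size - (k c + 1)) % 2 = 1) := by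
  have h1 : Poly fun c => e (g c) := he.comp hg
  refine Poly.decide_eq ((h1.div ((Lib.PolyTime.Poly.const 2).pow
    (h1.size.sub (hk.add (Lib.PolyTime.Poly.const 1))) ?_)).mod (Lib.PolyTime.Poly.const 2))
    (Lib.PolyTime.Poly.const 1)
  exact (PB.size h1).mono fun _ => Nat.sub_le _ _

/-- Powers with a binary exponent (square and multiply along `e / 2 ^ (size e - k)`). -/
theorem CP.pow (H : C.OK) (h : C.CP π F) {e : β → ℕ} (he : Poly e) :
    C.CP π fun b i => F b i ^ e b := by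
  have key := CP.iter H (n := fun b => (e b).size) ⟨he.size, PB.size he⟩
    (step := fun b i k s =>
      s * s * if e b / 2 ^ ((e b).size - (k + 1)) % 2 = 1 then F b i else 1)
    (CP.one H h.poly) (fun γ _ g k S hg hk _ hS =>
      (hS.mul H hS).mul H (CP.ite' (cp2_bit he hg hk) (h.comp hg) (CP.one H (h.poly.comp hg))))
  refine key.congr fun b i => ?_
  have aux : ∀ k ≤ (e b).size, R312.iter (fun k s =>
      s * s * if e b / 2 ^ ((e b).size - (k + 1)) % 2 = 1 then F b i else 1) 1 k =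
      F b i ^ (e b / 2 ^ ((e b).size - k)) := by
    intro k hk
    induction k with
    | zero => rw [cp2_prefix_zero]; simp
    | succ k ih =>
      rw [iter_succ, ih (by omega)]
      conv_rhs => rw [cp2_prefix (show k < (e b).size by omega)]
      rcases Nat.mod_two_eq_zero_or_one (e b / 2 ^ ((e b).size - (k + 1))) with h2 | h2 <;>
        rw [h2] <;> simp [pow_succ, two_mul, pow_add]
  simpa using aux _ le_rfl

/-- Binary naturals. -/
theorem CP.natCast (H : C.OK) (hπ : Poly π) {e : β → ℕ} (he : Poly e) :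
    C.CP π fun b _ => (e b : E (π b)) := by
  have key := CP.iter H (n := fun b => (e b).size) ⟨he.size, PB.size he⟩
    (step := fun b _ k s =>
      s + s + if e b / 2 ^ ((e b).size - (k + 1)) % 2 = 1 then 1 else 0)
    (CP.zero H hπ) (fun γ _ g k S hg hk _ hS =>
      (hS.add H hS).add H (CP.ite' (cp2_bit he hg hk) (CP.one H (hπ.comp hg))
        (CP.zero H (hπ.comp hg))))
  refine key.congr fun b i => ?_
  have aux : ∀ k ≤ (e b).size, R312.iter (fun k (s : E (π b)) =>
      s + s + if e b / 2 ^ ((e b).size - (k + 1)) % 2 = 1 then 1 else 0) 0 k =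
      ((e b / 2 ^ ((e b).size - k) : ℕ) : E (π b)) := by
    intro k hk
    induction k with
    | zero => rw [cp2_prefix_zero]; simp
    | succ k ih =>
      rw [iter_succ, ih (by omega)]
      conv_rhs => rw [cp2_prefix (show k < (e b).size by omega)]
      rcases Nat.mod_two_eq_zero_or_one (e b / 2 ^ ((e b).size - (k + 1))) with h2 | h2 <;>
        rw [h2] <;> simp [two_mul]
  simpa using aux _ le_rfl

/-- `z⁻¹ = z ^ (2 Q - 3)`. -/
theorem CP.inv (H : C.OK) (h : C.CP π F) : C.CP π fun b i => (F b i)⁻¹ := by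
  have hQ : Poly fun b => 2 * C.Q (π b) - 3 :=
    ((Lib.PolyTime.Poly.const 2).mul (H.polyQ.comp h.poly)).sub (Lib.PolyTime.Poly.const 3)
  refine (h.pow H hQ).congr fun b i => ?_
  have h2 := H.two_le (π b)
  have hz := H.pow_Q _ _ (h.mem H b i)
  by_cases h0 : F b i = 0
  · rw [h0, inv_zero, zero_pow (by omega)]
  · have h1 : F b i ^ (C.Q (π b) - 1) = 1 := by
      apply mul_right_cancel₀ h0
      rw [← pow_succ, Nat.sub_add_cancel (by omega), hz, one_mul]
    apply eq_inv_of_mul_eq_one_left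
    rw [← pow_succ, show 2 * C.Q (π b) - 3 + 1 = (C.Q (π b) - 1) * 2 by omega, pow_mul, h1,
      one_pow]

theorem CP.ite (H : C.OK) (hP : C.CB π P) (h : C.CP π F) (h' : C.CP π G) :
    C.CP π fun b i => if P b i then F b i else G b i := by
  refine ((CP.mul H hP (h.sub H h')).add H h').congr fun b i => ?_
  by_cases hb : P b i <;> simp [hb]

theorem CB.poly (h : C.CB π P) : Poly π := CP.poly h

theorem CB.congr (h : C.CB π P) (e : ∀ b i, P b i ↔ R b i) : C.CB π R :=
  CP.congr h fun b i => by simp only [e]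

theorem CB.comp (h : C.CB π P) {g : γ → β} (hg : Poly g) :
    C.CB (fun c => π (g c)) fun c i => P (g c) i := CP.comp h hg

theorem CB.ix (h : C.CB π P) (n : β → ℕ) : C.CB (fun p : Ix n => π p.1) fun p i => P p.1 i :=
  h.comp (poly_ix1 n)

theorem CB.of_poly (H : C.OK) (hπ : Poly π) {p : β → Prop} [DecidablePred p]
    (hp : Poly fun b => decide (p b)) : C.CB π fun b _ => p b := by
  refine (CP.ite' hp (CP.one H hπ) (CP.zero H hπ)).congr fun b i => ?_
  by_cases hb : p b <;> simp [hb]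

theorem CB.ne_zero (H : C.OK) (h : C.CP π F) : C.CB π fun b i => F b i ≠ 0 := by
  refine (h.mul H (h.inv H)).congr fun b i => ?_
  by_cases hb : F b i = 0 <;> simp [hb]

theorem CB.not (H : C.OK) (h : C.CB π P) : C.CB π fun b i => ¬P b i := by
  refine ((CP.one H h.poly).sub H h).congr fun b i => ?_
  by_cases hb : P b i <;> simp [hb]

theorem CB.and (H : C.OK) (h : C.CB π P) (h' : C.CB π R) : C.CB π fun b i => P b i ∧ R b i := by
  refine (CP.mul H h h').congr fun b i => ?_
  by_cases hb : P b i <;> by_cases hb' : R b i <;> simp [hb, hb']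

theorem CB.or (H : C.OK) (h : C.CB π P) (h' : C.CB π R) : C.CB π fun b i => P b i ∨ R b i :=
  (((h.not H).and H (h'.not H)).not H).congr fun b i => by tauto

theorem CB.eq (H : C.OK) (h : C.CP π F) (h' : C.CP π G) : C.CB π fun b i => F b i = G b i :=
  ((CB.ne_zero H (h.sub H h')).not H).congr fun b i => by rw [not_not, sub_eq_zero]

theorem CB.forall_lt (H : C.OK) (hπ : Poly π) (hn : PN n) {p : ∀ b, ι (π b) → ℕ → Prop}
    (h : C.CB (fun q : Ix n => π q.1) fun q i => p q.1 i q.2) :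
    C.CB π fun b i => ∀ k < n b, p b i k := by
  refine (CP.prod H hπ hn (V := fun b i k => if p b i k then 1 else 0) h).congr fun b i => ?_
  by_cases hb : ∀ k < n b, p b i k
  · rw [if_pos hb]
    exact Finset.prod_eq_one fun k hk => if_pos (hb k (Finset.mem_range.1 hk))
  · rw [if_neg hb]
    push Not at hb
    obtain ⟨k, hk, hk'⟩ := hb
    exact Finset.prod_eq_zero (Finset.mem_range.2 hk) (if_neg hk')

theorem CB.exists_lt (H : C.OK) (hπ : Poly π) (hn : PN n) {p : ∀ b, ι (π b) → ℕ → Prop}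
    (h : C.CB (fun q : Ix n => π q.1) fun q i => p q.1 i q.2) :
    C.CB π fun b i => ∃ k < n b, p b i k :=
  ((CB.forall_lt H hπ hn (p := fun b i k => ¬p b i k) (h.not H)).not H).congr fun b i => by
    push Not
    rfl

theorem CN.comp {B : β → ℕ} {e : ∀ b, ι (π b) → ℕ} (h : C.CN π B e) {g : γ → β} (hg : Poly g) :
    C.CN (fun c => π (g c)) (fun c => B (g c)) fun c i => e (g c) i :=
  ⟨h.pn.comp hg, fun c i => h.lt _ i,
    h.cb.comp (g := fun p : Ix fun c => B (g c) => ⟨g p.1, p.2⟩)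
      (poly_ixMk (hg.comp (poly_ix1 _)) (poly_ix2 _) fun p => p.2.2)⟩

/-- Search (`fst_eq_iff`). -/
theorem CN.fst (H : C.OK) (hπ : Poly π) (hn : PN n) {p : ∀ b, ι (π b) → ℕ → Prop}
    (h : C.CB (fun q : Ix n => π q.1) fun q i => p q.1 i q.2) :
    C.CN π (fun b => n b + 1) fun b i => R312.fst (n b) (p b i) := by
  refine ⟨hn.succ, fun b i => Nat.lt_succ_of_le (fst_le _ _), ?_⟩
  have hπ' : Poly fun q : Ix fun b => n b + 1 => π q.1 := hπ.comp (poly_ix1 _)
  have hn' : PN fun q : Ix fun b => n b + 1 => n q.1 := hn.ix _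
  -- the predicate at the inner index
  have hin : C.CB (fun r : Ix fun q : Ix fun b => n b + 1 => n q.1 => π r.1.1)
      fun r i => p r.1.1 i r.2 :=
    h.comp (g := fun r : Ix fun q : Ix fun b => n b + 1 => n q.1 => (⟨r.1.1, r.2⟩ : Ix n))
      (poly_ixMk ((poly_ix1 _).comp (poly_ix1 _)) (poly_ix2 _) fun r => r.2.2)
  have hπ'' := hin.poly
  have hj : Poly fun r : Ix fun q : Ix fun b => n b + 1 => n q.1 => (r.2 : ℕ) := poly_ix2 _
  have hk : Poly fun r : Ix fun q : Ix fun b => n b + 1 => n q.1 => (r.1.2 : ℕ) :=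
    (poly_ix2 _).comp (poly_ix1 _)
  have hne := CB.of_poly H hπ''
    (p := fun r : Ix fun q : Ix fun b => n b + 1 => n q.1 => (r.2 : ℕ) = r.1.2)
    (Poly.decide_eq hj hk)
  have hlt := CB.of_poly H hπ''
    (p := fun r : Ix fun q : Ix fun b => n b + 1 => n q.1 => (r.2 : ℕ) < r.1.2)
    (Poly.decide_lt hj hk)
  have hall := CB.forall_lt H hπ' hn'
    (p := fun q i j => (¬j = (q.2 : ℕ) ∨ p q.1 i j) ∧ (¬j < (q.2 : ℕ) ∨ ¬p q.1 i j))
    (((hne.not H).or H hin).and H ((hlt.not H).or H (hin.not H)))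
  refine hall.congr fun q i => ?_
  have hq : (q.2 : ℕ) ≤ n q.1 := Nat.lt_succ_iff.1 q.2.2
  rw [fst_eq_iff]
  constructor
  · intro hh
    refine ⟨hq, fun h1 => ?_, fun j h1 => ?_⟩
    · exact (hh _ h1).1.resolve_left (not_not.2 rfl)
    · exact (hh j (by omega)).2.resolve_left (not_not.2 h1)
  · rintro ⟨-, h1, h2⟩ j hj
    refine ⟨?_, ?_⟩
    · by_cases hjq : j = (q.2 : ℕ)
      · exact Or.inr (hjq ▸ h1 (hjq ▸ hj))
      · exact Or.inl hjq
    · by_cases hjq : j < (q.2 : ℕ)
      · exact Or.inr (h2 j hjq)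
      · exact Or.inl hjq

/-- Selection: `V (e) = ∑_k [e = k] V k`. -/
theorem CP.sel (H : C.OK) (hπ : Poly π) {B : β → ℕ} {e : ∀ b, ι (π b) → ℕ} (he : C.CN π B e)
    {V : ∀ b, ι (π b) → ℕ → E (π b)} (h : C.CP (fun p : Ix B => π p.1) fun p i => V p.1 i p.2) :
    C.CP π fun b i => V b i (e b i) := by
  refine (CP.sum H hπ he.pn (V := fun b i k => if e b i = k then V b i k else 0)
    ((CP.ite H he.cb h (CP.zero H h.poly)).congr fun p i => by
      by_cases hk : e p.1 i = p.2 <;> simp [hk])).congr fun b i => ?_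
  rw [Finset.sum_eq_single (e b i)]
  · simp
  · intro k _ hk
    rw [if_neg (Ne.symm hk)]
  · intro hk
    exact absurd (Finset.mem_range.2 (he.lt b i)) hk

end Ctx
end Crest.Agent.R312
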