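import Crest.Agent.R312.AlgCP

/-!
# Row 312, algorithm half: polynomials in all components
DO NOT change the definitions.  (Write `_root_.funext`: `Polynomial.funext` is open.)
-/

set_option autoImplicit false
open Finset Polynomial Crest.Agent.Lib.PolyTime
open scoped Classical

noncomputable section
namespace Crest.Agent.R312
namespace Ctx
variable {α : Type} [PEnc α] {E : α → Type} [∀ a, Field (E a)] {ι : α → Type} (C : Ctx α E ι)
  {β γ : Type} [PEnc β] [PEnc γ]

/-- Computable families of polynomials. -/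
structure CX (π : β → α) (F : ∀ b, ι (π b) → (E (π b))[X]) : Prop where
  bd : ∃ B : β → ℕ, PN B ∧ ∀ b i, (F b i).natDegree ≤ B b
  cv : C.CV π fun b i k => (F b i).coeff k

variable {C} {π : β → α} {F G : ∀ b, ι (π b) → (E (π b))[X]} {z : ∀ b, ι (π b) → E (π b)}
  {P : ∀ b, ι (π b) → Prop} {n : β → ℕ}

theorem CX.poly (h : C.CX π F) : Poly π := h.cv.poly

theorem CX.congr (h : C.CX π F) (e : ∀ b i, F b i = G b i) : C.CX π G := by
  have e' : F = G := _root_.funext fun b => _root_.funext (e b)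
  subst e'
  exact h

theorem CX.comp (h : C.CX π F) {g : γ → β} (hg : Poly g) :
    C.CX (fun c => π (g c)) fun c i => F (g c) i := by
  obtain ⟨⟨B, hB, le⟩, hv⟩ := h
  exact ⟨⟨fun c => B (g c), hB.comp hg, fun c i => le _ i⟩, hv.comp hg⟩

theorem CX.ix (h : C.CX π F) (n : β → ℕ) : C.CX (fun p : Ix n => π p.1) fun p i => F p.1 i :=
  h.comp (poly_ix1 n)

theorem CX.coeff (h : C.CX π F) {k : β → ℕ} (hk : Poly k) :
    C.CP π fun b i => (F b i).coeff (k b) := h.cv.app' hk

/-- A polynomial of degree `< n` from its first `n` coefficients. -/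
theorem CX.of_coeff (H : C.OK) (hπ : Poly π) (hn : PN n) (hd : ∀ b i, (F b i).degree < n b)
    (h : C.CP (fun p : Ix n => π p.1) fun p i => (F p.1 i).coeff p.2) : C.CX π F := by
  refine ⟨⟨n, hn, fun b i => natDegree_le_of_degree_le (hd b i).le⟩,
    (CV.of_ix H hπ hn (V := fun b i k => (F b i).coeff k) h).congr fun b i k => ?_⟩
  split_ifs with hk
  · rfl
  · exact (coeff_eq_zero_of_degree_lt ((hd b i).trans_le (Nat.cast_le.2 (not_lt.1 hk)))).symm

theorem CX.of_sum (H : C.OK) (hπ : Poly π) (hn : PN n) {V : ∀ b, ι (π b) → ℕ → E (π b)}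
    (h : C.CP (fun p : Ix n => π p.1) fun p i => V p.1 i p.2) :
    C.CX π fun b i => ∑ k ∈ range (n b), monomial k (V b i k) := by
  have e : ∀ b i j, (∑ k ∈ range (n b), monomial k (V b i k)).coeff j =
      if j < n b then V b i j else 0 := fun b i j => by
    simp only [finsetSum_coeff, coeff_monomial, Finset.sum_ite_eq', Finset.mem_range]
  refine CX.of_coeff H hπ hn (fun b i => (degree_lt_iff_coeff_zero _ _).2 fun j hj => ?_)
    (h.congr fun p i => ?_)
  · rw [e, if_neg (not_lt.2 hj)]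
  · rw [e, if_pos p.2.2]

theorem CX.const (H : C.OK) (h : C.CP π z) : C.CX π fun b i => Polynomial.C (z b i) := by
  refine ⟨⟨fun _ => 0, PN.const 0, fun b i => (natDegree_C _).le⟩, ?_⟩
  exact (CP.ite' (p := fun p : β × ℕ => p.2 = 0)
    (Poly.decide_eq Poly.id'.snd (Lib.PolyTime.Poly.const 0)) (h.fst (γ := ℕ))
    ((CP.zero H h.poly).fst (γ := ℕ))).congr fun p i => (coeff_C).symm

theorem CX.zero (H : C.OK) (hπ : Poly π) : C.CX π fun _ _ => 0 :=
  (CX.const H (CP.zero H hπ)).congr fun _ _ => C_0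

theorem CX.one (H : C.OK) (hπ : Poly π) : C.CX π fun _ _ => 1 :=
  (CX.const H (CP.one H hπ)).congr fun _ _ => C_1

theorem CX.X_pow (H : C.OK) (hπ : Poly π) (hn : PN n) : C.CX π fun b _ => X ^ n b := by
  refine ⟨⟨n, hn, fun b i => natDegree_X_pow_le _⟩, ?_⟩
  exact (CP.ite' (p := fun p : β × ℕ => p.2 = n p.1)
    (Poly.decide_eq Poly.id'.snd (hn.fst (γ := ℕ)).poly) ((CP.one H hπ).fst (γ := ℕ))
    ((CP.zero H hπ).fst (γ := ℕ))).congr fun p i => (coeff_X_pow _ _).symm

theorem CX.add (H : C.OK) (h : C.CX π F) (h' : C.CX π G) : C.CX π fun b i => F b i + G b i := by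
  obtain ⟨⟨B, hB, le⟩, hv⟩ := h
  obtain ⟨⟨B', hB', le'⟩, hv'⟩ := h'
  refine ⟨⟨_, hB.add hB', fun b i => (natDegree_add_le _ _).trans (max_le
    ((le b i).trans (Nat.le_add_right _ _)) ((le' b i).trans (Nat.le_add_left _ _)))⟩, ?_⟩
  exact (CP.add H hv hv').congr fun p i => (coeff_add _ _ _).symm

theorem CX.sub (H : C.OK) (h : C.CX π F) (h' : C.CX π G) : C.CX π fun b i => F b i - G b i := by
  obtain ⟨⟨B, hB, le⟩, hv⟩ := h
  obtain ⟨⟨B', hB', le'⟩, hv'⟩ := h'
  refine ⟨⟨_, hB.add hB', fun b i => (natDegree_sub_le _ _).trans (max_le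
    ((le b i).trans (Nat.le_add_right _ _)) ((le' b i).trans (Nat.le_add_left _ _)))⟩, ?_⟩
  exact (CP.sub H hv hv').congr fun p i => (coeff_sub _ _ _).symm

theorem CX.mul (H : C.OK) (h : C.CX π F) (h' : C.CX π G) : C.CX π fun b i => F b i * G b i := by
  have hπ := h.poly
  obtain ⟨⟨B, hB, le⟩, hv⟩ := h
  obtain ⟨⟨B', hB', le'⟩, hv'⟩ := h'
  have hN : PN fun b => B b + B' b + 1 := (hB.add hB').succ
  refine CX.of_coeff H hπ hN (fun b i => degree_le_natDegree.trans_lt (Nat.cast_lt.2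
    (Nat.lt_succ_of_le (natDegree_mul_le.trans (add_le_add (le b i) (le' b i)))))) ?_
  have h1 := poly_ix1 fun p : Ix fun b => B b + B' b + 1 => (p.2 : ℕ) + 1
  have h2 := poly_ix2 fun p : Ix fun b => B b + B' b + 1 => (p.2 : ℕ) + 1
  have h3 := (poly_ix1 fun b => B b + B' b + 1).comp h1
  have h4 := (poly_ix2 fun b => B b + B' b + 1).comp h1
  refine (CP.sum H (hπ.comp (poly_ix1 _)) hN.var.succ
    (V := fun p i j => (F p.1 i).coeff j * (G p.1 i).coeff (p.2 - j))
    (CP.mul H (hv.app h3 h2) (hv'.app h3 (h4.sub h2)))).congr fun p i => ?_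
  rw [coeff_mul, Finset.Nat.sum_antidiagonal_eq_sum_range_succ
    fun j k => (F p.1 i).coeff j * (G p.1 i).coeff k]

theorem CX.smul (H : C.OK) (hz : C.CP π z) (h : C.CX π F) : C.CX π fun b i => z b i • F b i :=
  ((CX.const H hz).mul H h).congr fun _ _ => (smul_eq_C_mul _).symm

theorem CX.derivative (H : C.OK) (h : C.CX π F) : C.CX π fun b i => derivative (F b i) := by
  have hπ := h.poly
  obtain ⟨⟨B, hB, le⟩, hv⟩ := h
  refine ⟨⟨B, hB, fun b i => ((natDegree_derivative_le _).trans (Nat.sub_le _ _)).trans (le b i)⟩,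
    ?_⟩
  have h1 : Poly fun p : β × ℕ => p.2 + 1 := Poly.id'.snd.add (Lib.PolyTime.Poly.const 1)
  refine (CP.mul H (hv.app (g := fun p : β × ℕ => p.1) Poly.id'.fst h1)
    (CP.natCast H (hπ.comp (g := fun p : β × ℕ => p.1) Poly.id'.fst) h1)).congr fun p i => ?_
  beta_reduce
  rw [coeff_derivative, Nat.cast_succ]

theorem CX.eval (H : C.OK) (h : C.CX π F) (hz : C.CP π z) :
    C.CP π fun b i => (F b i).eval (z b i) := by
  have hπ := h.poly
  obtain ⟨⟨B, hB, le⟩, hv⟩ := h
  refine (CP.sum H hπ hB.succ (V := fun b i k => (F b i).coeff k * z b i ^ k)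
    (CP.mul H (hv.app (poly_ix1 _) (poly_ix2 _)) ((hz.ix _).pow H (poly_ix2 _)))).congr
    fun b i => ?_
  rw [eval_eq_sum_range' (Nat.lt_succ_of_le (le b i))]

theorem CX.ite (H : C.OK) (hP : C.CB π P) (h : C.CX π F) (h' : C.CX π G) :
    C.CX π fun b i => if P b i then F b i else G b i := by
  obtain ⟨⟨B, hB, le⟩, hv⟩ := h
  obtain ⟨⟨B', hB', le'⟩, hv'⟩ := h'
  refine ⟨⟨_, hB.add hB', fun b i => ?_⟩, (CP.ite H
    (hP.comp (g := fun p : β × ℕ => p.1) Poly.id'.fst) hv hv').congr fun p i => ?_⟩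
  · split_ifs
    exacts [(le b i).trans (Nat.le_add_right _ _), (le' b i).trans (Nat.le_add_left _ _)]
  · beta_reduce
    split_ifs <;> rfl

theorem CX.ite' {p : β → Prop} [DecidablePred p] (hp : Poly fun b => decide (p b)) (h : C.CX π F)
    (h' : C.CX π G) : C.CX π fun b i => if p b then F b i else G b i := by
  obtain ⟨⟨B, hB, le⟩, hv⟩ := h
  obtain ⟨⟨B', hB', le'⟩, hv'⟩ := h'
  refine ⟨⟨_, hB.add hB', fun b i => ?_⟩, (CP.ite' (p := fun q : β × ℕ => p q.1)
    (hp.comp (g := fun q : β × ℕ => q.1) Poly.id'.fst) hv hv').congr fun q i => ?_⟩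
  · split_ifs
    exacts [(le b i).trans (Nat.le_add_right _ _), (le' b i).trans (Nat.le_add_left _ _)]
  · beta_reduce
    split_ifs <;> rfl

theorem CX.ne_zero (H : C.OK) (h : C.CX π F) : C.CB π fun b i => F b i ≠ 0 := by
  have hπ := h.poly
  obtain ⟨⟨B, hB, le⟩, hv⟩ := h
  refine (CB.exists_lt H hπ hB.succ (p := fun b i k => (F b i).coeff k ≠ 0)
    (CB.ne_zero H (hv.app (poly_ix1 _) (poly_ix2 _)))).congr fun b i => ⟨?_, fun h0 => ?_⟩
  · rintro ⟨k, -, hk⟩ h0
    exact hk (by rw [h0, coeff_zero])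
  · exact ⟨_, Nat.lt_succ_of_le (le b i), leadingCoeff_ne_zero.2 h0⟩

theorem CX.sum (H : C.OK) (hπ : Poly π) (hn : PN n) {V : ∀ b, ι (π b) → ℕ → (E (π b))[X]}
    (h : C.CX (fun p : Ix n => π p.1) fun p i => V p.1 i p.2) :
    C.CX π fun b i => ∑ k ∈ range (n b), V b i k := by
  obtain ⟨⟨B, hB, le⟩, hv⟩ := h
  obtain ⟨B', hB', le'⟩ := hn.exists_unif hB.pb
  refine ⟨⟨B', hB', fun b i => natDegree_sum_le_of_forall_le _ _ fun k hk =>
    (le ⟨b, ⟨k, mem_range.1 hk⟩⟩ i).trans (le' _)⟩, ?_⟩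
  have h1 := poly_ix1 fun p : β × ℕ => n p.1
  have h2 := poly_ix2 fun p : β × ℕ => n p.1
  refine (CP.sum H (hπ.comp (g := fun p : β × ℕ => p.1) Poly.id'.fst) (hn.fst (γ := ℕ))
    (V := fun p i k => (V p.1 i k).coeff p.2)
    (hv.app (g := fun q : Ix fun p : β × ℕ => n p.1 => ⟨q.1.1, q.2⟩)
      (poly_ixMk h1.fst h2 fun q => q.2.2) h1.snd)).congr fun p i => ?_
  exact (finsetSum_coeff _ _ _).symm

theorem CX.sel (H : C.OK) (hπ : Poly π) {B : β → ℕ} {e : ∀ b, ι (π b) → ℕ} (he : C.CN π B e)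
    {V : ∀ b, ι (π b) → ℕ → (E (π b))[X]}
    (h : C.CX (fun p : Ix B => π p.1) fun p i => V p.1 i p.2) :
    C.CX π fun b i => V b i (e b i) := by
  obtain ⟨⟨B₀, hB, le⟩, hv⟩ := h
  obtain ⟨B', hB', le'⟩ := he.pn.exists_unif hB.pb
  refine ⟨⟨B', hB', fun b i => (le ⟨b, ⟨e b i, he.lt b i⟩⟩ i).trans (le' _)⟩, ?_⟩
  have h1 := poly_ix1 fun p : β × ℕ => B p.1
  have h2 := poly_ix2 fun p : β × ℕ => B p.1
  exact CP.sel H (hπ.comp (g := fun p : β × ℕ => p.1) Poly.id'.fst)
    (he.comp (g := fun p : β × ℕ => p.1) Poly.id'.fst) (V := fun p i k => (V p.1 i k).coeff p.2)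
    (hv.app (g := fun q : Ix fun p : β × ℕ => B p.1 => ⟨q.1.1, q.2⟩)
      (poly_ixMk h1.fst h2 fun q => q.2.2) h1.snd)

/-- Loops whose state is a polynomial of degree at most `B`. -/
theorem CX.iter (H : C.OK) (hn : PN n) {B : β → ℕ} (hB : PN B)
    {step : ∀ b, ι (π b) → ℕ → (E (π b))[X] → (E (π b))[X]}
    (hinv : ∀ b i, ∀ k ≤ n b, (R312.iter (step b i) (F b i) k).natDegree ≤ B b) (h0 : C.CX π F)
    (hs : ∀ (γ : Type) [PEnc γ] (g : γ → β) (k : γ → ℕ) (S : ∀ c, ι (π (g c)) → (E (π (g c)))[X]),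
      Poly g → Poly k → (∀ c, k c < n (g c)) → C.CX (fun c => π (g c)) S →
      C.CX (fun c => π (g c)) fun c i => step (g c) i (k c) (S c i)) :
    C.CX π fun b i => R312.iter (step b i) (F b i) (n b) := by
  refine ⟨⟨B, hB, fun b i => hinv b i _ le_rfl⟩, ?_⟩
  refine CV.iter H hn hB.succ (σ := fun b => (E (π b))[X]) (fun b s k => s.coeff k)
    (fun b v => ∑ k ∈ range (B b + 1), monomial k (v k)) (fun b _ _ s => s.natDegree ≤ B b)
    (fun b _ _ s hs' => (as_sum_range' s _ (Nat.lt_succ_of_le hs')).symm)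
    (fun b _ _ s hs' j hj => coeff_eq_zero_of_natDegree_lt (by omega)) hinv h0.cv ?_
  intro γ _ g k S hg hk hlt hI hS
  exact (hs γ g k S hg hk hlt ⟨⟨fun c => B (g c), hB.comp hg, hI⟩, hS⟩).cv

theorem cx_iter_pow {K : Type} [Field K] (f : K[X]) (k : ℕ) :
    R312.iter (fun _ s => s * f) 1 k = f ^ k := by
  induction k with
  | zero => simp
  | succ k ih => rw [iter_succ, ih, pow_succ]

theorem CX.pow (H : C.OK) (h : C.CX π F) (hn : PN n) : C.CX π fun b i => F b i ^ n b := by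
  obtain ⟨B, hB, le⟩ := h.bd
  refine (CX.iter H hn (hn.mul hB) (F := fun _ _ => 1) (step := fun b i _ s => s * F b i)
    (fun b i k hk => ?_) (CX.one H h.poly) fun γ _ g k S hg _ _ hS =>
      hS.mul H (h.comp hg)).congr fun b i => cx_iter_pow _ _
  rw [cx_iter_pow]
  exact natDegree_pow_le.trans (Nat.mul_le_mul hk (le b i))

/-- One step of the long division, acting on the quotient. -/
def cxDivStep {K : Type} [Field K] (f g : K[X]) (B n k : ℕ) (q : K[X]) : K[X] :=
  q + Polynomial.C ((f - q * g).coeff (B - k)) * X ^ (B - k - n)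

theorem cxDivStep_inv {K : Type} [Field K] {f g : K[X]} {B n : ℕ} (hg : g.Monic)
    (hn : g.natDegree = n) (hf : f.natDegree ≤ B) :
    ∀ k ≤ B + 1 - n, (R312.iter (cxDivStep f g B n) 0 k).natDegree ≤ B ∧
      ∀ j, B + 1 - k ≤ j → (f - R312.iter (cxDivStep f g B n) 0 k * g).coeff j = 0 := by
  intro k
  induction k with
  | zero =>
    intro _
    refine ⟨by simp, fun j hj => ?_⟩
    rw [iter_zero, zero_mul, sub_zero]
    exact coeff_eq_zero_of_natDegree_lt (by omega)
  | succ k ih =>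
    intro hk
    obtain ⟨h1, h2⟩ := ih (by omega)
    rw [iter_succ]
    generalize R312.iter (cxDivStep f g B n) 0 k = q at h1 h2
    refine ⟨?_, fun j hj => ?_⟩
    · unfold cxDivStep
      refine (natDegree_add_le _ _).trans (max_le h1 ?_)
      exact (natDegree_C_mul_X_pow_le _ _).trans (by omega)
    · have e : f - cxDivStep f g B n k q * g =
          (f - q * g) - Polynomial.C ((f - q * g).coeff (B - k)) * (X ^ (B - k - n) * g) := by
        unfold cxDivStep
        ring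
      rw [e, coeff_sub, coeff_C_mul, coeff_X_pow_mul', if_pos (by omega)]
      rcases Nat.eq_or_lt_of_le (show B - k ≤ j by omega) with hj' | hj'
      · have e1 : j - (B - k - n) = g.natDegree := by omega
        rw [e1, hg.coeff_natDegree, mul_one, hj', sub_self]
      · rw [h2 j (by omega), coeff_eq_zero_of_natDegree_lt (p := g) (by omega), mul_zero, sub_zero]

theorem cxDivStep_final {K : Type} [Field K] {f g : K[X]} {B n : ℕ} (hg : g.Monic)
    (hn : g.natDegree = n) (hf : f.natDegree ≤ B) :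
    R312.iter (cxDivStep f g B n) 0 (B + 1 - n) = f /ₘ g := by
  obtain ⟨-, h2⟩ := cxDivStep_inv hg hn hf _ le_rfl
  generalize R312.iter (cxDivStep f g B n) 0 (B + 1 - n) = q at h2
  refine (div_modByMonic_unique q (f - q * g) hg ⟨by ring, ?_⟩).1.symm
  rw [degree_eq_natDegree hg.ne_zero, hn, degree_lt_iff_coeff_zero]
  exact fun j hj => h2 j (by omega)

theorem CX.divByMonic_aux (H : C.OK) (h : C.CX π F) (h' : C.CX π G) (hn : PN n)
    (hG : ∀ b i, (G b i).Monic ∧ (G b i).natDegree = n b) : C.CX π fun b i => F b i /ₘ G b i := by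
  obtain ⟨B, hB, le⟩ := h.bd
  refine (CX.iter H (hB.succ.sub hn.poly) hB (F := fun _ _ => 0)
    (step := fun b i => cxDivStep (F b i) (G b i) (B b) (n b))
    (fun b i k hk => (cxDivStep_inv (hG b i).1 (hG b i).2 (le b i) k hk).1) (CX.zero H h.poly)
    fun γ _ g k S hg hk _ hS => ?_).congr
      fun b i => cxDivStep_final (hG b i).1 (hG b i).2 (le b i)
  have h1 : PN fun c => B (g c) - k c := (hB.comp hg).sub hk
  exact hS.add H ((CX.const H (((h.comp hg).sub H (hS.mul H (h'.comp hg))).coeff h1.poly)).mul H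
    (CX.X_pow H hS.poly (h1.sub (hn.poly.comp hg))))

/-- Division by a monic polynomial of uniform degree `n` (loop: kill the coefficients `B, B-1, …, n`;
keep the remainder; `div_modByMonic_unique`). -/
theorem CX.modByMonic (H : C.OK) (h : C.CX π F) (h' : C.CX π G) (hn : PN n)
    (hG : ∀ b i, (G b i).Monic ∧ (G b i).natDegree = n b) : C.CX π fun b i => F b i %ₘ G b i :=
  (h.sub H (h'.mul H (CX.divByMonic_aux H h h' hn hG))).congr fun b i =>
    (modByMonic_eq_sub_mul_div (F b i) (G b i)).symm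

theorem CX.divByMonic (H : C.OK) (h : C.CX π F) (h' : C.CX π G) (hn : PN n)
    (hG : ∀ b i, (G b i).Monic ∧ (G b i).natDegree = n b) : C.CX π fun b i => F b i /ₘ G b i :=
  CX.divByMonic_aux H h h' hn hG

/-- One step of square-and-multiply. -/
def cxPowStep {K : Type} [Field K] (f g : K[X]) (e k : ℕ) (s : K[X]) : K[X] :=
  (s * s * if e.testBit (e.size - k - 1) = true then f else 1) %ₘ g

theorem cxPowStep_inv {K : Type} [Field K] (f : K[X]) {g : K[X]} (hg : g.Monic) (e : ℕ) :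
    ∀ k ≤ e.size, R312.iter (cxPowStep f g e) (1 %ₘ g) k = f ^ (e / 2 ^ (e.size - k)) %ₘ g := by
  intro k
  induction k with
  | zero =>
    intro _
    rw [iter_zero, Nat.sub_zero, Nat.div_eq_of_lt (Nat.lt_size_self e), pow_zero]
  | succ k ih =>
    intro hk
    rw [iter_succ, ih (by omega)]
    unfold cxPowStep
    obtain ⟨m, hm⟩ : ∃ m, e.size - k = m + 1 := ⟨e.size - k - 1, by omega⟩
    have hm' : e.size - (k + 1) = m := by omega
    rw [hm, hm', Nat.add_sub_cancel, Nat.testBit_eq_decide_div_mod_eq, pow_succ,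
      ← Nat.div_div_eq_div_mul]
    generalize e / 2 ^ m = t
    have key : f ^ t = f ^ (t / 2) * f ^ (t / 2) * if decide (t % 2 = 1) = true then f else 1 := by
      conv_lhs => rw [← Nat.div_add_mod t 2, pow_add, two_mul, pow_add]
      rcases Nat.mod_two_eq_zero_or_one t with h | h <;> simp [h]
    rw [key]
    refine modByMonic_eq_of_dvd_sub hg ?_
    rw [← sub_mul]
    refine Dvd.dvd.mul_right ?_ _
    have hd : g ∣ f ^ (t / 2) %ₘ g - f ^ (t / 2) := by
      rw [modByMonic_eq_sub_mul_div]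
      exact ⟨-(f ^ (t / 2) /ₘ g), by ring⟩
    rw [mul_self_sub_mul_self]
    exact hd.mul_left _

/-- Modular powers with a binary exponent. -/
theorem CX.powMod (H : C.OK) (h : C.CX π F) (h' : C.CX π G) (hn : PN n)
    (hG : ∀ b i, (G b i).Monic ∧ (G b i).natDegree = n b) {e : β → ℕ} (he : Poly e) :
    C.CX π fun b i => F b i ^ e b %ₘ G b i := by
  have hL : PN fun b => (e b).size := ⟨he.size, PB.size he⟩
  refine (CX.iter H hL hn (F := fun b i => 1 %ₘ G b i)
    (step := fun b i => cxPowStep (F b i) (G b i) (e b)) (fun b i k hk => ?_)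
    (CX.modByMonic H (CX.one H h.poly) h' hn hG) fun γ _ g k S hg hk _ hS => ?_).congr
      fun b i => ?_
  · rw [cxPowStep_inv _ (hG b i).1 _ k hk, ← (hG b i).2]
    exact natDegree_modByMonic_le _ (hG b i).1
  · have hp : Poly fun c => decide ((e (g c)).testBit ((e (g c)).size - k c - 1) = true) :=
      (Poly.testBit (he.comp hg) (((hL.poly.comp hg).sub hk).sub
        (Lib.PolyTime.Poly.const 1))).congr fun c => by simp
    exact CX.modByMonic H ((hS.mul H hS).mul H (CX.ite' hp (h.comp hg) (CX.one H hS.poly)))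
      (h'.comp hg) (hn.comp hg) fun c i => hG (g c) i
  · rw [cxPowStep_inv _ (hG b i).1 _ _ le_rfl, Nat.sub_self, pow_zero, Nat.div_one]

end Ctx
end Crest.Agent.R312
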