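import Crest.Agent.R312.AlgCrv
import Crest.Agent.R312.AlgLin

/-!
# Row 312, algorithm half: the algorithm on the curve (as functions over one field)

Divisor classes are represented by finite families `W : ℕ → L` of functions (greatest common divisor).
DO NOT change the definitions.
-/

set_option autoImplicit false
open Finset Polynomial
open scoped Classical

noncomputable section
namespace Crest.Agent.R312
namespace Crv
variable {E : Type} [Field E] (c : Crv E)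

/-- Linear combination. -/
def lin (n : ℕ) (v : ℕ → c.L) (z : ℕ → E) : c.L := ∑ k ∈ range n, z k • v k

/-- Cut a family off. -/
def cut (n : ℕ) (W : ℕ → c.L) (k : ℕ) : c.L := if k < n then W k else 0

/-- `∑ t ^ k W k`. -/
def comb (r : ℕ) (W : ℕ → c.L) (t : ℕ) : c.L := ∑ k ∈ range r, ((t : E) ^ k) • W k

/-- Product of `n` families of size `r`. -/
def prodF (n r : ℕ) (F : ℕ → ℕ → c.L) (t : ℕ) : c.L := ∏ i ∈ range n, c.comb r (F i) t

/-- First non-zero member. -/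
def fnz (r : ℕ) (W : ℕ → c.L) : c.L := c.cut r W (fst r fun k => W k ≠ 0)

/-- `dimN N` functions spanning `{t ∈ S N | ∀ k < r, t * W k ∈ s * S M}`; `W k, s ∈ S B`. -/
def colon (r B : ℕ) (W : ℕ → c.L) (s : c.L) (N M : ℕ) : ℕ → c.L :=
  c.cut (c.dimN N) fun d => c.lin (c.dimN N) (c.mono N)
    (kerv2 (c.dimN N) r (c.dimN (B + N + M))
      (fun k e j => rsd (c.dimN (B + N + M)) (c.dimN M) (fun i => c.cv (s * c.mono M i))
        (c.cv (c.mono N j * W k)) e) d)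

/-- Least `N ≤ B'` for which `colon … N N` is not zero. -/
def minN (r B : ℕ) (W : ℕ → c.L) (s : c.L) (B' : ℕ) : ℕ :=
  fst (B' + 1) fun N => ∃ d < c.dimN N, c.colon r B W s N N d ≠ 0

/-- Standard weight and size. -/
def Ns : ℕ := c.l * c.B0 + c.B0
def rs : ℕ := c.dimN c.Ns

/-- `red` with the weight `N₁` of the minimal section as a parameter. -/
def redA (r B : ℕ) (W : ℕ → c.L) (N₁ : ℕ) : ℕ → c.L :=
  c.colon (c.dimN (c.l * B + c.B0)) (c.l * B + c.B0)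
    (c.colon r B W (c.fnz r W) (c.l * B + c.B0) (c.l * B + c.B0))
    (c.fnz (c.dimN N₁) (c.colon r B W (c.fnz r W) N₁ N₁)) c.Ns (c.Ns + (c.l * B + c.B0) - N₁)

/-- Reduction to standard size. -/
def red (r B : ℕ) (W : ℕ → c.L) : ℕ → c.L :=
  c.redA r B W (c.minN r B W (c.fnz r W) (B + c.B0))

/-! ### moving away from the ramification points and from infinity -/

def N4 : ℕ := c.l * c.Ns + c.B0
def r4 : ℕ := c.dimN c.N4
def T1 : ℕ := (c.l * c.m + c.l) * c.rs + 1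
def T2 : ℕ := (c.l * c.m + c.l) * c.r4 + 1

def pS (W : ℕ → c.L) (τ : ℕ) : c.L := c.comb c.rs W (τ / c.T2)
def pW (W : ℕ → c.L) (τ : ℕ) : ℕ → c.L := c.colon c.rs c.Ns W (c.pS W τ) c.N4 c.N4
def pB (W : ℕ → c.L) (τ : ℕ) : c.L := c.comb c.r4 (c.pW W τ) (τ % c.T2)

def good (W : ℕ → c.L) (τ : ℕ) : Prop :=
  c.pS W τ ≠ 0 ∧ (∀ a ∈ c.rts, c.ev0 (c.pB W τ) a ≠ 0) ∧ ∀ t < c.l, c.topv c.N4 t (c.pB W τ) ≠ 0

def tau (W : ℕ → c.L) : ℕ := fst (c.T1 * c.T2) (c.good W)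

/-- The good section `s`; `D = div s - gcd W`. -/
def sec (W : ℕ → c.L) : c.L := c.pS W (c.tau W)

/-! ### partial norms, degree and norm of `D` -/

def rl : ℕ := c.l * c.rs + 1
def Nl : ℕ := c.l * c.Ns

def Wj (W : ℕ → c.L) (j : ℕ) : ℕ → c.L := c.prodF j c.rs fun i k => c.sg i (W k)
def sj (s : c.L) (j : ℕ) : c.L := ∏ i ∈ range j, c.sg i s

/-- Spans `LL (N Dinf - nD j D)`. -/
def Cj (W : ℕ → c.L) (s : c.L) (j N : ℕ) : ℕ → c.L := c.colon c.rl c.Nl (c.Wj W j) (c.sj s j) N N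

/-- The degree of `D`. -/
def del (W : ℕ → c.L) : ℕ := c.minN c.rl c.Nl (c.Wj W c.l) (c.sj (c.sec W) c.l) c.Nl

/-- The norm of `D`, given its degree `δ`. -/
def uA (W : ℕ → c.L) (δ : ℕ) : c.L := c.fnz (c.dimN δ) (c.Cj W (c.sec W) c.l δ)

/-- The norm, normalised to `1` at the root `a₀`. -/
def uN (a₀ : E) (W : ℕ → c.L) (δ : ℕ) : c.L := (c.ev0 (c.uA W δ) a₀)⁻¹ • c.uA W δ

/-- Family of the ramification point above `a₀`. -/
def famP (a₀ : E) (k : ℕ) : c.L :=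
  if k = 0 then c.y else if k = 1 then c.x - algebraMap E c.L a₀ else 0

/-- Family of the point `inf 0`. -/
def famI : ℕ → c.L :=
  c.cut c.rs fun k => c.mono c.Ns k - c.topv c.Ns 0 (c.mono c.Ns k) • c.x ^ c.Ns

def adjA (a₀ : E) (W : ℕ → c.L) (δ : ℕ) : ℕ → c.L :=
  c.red c.rl c.Nl (c.prodF (δ % c.l + 1) c.rs fun i => if i = 0 then W else c.famP a₀)

/-- Add a multiple of the point above `a₀` to make the degree divisible by `l`. -/
def adj (a₀ : E) (W : ℕ → c.L) : ℕ → c.L := c.adjA a₀ W (c.del W)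

/-! ### a zero divisor of the cyclic algebra -/

def nC : ℕ := c.dimN (c.B0 + c.l * c.Ns)

/-- Spanning family of `LL ((B0 + j e) Dinf - nD j D)`, `j = z / nC`. -/
def zv (W : ℕ → c.L) (e z : ℕ) : c.L :=
  c.Cj W (c.sec W) (z / c.nC) (c.B0 + z / c.nC * e) (z % c.nC)

/-- The linear conditions.  `(s, k) = (e₁ / l, e₁ % l)`; for `e₂ < l m` the coefficients of the
interpolation polynomial of the condition at the roots, for `e₂ = l m` the condition at infinity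
for `a_{e₁}`. -/
def zM (ρ : E → E) (W : ℕ → c.L) (e e₁ e₂ z : ℕ) : E :=
  if e₂ < c.l * c.m then
    if e₁ / c.l + e₁ % c.l + 1 < c.l then
      (itp c.rts fun a => (c.pc (c.zv W e z) (e₁ % c.l)).eval a *
        (ρ a * c.ζ ^ (e₁ / c.l)) ^ (z / c.nC)).coeff e₂
    else 0
  else if z / c.nC = e₁ then c.topv (c.B0 + z / c.nC * e) 0 (c.zv W e z) else 0

def zA (ρ : E → E) (W : ℕ → c.L) (e d j : ℕ) : c.L :=
  c.lin c.nC (fun k => c.zv W e (j * c.nC + k)) fun k =>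
    kerv2 (c.l * c.nC) (c.l * c.l) (c.l * c.m + 1) (c.zM ρ W e) d (j * c.nC + k)

/-- Coordinates `a_j` of the zero divisor `∑ a_j τ ^ j`, `τ ^ l = 1 / u`. -/
def zd (ρ : E → E) (W : ℕ → c.L) (e : ℕ) : ℕ → c.L :=
  c.zA ρ W e (fst (c.l * c.nC) fun d => ∃ j < c.l, c.zA ρ W e d j ≠ 0)

/-! ### solution of the norm equation -/

/-- `u` times the coordinates of `τ ^ j ξ`. -/
def kY (u : c.L) (a : ℕ → c.L) (j k : ℕ) : c.L :=
  if j ≤ k then u * c.sg j (a (k - j)) else c.sg j (a (k + c.l - j))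

def kM : ℕ := c.Nl + (c.B0 + c.l * c.Ns)
def kN : ℕ := c.l * c.kM + c.B0
def nK : ℕ := c.dimN c.kN

/-- Relations `∑_{j ≤ r} c_j (τ ^ j ξ) = 0` with `c_j ∈ S kN`. -/
def kC (u : c.L) (a : ℕ → c.L) (r d j : ℕ) : c.L :=
  c.lin c.nK (c.mono c.kN) fun i =>
    kerv2 (c.l * c.nK) c.l (c.dimN (c.kN + c.kM))
      (fun k e z => if z / c.nK ≤ r then c.cv (c.mono c.kN (z % c.nK) * c.kY u a (z / c.nK) k) e else 0)
      d (j * c.nK + i)

/-- First pair `(r, d)` giving a non-trivial relation. -/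
def kT (u : c.L) (a : ℕ → c.L) : ℕ :=
  fst (c.l * (c.l * c.nK)) fun τ =>
    ∃ j < τ / (c.l * c.nK) + 1, c.kC u a (τ / (c.l * c.nK)) (τ % (c.l * c.nK)) j ≠ 0

/-- Inverse of `r` modulo `l`. -/
def rinv (r : ℕ) : ℕ := fst c.l fun k => r * k % c.l = 1

def kAl (u : c.L) (a : ℕ → c.L) (τ : ℕ) : c.L :=
  c.kC u a (τ / (c.l * c.nK)) (τ % (c.l * c.nK)) (τ / (c.l * c.nK)) ^ c.rinv (τ / (c.l * c.nK))

def kBe (u : c.L) (a : ℕ → c.L) (τ : ℕ) : c.L :=
  c.kC u a (τ / (c.l * c.nK)) (τ % (c.l * c.nK)) 0 ^ c.rinv (τ / (c.l * c.nK)) *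
    u ^ (τ / (c.l * c.nK) * c.rinv (τ / (c.l * c.nK)) / c.l)

/-! ### Hilbert 90 for divisors -/

def hB : ℕ := c.l * c.kN + c.l * c.Nl + c.Ns
def hN : ℕ := c.Nl + c.l * c.hB + c.l * c.hB + c.l * c.Ns
def hr : ℕ := c.l * (2 * c.rl)

/-- `j = z / (2 rl)`, `k = z % (2 rl) / 2`. -/
def hF (W : ℕ → c.L) (s α β : c.L) (e z : ℕ) : c.L :=
  c.Wj W (z / (2 * c.rl)) (z % (2 * c.rl) / 2) * c.sj α (z / (2 * c.rl)) *
    (∏ i ∈ range c.l, if z / (2 * c.rl) ≤ i then c.sg i (β * s) else 1) *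
    if z % 2 = 0 then 1 else c.x ^ ((c.l - 1 - z / (2 * c.rl)) * e)

def dvB (W : ℕ → c.L) (u : c.L) (a : ℕ → c.L) (e τ : ℕ) : ℕ → c.L :=
  c.red c.hr c.hN (c.hF W (c.sec W) (c.kAl u a τ) (c.kBe u a τ) e)

def dvA (rt : E → E) (a₀ : E) (W : ℕ → c.L) (δ : ℕ) : ℕ → c.L :=
  c.dvB W (c.uN a₀ W δ) (c.zd (fun a => rt (c.ev0 (c.uN a₀ W δ) a)⁻¹) W (δ / c.l)) (δ / c.l)
    (c.kT (c.uN a₀ W δ) (c.zd (fun a => rt (c.ev0 (c.uN a₀ W δ) a)⁻¹) W (δ / c.l)))

/-- Division by `λ = 1 - σ`. -/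
def dvd (rt : E → E) (a₀ : E) (W : ℕ → c.L) : ℕ → c.L := c.dvA rt a₀ W (c.del W)

/-! ### the main computation -/

/-- `λ ^ j` times the class of `chain j` is `inf 0 - ram a₀`, and the degree is `0`. -/
def chain (rt : E → E) (a₀ : E) (j : ℕ) : ℕ → c.L :=
  iter (fun _ W => c.adj a₀ (c.dvd rt a₀ W)) (c.adj a₀ c.famI) j

/-- Sum over all roots. -/
def trF (rt : E → E) (k : ℕ) : ℕ → c.L :=
  c.red (c.l * c.m * c.rs + 1) (c.l * c.m * c.Ns) fun t =>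
    ∏ a ∈ c.rts, c.comb c.rs (c.chain rt a k) t

/-- `λ ^ ((l-1) v)` times the class of `famU ((l-1) v)` is `l ^ v • inf 0`. -/
def famU (j : ℕ) : ℕ → c.L :=
  iter (fun j W => c.red c.rl c.Nl (c.Wj W (j % (c.l - 1) + 1))) c.famI j

def famZ0 (rt : E → E) (k m' : ℕ) : ℕ → c.L :=
  c.red ((m' * (c.l - 1) + 1) * c.rs + 1) ((m' * (c.l - 1) + 1) * c.Ns)
    (c.prodF (m' * (c.l - 1) + 1) c.rs fun i =>
      if i = 0 then c.trF rt k else fun d => c.sg ((i - 1) % (c.l - 1) + 1) (c.famU k d))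

/-- Multiplication by `λ = 1 + σ ^ 2 + ⋯ + σ ^ l`. -/
def lamF (W : ℕ → c.L) : ℕ → c.L :=
  c.red c.rl c.Nl (c.prodF c.l c.rs fun i d => c.sg (if i = 0 then 0 else i + 1) (W d))

def famZ (rt : E → E) (k m' j : ℕ) : ℕ → c.L := iter (fun _ W => c.lamF W) (c.famZ0 rt k m') j

def decA (W : ℕ → c.L) (τ : ℕ) : c.L :=
  c.fnz c.r4 (c.colon (2 * c.r4 + 1) (2 * c.N4)
    (c.prodF 2 c.r4 fun i => if i = 0 then fun d => c.sg 1 (c.pW W τ d) else c.cut c.rs W)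
    (c.sg 1 (c.pB W τ) * c.pS W τ) c.N4 c.N4)

/-- The function on the roots attached to a class killed by `λ`. -/
def dec (W : ℕ → c.L) (a : E) : E :=
  c.ev0 (c.decA W (c.tau W)) a * (c.ev0 (c.pB W (c.tau W)) a)⁻¹

/-- The candidate subsets of the roots: level `z / l`, residue `z % l`. -/
def cand (rt : E → E) (k m' z : ℕ) (a : E) : Prop :=
  c.dec (c.famZ rt k m' (z / c.l)) a =
    c.ζ ^ (z % c.l) * rt (c.dec (c.famZ rt k m' (z / c.l)) a ^ c.l)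

/-- All naturals used as field elements are at most `thr`. -/
def thr : ℕ := (2 * (c.l * c.m) + 2) * c.r4 + 1

end Crv
end Crest.Agent.R312
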