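import Crest.Agent.R312.AlgG
import Crest.Agent.R312.AlgFun

/-!
# Row 312, algorithm half: families of functions and their greatest common divisor
DO NOT change the definitions.
-/

set_option autoImplicit false
open Finset Polynomial
open scoped Classical

noncomputable section
namespace Crest.Agent.R312
namespace Crv
variable {E : Type} [Field E] (c : Crv E)

/-- The members `W k`, `k < r`, lie in `S N`. -/
def In (r N : ℕ) (W : ℕ → c.L) : Prop := ∀ k < r, W k ∈ c.S N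

/-- The members `W k`, `k < r`, span `U`. -/
def Spans (r : ℕ) (W : ℕ → c.L) (U : Submodule E c.L) : Prop :=
  (∀ k < r, W k ∈ U) ∧ ∀ φ ∈ U, ∃ z : ℕ → E, φ = c.lin r W z

variable [IsAlgClosed E]

/-- `D` is the greatest common divisor of the `W k`, `k < r`. -/
def IsG (r : ℕ) (W : ℕ → c.L) (D : c.Div) : Prop :=
  (∀ k < r, W k ∈ c.LL (-D)) ∧ ∀ P, ∃ k < r, c.co P (D P) (W k) ≠ 0

/-- `W` represents the class `z`. -/
def Rep (r N : ℕ) (W : ℕ → c.L) (z : c.G) : Prop := c.In r N W ∧ ∃ D, c.IsG r W D ∧ c.cl D = z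

/-- Standard representation. -/
def Std (W : ℕ → c.L) (z : c.G) : Prop := c.Rep c.rs c.Ns W z

variable {c}

section elementary
omit [IsAlgClosed E]

theorem In.mono {r N r' N' : ℕ} {W : ℕ → c.L} (h : c.In r N W) (hr : r' ≤ r) (hN : N ≤ N') :
    c.In r' N' W :=
  fun k hk => S_mono hN (h k (hk.trans_le hr))

theorem In.cut {r N : ℕ} {W : ℕ → c.L} (h : c.In r N W) (r' : ℕ) : c.In r' N (c.cut r W) := by
  intro k _
  unfold Crv.cut
  split_ifs with hk
  exacts [h k hk, zero_mem _]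

theorem In.sg {r N : ℕ} {W : ℕ → c.L} (h : c.In r N W) (i : ℕ) :
    c.In r N fun k => c.sg i (W k) :=
  fun k hk => sg_mem_S (h k hk) i

theorem In.lin {r N : ℕ} {W : ℕ → c.L} (h : c.In r N W) (z : ℕ → E) : c.lin r W z ∈ c.S N :=
  Submodule.sum_mem _ fun k hk => Submodule.smul_mem _ _ (h k (Finset.mem_range.1 hk))

theorem In.comb {r N : ℕ} {W : ℕ → c.L} (h : c.In r N W) (t : ℕ) : c.comb r W t ∈ c.S N :=
  h.lin fun k => (t : E) ^ k

theorem In.fnz {r N : ℕ} {W : ℕ → c.L} (h : c.In r N W) : c.fnz r W ∈ c.S N :=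
  h.cut _ _ (Nat.lt_succ_self _)

theorem prodF_mem {n r N : ℕ} {F : ℕ → ℕ → c.L} (h : ∀ i < n, c.In r N (F i)) (t : ℕ) :
    c.prodF n r F t ∈ c.S (n * N) := by
  have := prod_mem_S (range n) (φ := fun i => c.comb r (F i) t)
    fun i hi => (h i (Finset.mem_range.1 hi)).comb t
  rwa [Finset.card_range] at this

theorem lin_mono_mem (N : ℕ) (z : ℕ → E) : c.lin (c.dimN N) (c.mono N) z ∈ c.S N :=
  In.lin (fun k _ => mono_mem N k) z

theorem colon_mem (r B : ℕ) (W : ℕ → c.L) (s : c.L) (N M d : ℕ) : c.colon r B W s N M d ∈ c.S N :=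
  In.cut (fun _ _ => lin_mono_mem N _) _ d (Nat.lt_succ_self d)

theorem colon_eq_zero (r B : ℕ) (W : ℕ → c.L) (s : c.L) (N M : ℕ) {d : ℕ} (h : c.dimN N ≤ d) :
    c.colon r B W s N M d = 0 :=
  if_neg (not_lt.2 h)

theorem red_mem (r B : ℕ) (W : ℕ → c.L) (d : ℕ) : c.red r B W d ∈ c.S c.Ns :=
  colon_mem _ _ _ _ _ _ _

theorem red_eq_zero (r B : ℕ) (W : ℕ → c.L) {d : ℕ} (h : c.rs ≤ d) : c.red r B W d = 0 :=
  colon_eq_zero _ _ _ _ _ _ h

theorem fnz_spec {r : ℕ} {W : ℕ → c.L} (h : ∃ k < r, W k ≠ 0) :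
    c.fnz r W ≠ 0 ∧ ∃ k < r, c.fnz r W = W k := by
  obtain ⟨h1, h2⟩ := fst_spec h
  have e : c.fnz r W = W (fst r fun k => W k ≠ 0) := if_pos h1
  exact ⟨e ▸ h2, _, h1, e⟩

theorem Spans.exists_ne {r : ℕ} {W : ℕ → c.L} {U : Submodule E c.L} (h : c.Spans r W U) :
    (∃ k < r, W k ≠ 0) ↔ U ≠ ⊥ := by
  rw [Submodule.ne_bot_iff]
  refine ⟨fun ⟨k, hk, h0⟩ => ⟨W k, h.1 k hk, h0⟩, fun ⟨φ, hφ, h0⟩ => ?_⟩
  by_contra hn
  push Not at hn
  obtain ⟨z, rfl⟩ := h.2 φ hφ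
  exact h0 (Finset.sum_eq_zero fun k hk => by rw [hn k (Finset.mem_range.1 hk), smul_zero])

theorem famP_in (a₀ : E) (r : ℕ) : c.In r c.Ns (c.famP a₀) := by
  have h1 : c.m ≤ c.Ns := le_trans (Nat.le_mul_of_pos_left _ (Nat.sub_pos_of_lt c.two_le_l))
    (Nat.le_add_left _ _)
  intro k _
  unfold famP
  split_ifs
  · exact S_mono h1 y_mem_S
  · exact sub_mem (S_mono (le_trans c.hm h1) x_mem_S) (algebraMap_mem_S _ _)
  · exact zero_mem _

theorem famI_in (r : ℕ) : c.In r c.Ns c.famI := by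
  refine In.cut (fun k _ => sub_mem (mono_mem _ _) (Submodule.smul_mem _ _ ?_)) r
  simpa using pow_mem_S (c := c) x_mem_S c.Ns

theorem famI_eq_zero {d : ℕ} (h : c.rs ≤ d) : c.famI d = 0 :=
  if_neg (not_lt.2 h)

theorem two_le_rs : 2 ≤ c.rs :=
  c.two_le_l.trans (Nat.le_mul_of_pos_right _ (Nat.succ_pos _))

theorem rs_le_r4 : c.rs ≤ c.r4 :=
  Nat.mul_le_mul_left _ (Nat.succ_le_succ
    ((Nat.le_mul_of_pos_left _ c.l_pos).trans (Nat.le_add_right _ _)))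

theorem Ns_le_N4 : c.Ns ≤ c.N4 :=
  (Nat.le_mul_of_pos_left _ c.l_pos).trans (Nat.le_add_right _ _)

theorem fam1_cv_lin {r N : ℕ} {V : ℕ → c.L} (h : c.In r N V) (z : ℕ → E) :
    c.cv (c.lin r V z) = fun e => ∑ k ∈ range r, z k * c.cv (V k) e := by
  funext e
  rw [Crv.lin, cv_sum (N := N) _ fun k hk => Submodule.smul_mem _ _ (h k (Finset.mem_range.1 hk))]
  exact Finset.sum_congr rfl fun k hk => cv_smul (h k (Finset.mem_range.1 hk)) _ _

theorem fam1_lin_mul (r : ℕ) (V : ℕ → c.L) (z : ℕ → E) (w : c.L) :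
    c.lin r V z * w = c.lin r (fun k => V k * w) z := by
  simp only [Crv.lin, Finset.sum_mul, smul_mul_assoc]

theorem fam1_dvd_iff {B T M : ℕ} {s χ : c.L} (hs : s ∈ c.S B) (hT : B + M ≤ T) (hχ : χ ∈ c.S T) :
    (∃ ψ ∈ c.S M, χ = s * ψ) ↔ ∀ e < c.dimN T,
      rsd (c.dimN T) (c.dimN M) (fun i => c.cv (s * c.mono M i)) (c.cv χ) e = 0 := by
  have hin : c.In (c.dimN M) T fun i => s * c.mono M i :=
    fun i _ => S_mono hT (mul_mem_S hs (mono_mem M i))
  have e1 : ∀ a, s * c.lin (c.dimN M) (c.mono M) a =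
      c.lin (c.dimN M) (fun i => s * c.mono M i) a := fun a => by
    simp only [Crv.lin, Finset.mul_sum, mul_smul_comm]
  rw [rsd_eq_zero_iff]
  constructor
  · rintro ⟨ψ, hψ, rfl⟩
    refine ⟨c.cv ψ, fun j _ => ?_⟩
    have e2 : c.lin (c.dimN M) (c.mono M) (c.cv ψ) = ψ := sum_cv_mono hψ
    conv_lhs => rw [← e2, e1, fam1_cv_lin hin]
  · rintro ⟨a, ha⟩
    refine ⟨_, lin_mono_mem M a, ?_⟩
    rw [e1, ← sum_cv_mono hχ, ← sum_cv_mono (hin.lin a), fam1_cv_lin hin]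
    exact Finset.sum_congr rfl fun j hj => by rw [ha j (Finset.mem_range.1 hj)]

theorem fam1_lin_iff {B N M : ℕ} {w s : c.L} (hw : w ∈ c.S B) (hs : s ∈ c.S B) (z : ℕ → E) :
    (∃ ψ ∈ c.S M, c.lin (c.dimN N) (c.mono N) z * w = s * ψ) ↔ ∀ e < c.dimN (B + N + M),
      ∑ j ∈ range (c.dimN N), rsd (c.dimN (B + N + M)) (c.dimN M) (fun i => c.cv (s * c.mono M i))
        (c.cv (c.mono N j * w)) e * z j = 0 := by
  have hin : c.In (c.dimN N) (B + N + M) fun j => c.mono N j * w :=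
    fun j _ => S_mono (by omega) (mul_mem_S (mono_mem N j) hw)
  rw [fam1_lin_mul, fam1_dvd_iff hs (by omega) (hin.lin z), fam1_cv_lin hin]
  simp only [rsd_sum]
  simp only [mul_comm (z _)]

/-- The linear algebra behind `colon`. -/
theorem colon_spans {r B N M : ℕ} {W : ℕ → c.L} {s : c.L} (hW : c.In r B W) (hs : s ∈ c.S B) :
    (∀ d < c.dimN N, ∀ k < r, ∃ ψ ∈ c.S M, c.colon r B W s N M d * W k = s * ψ) ∧
    ∀ φ ∈ c.S N, (∀ k < r, ∃ ψ ∈ c.S M, φ * W k = s * ψ) →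
      ∃ z : ℕ → E, φ = c.lin (c.dimN N) (c.colon r B W s N M) z := by
  refine ⟨fun d hd k hk => ?_, fun φ hφ h => ⟨c.cv φ, ?_⟩⟩
  · rw [Crv.colon, Crv.cut, if_pos hd, fam1_lin_iff (hW k hk) hs]
    exact fun e he => kerv2_sol _ _ _ (fun k e j => rsd (c.dimN (B + N + M)) (c.dimN M)
      (fun i => c.cv (s * c.mono M i)) (c.cv (c.mono N j * W k)) e) hd hk he
  · have e2 : c.lin (c.dimN N) (c.mono N) (c.cv φ) = φ := sum_cv_mono hφ
    have h1 := fun j => kerv2_span (c.dimN N) r (c.dimN (B + N + M))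
      (fun k e j => rsd (c.dimN (B + N + M)) (c.dimN M)
        (fun i => c.cv (s * c.mono M i)) (c.cv (c.mono N j * W k)) e) (z := c.cv φ) (j := j)
      fun k hk => (fam1_lin_iff (hW k hk) hs _).1 (by rw [e2]; exact h k hk)
    calc φ = ∑ j ∈ range (c.dimN N), c.cv φ j • c.mono N j := e2.symm
      _ = ∑ j ∈ range (c.dimN N), ∑ d ∈ range (c.dimN N), _ :=
          Finset.sum_congr rfl fun j hj => by rw [h1 j (Finset.mem_range.1 hj), Finset.sum_smul]
      _ = _ := by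
          rw [Finset.sum_comm]
          refine Finset.sum_congr rfl fun d hd => ?_
          rw [Crv.colon, Crv.cut, if_pos (Finset.mem_range.1 hd), Crv.lin, Finset.smul_sum]
          simp only [smul_smul]

end elementary

theorem f2_ge {r : ℕ} {W : ℕ → c.L} {D : c.Div} (h : c.IsG r W D) {k : ℕ} (hk : k < r)
    (P : c.Place) : c.Ge P (D P) (W k) := by
  have := mem_LL.1 (h.1 k hk) P
  rwa [Finsupp.neg_apply, neg_neg] at this

theorem f2_le {P : c.Place} {n n' : ℤ} {φ : c.L} (h : c.Ge P n φ) (h' : c.co P n' φ ≠ 0) :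
    n ≤ n' := not_lt.1 fun hlt => h' (h _ hlt)

theorem f2_co_comb (P : c.Place) (n : ℤ) (r : ℕ) (W : ℕ → c.L) (t : ℕ) :
    c.co P n (c.comb r W t) = ∑ k ∈ range r, (t : E) ^ k * c.co P n (W k) := by
  unfold comb
  rw [co_sum]
  exact Finset.sum_congr rfl fun k _ => co_smul _ _ _ _

theorem f2_co_lin (P : c.Place) (n : ℤ) (r : ℕ) (W : ℕ → c.L) (z : ℕ → E) :
    c.co P n (c.lin r W z) = ∑ k ∈ range r, z k * c.co P n (W k) := by
  unfold lin
  rw [co_sum]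
  exact Finset.sum_congr rfl fun k _ => co_smul _ _ _ _

theorem IsG.unique {r : ℕ} {W : ℕ → c.L} {D D' : c.Div} (h : c.IsG r W D) (h' : c.IsG r W D') :
    D = D' := by
  ext P
  obtain ⟨k, hk, hc⟩ := h.2 P
  obtain ⟨k', hk', hc'⟩ := h'.2 P
  exact le_antisymm (f2_le (f2_ge h hk' P) hc') (f2_le (f2_ge h' hk P) hc)

theorem IsG.exists_ne {r : ℕ} {W : ℕ → c.L} {D : c.Div} (h : c.IsG r W D) : ∃ k < r, W k ≠ 0 := by
  obtain ⟨k, hk, hc⟩ := h.2 (c.inf 0)
  exact ⟨k, hk, ne_of_co hc⟩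

theorem IsG.le_div {r : ℕ} {W : ℕ → c.L} {D : c.Div} (h : c.IsG r W D) {z : ℕ → E}
    (hz : c.lin r W z ≠ 0) : D ≤ c.div (c.lin r W z) := by
  have hm : c.lin r W z ∈ c.LL (-D) :=
    Submodule.sum_mem _ fun k hk => Submodule.smul_mem _ _ (h.1 k (Finset.mem_range.1 hk))
  have := (mem_LL_iff hz).1 hm
  rwa [← sub_eq_add_neg, sub_nonneg] at this

theorem IsG.comb_mem {r : ℕ} {W : ℕ → c.L} {D : c.Div} (h : c.IsG r W D) (t : ℕ) :
    c.comb r W t ∈ c.LL (-D) := by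
  exact Submodule.sum_mem _ fun k hk => Submodule.smul_mem _ _ (h.1 k (Finset.mem_range.1 hk))

theorem IsG.neg_le {r N : ℕ} {W : ℕ → c.L} {D : c.Div} (h : c.IsG r W D) (hN : c.In r N W) :
    -((N : ℤ) • c.Dinf) ≤ D := by
  intro P
  obtain ⟨k, hk, hc⟩ := h.2 P
  have hm : W k ∈ c.LL ((N : ℤ) • c.Dinf) := by
    rw [LL_Dinf]
    exact hN k hk
  exact f2_le (mem_LL.1 hm P) hc

theorem IsG.neg_dg_le {r N : ℕ} {W : ℕ → c.L} {D : c.Div} (h : c.IsG r W D) (hN : c.In r N W) :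
    -c.dg D ≤ c.l * N := by
  have := dg_mono (h.neg_le hN)
  rw [map_neg, map_smul, dg_Dinf, smul_eq_mul] at this
  linarith

theorem IsG.cut {r r' : ℕ} {W : ℕ → c.L} {D : c.Div} (h : c.IsG r W D) (hr : r ≤ r') :
    c.IsG r' (c.cut r W) D := by
  refine ⟨fun k _ => ?_, fun P => ?_⟩
  · unfold Crv.cut
    split_ifs with hk
    · exact h.1 k hk
    · exact Submodule.zero_mem _
  · obtain ⟨k, hk, hc⟩ := h.2 P
    refine ⟨k, lt_of_lt_of_le hk hr, ?_⟩
    unfold Crv.cut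
    rwa [if_pos hk]

theorem IsG.sg {r : ℕ} {W : ℕ → c.L} {D : c.Div} (h : c.IsG r W D) (i : ℕ) :
    c.IsG r (fun k => c.sg i (W k)) (c.sD i D) := by
  refine ⟨fun k hk => ?_, fun P => ?_⟩
  · have := sg_mem_LL (h.1 k hk) i
    rwa [map_neg] at this
  · obtain ⟨k, hk, hc⟩ := h.2 (c.sP i P)
    refine ⟨k, hk, ?_⟩
    rw [co_sg, sD_apply]
    refine mul_ne_zero (zpow_ne_zero _ ?_) hc
    unfold tw
    split_ifs
    · exact pow_ne_zero _ c.ζ_ne
    · exact one_ne_zero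

theorem IsG.aut {r : ℕ} {W : ℕ → c.L} {D : c.Div} (h : c.IsG r W D) (T : c.Sym) :
    c.IsG r (fun k => T.aut (W k)) (T.dv D) := by
  refine ⟨fun k hk => mem_LL.2 fun P => ?_, fun P => ?_⟩
  · rw [Finsupp.neg_apply, neg_neg, T.ge_aut, T.dv_apply]
    exact f2_ge h hk _
  · obtain ⟨k, hk, hc⟩ := h.2 (T.pl P)
    refine ⟨k, hk, ?_⟩
    rw [T.co_aut, T.dv_apply]
    exact (map_ne_zero_iff _ T.θ.injective).2 hc

theorem IsG.mul_mem_iff {r : ℕ} {W : ℕ → c.L} {D : c.Div} (h : c.IsG r W D) {F : c.Div} {φ : c.L} :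
    (∀ k < r, φ * W k ∈ c.LL F) ↔ φ ∈ c.LL (F + D) := by
  constructor
  · intro H
    by_cases hφ : φ = 0
    · rw [hφ]
      exact Submodule.zero_mem _
    refine mem_LL.2 fun P => ?_
    obtain ⟨k, hk, hc⟩ := h.2 P
    have h1 := ord_eq (f2_ge h hk P) hc
    have h2 := (ge_iff (mul_ne_zero hφ (ne_of_co hc))).1 (mem_LL.1 (H k hk) P)
    rw [ord_mul P hφ (ne_of_co hc), h1] at h2
    rw [ge_iff hφ, Finsupp.add_apply]
    linarith
  · intro H k hk
    have := mul_mem_LL H (h.1 k hk)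
    rwa [add_neg_cancel_right] at this

/-- A combination which is minimal at finitely many places (`Big.exists_ne`). -/
theorem IsG.exists_comb {r : ℕ} {W : ℕ → c.L} {D : c.Div} (h : c.IsG r W D) (s : Finset c.Place)
    (hB : Big E (s.card * r)) : ∃ t ≤ s.card * r, ∀ P ∈ s, c.co P (D P) (c.comb r W t) ≠ 0 := by
  obtain ⟨t, ht, H⟩ := Big.exists_ne s hB (fun P k => c.co P (D P) (W k)) fun P _ => h.2 P
  refine ⟨t, ht, fun P hP => ?_⟩
  rw [f2_co_comb]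
  exact H P hP

/-- Gauss' lemma. -/
theorem IsG.prod {ι : Type} (s : Finset ι) {r r' : ℕ} {F : ι → ℕ → c.L} {D : ι → c.Div}
    (h : ∀ i ∈ s, c.IsG r (F i) (D i)) (hB : Big E (s.card * r)) (hr : s.card * r < r') :
    c.IsG r' (fun t => ∏ i ∈ s, c.comb r (F i) t) (∑ i ∈ s, D i) := by
  have hge : ∀ t P, ∀ i ∈ s, c.Ge P (D i P) (c.comb r (F i) t) := by
    intro t P i hi
    have := mem_LL.1 ((h i hi).comb_mem t) P
    rwa [Finsupp.neg_apply, neg_neg] at this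
  refine ⟨fun t _ => mem_LL.2 fun P => ?_, fun P => ?_⟩
  · rw [Finsupp.neg_apply, neg_neg, Finsupp.finsetSum_apply]
    exact Ge.prod (hge t P)
  · obtain ⟨t, ht, H⟩ := Big.exists_ne s hB (fun i k => c.co P (D i P) (F i k))
      fun i hi => (h i hi).2 P
    refine ⟨t, lt_of_le_of_lt ht hr, ?_⟩
    rw [Finsupp.finsetSum_apply, Ge.co_prod (hge t P)]
    refine Finset.prod_ne_zero_iff.2 fun i hi => ?_
    rw [f2_co_comb]
    exact H i hi

theorem Rep.prod {ι : Type} (s : Finset ι) {r N r' N' : ℕ} {F : ι → ℕ → c.L} {z : ι → c.G}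
    (h : ∀ i ∈ s, c.Rep r N (F i) (z i)) (hB : Big E (s.card * r)) (hr : s.card * r < r')
    (hN : s.card * N ≤ N') : c.Rep r' N' (fun t => ∏ i ∈ s, c.comb r (F i) t) (∑ i ∈ s, z i) := by
  have hD : ∀ i ∈ s, ∃ D, c.IsG r (F i) D ∧ c.cl D = z i := fun i hi => (h i hi).2
  choose! D hD using hD
  refine ⟨fun t _ => S_mono hN (prod_mem_S s fun i hi => (h i hi).1.comb t),
    ∑ i ∈ s, D i, IsG.prod s (fun i hi => (hD i hi).1) hB hr, ?_⟩
  rw [map_sum]
  exact Finset.sum_congr rfl fun i hi => (hD i hi).2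

theorem Rep.sg {r N : ℕ} {W : ℕ → c.L} {z : c.G} (h : c.Rep r N W z) (i : ℕ) :
    c.Rep r N (fun k => c.sg i (W k)) ((c.sG ^ i) z) := by
  obtain ⟨h1, D, h2, h3⟩ := h
  exact ⟨h1.sg i, c.sD i D, h2.sg i, by rw [← h3, sG_pow_cl]⟩

theorem IsG.Wj {W : ℕ → c.L} {D : c.Div} (h : c.IsG c.rs W D) (hB : Big E c.thr) {j : ℕ}
    (hj : j ≤ c.l) : c.IsG c.rl (c.Wj W j) (c.nD j D) := by
  have h1 : j * c.rs ≤ c.l * c.rs := Nat.mul_le_mul_right _ hj
  have h2 : c.l * c.rs ≤ c.thr := by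
    have h3 : c.l ≤ 2 * (c.l * c.m) + 2 := by
      have := Nat.le_mul_of_pos_right c.l c.hm
      omega
    exact (Nat.mul_le_mul h3 rs_le_r4).trans (Nat.le_succ _)
  refine IsG.prod (range j) (F := fun i k => c.sg i (W k)) (D := fun i => c.sD i D)
    (fun i _ => h.sg i) (hB.mono ?_) ?_
  · rw [Finset.card_range]
    exact h1.trans h2
  · rw [Finset.card_range]
    exact Nat.lt_succ_of_le h1

/-- No base points (`exists_co_ne`). -/
theorem Spans.isG {r N : ℕ} {W : ℕ → c.L} {F : c.Div} (h : c.Spans r W (c.LL ((N : ℤ) • c.Dinf - F)))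
    (hF : 0 ≤ F) (hN : c.dg F + c.B0 ≤ N) : c.IsG r W (F - (N : ℤ) • c.Dinf) := by
  refine ⟨fun k hk => ?_, fun P => ?_⟩
  · rw [neg_sub]
    exact h.1 k hk
  · obtain ⟨φ, hφ, hc⟩ := exists_co_ne N hF hN P
    obtain ⟨z, rfl⟩ := h.2 φ hφ
    rw [f2_co_lin] at hc
    obtain ⟨k, hk, hk'⟩ := Finset.exists_ne_zero_of_sum_ne_zero hc
    exact ⟨k, Finset.mem_range.1 hk, right_ne_zero_of_mul hk'⟩

theorem IsG.colon {r B N M : ℕ} {W : ℕ → c.L} {s : c.L} {D : c.Div} (h : c.IsG r W D)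
    (hW : c.In r B W) (hs : s ∈ c.S B) (hs0 : s ≠ 0) :
    c.Spans (c.dimN N) (c.colon r B W s N M) (c.S N ⊓ c.LL (D - c.div s + (M : ℤ) • c.Dinf)) := by
  obtain ⟨h1, h2⟩ := colon_spans (N := N) (M := M) hW hs
  have e : D - c.div s + (M : ℤ) • c.Dinf = (-c.div s + (M : ℤ) • c.Dinf) + D := by abel
  refine ⟨fun d hd => ⟨colon_mem _ _ _ _ _ _ _, ?_⟩, fun φ hφ => h2 φ hφ.1 fun k hk => ?_⟩
  · rw [e]
    refine h.mul_mem_iff.1 fun k hk => ?_
    obtain ⟨ψ, hψ, e'⟩ := h1 d hd k hk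
    rw [e']
    rw [← LL_Dinf] at hψ
    exact mul_mem_LL (self_mem_LL s) hψ
  · have h3 : φ ∈ c.LL ((-c.div s + (M : ℤ) • c.Dinf) + D) := by
      rw [← e]
      exact hφ.2
    have h4 := h.mul_mem_iff.2 h3 k hk
    refine ⟨φ * W k / s, ?_, by field_simp⟩
    have h5 : φ * W k / s * s ∈ c.LL (-c.div s + (M : ℤ) • c.Dinf) := by
      rwa [div_mul_cancel₀ _ hs0]
    have h6 := (mul_mem_LL_iff hs0).1 h5
    have e2 : -c.div s + (M : ℤ) • c.Dinf + c.div s = (M : ℤ) • c.Dinf := by abel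
    rwa [e2, LL_Dinf] at h6

theorem IsG.colon_eq {r B N M : ℕ} {W : ℕ → c.L} {s : c.L} {D F : c.Div} (h : c.IsG r W D)
    (hW : c.In r B W) (hs : s ∈ c.S B) (hs0 : s ≠ 0) (hF : 0 ≤ F)
    (e : D - c.div s + (M : ℤ) • c.Dinf = (N : ℤ) • c.Dinf - F) :
    c.Spans (c.dimN N) (c.colon r B W s N M) (c.LL ((N : ℤ) • c.Dinf - F)) := by
  have := h.colon (N := N) (M := M) hW hs hs0
  rwa [e, inf_eq_right.2 (LL_le_S hF)] at this

theorem famP_std {a₀ : E} (h : c.f.eval a₀ = 0) : c.Std (c.famP a₀) (gP a₀) := by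
  have hx : c.x - algebraMap E c.L a₀ ≠ 0 := by
    have := po_ne (c := c) (X_sub_C_ne_zero a₀)
    rwa [map_sub, po_X, po_C] at this
  have hm : (1 : ℤ) ≤ c.m := by exact_mod_cast c.hm
  have hl : (1 : ℤ) ≤ c.l := by exact_mod_cast c.l_pos
  have hD : ∀ P : c.Place, (c.pt (c.ram a₀ h) - (c.m : ℤ) • c.Dinf) P =
      if P.1.1 = none then -(c.m : ℤ) else if P.1.1 = some a₀ then 1 else 0 := by
    intro P
    rw [Finsupp.sub_apply, Finsupp.smul_apply, pt_apply, Dinf_apply, smul_eq_mul]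
    by_cases h1 : P.1.1 = none
    · have h2 : c.ram a₀ h ≠ P := by
        rintro rfl
        exact Option.some_ne_none _ h1
      rw [if_neg h2, if_pos h1, if_pos h1]
      ring
    · by_cases h2 : P.1.1 = some a₀
      · rw [if_pos (eq_ram h2 h).symm, if_neg h1, if_neg h1, if_pos h2]
        ring
      · have h3 : c.ram a₀ h ≠ P := by
          rintro rfl
          exact h2 rfl
        rw [if_neg h3, if_neg h1, if_neg h1, if_neg h2]
        ring
  have hy : ∀ P : c.Place, c.ord P c.y = if P.1.1 = none then -(c.m : ℤ) else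
      if ∃ α, P.1.1 = some α ∧ c.f.eval α = 0 then 1 else 0 := by
    intro P
    rw [ord_y]
    obtain ⟨⟨o, β⟩, hP⟩ := P
    cases o with
    | none => simp [yo]
    | some α => simp [yo]
  have h0 : c.famP a₀ 0 = c.y := by simp [famP]
  have h1 : c.famP a₀ 1 = c.x - algebraMap E c.L a₀ := by simp [famP]
  have h2 := two_le_rs (c := c)
  refine ⟨famP_in a₀ _, c.pt (c.ram a₀ h) - (c.m : ℤ) • c.Dinf, ⟨fun k _ => ?_, fun P => ?_⟩, ?_⟩
  · refine mem_LL.2 fun P => ?_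
    rw [Finsupp.neg_apply, neg_neg, hD]
    unfold famP
    by_cases hk0 : k = 0
    · rw [if_pos hk0, ge_iff y_ne, hy]
      by_cases hn : P.1.1 = none
      · rw [if_pos hn, if_pos hn]
      · rw [if_neg hn, if_neg hn]
        by_cases ha : P.1.1 = some a₀
        · rw [if_pos ha, if_pos ⟨a₀, ha, h⟩]
        · rw [if_neg ha]
          split_ifs <;> norm_num
    · rw [if_neg hk0]
      by_cases hk1 : k = 1
      · rw [if_pos hk1, ge_iff hx, ord_x_sub, if_pos h]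
        split_ifs <;> linarith
      · rw [if_neg hk1]
        exact Ge.zero _ _
  · rw [hD]
    by_cases hn : P.1.1 = none
    · refine ⟨0, by omega, ?_⟩
      have := co_ord_ne P (y_ne (c := c))
      rw [hy, if_pos hn] at this
      rwa [if_pos hn, h0]
    · rw [if_neg hn]
      by_cases ha : P.1.1 = some a₀
      · refine ⟨0, by omega, ?_⟩
        have := co_ord_ne P (y_ne (c := c))
        rw [hy, if_neg hn, if_pos ⟨a₀, ha, h⟩] at this
        rwa [if_pos ha, h0]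
      · refine ⟨1, by omega, ?_⟩
        have := co_ord_ne P hx
        rw [ord_x_sub, if_neg hn, if_neg ha] at this
        rwa [if_neg ha, h1]
  · rw [map_sub, map_smul, cl_Dinf, smul_zero, sub_zero, gP, dif_pos h]

theorem f2_mem_iff {N : ℕ} {φ : c.L} : φ ∈ c.LL ((N : ℤ) • c.Dinf - c.pt (c.inf 0)) ↔
    φ ∈ c.S N ∧ c.co (c.inf 0) (-(N : ℤ)) φ = 0 := by
  have e0 : ((N : ℤ) • c.Dinf) (c.inf 0) = N := by
    rw [Finsupp.smul_apply, Dinf_apply, if_pos (show (c.inf 0).1.1 = none from rfl), smul_eq_mul,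
      mul_one]
  constructor
  · intro h
    refine ⟨LL_le_S (pt_nonneg _) h, mem_LL.1 h (c.inf 0) _ ?_⟩
    rw [Finsupp.sub_apply, e0, pt_apply, if_pos rfl]
    omega
  · rintro ⟨h1, h2⟩
    rw [← LL_Dinf] at h1
    refine mem_LL.2 fun P => ?_
    have h3 := mem_LL.1 h1 P
    rw [Finsupp.sub_apply, pt_apply]
    by_cases hP : c.inf 0 = P
    · subst hP
      rw [e0] at h3
      rw [if_pos rfl, e0]
      have := h3.succ h2
      rwa [show -(N : ℤ) + 1 = -((N : ℤ) - 1) by ring] at this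
    · rwa [if_neg hP, sub_zero]

theorem f2_co_x_pow (N : ℕ) : c.co (c.inf 0) (-(N : ℤ)) (c.x ^ N) = 1 := by
  have := (ge_po_inf (c := c) (P := c.inf 0) rfl (g := X ^ N) (n := N) (natDegree_X_pow_le N)).2
  rwa [map_pow, po_X, coeff_X_pow_self] at this

theorem f2_spans : c.Spans c.rs c.famI (c.LL ((c.Ns : ℤ) • c.Dinf - c.pt (c.inf 0))) := by
  have hI : ∀ k < c.rs, c.famI k =
      c.mono c.Ns k - c.co (c.inf 0) (-(c.Ns : ℤ)) (c.mono c.Ns k) • c.x ^ c.Ns := by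
    intro k hk
    rw [co_inf_eq_topv 0 (mono_mem _ _)]
    unfold famI Crv.cut
    rw [if_pos hk]
  refine ⟨fun k hk => f2_mem_iff.2 ⟨famI_in _ k hk, ?_⟩, fun φ hφ => ⟨c.cv φ, ?_⟩⟩
  · rw [hI k hk, co_sub, co_smul, f2_co_x_pow, mul_one, sub_self]
  · obtain ⟨h1, h2⟩ := f2_mem_iff.1 hφ
    have h3 := sum_cv_mono h1
    have h4 : ∑ k ∈ range (c.dimN c.Ns),
        c.cv φ k * c.co (c.inf 0) (-(c.Ns : ℤ)) (c.mono c.Ns k) = 0 := by
      rw [← h2]
      conv_rhs => rw [← h3, co_sum]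
      exact Finset.sum_congr rfl fun k _ => (co_smul _ _ _ _).symm
    have h5 : c.lin c.rs c.famI (c.cv φ) = ∑ k ∈ range (c.dimN c.Ns), (c.cv φ k • c.mono c.Ns k -
        (c.cv φ k * c.co (c.inf 0) (-(c.Ns : ℤ)) (c.mono c.Ns k)) • c.x ^ c.Ns) := by
      refine Finset.sum_congr rfl fun k hk => ?_
      rw [hI k (Finset.mem_range.1 hk), smul_sub, smul_smul]
    rw [h5, Finset.sum_sub_distrib, h3, ← Finset.sum_smul, h4, zero_smul, sub_zero]

/-- `famI` spans the kernel of `topv Ns 0` on `S Ns`, which is `LL (Ns Dinf - pt (inf 0))`. -/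
theorem famI_std : c.Std c.famI gI := by
  have hB : 1 ≤ c.l * c.B0 := by
    have h1 := c.two_le_l
    exact Nat.mul_pos c.l_pos (Nat.mul_pos (by omega) c.hm)
  refine ⟨famI_in _, _, f2_spans.isG (pt_nonneg _) ?_, ?_⟩
  · rw [dg_pt]
    have : 1 + c.B0 ≤ c.Ns := by
      unfold Ns
      omega
    exact_mod_cast this
  · rw [map_sub, map_smul, cl_Dinf, smul_zero, sub_zero, gI]

end Crv
end Crest.Agent.R312
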