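import Crest.Agent.R312.AlgCLin
import Crest.Agent.R312.AlgFam

/-!
# Row 312, algorithm half: functions on the curve in all components

`C.CR c π F`: the functions `F b i ∈ (c (π b)).L` have bounded weight and computable coordinates.
`CF`: families (position in binary), `CFb`: families, only the positions below `r`.
DO NOT change the definitions.  (Write `_root_.funext`: `Polynomial.funext` is open.)
-/

set_option autoImplicit false
open Finset Polynomial Crest.Agent.Lib.PolyTime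
open scoped Classical

noncomputable section
namespace Crest.Agent.R312

/-- Shape of a family: all members in `S B`, zero from `r` on. -/
def Crv.Shp {E : Type} [Field E] (c : Crv E) (r B : ℕ) (W : ℕ → c.L) : Prop :=
  (∀ k, W k ∈ c.S B) ∧ ∀ k, r ≤ k → W k = 0

theorem Crv.shp_red {E : Type} [Field E] (c : Crv E) (r B : ℕ) (W : ℕ → c.L) :
    c.Shp c.rs c.Ns (c.red r B W) :=
  ⟨Crv.red_mem r B W, fun _ h => Crv.red_eq_zero r B W h⟩

/-- Elementary symmetric functions. -/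
def esy {E R : Type} [CommRing R] (s : Finset E) (V : E → R) (j : ℕ) : R :=
  ∑ t ∈ s.powersetCard j, ∏ a ∈ t, V a

theorem newton_esy {E R : Type} [CommRing R] (s : Finset E) (V : E → R) (k : ℕ) :
    (k : R) * esy s V k =
      (-1) ^ (k + 1) * ∑ j ∈ range k, (-1) ^ j * (esy s V j * ∑ a ∈ s, V a ^ (k - j)) := by
  have h := congrArg (MvPolynomial.aeval (R := ℤ) fun a : s => V a)
    (MvPolynomial.mul_esymm_eq_sum s ℤ k)
  have he : ∀ j, MvPolynomial.aeval (R := ℤ) (fun a : s => V a) (MvPolynomial.esymm s ℤ j) =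
      esy s V j := fun j => by
    rw [MvPolynomial.aeval_esymm_eq_multiset_esymm, esy, ← Finset.esymm_map_val, univ_eq_attach,
      attach_val]
    exact congrArg (·.esymm j) (Multiset.attach_map_val' s.val V)
  have hp : ∀ j, MvPolynomial.aeval (R := ℤ) (fun a : s => V a) (MvPolynomial.psum s ℤ j) =
      ∑ a ∈ s, V a ^ j := fun j => by
    simp only [MvPolynomial.psum, map_sum, map_pow, MvPolynomial.aeval_X]
    exact sum_coe_sort s fun a => V a ^ j
  simp only [map_mul, map_natCast, map_pow, map_neg, map_one, map_sum, he, hp] at h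
  rw [h, sum_filter, Finset.Nat.sum_antidiagonal_eq_sum_range_succ_mk, sum_range_succ, if_neg (by simp),
    add_zero]
  congr 1
  refine sum_congr rfl fun j hj => ?_
  rw [if_pos (mem_range.1 hj), mul_assoc]

namespace Ctx
variable {α : Type} [PEnc α] {E : α → Type} [∀ a, Field (E a)] {ι : α → Type} (C : Ctx α E ι)
  (c : ∀ a, Crv (E a)) {β γ : Type} [PEnc β] [PEnc γ]

/-- The data of the curve (and of the root extraction `rt`) are computable. -/
structure CrvOK (rt : ∀ a, E a → E a) : Prop where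
  ok : C.OK
  l : PN fun a => (c a).l
  m : PN fun a => (c a).m
  ζ : C.CP (fun a => a) fun a _ => (c a).ζ
  f : C.CX (fun a => a) fun a _ => (c a).f
  card : ∀ a, (c a).rts.card = (c a).l * (c a).m
  prod : ∀ a, (c a).f = ∏ z ∈ (c a).rts, (X - Polynomial.C z)
  mem : ∀ a, ∀ z ∈ (c a).rts, z ∈ C.K a
  big : ∀ a, Big (E a) (c a).thr
  rt : ∃ (Q : α → ℕ) (g : ∀ a, E a), Poly Q ∧ (C.CP (fun a => a) fun a _ => g a) ∧
    ∀ a, rt a = rtF (c a).l (Q a) (g a)

/-- Computable functions on the curve. -/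
structure CR (π : β → α) (F : ∀ b, ι (π b) → (c (π b)).L) : Prop where
  bd : ∃ N : β → ℕ, PN N ∧ ∀ b i, F b i ∈ (c (π b)).S (N b)
  cv : C.CV π fun b i => (c (π b)).cv (F b i)

/-- Families. -/
def CF (π : β → α) (W : ∀ b, ι (π b) → ℕ → (c (π b)).L) : Prop :=
  C.CR c (fun p : β × ℕ => π p.1) fun p i => W p.1 i p.2

/-- Families, only the members below `r`. -/
def CFb (π : β → α) (r : β → ℕ) (W : ∀ b, ι (π b) → ℕ → (c (π b)).L) : Prop :=
  C.CR c (fun p : Ix r => π p.1) fun p i => W p.1 i p.2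

/-- The context with one more component index: the roots of `f`. -/
abbrev sp : Ctx α E fun a => ι a × {z // z ∈ (c a).rts} := C.split fun a => (c a).rts

variable {C c} {rt : ∀ a, E a → E a} {π : β → α} {F G : ∀ b, ι (π b) → (c (π b)).L}
  {z : ∀ b, ι (π b) → E (π b)} {P : ∀ b, ι (π b) → Prop} {n r N : β → ℕ}
  {W W' : ∀ b, ι (π b) → ℕ → (c (π b)).L}

theorem CrvOK.splitOK (H : C.CrvOK c rt) : C.SplitOK fun a => (c a).rts :=
  ⟨H.ok, by simpa only [H.card] using H.l.mul H.m, H.f.congr fun a _ => H.prod a, H.mem⟩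

theorem CrvOK.sp (H : C.CrvOK c rt) : (C.sp c).CrvOK c rt := by
  obtain ⟨Q, g, hQ, hg, e⟩ := H.rt
  exact ⟨H.splitOK.split_ok, H.l, H.m, H.splitOK.up H.ζ, H.splitOK.upX H.f, H.card, H.prod, H.mem,
    H.big, Q, g, hQ, H.splitOK.up hg, e⟩

theorem CP.root (H : C.CrvOK c rt) (hz : C.CP π z) : C.CP π fun b i => rt (π b) (z b i) := by
  obtain ⟨Q, g, hQ, hg, e⟩ := H.rt
  exact (CP.rtF H.ok (H.l.comp hz.poly) (hQ.comp hz.poly) (hg.comp hz.poly) hz).congr
    fun b i => by rw [e]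

/-! ### the constants -/

section consts
variable (H : C.CrvOK c rt) (hπ : Poly π)
include H hπ

theorem CrvOK.pl : PN fun b => (c (π b)).l := H.l.comp hπ
theorem CrvOK.pm : PN fun b => (c (π b)).m := H.m.comp hπ
theorem CrvOK.cζ : C.CP π fun b _ => (c (π b)).ζ := H.ζ.comp hπ
theorem CrvOK.cf : C.CX π fun b _ => (c (π b)).f := H.f.comp hπ
theorem CrvOK.dimN (hN : PN N) : PN fun b => (c (π b)).dimN (N b) := (H.pl hπ).mul hN.succ
theorem CrvOK.B0 : PN fun b => (c (π b)).B0 :=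
  ((H.pl hπ).sub (Lib.PolyTime.Poly.const 1)).mul (H.pm hπ)
theorem CrvOK.Ns : PN fun b => (c (π b)).Ns := ((H.pl hπ).mul (H.B0 hπ)).add (H.B0 hπ)
theorem CrvOK.rs : PN fun b => (c (π b)).rs := H.dimN hπ (H.Ns hπ)
theorem CrvOK.N4 : PN fun b => (c (π b)).N4 := ((H.pl hπ).mul (H.Ns hπ)).add (H.B0 hπ)
theorem CrvOK.r4 : PN fun b => (c (π b)).r4 := H.dimN hπ (H.N4 hπ)
theorem CrvOK.T1 : PN fun b => (c (π b)).T1 :=
  ((((H.pl hπ).mul (H.pm hπ)).add (H.pl hπ)).mul (H.rs hπ)).succ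
theorem CrvOK.T2 : PN fun b => (c (π b)).T2 :=
  ((((H.pl hπ).mul (H.pm hπ)).add (H.pl hπ)).mul (H.r4 hπ)).succ
theorem CrvOK.rl : PN fun b => (c (π b)).rl := ((H.pl hπ).mul (H.rs hπ)).succ
theorem CrvOK.Nl : PN fun b => (c (π b)).Nl := (H.pl hπ).mul (H.Ns hπ)
theorem CrvOK.nC : PN fun b => (c (π b)).nC :=
  H.dimN hπ ((H.B0 hπ).add ((H.pl hπ).mul (H.Ns hπ)))
theorem CrvOK.kM : PN fun b => (c (π b)).kM :=
  (H.Nl hπ).add ((H.B0 hπ).add ((H.pl hπ).mul (H.Ns hπ)))
theorem CrvOK.kN : PN fun b => (c (π b)).kN := ((H.pl hπ).mul (H.kM hπ)).add (H.B0 hπ)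
theorem CrvOK.nK : PN fun b => (c (π b)).nK := H.dimN hπ (H.kN hπ)
theorem CrvOK.hB : PN fun b => (c (π b)).hB :=
  (((H.pl hπ).mul (H.kN hπ)).add ((H.pl hπ).mul (H.Nl hπ))).add (H.Ns hπ)
theorem CrvOK.hN : PN fun b => (c (π b)).hN :=
  (((H.Nl hπ).add ((H.pl hπ).mul (H.hB hπ))).add ((H.pl hπ).mul (H.hB hπ))).add
    ((H.pl hπ).mul (H.Ns hπ))
theorem CrvOK.hr : PN fun b => (c (π b)).hr := (H.pl hπ).mul ((PN.const 2).mul (H.rl hπ))

end consts

/-! ### bookkeeping -/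

theorem CR.poly (h : C.CR c π F) : Poly π := h.cv.poly

theorem CR.congr (h : C.CR c π F) (e : ∀ b i, F b i = G b i) : C.CR c π G := by
  have e' : F = G := _root_.funext fun b => _root_.funext (e b)
  subst e'
  exact h

theorem CR.comp (h : C.CR c π F) {g : γ → β} (hg : Poly g) :
    C.CR c (fun x => π (g x)) fun x i => F (g x) i := by
  obtain ⟨⟨B, hB, le⟩, hv⟩ := h
  exact ⟨⟨fun x => B (g x), hB.comp hg, fun x i => le _ i⟩, hv.comp hg⟩

theorem CR.ix (h : C.CR c π F) (n : β → ℕ) : C.CR c (fun p : Ix n => π p.1) fun p i => F p.1 i :=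
  h.comp (poly_ix1 n)

theorem CR.fst (h : C.CR c π F) : C.CR c (fun p : β × γ => π p.1) fun p i => F p.1 i :=
  h.comp Poly.id'.fst

theorem CF.app (h : C.CF c π W) {g : γ → β} (hg : Poly g) {k : γ → ℕ} (hk : Poly k) :
    C.CR c (fun x => π (g x)) fun x i => W (g x) i (k x) :=
  CR.comp h (g := fun x => (g x, k x)) (hg.pair hk)

theorem CF.app' (h : C.CF c π W) {k : β → ℕ} (hk : Poly k) : C.CR c π fun b i => W b i (k b) :=
  h.app Poly.id' hk

theorem CF.comp (h : C.CF c π W) {g : γ → β} (hg : Poly g) :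
    C.CF c (fun x => π (g x)) fun x i => W (g x) i :=
  h.app (g := fun p : γ × ℕ => g p.1) (hg.comp Poly.id'.fst) Poly.id'.snd

theorem CF.ix (h : C.CF c π W) (n : β → ℕ) : C.CF c (fun p : Ix n => π p.1) fun p i => W p.1 i :=
  h.comp (poly_ix1 n)

theorem CF.congr (h : C.CF c π W) (e : ∀ b i k, W b i k = W' b i k) : C.CF c π W' :=
  CR.congr h fun p i => e p.1 i p.2

theorem CF.poly (h : C.CF c π W) : Poly π := (h.app' (Lib.PolyTime.Poly.const 0)).poly

theorem CF.b (h : C.CF c π W) (r : β → ℕ) : C.CFb c π r W := h.app (poly_ix1 r) (poly_ix2 r)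

theorem CFb.app (h : C.CFb c π r W) {g : γ → β} (hg : Poly g) {k : γ → ℕ} (hk : Poly k)
    (lt : ∀ x, k x < r (g x)) : C.CR c (fun x => π (g x)) fun x i => W (g x) i (k x) :=
  CR.comp h (g := fun x => ⟨g x, ⟨k x, lt x⟩⟩) (poly_ixMk hg hk lt)

theorem CFb.comp (h : C.CFb c π r W) {g : γ → β} (hg : Poly g) :
    C.CFb c (fun x => π (g x)) (fun x => r (g x)) fun x i => W (g x) i :=
  h.app (g := fun p : Ix fun x => r (g x) => g p.1) (hg.comp (poly_ix1 _)) (poly_ix2 _) fun p => p.2.2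

theorem CFb.ix (h : C.CFb c π r W) (n : β → ℕ) :
    C.CFb c (fun p : Ix n => π p.1) (fun p => r p.1) fun p i => W p.1 i := h.comp (poly_ix1 n)

theorem CFb.congr (h : C.CFb c π r W) (e : ∀ b i, ∀ k < r b, W b i k = W' b i k) : C.CFb c π r W' :=
  CR.congr h fun p i => e p.1 i p.2 p.2.2

/-- A bound which does not depend on the position (`PN.exists_unif`, `S_mono`). -/
theorem CFb.exists_in (h : C.CFb c π r W) (hr : PN r) :
    ∃ N : β → ℕ, PN N ∧ ∀ b i, (c (π b)).In (r b) (N b) (W b i) := by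
  obtain ⟨N, hN, le⟩ := h.bd
  obtain ⟨N', hN', le'⟩ := hr.exists_unif hN.pb
  exact ⟨N', hN', fun b i k hk => Crv.S_mono (le' ⟨b, ⟨k, hk⟩⟩) (le ⟨b, ⟨k, hk⟩⟩ i)⟩

/-- Computable functions are fixed by automorphisms fixing `K` (`Sym.aut_of_cv`, `CP.mem`). -/
theorem CR.fixed (H : C.OK) (h : C.CR c π F) (b : β) (i : ι (π b)) (T : (c (π b)).Sym)
    (hT : ∀ w ∈ C.K (π b), T.θ w = w) : T.aut (F b i) = F b i := by
  obtain ⟨N, -, le⟩ := h.bd
  exact T.aut_of_cv (le b i) fun k => hT _ (CP.mem H h.cv (b, k) i)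

/-! ### coordinates -/

theorem CR.cv' (h : C.CR c π F) {k : β → ℕ} (hk : Poly k) :
    C.CP π fun b i => (c (π b)).cv (F b i) (k b) := h.cv.app' hk

theorem CFb.cvx (h : C.CFb c π r W) : C.CP (fun p : Ix fun q : β × ℕ => r q.1 => π p.1.1)
    fun p i => (c (π p.1.1)).cv (W p.1.1 i p.2) p.1.2 :=
  (h.app (g := fun p : Ix fun q : β × ℕ => r q.1 => p.1.1) (poly_ix1 _).fst (poly_ix2 _)
    fun p => p.2.2).cv' (poly_ix1 _).snd

/-- `coeff_pc`, `pc_eq_zero`, `natDegree_pc_le`. -/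
theorem CR.pc (H : C.CrvOK c rt) (h : C.CR c π F) {j : β → ℕ} (hj : Poly j) :
    C.CX π fun b i => (c (π b)).pc (F b i) (j b) := by
  obtain ⟨N, hN, le⟩ := h.bd
  have hπ := h.poly
  have hl := (H.pl hπ).poly
  refine ⟨⟨N, hN, fun b i => Crv.natDegree_pc_le (le b i) _⟩, CP.congr (CP.ite'
    (p := fun q : β × ℕ => j q.1 < (c (π q.1)).l)
    ((hj.comp Poly.id'.fst).decide_lt (hl.comp Poly.id'.fst))
    (h.cv.app (g := fun q : β × ℕ => q.1) Poly.id'.fst
      (k := fun q => q.2 * (c (π q.1)).l + j q.1)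
      ((Poly.id'.snd.mul (hl.comp Poly.id'.fst)).add (hj.comp Poly.id'.fst)))
    (CP.zero H.ok (hπ.comp Poly.id'.fst))) fun q i => ?_⟩
  split_ifs with hq
  · exact (Crv.coeff_pc _ hq _).symm
  · simp only [Crv.pc_eq_zero _ (not_lt.1 hq), coeff_zero]

/-- A function of bounded weight from its polynomial coordinates. -/
theorem CR.of_pc (H : C.CrvOK c rt) (hπ : Poly π) (hN : PN N) (hF : ∀ b i, F b i ∈ (c (π b)).S (N b))
    (h : C.CX (fun p : Ix fun b => (c (π b)).l => π p.1) fun p i => (c (π p.1)).pc (F p.1 i) p.2) :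
    C.CR c π F := by
  have hl := (H.pl hπ).poly.comp (Poly.id'.fst (α := β × ℕ))
  exact ⟨⟨N, hN, hF⟩, h.cv.app (g := fun q : β × ℕ =>
      (⟨q.1, ⟨q.2 % (c (π q.1)).l, Nat.mod_lt _ (c _).l_pos⟩⟩ : Ix fun b => (c (π b)).l))
    (poly_ixMk (n := fun b => (c (π b)).l) Poly.id'.fst (Poly.id'.snd.mod hl) _)
    (k := fun q => q.2 / (c (π q.1)).l)
    (Poly.id'.snd.div hl)⟩

theorem CR.ev0 (H : C.CrvOK c rt) (h : C.CR c π F) (hz : C.CP π z) :
    C.CP π fun b i => (c (π b)).ev0 (F b i) (z b i) := by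
  exact (h.pc H (Lib.PolyTime.Poly.const 0)).eval H.ok hz

theorem CR.topv (H : C.CrvOK c rt) (h : C.CR c π F) (hN : Poly N) {t : β → ℕ} (ht : Poly t) :
    C.CP π fun b i => (c (π b)).topv (N b) (t b) (F b i) := by
  have hπ := h.poly
  have h1 := poly_ix1 fun b => (c (π b)).l
  have h2 := poly_ix2 fun b => (c (π b)).l
  have hm := h2.mul ((H.pm hπ).poly.comp h1)
  exact CP.sum H.ok hπ (H.pl hπ) (V := fun b i j => if j * (c (π b)).m ≤ N b then
      ((c (π b)).pc (F b i) j).coeff (N b - j * (c (π b)).m) * (c (π b)).ζ ^ (t b * j) else 0)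
    (CP.ite' (hm.decide_le (hN.comp h1))
      ((((h.ix _).pc H h2).coeff ((hN.comp h1).sub hm)).mul H.ok
        (((H.cζ hπ).ix _).pow H.ok ((ht.comp h1).mul h2))) (CP.zero H.ok (hπ.comp h1)))

theorem CR.ne_zero (H : C.CrvOK c rt) (h : C.CR c π F) : C.CB π fun b i => F b i ≠ 0 := by
  obtain ⟨N, hN, le⟩ := h.bd
  have hπ := h.poly
  refine (CB.exists_lt H.ok hπ (H.dimN hπ hN) (p := fun b i k => (c (π b)).cv (F b i) k ≠ 0)
    (CB.ne_zero H.ok ((h.ix _).cv' (poly_ix2 _)))).congr fun b i => ⟨?_, fun hne => ?_⟩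
  · rintro ⟨k, -, hk⟩ h0
    exact hk (by rw [h0, Crv.cv_zero])
  · by_contra h0
    push Not at h0
    exact hne (Crv.eq_zero_of_cv (le b i) h0)

/-! ### ring operations -/

theorem CR.mono' (H : C.CrvOK c rt) (hπ : Poly π) (hN : PN N) {k : β → ℕ} (hk : Poly k) :
    C.CR c π fun b _ => (c (π b)).mono (N b) (k b) := by
  have h1 : Poly fun q : β × ℕ => q.1 := Poly.id'.fst
  have hl := (H.pl hπ).poly
  refine ⟨⟨N, hN, fun b _ => Crv.mono_mem _ _⟩, (CP.ite'
    (p := fun q : β × ℕ => q.2 = k q.1 ∧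
      k q.1 / (c (π q.1)).l + k q.1 % (c (π q.1)).l * (c (π q.1)).m ≤ N q.1)
    (((Poly.id'.snd.decide_eq (hk.comp h1)).and
      ((((hk.div hl).add ((hk.mod hl).mul (H.pm hπ).poly)).decide_le hN.poly).comp h1)).congr
        fun q => (Bool.decide_and _ _).symm)
    (CP.one H.ok (hπ.comp h1)) (CP.zero H.ok (hπ.comp h1))).congr fun q i => ?_⟩
  simp only [Crv.cv_mono]

theorem CR.zero (H : C.CrvOK c rt) (hπ : Poly π) : C.CR c π fun _ _ => 0 := by
  exact ⟨⟨fun _ => 0, PN.const 0, fun _ _ => zero_mem _⟩,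
    (CP.zero H.ok (hπ.comp Poly.id'.fst)).congr fun _ _ => (Crv.cv_zero _).symm⟩

theorem CR.one (H : C.CrvOK c rt) (hπ : Poly π) : C.CR c π fun _ _ => 1 := by
  exact (CR.mono' H hπ (PN.const 0) (Lib.PolyTime.Poly.const 0)).congr fun b _ => by
    simp [Crv.mono]

theorem CR.x_pow (H : C.CrvOK c rt) (hπ : Poly π) (hn : PN n) :
    C.CR c π fun b _ => (c (π b)).x ^ n b := by
  exact (CR.mono' H hπ hn (hn.poly.mul (H.pl hπ).poly)).congr fun b _ => by
    simp [Crv.mono, Nat.mul_div_cancel _ (c (π b)).l_pos]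

theorem CR.x (H : C.CrvOK c rt) (hπ : Poly π) : C.CR c π fun b _ => (c (π b)).x :=
  (CR.x_pow H hπ (PN.const 1)).congr fun _ _ => pow_one _

theorem CR.y (H : C.CrvOK c rt) (hπ : Poly π) : C.CR c π fun b _ => (c (π b)).y := by
  exact (CR.mono' H hπ (H.pm hπ) (Lib.PolyTime.Poly.const 1)).congr fun b _ => by
    have := (c (π b)).two_le_l
    simp [Crv.mono, Nat.div_eq_of_lt (show 1 < (c (π b)).l by omega),
      Nat.mod_eq_of_lt (show 1 < (c (π b)).l by omega)]

theorem CR.mono (H : C.CrvOK c rt) (hπ : Poly π) (hN : PN N) {k : β → ℕ} (hk : Poly k) :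
    C.CR c π fun b _ => (c (π b)).mono (N b) (k b) := by
  exact CR.mono' H hπ hN hk

theorem CR.add (H : C.CrvOK c rt) (h : C.CR c π F) (h' : C.CR c π G) :
    C.CR c π fun b i => F b i + G b i := by
  obtain ⟨N, hN, le⟩ := h.bd
  obtain ⟨N', hN', le'⟩ := h'.bd
  exact ⟨⟨_, hN.add hN', fun b i => add_mem (Crv.S_mono (Nat.le_add_right _ _) (le b i))
      (Crv.S_mono (Nat.le_add_left _ _) (le' b i))⟩,
    (CP.add H.ok h.cv h'.cv).congr fun q i => (Crv.cv_add (le _ i) (le' _ i) _).symm⟩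

theorem CR.smul (H : C.CrvOK c rt) (hz : C.CP π z) (h : C.CR c π F) :
    C.CR c π fun b i => z b i • F b i := by
  obtain ⟨N, hN, le⟩ := h.bd
  exact ⟨⟨_, hN, fun b i => Submodule.smul_mem _ _ (le b i)⟩,
    (CP.mul H.ok hz.fst h.cv).congr fun q i => (Crv.cv_smul (le _ i) _ _).symm⟩

theorem CR.sub (H : C.CrvOK c rt) (h : C.CR c π F) (h' : C.CR c π G) :
    C.CR c π fun b i => F b i - G b i := by
  exact (h.add H (h'.smul H ((CP.one H.ok h.poly).neg H.ok))).congr fun b i => by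
    rw [neg_smul, one_smul, sub_eq_add_neg]

theorem CR.const (H : C.CrvOK c rt) (hz : C.CP π z) :
    C.CR c π fun b i => algebraMap (E (π b)) (c (π b)).L (z b i) := by
  exact ((CR.one H hz.poly).smul H hz).congr fun b i => (Algebra.algebraMap_eq_smul_one _).symm

/-- `pc_mul`. -/
theorem CR.mul (H : C.CrvOK c rt) (h : C.CR c π F) (h' : C.CR c π G) :
    C.CR c π fun b i => F b i * G b i := by
  obtain ⟨N, hN, le⟩ := h.bd
  obtain ⟨N', hN', le'⟩ := h'.bd
  have hπ := h.poly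
  refine CR.of_pc H hπ (hN.add hN') (fun b i => Crv.mul_mem_S (le b i) (le' b i)) ?_
  have h1 := poly_ix1 fun b => (c (π b)).l
  have g1 := poly_ix1 fun p : Ix fun b => (c (π b)).l => (c (π p.1)).l
  have g2 := poly_ix2 fun p : Ix fun b => (c (π b)).l => (c (π p.1)).l
  have g3 := (poly_ix2 fun b => (c (π b)).l).comp g1
  have hF := h.comp (h1.comp g1)
  have hG := h'.comp (h1.comp g1)
  refine (CX.sum H.ok (hπ.comp h1) ((H.pl hπ).ix _)
    (V := fun (p : Ix fun b => (c (π b)).l) i k => if k ≤ (p.2 : ℕ) then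
      (c (π p.1)).pc (F p.1 i) k * (c (π p.1)).pc (G p.1 i) (p.2 - k) else
      (c (π p.1)).f * ((c (π p.1)).pc (F p.1 i) k * (c (π p.1)).pc (G p.1 i) (p.2 + (c (π p.1)).l - k)))
    (CX.ite' (g2.decide_le g3) ((hF.pc H g2).mul H.ok (hG.pc H (g3.sub g2)))
      ((H.cf hF.poly).mul H.ok ((hF.pc H g2).mul H.ok
        (hG.pc H ((g3.add (H.pl hF.poly).poly).sub g2)))))).congr fun p i => ?_
  exact (Crv.pc_mul (le _ i) (le' _ i) p.2.2).symm

theorem CR.sg (H : C.CrvOK c rt) (h : C.CR c π F) {k : β → ℕ} (hk : Poly k) :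
    C.CR c π fun b i => (c (π b)).sg (k b) (F b i) := by
  obtain ⟨N, hN, le⟩ := h.bd
  have hπ := h.poly
  refine CR.of_pc H hπ hN (fun b i => Crv.sg_mem_S (le b i) _) ?_
  have h1 := poly_ix1 fun b => (c (π b)).l
  have h2 := poly_ix2 fun b => (c (π b)).l
  exact (((h.ix _).pc H h2).smul H.ok (((H.cζ hπ).ix _).pow H.ok ((hk.comp h1).mul h2))).congr
    fun p i => (Crv.pc_sg (le _ i) _ _).symm

theorem CR.ite (H : C.CrvOK c rt) (hP : C.CB π P) (h : C.CR c π F) (h' : C.CR c π G) :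
    C.CR c π fun b i => if P b i then F b i else G b i := by
  obtain ⟨N, hN, le⟩ := h.bd
  obtain ⟨N', hN', le'⟩ := h'.bd
  refine ⟨⟨_, hN.add hN', fun b i => ?_⟩,
    (CP.ite H.ok (hP.comp Poly.id'.fst) h.cv h'.cv).congr fun q i => ?_⟩
  · split_ifs
    exacts [Crv.S_mono (Nat.le_add_right _ _) (le b i), Crv.S_mono (Nat.le_add_left _ _) (le' b i)]
  · dsimp only
    split_ifs <;> rfl

theorem CR.ite' {p : β → Prop} [DecidablePred p] (hp : Poly fun b => decide (p b))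
    (h : C.CR c π F) (h' : C.CR c π G) : C.CR c π fun b i => if p b then F b i else G b i := by
  obtain ⟨N, hN, le⟩ := h.bd
  obtain ⟨N', hN', le'⟩ := h'.bd
  refine ⟨⟨_, hN.add hN', fun b i => ?_⟩,
    (CP.ite' (p := fun q : β × ℕ => p q.1) (hp.comp Poly.id'.fst) h.cv h'.cv).congr fun q i => ?_⟩
  · split_ifs
    exacts [Crv.S_mono (Nat.le_add_right _ _) (le b i), Crv.S_mono (Nat.le_add_left _ _) (le' b i)]
  · dsimp only
    split_ifs <;> rfl

theorem CR.sum (H : C.CrvOK c rt) (hπ : Poly π) (hn : PN n) (h : C.CFb c π n W) :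
    C.CR c π fun b i => ∑ k ∈ range (n b), W b i k := by
  obtain ⟨N, hN, le⟩ := h.exists_in hn
  refine ⟨⟨N, hN, fun b i => sum_mem fun k hk => le b i k (mem_range.1 hk)⟩,
    (CP.sum H.ok (hπ.comp Poly.id'.fst) hn.fst
      (V := fun (q : β × ℕ) i k => (c (π q.1)).cv (W q.1 i k) q.2) (h.cvx)).congr fun q i => ?_⟩
  exact (Crv.cv_sum _ (fun k hk => le _ i k (mem_range.1 hk)) _).symm

theorem CR.sel (H : C.CrvOK c rt) (hπ : Poly π) {B : β → ℕ} {e : ∀ b, ι (π b) → ℕ}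
    (he : C.CN π B e) (h : C.CFb c π B W) : C.CR c π fun b i => W b i (e b i) := by
  obtain ⟨N, hN, le⟩ := h.exists_in he.pn
  exact ⟨⟨N, hN, fun b i => le b i _ (he.lt b i)⟩,
    CP.sel H.ok (hπ.comp Poly.id'.fst) (he.comp Poly.id'.fst)
      (V := fun (q : β × ℕ) i k => (c (π q.1)).cv (W q.1 i k) q.2) h.cvx⟩

/-- Selection of a family. -/
theorem CF.sel (H : C.CrvOK c rt) (hπ : Poly π) {B : β → ℕ} {e : ∀ b, ι (π b) → ℕ}
    (he : C.CN π B e) {V : ∀ b, ι (π b) → ℕ → ℕ → (c (π b)).L}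
    (h : C.CF c (fun p : Ix B => π p.1) fun p i => V p.1 i p.2) :
    C.CF c π fun b i => V b i (e b i) :=
  CR.sel H (W := fun (q : β × ℕ) i k => V q.1 i k q.2) (hπ.comp Poly.id'.fst) (he.comp Poly.id'.fst)
    (h.app (g := fun p : Ix fun q : β × ℕ => B q.1 => ⟨p.1.1, p.2⟩)
      (poly_ixMk (poly_ix1 _).fst (poly_ix2 _) fun p => p.2.2) (poly_ix1 _).snd)

/-- The same for bounded families. -/
theorem CFb.sel (H : C.CrvOK c rt) (hπ : Poly π) {B : β → ℕ} {e : ∀ b, ι (π b) → ℕ}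
    (he : C.CN π B e) {V : ∀ b, ι (π b) → ℕ → ℕ → (c (π b)).L}
    (h : C.CFb c (fun p : Ix B => π p.1) (fun p => r p.1) fun p i => V p.1 i p.2) :
    C.CFb c π r fun b i => V b i (e b i) :=
  CR.sel H (W := fun (q : Ix r) i k => V q.1 i k q.2) (hπ.comp (poly_ix1 _)) (he.comp (poly_ix1 _))
    (h.app (g := fun p : Ix fun q : Ix r => B q.1 => ⟨p.1.1, p.2⟩)
      (poly_ixMk ((poly_ix1 _).comp (poly_ix1 _)) (poly_ix2 _) fun p => p.2.2)
      ((poly_ix2 _).comp (poly_ix1 _)) fun p => p.1.2.2)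

/-- A table (`CV.of_ix` or `CP.dite'`, `CFb.exists_in`). -/
theorem CF.cut (H : C.CrvOK c rt) (hπ : Poly π) (hr : PN r) (h : C.CFb c π r W) :
    C.CF c π fun b i => (c (π b)).cut (r b) (W b i) := by
  obtain ⟨N, hN, le⟩ := h.exists_in hr
  refine ⟨⟨fun q => N q.1, hN.fst, fun q i => (le q.1 i).cut (q.2 + 1) _ (Nat.lt_succ_self _)⟩, ?_⟩
  have := CV.of_ix H.ok (hπ.comp Poly.id'.fst) hr.fst
    (V := fun (q : β × ℕ) i k => (c (π q.1)).cv (W q.1 i k) q.2) h.cvx
  refine (this.app (g := fun q : (β × ℕ) × ℕ => (q.1.1, q.2)) (Poly.id'.fst.fst.pair Poly.id'.snd)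
    (k := fun q => q.1.2) Poly.id'.fst.snd).congr fun q i => ?_
  simp only [Crv.cut]
  split_ifs
  exacts [rfl, (Crv.cv_zero _).symm]

/-! ### loops -/

/-- `CV.iter`; the state `W` is coded by `j ↦ cv (W (j / dimN B)) (j % dimN B)`, decoded by
`cut r fun k => ∑_e v (k * dimN B + e) • mono B e` (`sum_cv_mono`). -/
theorem CF.iter (H : C.CrvOK c rt) (hn : PN n) (hr : PN r) (hN : PN N)
    {step : ∀ b, ι (π b) → ℕ → (ℕ → (c (π b)).L) → ℕ → (c (π b)).L}
    (hinv : ∀ b i, ∀ k ≤ n b, (c (π b)).Shp (r b) (N b) (R312.iter (step b i) (W b i) k))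
    (h0 : C.CF c π W)
    (hs : ∀ (γ : Type) [PEnc γ] (g : γ → β) (k : γ → ℕ)
      (S : ∀ x, ι (π (g x)) → ℕ → (c (π (g x))).L), Poly g → Poly k → (∀ x, k x < n (g x)) →
      C.CF c (fun x => π (g x)) S →
      C.CF c (fun x => π (g x)) fun x i => step (g x) i (k x) (S x i)) :
    C.CF c π fun b i => R312.iter (step b i) (W b i) (n b) := by
  have hπ := h0.poly
  have hd := H.dimN hπ hN
  have hpos : ∀ b, 0 < (c (π b)).dimN (N b) := fun b => Nat.mul_pos (c _).l_pos (Nat.succ_pos _)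
  have to_cv : ∀ (γ : Type) [PEnc γ] (g : γ → β) (S : ∀ x, ι (π (g x)) → ℕ → (c (π (g x))).L),
      Poly g → C.CF c (fun x => π (g x)) S → C.CV (fun x => π (g x)) fun x i j =>
        (c (π (g x))).cv (S x i (j / (c (π (g x))).dimN (N (g x)))) (j % (c (π (g x))).dimN (N (g x))) := by
    intro γ _ g S hg hS
    have := (hd.poly.comp hg).comp (Poly.id'.fst (α := γ × ℕ))
    exact (hS.app Poly.id'.fst (Poly.id'.snd.div this)).cv' (Poly.id'.snd.mod this)
  have of_cv : ∀ (γ : Type) [PEnc γ] (g : γ → β) (S : ∀ x, ι (π (g x)) → ℕ → (c (π (g x))).L),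
      Poly g → (∀ x i, (c (π (g x))).Shp (r (g x)) (N (g x)) (S x i)) →
      (C.CV (fun x => π (g x)) fun x i j =>
        (c (π (g x))).cv (S x i (j / (c (π (g x))).dimN (N (g x)))) (j % (c (π (g x))).dimN (N (g x)))) →
      C.CF c (fun x => π (g x)) S := by
    intro γ _ g S hg hS h
    refine ⟨⟨fun q => N (g q.1), (hN.comp hg).fst, fun q i => (hS q.1 i).1 _⟩, ?_⟩
    have h1 : Poly fun q : (γ × ℕ) × ℕ => q.1.1 := Poly.id'.fst.fst
    have h2 := (hd.poly.comp hg).comp h1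
    refine (CP.ite' (p := fun q : (γ × ℕ) × ℕ => q.2 < (c (π (g q.1.1))).dimN (N (g q.1.1)))
      (Poly.id'.snd.decide_lt h2)
      (h.app h1 (k := fun q => q.1.2 * (c (π (g q.1.1))).dimN (N (g q.1.1)) + q.2)
        ((Poly.id'.fst.snd.mul h2).add Poly.id'.snd))
      (CP.zero H.ok ((hπ.comp hg).comp h1))).congr fun q i => ?_
    split_ifs with hq
    · rw [mul_comm, Nat.mul_add_div (hpos _), Nat.div_eq_of_lt hq, Nat.mul_add_mod,
        Nat.mod_eq_of_lt hq, add_zero]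
    · exact (Crv.cv_eq_zero ((hS _ i).1 _) (not_lt.1 hq)).symm
  refine of_cv β (fun b => b) _ Poly.id' (fun b i => hinv b i _ le_rfl) ?_
  refine CV.iter H.ok hn (hr.mul hd) (σ := fun b => ℕ → (c (π b)).L)
    (fun b S j => (c (π b)).cv (S (j / (c (π b)).dimN (N b))) (j % (c (π b)).dimN (N b)))
    (fun b v k => ∑ e ∈ range ((c (π b)).dimN (N b)),
      v (k * (c (π b)).dimN (N b) + e) • (c (π b)).mono (N b) e)
    (fun b _ _ S => (c (π b)).Shp (r b) (N b) S) (fun b i k S hS => ?_) (fun b i k S hS j hj => ?_)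
    hinv (to_cv β (fun b => b) _ Poly.id' h0) fun γ _ g k S hg hk hlt hS h =>
      to_cv γ g _ hg (hs γ g k S hg hk hlt (of_cv γ g S hg hS h))
  · funext k
    refine Eq.trans (sum_congr rfl fun e he => ?_) (Crv.sum_cv_mono (hS.1 k))
    dsimp only
    rw [mul_comm, Nat.mul_add_div (hpos _), Nat.div_eq_of_lt (mem_range.1 he), Nat.mul_add_mod,
      Nat.mod_eq_of_lt (mem_range.1 he), add_zero]
  · rw [hS.2 _ ((Nat.le_div_iff_mul_le (hpos b)).2 hj), Crv.cv_zero]

/-- `CV.iter` with `en = cv`. -/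
theorem CR.iter (H : C.CrvOK c rt) (hn : PN n) (hN : PN N)
    {step : ∀ b, ι (π b) → ℕ → (c (π b)).L → (c (π b)).L}
    (hinv : ∀ b i, ∀ k ≤ n b, R312.iter (step b i) (F b i) k ∈ (c (π b)).S (N b))
    (h0 : C.CR c π F)
    (hs : ∀ (γ : Type) [PEnc γ] (g : γ → β) (k : γ → ℕ)
      (S : ∀ x, ι (π (g x)) → (c (π (g x))).L), Poly g → Poly k → (∀ x, k x < n (g x)) →
      C.CR c (fun x => π (g x)) S →
      C.CR c (fun x => π (g x)) fun x i => step (g x) i (k x) (S x i)) :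
    C.CR c π fun b i => R312.iter (step b i) (F b i) (n b) := by
  refine ⟨⟨N, hN, fun b i => hinv b i _ le_rfl⟩, ?_⟩
  exact CV.iter H.ok hn (H.dimN h0.poly hN) (σ := fun b => (c (π b)).L)
    (fun b S => (c (π b)).cv S)
    (fun b v => ∑ e ∈ range ((c (π b)).dimN (N b)), v e • (c (π b)).mono (N b) e)
    (fun b _ _ S => S ∈ (c (π b)).S (N b)) (fun b i k S hS => Crv.sum_cv_mono hS)
    (fun b i k S hS j hj => Crv.cv_eq_zero hS hj) hinv h0.cv fun γ _ g k S hg hk hlt hS h =>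
      (hs γ g k S hg hk hlt ⟨⟨_, hN.comp hg, hS⟩, h⟩).cv

theorem CR.prod (H : C.CrvOK c rt) (hπ : Poly π) (hn : PN n) (h : C.CFb c π n W) :
    C.CR c π fun b i => ∏ k ∈ range (n b), W b i k := by
  obtain ⟨N, hN, le⟩ := h.exists_in hn
  have key : ∀ b i k, R312.iter (fun k s => s * W b i k) 1 k = ∏ j ∈ range k, W b i j := by
    intro b i k
    induction k with
    | zero => rfl
    | succ k ih => rw [iter_succ, ih, prod_range_succ]
  refine (CR.iter H hn (hn.mul hN) (step := fun b i k s => s * W b i k) (fun b i k hk => ?_)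
    (CR.one H hπ) fun γ _ g k S hg hk hlt hS => hS.mul H (h.app hg hk hlt)).congr fun b i => key b i _
  rw [key]
  refine Crv.S_mono ?_ (Crv.prod_mem_S (N := N b) _ fun j hj => le b i j ((mem_range.1 hj).trans_le hk))
  rw [card_range]
  exact Nat.mul_le_mul_right _ hk

theorem CR.pow (H : C.CrvOK c rt) (h : C.CR c π F) (hn : PN n) :
    C.CR c π fun b i => F b i ^ n b := by
  exact (CR.prod H h.poly hn (W := fun b i _ => F b i) (h.ix n)).congr fun b i => by simp

/-! ### the roots as components -/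

theorem CR.up (H : C.CrvOK c rt) (h : C.CR c π F) : (C.sp c).CR c π fun b i => F b i.1 := by
  obtain ⟨N, hN, le⟩ := h.bd
  exact ⟨⟨N, hN, fun b i => le b i.1⟩, H.splitOK.up h.cv⟩

theorem CF.up (H : C.CrvOK c rt) (h : C.CF c π W) : (C.sp c).CF c π fun b i => W b i.1 :=
  CR.up H h

theorem CrvOK.pt (H : C.CrvOK c rt) (hπ : Poly π) : (C.sp c).CP π fun _ i => i.2.1 :=
  H.splitOK.pt hπ

theorem CR.sum_rts (H : C.CrvOK c rt) {V : ∀ b, ι (π b) → E (π b) → (c (π b)).L}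
    (h : (C.sp c).CR c π fun b i => V b i.1 i.2.1) :
    C.CR c π fun b i => ∑ a ∈ (c (π b)).rts, V b i a := by
  obtain ⟨N, hN, le⟩ := h.bd
  refine ⟨⟨N, hN, fun b i => sum_mem fun a ha => le b (i, ⟨a, ha⟩)⟩,
    (H.splitOK.sum (F := fun (q : β × ℕ) i a => (c (π q.1)).cv (V q.1 i a) q.2) h.cv).congr
      fun q i => ?_⟩
  exact (Crv.cv_sum _ (fun a ha => le _ (i, ⟨a, ha⟩)) _).symm

/-- Newton's identities `MvPolynomial.mul_esymm_eq_sum` (apply `MvPolynomial.aeval` with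
`σ = {a // a ∈ rts}`): the power sums are computable (`CR.sum_rts`, `CR.pow`), the elementary symmetric
functions `e_0, …, e_k` (then zeros) form the state of a loop (`CF.iter`), `k ≤ l m ≤ thr` is invertible
(`H.big`), and `e_{l m}` is the product. -/
theorem CR.prod_rts (H : C.CrvOK c rt) {V : ∀ b, ι (π b) → E (π b) → (c (π b)).L}
    (h : (C.sp c).CR c π fun b i => V b i.1 i.2.1) :
    C.CR c π fun b i => ∏ a ∈ (c (π b)).rts, V b i a := by
  obtain ⟨N, hN, le⟩ := h.bd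
  have hπ := h.poly
  have hn : PN fun b => (c (π b)).l * (c (π b)).m := (H.pl hπ).mul (H.pm hπ)
  have key : ∀ b i, ∀ k ≤ (c (π b)).l * (c (π b)).m,
      R312.iter (fun k (S : ℕ → (c (π b)).L) j => if j = k + 1 then
          (((k + 1 : ℕ) : E (π b))⁻¹ * (-1) ^ k) • ∑ j ∈ range (k + 1),
            (-1 : E (π b)) ^ j • (S j * ∑ a ∈ (c (π b)).rts, V b i a ^ (k + 1 - j)) else S j)
        (fun j => if j = 0 then 1 else 0) k =
      fun j => if j ≤ k then esy (c (π b)).rts (V b i) j else 0 := by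
    intro b i k
    induction k with
    | zero =>
      intro _
      funext j
      by_cases hj : j = 0 <;> simp [hj, esy]
    | succ k ih =>
      intro hk
      rw [iter_succ, ih (by omega)]
      funext j
      by_cases hj : j = k + 1
      · have h0 : ((k + 1 : ℕ) : E (π b)) ≠ 0 := fun h0 => by
          have h2 : 0 < (c (π b)).r4 := Nat.mul_pos (c _).l_pos (Nat.succ_pos _)
          have := H.big (π b) (k + 1) (by unfold Crv.thr; nlinarith) 0 (Nat.zero_le _)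
            (by rw [h0, Nat.cast_zero])
          omega
        have h1 := newton_esy (c (π b)).rts (V b i) (k + 1)
        rw [if_pos hj, if_pos hj.le, hj, mul_smul, inv_smul_eq_iff₀ h0, Algebra.smul_def,
          Algebra.smul_def, map_natCast, h1, pow_add, pow_add]
        simp only [Algebra.smul_def, map_pow, map_neg, map_one]
        rw [sum_congr rfl fun j hj => by rw [if_pos (Nat.lt_succ_iff.1 (mem_range.1 hj))]]
        ring
      · rw [if_neg hj]
        exact if_congr (by omega) rfl rfl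
  have hc := Lib.PolyTime.Poly.const (α := β × ℕ) 0
  refine ((CF.iter H hn hn.succ (hn.mul hN) (step := fun b i k S j => if j = k + 1 then
      (((k + 1 : ℕ) : E (π b))⁻¹ * (-1) ^ k) • ∑ j ∈ range (k + 1),
        (-1 : E (π b)) ^ j • (S j * ∑ a ∈ (c (π b)).rts, V b i a ^ (k + 1 - j)) else S j)
    (W := fun b i j => if j = 0 then 1 else 0) (fun b i k hk => ?_)
    (CR.ite' (p := fun q : β × ℕ => q.2 = 0) (Poly.id'.snd.decide_eq hc)
      (CR.one H (hπ.comp Poly.id'.fst)) (CR.zero H (hπ.comp Poly.id'.fst)))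
    fun γ _ g k S hg hk hlt hS => ?_).app' hn.poly).congr fun b i => ?_
  · rw [key b i k hk]
    refine ⟨fun j => ?_, fun j hj => if_neg (by omega)⟩
    dsimp only
    split_ifs with hj
    · refine sum_mem fun t ht => ?_
      obtain ⟨h1, h2⟩ := mem_powersetCard.1 ht
      refine Crv.S_mono ?_ (Crv.prod_mem_S (N := N b) _ fun a ha => le b (i, ⟨a, h1 ha⟩))
      rw [h2]
      exact Nat.mul_le_mul_right _ (hj.trans hk)
    · exact zero_mem _
  · have hg' := hπ.comp hg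
    have hk1 : PN fun x => k x + 1 := ((hn.comp hg).of_le hk fun x => (hlt x).le).succ
    have h1 := poly_ix1 fun x => k x + 1
    have h2 := poly_ix2 fun x => k x + 1
    have hm : C.CP (fun x => π (g x)) fun _ _ => -1 := (CP.one H.ok hg').neg H.ok
    exact CR.ite' (p := fun q : γ × ℕ => q.2 = k q.1 + 1)
      (Poly.id'.snd.decide_eq (hk1.poly.comp Poly.id'.fst))
      (CR.fst (CR.smul H (((CP.natCast H.ok hg' hk1.poly).inv H.ok).mul H.ok (hm.pow H.ok hk))
        (CR.sum H hg' hk1 (W := fun x i j => (-1 : E (π (g x))) ^ j •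
            (S x i j * ∑ a ∈ (c (π (g x))).rts, V (g x) i a ^ (k x + 1 - j)))
          (CR.smul H ((hm.ix _).pow H.ok h2) (CR.mul H (hS.b _)
            (CR.sum_rts H (V := fun (p : Ix fun x => k x + 1) i a => V (g p.1) i a ^ (k p.1 + 1 - p.2))
              ((h.comp (hg.comp h1)).pow H.sp ((hk1.ix _).sub h2)))))))) hS
  · rw [key b i _ le_rfl]
    dsimp only
    rw [if_pos le_rfl, esy, ← H.card, powersetCard_self, sum_singleton]

end Ctx
end Crest.Agent.R312
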