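import Mathlib

/-!
# Row 312, algorithm half: the curve `y ^ l = f x` and its function field

`c.L` is the function field, `c.x`, `c.y` the coordinates, `c.po g = g(x)`, `c.sg k` the automorphism
`y ↦ ζ ^ k y`, `c.pc φ j` the `j`-th polynomial coordinate of `φ = ∑ g_j(x) y ^ j`, `c.S N` the span of
the monomials `x ^ a y ^ j` (`j < l`) of weight `a + j m ≤ N`.
DO NOT change the definitions.
-/

set_option autoImplicit false
open Polynomial Finset
open scoped Classical

noncomputable section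
namespace Crest.Agent.R312

/-- The curve `y ^ l = f x`, `f` monic separable of degree `l m`. -/
structure Crv (E : Type) [Field E] where
  l : ℕ
  m : ℕ
  ζ : E
  f : E[X]
  hl : l.Prime
  hm : 0 < m
  hζ : IsPrimitiveRoot ζ l
  monic : f.Monic
  deg : f.natDegree = l * m
  sep : f.Separable

namespace Crv
variable {E : Type} [Field E] (c : Crv E)

theorem l_pos : 0 < c.l := c.hl.pos
theorem two_le_l : 2 ≤ c.l := c.hl.two_le
theorem ζ_ne : c.ζ ≠ 0 := c.hζ.ne_zero c.l_pos.ne'
theorem ζ_pow : c.ζ ^ c.l = 1 := c.hζ.pow_eq_one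
theorem f_ne : c.f ≠ 0 := c.monic.ne_zero
theorem l_ne : (c.l : E) ≠ 0 := by
  have : NeZero c.l := ⟨c.l_pos.ne'⟩
  exact (c.hζ.neZero').out

/-- The defining polynomial. -/
def P : (RatFunc E)[X] := X ^ c.l - C (algebraMap E[X] (RatFunc E) c.f)

theorem P_monic : c.P.Monic := monic_X_pow_sub_C _ c.l_pos.ne'

theorem P_natDegree : c.P.natDegree = c.l := natDegree_X_pow_sub_C

theorem P_irr : Irreducible c.P := by
  refine X_pow_sub_C_irreducible_of_prime c.hl fun b hb => ?_
  have hi : IsIntegral E[X] b :=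
    IsIntegral.of_pow c.l_pos (hb ▸ isIntegral_algebraMap)
  obtain ⟨g, rfl⟩ := IsIntegrallyClosed.isIntegral_iff.1 hi
  rw [← map_pow] at hb
  have h : g ^ c.l = c.f := IsFractionRing.injective E[X] (RatFunc E) hb
  have hu : IsUnit g := c.sep.squarefree g (by
    rw [← h, ← pow_two]; exact pow_dvd_pow g c.two_le_l)
  have h0 : c.f.natDegree = 0 := by
    rw [← h]; exact natDegree_eq_zero_of_isUnit (hu.pow _)
  have := Nat.mul_pos c.l_pos c.hm
  rw [c.deg] at h0
  omega

instance : Fact (Irreducible c.P) := ⟨c.P_irr⟩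

/-- The function field. -/
def L : Type := AdjoinRoot c.P

instance : Field c.L := inferInstanceAs (Field (AdjoinRoot c.P))
instance : Algebra E c.L := inferInstanceAs (Algebra E (AdjoinRoot c.P))

/-- Rational functions of `x`. -/
def of : RatFunc E →ₐ[E] c.L := IsScalarTower.toAlgHom E (RatFunc E) (AdjoinRoot c.P)

def x : c.L := c.of RatFunc.X
def y : c.L := AdjoinRoot.root c.P

/-- `g(x)`. -/
def po : E[X] →ₐ[E] c.L := aeval c.x

theorem of_algebraMap (g : E[X]) : c.of (algebraMap E[X] (RatFunc E) g) = c.po g := by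
  have : c.of.comp (IsScalarTower.toAlgHom E E[X] (RatFunc E)) = c.po := by
    ext; simp [po, x]
  exact DFunLike.congr_fun this g

theorem y_pow : c.y ^ c.l = c.po c.f := by
  have h : eval₂ (AdjoinRoot.of c.P) (AdjoinRoot.root c.P)
      (X ^ c.l - C (algebraMap E[X] (RatFunc E) c.f)) = 0 := AdjoinRoot.eval₂_root c.P
  rw [← c.of_algebraMap]
  rw [eval₂_sub, eval₂_X_pow, eval₂_C] at h
  exact sub_eq_zero.1 h

/-- Ring homomorphisms out of `L`. -/
def lift {F : Type} [Field F] (i : RatFunc E →+* F) (z : F)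
    (h : z ^ c.l = i (algebraMap E[X] (RatFunc E) c.f)) : c.L →+* F :=
  AdjoinRoot.lift i z (by simp [P, h])

theorem lift_of {F : Type} [Field F] (i : RatFunc E →+* F) (z : F)
    (h : z ^ c.l = i (algebraMap E[X] (RatFunc E) c.f)) (r : RatFunc E) :
    c.lift i z h (c.of r) = i r := AdjoinRoot.lift_of _

theorem lift_y {F : Type} [Field F] (i : RatFunc E →+* F) (z : F)
    (h : z ^ c.l = i (algebraMap E[X] (RatFunc E) c.f)) : c.lift i z h c.y = z :=
  AdjoinRoot.lift_root _

/-- Ring homomorphisms out of `L` are determined by constants, `x` and `y`. -/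
theorem ringHom_ext {F : Type} [Field F] {e₁ e₂ : c.L →+* F}
    (hc : ∀ a : E, e₁ (algebraMap E c.L a) = e₂ (algebraMap E c.L a)) (hx : e₁ c.x = e₂ c.x)
    (hy : e₁ c.y = e₂ c.y) : e₁ = e₂ := by
  have hp : ∀ g : E[X], e₁ (c.po g) = e₂ (c.po g) := by
    intro g
    induction g using Polynomial.induction_on' with
    | add p q hp hq => simp [hp, hq]
    | monomial n a => simp [po, aeval_monomial, hc, hx]
  refine AdjoinRoot.ringHom_ext (RingHom.ext fun r => ?_) hy
  change e₁ (c.of r) = e₂ (c.of r)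
  rw [← RatFunc.num_div_denom r, map_div₀, map_div₀, map_div₀, c.of_algebraMap, c.of_algebraMap,
    hp, hp]

theorem sg_aux (k : ℕ) : (algebraMap E c.L (c.ζ ^ k) * c.y) ^ c.l =
    c.of.toRingHom (algebraMap E[X] (RatFunc E) c.f) := by
  rw [mul_pow, ← map_pow, ← pow_mul, mul_comm k, pow_mul, c.ζ_pow, one_pow, map_one, one_mul,
    c.y_pow]
  exact (c.of_algebraMap _).symm

/-- The automorphism `y ↦ ζ ^ k y`. -/
def sg (k : ℕ) : c.L →ₐ[E] c.L :=
  { c.lift c.of.toRingHom (algebraMap E c.L (c.ζ ^ k) * c.y) (c.sg_aux k) with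
    commutes' := fun a => by
      have := c.of.commutes a
      rw [← this]
      exact c.lift_of _ _ _ _ }

@[simp] theorem sg_of (k : ℕ) (r : RatFunc E) : c.sg k (c.of r) = c.of r :=
  c.lift_of _ _ (c.sg_aux k) r
@[simp] theorem sg_x (k : ℕ) : c.sg k c.x = c.x := c.sg_of k _
@[simp] theorem sg_y (k : ℕ) : c.sg k c.y = (c.ζ ^ k) • c.y := by
  rw [Algebra.smul_def]; exact c.lift_y _ _ (c.sg_aux k)
@[simp] theorem sg_po (k : ℕ) (g : E[X]) : c.sg k (c.po g) = c.po g := by
  rw [← c.of_algebraMap, sg_of]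

/-- The norm `∏ σ ^ k φ`. -/
def nrm (φ : c.L) : c.L := ∏ k ∈ range c.l, c.sg k φ

/-- Rational coordinates in the basis `y ^ j`. -/
def rc (φ : c.L) (j : ℕ) : RatFunc E := (AdjoinRoot.modByMonicHom c.P_monic φ).coeff j

/-- Polynomial coordinates (meaningful for `φ ∈ S N`). -/
def pc (φ : c.L) (j : ℕ) : E[X] := (c.rc φ j).num

/-- `∑ g_j(x) y ^ j`. -/
def mkp (g : ℕ → E[X]) : c.L := ∑ j ∈ range c.l, c.po (g j) * c.y ^ j

/-- Functions with poles only at infinity, of order at most `N`. -/
def S (N : ℕ) : Submodule E c.L :=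
  Submodule.span E {φ | ∃ a j : ℕ, j < c.l ∧ a + j * c.m ≤ N ∧ φ = c.x ^ a * c.y ^ j}

/-- Number of coordinates used for `S N`. -/
def dimN (N : ℕ) : ℕ := c.l * (N + 1)

/-- The monomials of `S N` (and zeros), `k < dimN N`. -/
def mono (N k : ℕ) : c.L :=
  if k / c.l + (k % c.l) * c.m ≤ N then c.x ^ (k / c.l) * c.y ^ (k % c.l) else 0

/-- Scalar coordinates. -/
def cv (φ : c.L) (k : ℕ) : E := (c.pc φ (k % c.l)).coeff (k / c.l)

/-- Value at the ramification point above the root `a` of `f`. -/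
def ev0 (φ : c.L) (a : E) : E := (c.pc φ 0).eval a

/-- Value at the point at infinity `y / x ^ m = ζ ^ t` of `φ / x ^ N`. -/
def topv (N t : ℕ) (φ : c.L) : E :=
  ∑ j ∈ range c.l, if j * c.m ≤ N then (c.pc φ j).coeff (N - j * c.m) * c.ζ ^ (t * j) else 0

/-- The set of roots of `f`. -/
def rts : Finset E := c.f.roots.toFinset

def B0 : ℕ := (c.l - 1) * c.m
def gg : ℕ := ∑ j ∈ range c.l, j * c.m

/-- A field automorphism fixing all the data (a power of Frobenius). -/
structure Sym where
  θ : E ≃+* E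
  hf : c.f.map (θ : E →+* E) = c.f
  hζ : θ c.ζ = c.ζ
  hr : ∀ a, c.f.eval a = 0 → θ a = a

variable {c}

/-- Action on rational functions. -/
def Sym.rf (T : c.Sym) : RatFunc E →+* RatFunc E :=
  RatFunc.mapRingHom (Polynomial.mapRingHom (T.θ : E →+* E))
    (nonZeroDivisors_le_comap_nonZeroDivisors_of_injective _
      (Polynomial.map_injective _ T.θ.injective))

theorem Sym.rf_algebraMap (T : c.Sym) (g : E[X]) :
    T.rf (algebraMap E[X] (RatFunc E) g) = algebraMap E[X] (RatFunc E) (g.map (T.θ : E →+* E)) := by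
  have := RatFunc.map_apply_div (Polynomial.mapRingHom (T.θ : E →+* E))
    (nonZeroDivisors_le_comap_nonZeroDivisors_of_injective _
      (Polynomial.map_injective _ T.θ.injective)) g 1
  simp only [map_one, div_one, coe_mapRingHom] at this
  exact this

/-- Action on the function field (semilinear, fixes `x` and `y`). -/
def Sym.aut (T : c.Sym) : c.L →+* c.L :=
  c.lift (c.of.toRingHom.comp T.rf) c.y (by
    rw [RingHom.comp_apply, T.rf_algebraMap, T.hf, c.y_pow]
    exact (c.of_algebraMap _).symm)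

theorem Sym.aut_po (T : c.Sym) (g : E[X]) : T.aut (c.po g) = c.po (g.map (T.θ : E →+* E)) := by
  rw [← c.of_algebraMap, ← c.of_algebraMap, ← T.rf_algebraMap]
  exact c.lift_of _ _ _ _

@[simp] theorem Sym.aut_y (T : c.Sym) : T.aut c.y = c.y := c.lift_y _ _ _

@[simp] theorem Sym.aut_x (T : c.Sym) : T.aut c.x = c.x := by
  simpa [po] using T.aut_po X

@[simp] theorem Sym.aut_algebraMap (T : c.Sym) (a : E) :
    T.aut (algebraMap E c.L a) = algebraMap E c.L (T.θ a) := by
  simpa [po] using T.aut_po (C a)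

/-- Powers. -/
def Sym.pow (T : c.Sym) (k : ℕ) : c.Sym where
  θ := (T.θ ^ k : RingAut E)
  hf := by
    induction k with
    | zero => ext; simp
    | succ k ih =>
      have : (((T.θ ^ (k + 1) : RingAut E) : E ≃+* E) : E →+* E) =
          (((T.θ ^ k : RingAut E) : E ≃+* E) : E →+* E).comp (T.θ : E →+* E) := by
        ext a; simp [pow_succ]
      rw [this, ← Polynomial.map_map, T.hf, ih]
  hζ := by
    induction k with
    | zero => simp
    | succ k ih => simp [pow_succ, T.hζ, ih]
  hr := fun a ha => by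
    induction k with
    | zero => simp
    | succ k ih => simp [pow_succ, T.hr a ha, ih]

end Crv
end Crest.Agent.R312
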