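import Crest.Agent.R312.AlgEquiv

/-!
# Row 312, algorithm half: divisors, product formula, Riemann–Roch spaces
DO NOT change the definitions.
-/

set_option autoImplicit false
open Polynomial Finset
open scoped Classical

noncomputable section
namespace Crest.Agent.R312
namespace Crv
variable {E : Type} [Field E] (c : Crv E)

/-- Divisors. -/
abbrev Div : Type := c.Place →₀ ℤ

/-- Degree. -/
def dg : c.Div →ₗ[ℤ] ℤ := Finsupp.linearCombination ℤ fun _ => (1 : ℤ)

/-- The divisor of a point. -/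
def pt (P : c.Place) : c.Div := Finsupp.single P 1

/-- The fibre at infinity. -/
def Dinf : c.Div := ∑ t ∈ range c.l, c.pt (c.inf t)

/-- Action of `σ ^ k` on divisors. -/
def sD (k : ℕ) : c.Div →ₗ[ℤ] c.Div := Finsupp.lcomapDomain (c.sP k) (c.sP_injective k)

/-- Partial norms `D + σ D + ⋯ + σ ^ (j - 1) D`. -/
def nD (j : ℕ) (D : c.Div) : c.Div := ∑ k ∈ range j, c.sD k D

/-- Action of Frobenius on divisors. -/
def Sym.dv {c : Crv E} (T : c.Sym) : c.Div →ₗ[ℤ] c.Div := Finsupp.lcomapDomain T.pl T.pl_injective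

variable [IsAlgClosed E]

theorem d2_finite_fib (o : Option E) : {P : c.Place | P.1.1 = o}.Finite := by
  obtain ⟨P, hP⟩ := exists_place (c := c) o
  refine ((range c.l).finite_toSet.image fun k => c.sP k P).subset fun Q hQ => ?_
  obtain ⟨k, hk, rfl⟩ := exists_sP (P := P) (Q := Q) (hP.trans hQ.symm)
  exact ⟨k, by simpa using hk, rfl⟩

theorem d2_finite_po {g : E[X]} (hg : g ≠ 0) :
    (Function.support fun P => c.ord P (c.po g)).Finite := by
  refine ((d2_finite_fib c none).union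
    (g.roots.toFinset.finite_toSet.biUnion fun a _ => d2_finite_fib c (some a))).subset
    fun P hP => ?_
  rcases h : P.1.1 with _ | α
  · exact Or.inl h
  · refine Or.inr (Set.mem_biUnion (x := α) ?_ h)
    by_contra hc
    apply hP
    have hr : ¬ g.IsRoot α := by simpa [hg] using hc
    show c.ord P (c.po g) = 0
    rw [ord_po_fin h hg, rootMultiplicity_eq_zero hr]
    simp

theorem d2_ord_prod {ι : Type} (P : c.Place) (s : Finset ι) {φ : ι → c.L}
    (h : ∀ i ∈ s, φ i ≠ 0) : c.ord P (∏ i ∈ s, φ i) = ∑ i ∈ s, c.ord P (φ i) := by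
  induction s using Finset.induction_on with
  | empty => simpa using ord_algebraMap P (1 : E)
  | insert a s ha ih =>
    rw [prod_insert ha, sum_insert ha, ord_mul P (h a (mem_insert_self _ _))
      (prod_ne_zero_iff.2 fun i hi => h i (mem_insert_of_mem hi)),
      ih fun i hi => h i (mem_insert_of_mem hi)]

theorem d2_finite_S {N : ℕ} {ψ : c.L} (hN : ψ ∈ c.S N) (h0 : ψ ≠ 0) :
    (Function.support fun P => c.ord P ψ).Finite := by
  obtain ⟨g, h, hh, e⟩ := exists_of_fixed (sg_nrm ψ)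
  have hg : g ≠ 0 := by
    rintro rfl
    exact nrm_ne h0 (by rw [e]; simp)
  refine (((d2_finite_fib c none).union (d2_finite_po c hg)).union
    (d2_finite_po c hh)).subset fun P hP => ?_
  by_contra hc
  simp only [Set.mem_union, Function.mem_support, not_or, not_not, Set.mem_ofPred_eq] at hc
  obtain ⟨α, hα⟩ := Option.ne_none_iff_exists'.1 hc.1.1
  have h1 : c.ord P (c.nrm ψ) = 0 := by
    rw [e, div_eq_mul_inv, ord_mul P (po_ne hg) (inv_ne_zero (po_ne hh)), ord_inv, hc.1.2, hc.2]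
    simp
  rw [nrm, d2_ord_prod c P _ fun k _ => sg_ne h0 k] at h1
  have h2 := (sum_eq_zero_iff_of_nonneg fun k _ =>
    (ge_iff (sg_ne h0 k)).1 (ge_S_fin hα (sg_mem_S hN k))).1 h1 0 (mem_range.2 c.l_pos)
  rw [sg_zero] at h2
  exact hP h2

/-- `φ = ψ / h(x)` with `ψ ∈ S N`; the norm of `ψ` is `g(x) / g'(x)`, all conjugates of `ψ` have
order `≥ 0` at finite places, so `ord P ψ ≠ 0` forces `ord P (nrm ψ) ≠ 0`; fibres are finite. -/
theorem finite_ord (φ : c.L) : (Function.support fun P => c.ord P φ).Finite := by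
  by_cases h0 : φ = 0
  · subst h0
    simp
  obtain ⟨h, hh, N, hN⟩ := exists_frac φ
  have hne : c.po h * φ ≠ 0 := mul_ne_zero (po_ne hh) h0
  refine ((d2_finite_S c hN hne).union (d2_finite_po c hh)).subset fun P hP => ?_
  by_contra hc
  simp only [Set.mem_union, Function.mem_support, not_or, not_not] at hc
  have := ord_mul P (po_ne (c := c) hh) h0
  rw [hc.1, hc.2] at this
  exact hP (by linarith)

/-- Principal divisor (`0` for `φ = 0`). -/
def div (φ : c.L) : c.Div := Finsupp.ofSupportFinite (fun P => c.ord P φ) (c.finite_ord φ)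

/-- Riemann–Roch space `{φ | div φ + D ≥ 0}`. -/
def LL (D : c.Div) : Submodule E c.L where
  carrier := {φ | ∀ P, c.Ge P (-D P) φ}
  add_mem' h h' P := (h P).add (h' P)
  zero_mem' P := Ge.zero P _
  smul_mem' a _ h P := (h P).smul a

variable {c}

@[simp] theorem div_apply (φ : c.L) (P : c.Place) : c.div φ P = c.ord P φ := rfl

theorem mem_LL {D : c.Div} {φ : c.L} : φ ∈ c.LL D ↔ ∀ P, c.Ge P (-D P) φ := Iff.rfl

omit [IsAlgClosed E] in
@[simp] theorem sD_apply (k : ℕ) (D : c.Div) (P : c.Place) : c.sD k D P = D (c.sP k P) := rfl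

omit [IsAlgClosed E] in
@[simp] theorem Sym.dv_apply (T : c.Sym) (D : c.Div) (P : c.Place) : T.dv D P = D (T.pl P) := rfl

section elementary
omit [IsAlgClosed E]

theorem pt_apply (P Q : c.Place) : c.pt P Q = if P = Q then 1 else 0 := by
  rw [pt, Finsupp.single_apply]

theorem pt_nonneg (P : c.Place) : 0 ≤ c.pt P := by
  intro Q
  rw [pt_apply]
  split_ifs <;> simp

@[simp] theorem dg_pt (P : c.Place) : c.dg (c.pt P) = 1 := by
  simp [dg, pt]

theorem dg_nonneg {D : c.Div} (h : 0 ≤ D) : 0 ≤ c.dg D := by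
  rw [dg, Finsupp.linearCombination_apply, Finsupp.sum]
  exact Finset.sum_nonneg fun P _ => by simpa using h P

theorem dg_mono {D D' : c.Div} (h : D ≤ D') : c.dg D ≤ c.dg D' := by
  have := dg_nonneg (sub_nonneg.2 h)
  rw [map_sub] at this
  exact sub_nonneg.1 this

theorem eq_zero_of_dg {D : c.Div} (h : 0 ≤ D) (h0 : c.dg D = 0) : D = 0 := by
  rw [dg, Finsupp.linearCombination_apply, Finsupp.sum,
    Finset.sum_eq_zero_iff_of_nonneg fun P _ => by simpa using h P] at h0
  ext P
  by_contra hP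
  exact hP (by simpa using h0 P (Finsupp.mem_support_iff.2 hP))

/-- Induction on effective divisors. -/
theorem eff_induction {p : c.Div → Prop} (h0 : p 0)
    (h1 : ∀ D P, 0 ≤ D → p D → p (D + c.pt P)) {D : c.Div} (hD : 0 ≤ D) : p D := by
  obtain ⟨n, hn⟩ := Int.eq_ofNat_of_zero_le (dg_nonneg hD)
  induction n generalizing D with
  | zero => rw [eq_zero_of_dg hD hn]; exact h0
  | succ n ih =>
    have hne : D ≠ 0 := by
      rintro rfl
      rw [map_zero] at hn
      omega
    obtain ⟨P, hP⟩ := Finsupp.ne_iff.1 hne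
    have h2 : 0 ≤ D - c.pt P := by
      intro Q
      have h3 : (0 : ℤ) ≤ D Q := hD Q
      have h4 : D P ≠ 0 := hP
      simp only [Finsupp.coe_zero, Pi.zero_apply, Finsupp.coe_sub, Pi.sub_apply, pt_apply]
      split_ifs with h
      · subst h; omega
      · omega
    have h5 := h1 _ P h2 (ih h2 (by rw [map_sub, dg_pt, hn]; push_cast; ring))
    rwa [sub_add_cancel] at h5

theorem Dinf_apply (P : c.Place) : c.Dinf P = if P.1.1 = none then 1 else 0 := by
  rw [Dinf, Finsupp.finsetSum_apply]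
  split_ifs with h
  · obtain ⟨t, ht, rfl⟩ := exists_inf h
    rw [Finset.sum_eq_single t]
    · rw [pt_apply, if_pos rfl]
    · intro s hs hst
      rw [pt_apply, if_neg fun e => hst (inf_inj (mem_range.1 hs) ht e)]
    · intro h'; exact absurd (mem_range.2 ht) h'
  · refine Finset.sum_eq_zero fun t _ => ?_
    rw [pt_apply, if_neg]
    rintro rfl
    exact h rfl

theorem Dinf_nonneg : 0 ≤ c.Dinf := by
  exact Finset.sum_nonneg fun t _ => pt_nonneg _

@[simp] theorem dg_Dinf : c.dg c.Dinf = c.l := by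
  simp [Dinf, map_sum]

@[simp] theorem sD_zero (D : c.Div) : c.sD 0 D = D := by
  ext P; rw [sD_apply, sP_zero]

theorem sD_sD (a b : ℕ) (D : c.Div) : c.sD a (c.sD b D) = c.sD (a + b) D := by
  ext P; rw [sD_apply, sD_apply, sD_apply, sP_sP, add_comm]

@[simp] theorem sD_l (D : c.Div) : c.sD c.l D = D := by
  ext P; rw [sD_apply, sP_l]

@[simp] theorem sD_Dinf (k : ℕ) : c.sD k c.Dinf = c.Dinf := by
  ext P; rw [sD_apply, Dinf_apply, Dinf_apply, sP_fst]

theorem elem_sD_pt (k : ℕ) (P : c.Place) : c.sD k (c.pt (c.sP k P)) = c.pt P := by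
  ext Q
  rw [sD_apply, pt_apply, pt_apply]
  simp only [(c.sP_injective k).eq_iff]

theorem elem_sP_mul (k : ℕ) (P : c.Place) : c.sP (k * c.l) P = P := by
  induction k with
  | zero => rw [zero_mul, sP_zero]
  | succ k ih => rw [add_mul, one_mul, ← sP_sP, sP_l, ih]

theorem elem_sP_surj (k : ℕ) (P : c.Place) : ∃ Q, c.sP k Q = P := by
  refine ⟨c.sP (k * (c.l - 1)) P, ?_⟩
  obtain ⟨n, hn⟩ := Nat.exists_eq_succ_of_ne_zero c.l_pos.ne'
  rw [sP_sP, show k + k * (c.l - 1) = k * c.l by rw [hn, Nat.succ_sub_one, Nat.mul_succ, add_comm],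
    elem_sP_mul]

@[simp] theorem sD_ram (k : ℕ) (a : E) (h : c.f.eval a = 0) :
    c.sD k (c.pt (c.ram a h)) = c.pt (c.ram a h) := by
  conv_lhs => rw [← sP_ram k a h]
  exact elem_sD_pt k _

@[simp] theorem dg_sD (k : ℕ) (D : c.Div) : c.dg (c.sD k D) = c.dg D := by
  induction D using Finsupp.induction_linear with
  | zero => simp
  | add D D' h h' => rw [map_add, map_add, map_add, h, h']
  | single P n =>
    obtain ⟨Q, rfl⟩ := elem_sP_surj k P
    have e : Finsupp.single (c.sP k Q) n = n • c.pt (c.sP k Q) := by simp [pt]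
    rw [e, map_smul, map_smul, map_smul, elem_sD_pt, dg_pt, dg_pt]

theorem sD_nonneg {D : c.Div} (h : 0 ≤ D) (k : ℕ) : 0 ≤ c.sD k D := by
  exact fun P => h _

theorem dg_nD (j : ℕ) (D : c.Div) : c.dg (c.nD j D) = j * c.dg D := by
  simp [nD, map_sum]

theorem nD_nonneg {D : c.Div} (h : 0 ≤ D) (j : ℕ) : 0 ≤ c.nD j D := by
  exact Finset.sum_nonneg fun k _ => sD_nonneg h k

theorem nD_add_index (i j : ℕ) (D : c.Div) : c.nD (i + j) D = c.nD i D + c.sD i (c.nD j D) := by
  simp only [nD, Finset.sum_range_add, map_sum, sD_sD]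

theorem sD_nD_l (D : c.Div) : c.sD 1 (c.nD c.l D) = c.nD c.l D := by
  have h1 := nD_add_index 1 c.l D
  have h2 := nD_add_index c.l 1 D
  rw [add_comm, h2, sD_l, add_comm] at h1
  exact (add_left_cancel h1).symm

theorem nD_add (j : ℕ) (D D' : c.Div) : c.nD j (D + D') = c.nD j D + c.nD j D' := by
  simp only [nD, map_add, Finset.sum_add_distrib]

theorem nD_sub (j : ℕ) (D D' : c.Div) : c.nD j (D - D') = c.nD j D - c.nD j D' := by
  simp only [nD, map_sub, Finset.sum_sub_distrib]

theorem nD_Dinf (j : ℕ) (n : ℤ) : c.nD j (n • c.Dinf) = ((j : ℤ) * n) • c.Dinf := by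
  simp only [nD, map_smul, sD_Dinf, Finset.sum_const, Finset.card_range]
  rw [mul_smul, natCast_zsmul]

theorem nD_Dinf_pt (t : ℕ) : c.nD c.l (c.pt (c.inf t)) = c.Dinf := by
  ext P
  rw [nD, Finsupp.finsetSum_apply, Dinf_apply]
  simp only [sD_apply, pt_apply]
  split_ifs with h
  · obtain ⟨k, hk, e⟩ := exists_sP (P := P) (Q := c.inf t) h
    have hP : P.1.2 ≠ 0 := by
      obtain ⟨s, -, rfl⟩ := exists_inf h
      exact pow_ne_zero s c.ζ_ne
    rw [Finset.sum_eq_single k]
    · rw [if_pos e]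
    · intro j hj hjk
      exact if_neg fun e' => hjk (sP_inj_of_ne hP (mem_range.1 hj) hk (e'.symm.trans e))
    · intro h'; exact absurd (mem_range.2 hk) h'
  · refine Finset.sum_eq_zero fun k _ => if_neg fun e => h ?_
    rw [← sP_fst k P, ← e]
    rfl

@[simp] theorem Sym.dv_Dinf (T : c.Sym) : T.dv c.Dinf = c.Dinf := by
  ext P
  rw [Sym.dv_apply, Dinf_apply, Dinf_apply]
  simp only [Sym.pl, Option.map_eq_none_iff]

theorem elem_dv_pt (T : c.Sym) (P : c.Place) : T.dv (c.pt (T.pl P)) = c.pt P := by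
  ext Q
  rw [Sym.dv_apply, pt_apply, pt_apply]
  simp only [T.pl_injective.eq_iff]

@[simp] theorem Sym.dv_inf (T : c.Sym) (t : ℕ) : T.dv (c.pt (c.inf t)) = c.pt (c.inf t) := by
  conv_lhs => rw [← T.pl_inf t]
  exact elem_dv_pt T _

@[simp] theorem Sym.dv_ram (T : c.Sym) (a : E) (h : c.f.eval a = 0) :
    T.dv (c.pt (c.ram a h)) = c.pt (c.ram a h) := by
  conv_lhs => rw [← T.pl_ram a h]
  exact elem_dv_pt T _

theorem Sym.dv_sD (T : c.Sym) (k : ℕ) (D : c.Div) : T.dv (c.sD k D) = c.sD k (T.dv D) := by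
  ext P; rw [Sym.dv_apply, sD_apply, sD_apply, Sym.dv_apply, T.pl_sP]

theorem Sym.dv_pow (T : c.Sym) (k : ℕ) : (T.pow k).dv = T.dv ^ k := by
  have h : ∀ (D : c.Div) (P : c.Place), (T.dv ^ k) D P = D (T.pl^[k] P) := by
    induction k with
    | zero => intro D P; rfl
    | succ k ih =>
      intro D P
      rw [pow_succ', Module.End.mul_apply, Sym.dv_apply, ih, Function.iterate_succ_apply]
  refine LinearMap.ext fun D => Finsupp.ext fun P => ?_
  rw [Sym.dv_apply, T.pl_pow, h]

/-- Hilbert 90 for divisors: the infimum of the partial norms. -/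
theorem inf_nD {D F : c.Div} (h : c.nD c.l D = 0) (hF : ∀ j < c.l, F ≤ c.nD j D)
    (hF' : ∀ P, ∃ j < c.l, F P = c.nD j D P) : F - c.sD 1 F = D := by
  have e1 : c.nD 1 D = D := by simp [nD]
  have e0 : c.nD 0 D = 0 := by simp [nD]
  have key : ∀ (j : ℕ) (P : c.Place), c.nD (j + 1) D P = D P + c.nD j D (c.sP 1 P) := fun j P => by
    rw [add_comm j, nD_add_index, e1]; rfl
  have hF2 : ∀ j ≤ c.l, F ≤ c.nD j D := fun j hj => by
    rcases hj.lt_or_eq with hj | rfl
    · exact hF j hj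
    · rw [h, ← e0]; exact hF 0 c.l_pos
  ext P
  rw [Finsupp.sub_apply, sD_apply]
  apply le_antisymm
  · obtain ⟨j, hj, e⟩ := hF' (c.sP 1 P)
    have h1 : F P ≤ c.nD (j + 1) D P := hF2 (j + 1) hj P
    rw [key] at h1
    omega
  · obtain ⟨j, hj, e⟩ := hF' P
    have h2 : ∃ i < c.l, c.nD j D = c.nD (i + 1) D := by
      rcases j with _ | i
      · obtain ⟨n, hn⟩ := Nat.exists_eq_succ_of_ne_zero c.l_pos.ne'
        refine ⟨n, by omega, ?_⟩
        rw [e0, ← h, hn]
      · exact ⟨i, by omega, rfl⟩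
    obtain ⟨i, hi, e'⟩ := h2
    have h1 : F (c.sP 1 P) ≤ c.nD i D (c.sP 1 P) := hF i hi _
    rw [e', key] at e
    omega

theorem exists_inf_nD (D : ℕ → c.Div) {n : ℕ} (hn : 0 < n) :
    ∃ F : c.Div, (∀ j < n, F ≤ D j) ∧ ∀ P, ∃ j < n, F P = D j P := by
  obtain ⟨n, rfl⟩ := Nat.exists_eq_succ_of_ne_zero hn.ne'
  clear hn
  induction n with
  | zero => exact ⟨D 0, fun j hj => by rw [Nat.lt_one_iff.1 hj], fun P => ⟨0, Nat.one_pos, rfl⟩⟩
  | succ n ih =>
    obtain ⟨F, h1, h2⟩ := ih
    refine ⟨F ⊓ D (n + 1), fun j hj => ?_, fun P => ?_⟩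
    · rcases (Nat.lt_succ_iff.1 hj).lt_or_eq with hj | rfl
      · exact inf_le_left.trans (h1 j hj)
      · exact inf_le_right
    · rw [Finsupp.inf_apply]
      rcases le_total (F P) (D (n + 1) P) with h | h
      · obtain ⟨j, hj, e⟩ := h2 P
        exact ⟨j, Nat.lt_succ_of_lt hj, by rw [inf_of_le_left h, e]⟩
      · exact ⟨n + 1, Nat.lt_succ_self _, inf_of_le_right h⟩

end elementary

theorem div_mul {φ ψ : c.L} (h : φ ≠ 0) (h' : ψ ≠ 0) : c.div (φ * ψ) = c.div φ + c.div ψ := by
  ext P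
  simp [ord_mul P h h']

theorem div_inv (φ : c.L) : c.div φ⁻¹ = -c.div φ := by
  ext P
  simp [ord_inv]

theorem div_div {φ ψ : c.L} (h : φ ≠ 0) (h' : ψ ≠ 0) : c.div (φ / ψ) = c.div φ - c.div ψ := by
  rw [div_eq_mul_inv, div_mul h (inv_ne_zero h'), div_inv, sub_eq_add_neg]

theorem div_pow (φ : c.L) (k : ℕ) : c.div (φ ^ k) = (k : ℤ) • c.div φ := by
  ext P
  simp [ord_pow]

theorem div_prod {ι : Type} (s : Finset ι) {φ : ι → c.L} (h : ∀ i ∈ s, φ i ≠ 0) :
    c.div (∏ i ∈ s, φ i) = ∑ i ∈ s, c.div (φ i) := by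
  ext P
  rw [div_apply, d2_ord_prod c P s h, Finsupp.finsetSum_apply]
  rfl

@[simp] theorem div_zero : c.div 0 = 0 := by
  ext P
  simp

@[simp] theorem div_one : c.div 1 = 0 := by
  ext P
  simpa using ord_algebraMap P (1 : E)

@[simp] theorem div_algebraMap (a : E) : c.div (algebraMap E c.L a) = 0 := by
  ext P
  simpa using ord_algebraMap P a

theorem div_smul {a : E} (ha : a ≠ 0) (φ : c.L) : c.div (a • φ) = c.div φ := by
  ext P
  simp [ord_smul P ha]

@[simp] theorem div_neg (φ : c.L) : c.div (-φ) = c.div φ := by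
  rw [← neg_one_smul E φ, div_smul (neg_ne_zero.2 one_ne_zero)]

theorem div_sg (k : ℕ) (φ : c.L) : c.div (c.sg k φ) = c.sD k (c.div φ) := by
  ext P
  simp [ord_sg]

theorem div_prod_sg (j : ℕ) {φ : c.L} (h : φ ≠ 0) :
    c.div (∏ k ∈ range j, c.sg k φ) = c.nD j (c.div φ) := by
  rw [div_prod _ fun k _ => sg_ne h k, nD]
  exact sum_congr rfl fun k _ => div_sg k φ

theorem div_nrm {φ : c.L} (h : φ ≠ 0) : c.div (c.nrm φ) = c.nD c.l (c.div φ) := div_prod_sg _ h

theorem Sym.div_aut (T : c.Sym) (φ : c.L) : c.div (T.aut φ) = T.dv (c.div φ) := by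
  ext P
  simp [Sym.ord_aut]

theorem div_y : c.div c.y =
    (∑ a ∈ c.rts.attach, c.pt (c.ram a.1 (mem_rts.1 a.2))) - (c.m : ℤ) • c.Dinf := by
  ext P
  rw [div_apply, ord_y, Finsupp.sub_apply, Finsupp.finsetSum_apply, Finsupp.smul_apply,
    Dinf_apply, yo]
  rcases h : P.1.1 with _ | α
  · rw [sum_eq_zero]
    · simp
    · intro a _
      rw [pt_apply, if_neg]
      rintro rfl
      simp [ram] at h
  · by_cases hα : c.f.eval α = 0
    · rw [sum_eq_single ⟨α, mem_rts.2 hα⟩]
      · rw [pt_apply, if_pos (eq_ram h hα).symm]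
        simp [hα]
      · intro a _ ha
        rw [pt_apply, if_neg]
        rintro rfl
        apply ha
        simp only [ram, Option.some.injEq] at h
        exact Subtype.ext h
      · intro hc
        exact absurd (mem_attach _ _) hc
    · rw [sum_eq_zero]
      · simp [hα]
      · intro a _
        rw [pt_apply, if_neg]
        rintro rfl
        simp only [ram, Option.some.injEq] at h
        exact hα (h ▸ mem_rts.1 a.2)

theorem d2_dg_x_sub (α : E) : c.dg (c.div (c.x - algebraMap E c.L α)) = 0 := by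
  by_cases hα : c.f.eval α = 0
  · have : c.div (c.x - algebraMap E c.L α) = (c.l : ℤ) • c.pt (c.ram α hα) - c.Dinf := by
      ext P
      rw [div_apply, ord_x_sub, Finsupp.sub_apply, Finsupp.smul_apply, Dinf_apply, pt_apply]
      by_cases h1 : P.1.1 = none
      · rw [if_pos h1, if_pos h1, if_neg]
        · simp
        · rintro rfl
          simp [ram] at h1
      · rw [if_neg h1, if_neg h1]
        by_cases h2 : P.1.1 = some α
        · rw [if_pos h2, if_pos hα, if_pos (eq_ram h2 hα).symm]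
          simp
        · rw [if_neg h2, if_neg]
          · simp
          · rintro rfl
            exact h2 rfl
    rw [this, map_sub, map_smul, dg_pt, dg_Dinf]
    simp
  · obtain ⟨Q, hQ⟩ := exists_place (c := c) (some α)
    have hQ2 : Q.1.2 ≠ 0 := by
      intro h
      have := Q.2
      rw [h, hQ, zero_pow c.l_pos.ne'] at this
      exact hα this.symm
    have : c.div (c.x - algebraMap E c.L α) =
        (∑ k ∈ range c.l, c.pt (c.sP k Q)) - c.Dinf := by
      ext P
      rw [div_apply, ord_x_sub, Finsupp.sub_apply, Finsupp.finsetSum_apply, Dinf_apply]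
      by_cases h2 : P.1.1 = some α
      · have h1 : P.1.1 ≠ none := by rw [h2]; simp
        obtain ⟨k, hk, rfl⟩ := exists_sP (P := Q) (Q := P) (hQ.trans h2.symm)
        rw [if_neg h1, if_neg h1, if_pos h2, if_neg hα, sum_eq_single k]
        · rw [pt_apply, if_pos rfl]
          simp
        · intro j hj hjk
          rw [pt_apply, if_neg]
          intro e
          exact hjk (sP_inj_of_ne hQ2 (mem_range.1 hj) hk e)
        · intro hc
          exact absurd (mem_range.2 hk) hc
      · rw [if_neg h2, sum_eq_zero]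
        · split_ifs <;> simp
        · intro j _
          rw [pt_apply, if_neg]
          rintro rfl
          exact h2 (by rw [sP_fst, hQ])
    rw [this, map_sub, map_sum, dg_Dinf]
    simp

theorem d2_dg_po {g : E[X]} (hg : g ≠ 0) : c.dg (c.div (c.po g)) = 0 := by
  have key : ∀ s : Multiset E, c.dg (c.div (c.po (s.map fun a => X - C a).prod)) = 0 := by
    intro s
    induction s using Multiset.induction_on with
    | empty => simp
    | cons a s ih =>
      rw [Multiset.map_cons, Multiset.prod_cons, map_mul,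
        div_mul (po_ne (X_sub_C_ne_zero a)) (po_ne (monic_multiset_prod_of_monic _ _
          fun a _ => monic_X_sub_C a).ne_zero), map_add, ih, map_sub, po_X, po_C, d2_dg_x_sub,
        add_zero]
  have e := (IsAlgClosed.splits g).eq_prod_roots
  rw [e, map_mul, po_C, ← Algebra.smul_def, div_smul (leadingCoeff_ne_zero.2 hg), key]

/-- Product formula: for `x - α` count the fibre; polynomials split; `l * dg (div φ) = dg (div (nrm φ))`
and `nrm φ` is a rational function of `x`. -/
@[simp] theorem dg_div (φ : c.L) : c.dg (c.div φ) = 0 := by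
  by_cases h0 : φ = 0
  · subst h0
    simp
  obtain ⟨g, h, hh, e⟩ := exists_of_fixed (sg_nrm φ)
  have hg : g ≠ 0 := by
    rintro rfl
    exact nrm_ne h0 (by rw [e]; simp)
  have h1 : c.dg (c.div (c.nrm φ)) = 0 := by
    rw [e, div_div (po_ne hg) (po_ne hh), map_sub, d2_dg_po hg, d2_dg_po hh, sub_zero]
  rw [div_nrm h0, dg_nD] at h1
  exact (mul_eq_zero.1 h1).resolve_left (by exact_mod_cast c.l_pos.ne')

theorem mem_LL_iff {D : c.Div} {φ : c.L} (h : φ ≠ 0) : φ ∈ c.LL D ↔ 0 ≤ c.div φ + D := by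
  rw [mem_LL, Finsupp.le_def]
  refine forall_congr' fun P => ?_
  rw [ge_iff h, Finsupp.add_apply, div_apply, Finsupp.zero_apply]
  constructor <;> intro <;> linarith

theorem LL_mono {D D' : c.Div} (h : D ≤ D') : c.LL D ≤ c.LL D' := by
  intro φ hφ P
  exact (hφ P).mono (neg_le_neg (h P))

theorem mul_mem_LL {D D' : c.Div} {φ ψ : c.L} (h : φ ∈ c.LL D) (h' : ψ ∈ c.LL D') :
    φ * ψ ∈ c.LL (D + D') := by
  intro P
  have := (h P).mul (h' P)
  rwa [← neg_add] at this

theorem mul_mem_LL_iff {D : c.Div} {φ s : c.L} (hs : s ≠ 0) :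
    φ * s ∈ c.LL D ↔ φ ∈ c.LL (D + c.div s) := by
  by_cases h0 : φ = 0
  · subst h0
    simp
  rw [mem_LL_iff (mul_ne_zero h0 hs), mem_LL_iff h0, div_mul h0 hs, add_assoc,
    add_comm (c.div s) D]

theorem self_mem_LL (φ : c.L) : φ ∈ c.LL (-c.div φ) := by
  intro P
  simpa using ge_ord P φ

theorem sg_mem_LL {D : c.Div} {φ : c.L} (h : φ ∈ c.LL D) (k : ℕ) : c.sg k φ ∈ c.LL (c.sD k D) := by
  intro P
  exact ge_sg.2 (h _)

theorem eq_zero_of_dg_neg {D : c.Div} {φ : c.L} (h : φ ∈ c.LL D) (hD : c.dg D < 0) : φ = 0 := by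
  by_contra h0
  have := dg_nonneg ((mem_LL_iff h0).1 h)
  rw [map_add, dg_div] at this
  linarith

end Crv
end Crest.Agent.R312
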