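import Crest.Agent.R312.AlgZD

/-!
# Row 312, algorithm half: the norm equation from a zero divisor
-/

set_option autoImplicit false
open Finset Polynomial
open scoped Classical

noncomputable section
namespace Crest.Agent.R312
namespace Crv
variable {E : Type} [Field E] {c : Crv E} [IsAlgClosed E]

omit [IsAlgClosed E] in
/-- Vectors with entries in `S M` inside an `L`-subspace of dimension `r` (induction on `r`:
project to a coordinate where the subspace is not zero). -/
theorem finrank_le_of_le {n : ℕ} (M : ℕ) (r : ℕ) (V : Submodule c.L (Fin n → c.L))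
    (hV : Module.finrank c.L V ≤ r) (U : Submodule E (Fin n → c.L))
    (hU : ∀ v ∈ U, v ∈ V ∧ ∀ k, v k ∈ c.S M) :
    Module.finrank E U ≤ r * Module.finrank E (c.S M) := by
  induction r generalizing V U with
  | zero =>
    have h1 : V = ⊥ := Submodule.finrank_eq_zero.1 (Nat.le_zero.1 hV)
    have h2 : U = ⊥ := (Submodule.eq_bot_iff _).2 fun v hv => by
      have := (hU v hv).1
      rwa [h1, Submodule.mem_bot] at this
    rw [h2, finrank_bot]
    exact Nat.zero_le _
  | succ r ih =>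
    by_cases hfin : Module.Finite E U
    swap
    · rw [Module.finrank_of_not_finite hfin]
      exact Nat.zero_le _
    by_cases h0 : V = ⊥
    · refine (ih V (by rw [h0, finrank_bot]; exact Nat.zero_le _) U hU).trans ?_
      exact Nat.mul_le_mul_right _ (Nat.le_succ r)
    obtain ⟨v, hv, hv0⟩ := (Submodule.ne_bot_iff _).1 h0
    obtain ⟨k, hk⟩ := Function.ne_iff.1 hv0
    let π : (Fin n → c.L) →ₗ[c.L] c.L := LinearMap.proj k
    have h1 : V ⊓ LinearMap.ker π < V :=
      lt_of_le_of_ne inf_le_left fun h => hk (h.ge hv).2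
    have h2 := Submodule.finrank_lt_finrank_of_lt h1
    let f : U →ₗ[E] c.L := (LinearMap.proj k).comp U.subtype
    have h3 := f.finrank_range_add_finrank_ker
    have h4 : Module.finrank E (LinearMap.range f) ≤ Module.finrank E (c.S M) :=
      Submodule.finrank_mono (by
        rintro _ ⟨w, rfl⟩
        exact (hU w w.2).2 k)
    have h5 := ih (V ⊓ LinearMap.ker π) (by omega) ((LinearMap.ker f).map U.subtype) (by
      rintro _ ⟨w, hw, rfl⟩
      exact ⟨⟨(hU w w.2).1, hw⟩, (hU w w.2).2⟩)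
    rw [Submodule.finrank_map_subtype_eq] at h5
    rw [← h3, Nat.succ_mul]
    omega

omit [IsAlgClosed E] in
/-- A relation with bounded coefficients (dimension count: the span `V` of the rows has dimension `≤ r`;
`finrank_le_of_le`, `finrank_S_eq`, `gg_le`). -/
theorem exists_rel {r : ℕ} (hr : r < c.l) {Y : ℕ → ℕ → c.L}
    (hY : ∀ j ≤ r, ∀ k < c.l, Y j k ∈ c.S c.kM)
    (hdep : ¬LinearIndependent c.L fun (j : Fin (r + 1)) (k : Fin c.l) => Y j k) :
    ∃ g : ℕ → c.L, (∀ j ≤ r, g j ∈ c.S c.kN) ∧ (∃ j ≤ r, g j ≠ 0) ∧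
      ∀ k < c.l, ∑ j ∈ range (r + 1), g j * Y j k = 0 := by
  let R : Fin (r + 1) → Fin c.l → c.L := fun j k => Y j k
  have hV : Module.finrank c.L (Submodule.span c.L (Set.range R)) ≤ r := by
    have h1 := finrank_range_le_card (R := c.L) R
    have h2 := mt linearIndependent_iff_card_eq_finrank_span.2 hdep
    rw [Fintype.card_fin] at h1 h2
    exact Nat.le_of_lt_succ (lt_of_le_of_ne h1 (Ne.symm h2))
  let Φ : (Fin (r + 1) → c.S c.kN) →ₗ[E] (Fin c.l → c.L) :=
    { toFun := fun g => ∑ j, (g j : c.L) • R j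
      map_add' := fun g g' => by
        simp only [Pi.add_apply, Submodule.coe_add, add_smul, sum_add_distrib]
      map_smul' := fun a g => by
        simp only [Pi.smul_apply, Submodule.coe_smul, smul_assoc, RingHom.id_apply, smul_sum] }
  have hΦ : ∀ g k, Φ g k = ∑ j, (g j : c.L) * Y j k := fun g k => by
    simp only [Φ, LinearMap.coe_mk, AddHom.coe_mk, Finset.sum_apply, Pi.smul_apply, smul_eq_mul, R]
  have h1 := finrank_le_of_le (c.kN + c.kM) r _ hV (LinearMap.range Φ) (by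
    rintro _ ⟨g, rfl⟩
    refine ⟨?_, fun k => ?_⟩
    · change ∑ j, (g j : c.L) • R j ∈ _
      exact Submodule.sum_mem _ fun j _ =>
        Submodule.smul_mem _ _ (Submodule.subset_span (Set.mem_range_self j))
    rw [hΦ]
    exact Submodule.sum_mem _ fun j _ => mul_mem_S (g j).2 (hY j (Nat.le_of_lt_succ j.2) k k.2))
  have h2 : LinearMap.ker Φ ≠ ⊥ := fun h => by
    have h3 := Φ.finrank_range_add_finrank_ker
    rw [h, finrank_bot, Module.finrank_pi_fintype, sum_const, card_univ, Fintype.card_fin,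
      smul_eq_mul, add_zero] at h3
    have e : c.kN = c.l * c.kM + c.B0 := rfl
    have h4 := finrank_S_eq (c := c) (N := c.kN) (by omega)
    have h5 := finrank_S_eq (c := c) (N := c.kN + c.kM) (by omega)
    have h6 := gg_le (c := c)
    rw [h3] at h1
    generalize Module.finrank E (c.S c.kN) = d₁ at *
    generalize Module.finrank E (c.S (c.kN + c.kM)) = d₂ at *
    have h7 : d₂ = d₁ + c.l * c.kM := by nlinarith
    have h8 : r * (c.l * c.kM) ≤ c.l * (c.l * c.kM) := Nat.mul_le_mul_right _ hr.le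
    rw [e] at h4
    subst h7
    nlinarith [c.l_pos]
  obtain ⟨g, hg, hg0⟩ := (Submodule.ne_bot_iff _).1 h2
  obtain ⟨j₀, hj₀⟩ := Function.ne_iff.1 hg0
  refine ⟨fun j => if h : j < r + 1 then g ⟨j, h⟩ else 0, fun j hj => ?_,
    ⟨j₀, Nat.le_of_lt_succ j₀.2, ?_⟩, fun k hk => ?_⟩
  · simp only [dif_pos (Nat.lt_succ_of_le hj)]
    exact (g _).2
  · simp only [dif_pos j₀.2]
    exact fun h => hj₀ (Subtype.ext h)
  · have h3 := congrFun (LinearMap.mem_ker.1 hg) ⟨k, hk⟩
    rw [hΦ] at h3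
    rw [sum_range]
    simpa only [Fin.is_lt, dif_pos, Fin.eta, Pi.zero_apply] using h3

/-- One step of a linear recurrence multiplies an alternating form by `± g₀ / g_r`. -/
theorem kry2_step {K M : Type} [Field K] [AddCommGroup M] [Module K M] {n : ℕ}
    (ω : M [⋀^Fin (n + 1)]→ₗ[K] K) (w : ℕ → M) (G : ℕ → K)
    (h : ∑ j ∈ range (n + 2), G j • w j = 0) :
    G (n + 1) * ω (fun j => w (j + 1)) = (-1) ^ (n + 1) * (G 0 * ω fun j => w j) := by
  let v : Fin n → M := fun j => w (j + 1)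
  let φ : M →ₗ[K] K :=
    { toFun := fun x => ω (Matrix.vecCons x v)
      map_add' := ω.map_vecCons_add v
      map_smul' := ω.map_vecCons_smul v }
  have h0 : φ (w 0) = ω fun j => w j := by
    change ω _ = _
    congr 1
    funext j
    refine Fin.cases rfl (fun j => rfl) j
  have h1 : ω (fun j => w (j + 1)) = (-1) ^ n * φ (w (n + 1)) := by
    have := ω.map_insertNth (Fin.last n) (w (n + 1)) v
    rw [Fin.insertNth_last'] at this
    have e : (fun j : Fin (n + 1) => w (j + 1)) = Fin.snoc (α := fun _ => M) v (w (n + 1)) := by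
      funext j
      refine Fin.lastCases ?_ (fun j => ?_) j
      · simp
      · simp [v]
    rw [e, this]
    simp [φ]
  have h2 : ∀ j ∈ range n, φ (G (j + 1) • w (j + 1)) = 0 := fun j hj => by
    rw [map_smul]
    exact smul_eq_zero_of_right _ (ω.map_eq_zero_of_eq _ (i := 0)
      (j := (⟨j, mem_range.1 hj⟩ : Fin n).succ) rfl (Fin.succ_ne_zero _).symm)
  have h3 := congrArg φ h
  rw [sum_range_succ, sum_range_succ', map_add, map_add, map_sum, sum_eq_zero h2, map_zero,
    map_smul, map_smul, h0, zero_add, smul_eq_mul, smul_eq_mul] at h3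
  rw [h1, pow_succ]
  linear_combination (-1) ^ n * h3

theorem kry2_form {K M : Type} [Field K] [AddCommGroup M] [Module K M] {r : ℕ} {b : Fin r → M}
    (h : LinearIndependent K b) : ∃ ω : M [⋀^Fin r]→ₗ[K] K, ω b = 1 := by
  obtain ⟨p, hp⟩ := (Fintype.linearCombination K b).exists_leftInverse_of_injective
    (LinearMap.ker_eq_bot.2 h.fintypeLinearCombination_injective)
  refine ⟨Matrix.detRowAlternating.compLinearMap p, ?_⟩
  have e : (fun j => p (b j)) = (1 : Matrix (Fin r) (Fin r) K) := by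
    funext j
    have := LinearMap.congr_fun hp (Pi.single j 1)
    rw [LinearMap.comp_apply, Fintype.linearCombination_apply_single, one_smul] at this
    rw [this]
    funext k
    simp [Matrix.one_apply, Pi.single_apply, eq_comm]
  rw [AlternatingMap.compLinearMap_apply, e]
  exact Matrix.det_one

/-- The quasi-periodic extension of `a`. -/
def kry2A (u : c.L) (a : ℕ → c.L) (n : ℤ) : c.L :=
  u ^ (n / c.l + 1) * a (n % c.l).toNat

omit [IsAlgClosed E] in
theorem kry2A_add {u : c.L} (hu : u ≠ 0) (a : ℕ → c.L) (n q : ℤ) :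
    kry2A u a (n + c.l * q) = u ^ q * kry2A u a n := by
  have hl : (c.l : ℤ) ≠ 0 := by exact_mod_cast c.l_pos.ne'
  rw [kry2A, kry2A, Int.add_mul_ediv_left _ _ hl, Int.add_mul_emod_self_left, ← mul_assoc,
    ← zpow_add₀ hu]
  congr 2
  ring

omit [IsAlgClosed E] in
theorem kry2A_nat (u : c.L) (a : ℕ → c.L) {n : ℕ} (hn : n < c.l) : kry2A u a n = u * a n := by
  have h1 : (n : ℤ) < c.l := by exact_mod_cast hn
  rw [kry2A, Int.ediv_eq_zero_of_lt (by positivity) h1, Int.emod_eq_of_lt (by positivity) h1]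
  simp

omit [IsAlgClosed E] in
theorem kry2_kY {u : c.L} (hu : u ≠ 0) (hσ : c.sg 1 u = u) (a : ℕ → c.L) {j k : ℕ} (hj : j < c.l)
    (hk : k < c.l) : c.kY u a j k = c.sg j (kry2A u a ((k : ℤ) - j)) := by
  unfold kY
  split_ifs with h
  · rw [← Nat.cast_sub h, kry2A_nat u a (by omega), map_mul, sg_of_fixed hσ]
  · have e : (k : ℤ) - j = ((k + c.l - j : ℕ) : ℤ) + c.l * (-1) := by omega
    rw [e, kry2A_add hu, kry2A_nat u a (by omega), zpow_neg_one, inv_mul_cancel_left₀ hu]

omit [IsAlgClosed E] in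
/-- The semilinear shift `T (v_0, …, v_{l-1}) = (σ v_{l-1} / u, σ v_0, …, σ v_{l-2})` maps row `j` of
`zX` to row `j + 1` and `T ^ l = 1 / u`.  If the rows `0, …, r-1` are independent and
`∑_{j ≤ r} g_j row_j = 0` non-trivially then `g_r ≠ 0`, `g_0 ≠ 0` (else apply `T⁻¹`), `T` acts on
their span by the companion matrix `C` with `det C = ± g_0 / g_r`, and
`σ^{l-1} C ⋯ σ C C = 1 / u`; take determinants. -/
theorem nrm_of_rel {u : c.L} (hu : u ≠ 0) (hσ : c.sg 1 u = u) {a : ℕ → c.L} {r : ℕ} (hr : r < c.l)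
    (hind : LinearIndependent c.L fun (j : Fin r) (k : Fin c.l) => c.kY u a j k) {g : ℕ → c.L}
    (hg : ∃ j ≤ r, g j ≠ 0) (hrel : ∀ k < c.l, ∑ j ∈ range (r + 1), g j * c.kY u a j k = 0)
    (h0 : 0 < r) : g 0 ≠ 0 ∧ g r ≠ 0 ∧
      (c.nrm (g r) = u ^ r * c.nrm (g 0) ∨ c.nrm (g r) = -(u ^ r * c.nrm (g 0))) := by
  obtain ⟨n, rfl⟩ : ∃ n, r = n + 1 := ⟨r - 1, by omega⟩
  have hl : (0 : ℤ) < c.l := by exact_mod_cast c.l_pos
  have hz : ∀ (j : ℕ) (q : ℤ), c.sg j (u ^ q) = u ^ q := fun j q => by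
    rw [map_zpow₀, sg_of_fixed hσ]
  have hr' : g (n + 1) ≠ 0 := fun hg0 => by
    obtain ⟨j, hj, hj0⟩ := hg
    have h1 := Fintype.linearIndependent_iff.1 hind (fun j => g j) (by
      funext k
      have := hrel k k.2
      rw [sum_range_succ, hg0, zero_mul, add_zero, sum_range] at this
      simpa using this)
    rcases hj.lt_or_eq with h | rfl
    exacts [hj0 (h1 ⟨j, h⟩), hj0 hg0]
  have hall : ∀ m : ℤ, ∑ j ∈ range (n + 2), g j * c.sg j (kry2A u a (m - j)) = 0 := fun m => by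
    have h1 := Int.emod_nonneg m hl.ne'
    have h2 := Int.emod_lt_of_pos m hl
    have h3 := hrel (m % c.l).toNat (by omega)
    rw [← mul_zero (u ^ (m / c.l)), ← h3, mul_sum]
    refine sum_congr rfl fun j hj => ?_
    have e : m - j = (((m % c.l).toNat : ℤ) - j) + c.l * (m / c.l) := by
      rw [Int.toNat_of_nonneg h1]
      linear_combination (Int.emod_add_mul_ediv m c.l).symm
    rw [kry2_kY hu hσ a (by have := mem_range.1 hj; omega) (by omega), e, kry2A_add hu, map_mul, hz]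
    ring
  set w : ℕ → Fin c.l → c.L := fun j k => c.sg j (kry2A u a ((k : ℕ) - (j : ℤ))) with hw
  obtain ⟨ω, hω⟩ := kry2_form hind
  have hω0 : ω (fun j => w (0 + j)) = 1 := by
    rw [← hω]
    congr 1
    funext j k
    rw [zero_add, kry2_kY hu hσ a (by omega) k.2]
  have hωl : ω (fun j => w (c.l + j)) = u⁻¹ ^ (n + 1) := by
    have e : (fun j : Fin (n + 1) => w (c.l + j)) = fun j : Fin (n + 1) => u⁻¹ • w (0 + j) := by
      funext j k
      have e1 : ((k : ℕ) : ℤ) - ((c.l + j : ℕ) : ℤ) = ((k : ℕ) - ((j : ℕ) : ℤ)) + c.l * (-1) := by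
        push_cast
        ring
      simp only [hw, zero_add, Pi.smul_apply, smul_eq_mul]
      rw [e1, kry2A_add hu, ← sg_sg, sg_l, map_mul, hz, zpow_neg_one]
    rw [e, ω.map_smul_univ, hω0]
    simp
  have key : ∀ i, (∏ k ∈ range i, c.sg k (g (n + 1))) * ω (fun j => w (i + j)) =
      ((-1) ^ (n + 1)) ^ i * ∏ k ∈ range i, c.sg k (g 0) := by
    intro i
    induction i with
    | zero => rw [hω0]; simp
    | succ i ih =>
      have h1 := kry2_step ω (fun j => w (i + j)) (fun j => c.sg i (g j)) (by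
        funext k
        have := congrArg (c.sg i) (hall ((k : ℕ) - (i : ℤ)))
        rw [map_sum, map_zero] at this
        rw [Finset.sum_apply, Pi.zero_apply, ← this]
        refine sum_congr rfl fun j _ => ?_
        simp only [hw, Pi.smul_apply, smul_eq_mul]
        rw [map_mul, sg_sg, Nat.cast_add, sub_sub])
      have e : (fun j : Fin (n + 1) => w (i + 1 + j)) = fun j : Fin (n + 1) => w (i + (j + 1)) := by
        funext j
        rw [add_right_comm, add_assoc]
      rw [prod_range_succ, prod_range_succ, e, mul_assoc, h1, pow_succ _ i]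
      linear_combination (-1) ^ (n + 1) * c.sg i (g 0) * ih
  have h1 := key c.l
  rw [hωl, ← nrm, ← nrm, inv_pow, ← div_eq_mul_inv, div_eq_iff (pow_ne_zero _ hu), ← pow_mul] at h1
  refine ⟨fun hg0 => nrm_ne hr' ?_, hr', ?_⟩
  · rw [h1, hg0, nrm, prod_eq_zero (mem_range.2 c.l_pos) (map_zero (c.sg 0)), mul_zero, zero_mul]
  · rcases neg_one_pow_eq_or c.L ((n + 1) * c.l) with h | h <;> rw [h] at h1
    · exact Or.inl (by linear_combination h1)
    · exact Or.inr (by linear_combination h1)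

omit [IsAlgClosed E] in
theorem kryA_nK_pos : 0 < c.nK := Nat.mul_pos c.l_pos (Nat.succ_pos _)

omit [IsAlgClosed E] in
/-- The linear system in coordinates. -/
theorem kryA_cv {r : ℕ} (hr : r < c.l) {Y : ℕ → c.L} (hY : ∀ j ≤ r, Y j ∈ c.S c.kM) (w : ℕ → E)
    (e : ℕ) :
    c.cv (∑ j ∈ range (r + 1), c.lin c.nK (c.mono c.kN) (fun i => w (j * c.nK + i)) * Y j) e =
      ∑ z ∈ range (c.l * c.nK),
        (if z / c.nK ≤ r then c.cv (c.mono c.kN (z % c.nK) * Y (z / c.nK)) e else 0) * w z := by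
  have hm : ∀ j ∈ range (r + 1), ∀ i, c.mono c.kN i * Y j ∈ c.S (c.kN + c.kM) := fun j hj i =>
    mul_mem_S (mono_mem _ _) (hY j (Nat.le_of_lt_succ (mem_range.1 hj)))
  rw [sum_range_mul, ← sum_subset (range_subset_range.2 (Nat.succ_le_of_lt hr))]
  · refine (cv_sum _ (fun j hj => mul_mem_S (lin_mono_mem c.kN fun i => w (j * c.nK + i))
      (hY j (Nat.le_of_lt_succ (mem_range.1 hj)))) e).trans (sum_congr rfl fun j hj => ?_)
    rw [lin, sum_mul]
    simp only [smul_mul_assoc]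
    rw [cv_sum _ fun i _ => Submodule.smul_mem _ _ (hm j hj i)]
    refine sum_congr rfl fun i hi => ?_
    have h1 : (j * c.nK + i) / c.nK = j := by
      rw [add_comm, Nat.add_mul_div_right _ _ kryA_nK_pos, Nat.div_eq_of_lt (mem_range.1 hi),
        zero_add]
    have h2 : (j * c.nK + i) % c.nK = i := by
      rw [add_comm, Nat.add_mul_mod_self_right, Nat.mod_eq_of_lt (mem_range.1 hi)]
    rw [h1, h2, if_pos (Nat.le_of_lt_succ (mem_range.1 hj)), cv_smul (hm j hj i), mul_comm]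
  · intro j _ hj
    refine sum_eq_zero fun i hi => ?_
    have h1 : (j * c.nK + i) / c.nK = j := by
      rw [add_comm, Nat.add_mul_div_right _ _ kryA_nK_pos, Nat.div_eq_of_lt (mem_range.1 hi),
        zero_add]
    rw [h1, if_neg fun h => hj (mem_range.2 (Nat.lt_succ_of_le h)), zero_mul]

omit [IsAlgClosed E] in
theorem kryA_mem (u : c.L) (a : ℕ → c.L) (r d j : ℕ) : c.kC u a r d j ∈ c.S c.kN :=
  lin_mono_mem _ _

omit [IsAlgClosed E] in
/-- The computed vectors are relations. -/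
theorem kryA_sol {u : c.L} {a : ℕ → c.L} {r : ℕ} (hr : r < c.l)
    (hY : ∀ j ≤ r, ∀ k < c.l, c.kY u a j k ∈ c.S c.kM) {d : ℕ} (hd : d < c.l * c.nK) {k : ℕ}
    (hk : k < c.l) : ∑ j ∈ range (r + 1), c.kC u a r d j * c.kY u a j k = 0 := by
  refine eq_zero_of_cv (Submodule.sum_mem _ fun j hj => mul_mem_S (kryA_mem u a r d j)
    (hY j (Nat.le_of_lt_succ (mem_range.1 hj)) k hk)) fun e he => ?_
  exact (kryA_cv hr (fun j hj => hY j hj k hk) _ e).trans (kerv2_sol _ _ _ (fun k e z =>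
    if z / c.nK ≤ r then c.cv (c.mono c.kN (z % c.nK) * c.kY u a (z / c.nK) k) e else 0) hd hk he)

omit [IsAlgClosed E] in
/-- Dependent rows give a non-trivial computed relation. -/
theorem kryA_ex {u : c.L} {a : ℕ → c.L} {r : ℕ} (hr : r < c.l)
    (hY : ∀ j ≤ r, ∀ k < c.l, c.kY u a j k ∈ c.S c.kM)
    (hdep : ¬LinearIndependent c.L fun (j : Fin (r + 1)) (k : Fin c.l) => c.kY u a j k) :
    ∃ d < c.l * c.nK, ∃ j < r + 1, c.kC u a r d j ≠ 0 := by
  obtain ⟨g, h1, ⟨j, hj, h2⟩, h3⟩ := exists_rel hr hY hdep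
  let w : ℕ → E := fun z => c.cv (g (z / c.nK)) (z % c.nK)
  have hw : ∀ j ≤ r, c.lin c.nK (c.mono c.kN) (fun i => w (j * c.nK + i)) = g j := fun j hj => by
    refine Eq.trans (sum_congr rfl fun i hi => ?_) (sum_cv_mono (h1 j hj))
    have a1 : (j * c.nK + i) / c.nK = j := by
      rw [add_comm, Nat.add_mul_div_right _ _ kryA_nK_pos, Nat.div_eq_of_lt (mem_range.1 hi),
        zero_add]
    have a2 : (j * c.nK + i) % c.nK = i := by
      rw [add_comm, Nat.add_mul_mod_self_right, Nat.mod_eq_of_lt (mem_range.1 hi)]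
    simp only [w, a1, a2]
  have h4 := fun z (hz : z < c.l * c.nK) => kerv2_span (c.l * c.nK) c.l (c.dimN (c.kN + c.kM))
    (fun k e z => if z / c.nK ≤ r then
      c.cv (c.mono c.kN (z % c.nK) * c.kY u a (z / c.nK) k) e else 0) (z := w)
    (fun k hk e _ => by
      rw [← kryA_cv hr (fun j hj => hY j hj k hk) w e,
        sum_congr rfl fun j hj => by rw [hw j (Nat.le_of_lt_succ (mem_range.1 hj))], h3 k hk,
        cv_zero]) hz
  by_contra hne
  push Not at hne
  apply h2
  have h5 : g j = ∑ d ∈ range (c.l * c.nK), w d • c.kC u a r d j := by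
    rw [← hw j hj]
    simp only [kC, lin, smul_sum, smul_smul]
    rw [sum_comm]
    refine sum_congr rfl fun i hi => ?_
    rw [← sum_smul, ← h4]
    calc j * c.nK + i < (j + 1) * c.nK := by
          rw [Nat.succ_mul]
          exact Nat.add_lt_add_left (mem_range.1 hi) _
      _ ≤ _ := Nat.mul_le_mul_right _ (by omega)
  rw [h5]
  exact sum_eq_zero fun d hd => by rw [hne d (mem_range.1 hd) j (by omega), smul_zero]

/-- The computed solution of the norm equation. -/
theorem kry_spec {u : c.L} (hu : u ≠ 0) (hu' : u ∈ c.S c.Nl) (hσ : c.sg 1 u = u) {a : ℕ → c.L}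
    (ha : ∀ j < c.l, a j ∈ c.S (c.B0 + c.l * c.Ns)) (hne : ∃ j < c.l, a j ≠ 0)
    (hdet : (zX u a).det = 0) :
    c.kAl u a (c.kT u a) ≠ 0 ∧ c.kBe u a (c.kT u a) ≠ 0 ∧
    c.kAl u a (c.kT u a) ∈ c.S (c.l * c.kN) ∧
    c.kBe u a (c.kT u a) ∈ c.S (c.l * c.kN + c.l * c.Nl) ∧
    c.div (c.nrm (c.kAl u a (c.kT u a))) = c.div u + c.div (c.nrm (c.kBe u a (c.kT u a))) := by
  have hl := c.l_pos
  have hn : 0 < c.l * c.nK := Nat.mul_pos hl kryA_nK_pos
  have hY : ∀ j < c.l, ∀ k < c.l, c.kY u a j k ∈ c.S c.kM := fun j hj k hk => by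
    unfold kY
    split_ifs with h
    · exact mul_mem_S hu' (sg_mem_S (ha _ (by omega)) j)
    · exact S_mono (Nat.le_add_left _ _) (sg_mem_S (ha _ (by omega)) j)
  have key : ∀ r < c.l,
      (¬LinearIndependent c.L fun (j : Fin (r + 1)) (k : Fin c.l) => c.kY u a j k) →
      ∃ τ < (r + 1) * (c.l * c.nK), ∃ j < τ / (c.l * c.nK) + 1,
        c.kC u a (τ / (c.l * c.nK)) (τ % (c.l * c.nK)) j ≠ 0 := fun r hr h => by
    obtain ⟨d, hd, h1⟩ := kryA_ex hr (fun j hj => hY j (hj.trans_lt hr)) h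
    refine ⟨d + r * (c.l * c.nK), by rw [Nat.succ_mul]; omega, ?_⟩
    rwa [Nat.add_mul_div_right _ _ hn, Nat.div_eq_of_lt hd, zero_add, Nat.add_mul_mod_self_right,
      Nat.mod_eq_of_lt hd]
  have hl1 : c.l - 1 + 1 = c.l := Nat.sub_add_cancel hl
  have hex := key (c.l - 1) (by omega) fun h => by
    have h1 : LinearIndependent c.L fun (j : Fin c.l) (k : Fin c.l) => c.kY u a j k :=
      h.comp (Fin.cast hl1.symm) (Fin.cast_injective _)
    obtain ⟨v, hv, h2⟩ := Matrix.exists_vecMul_eq_zero_iff.2 hdet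
    refine hv (_root_.funext (Fintype.linearIndependent_iff.1 h1 v ?_))
    funext k
    have h3 := congrFun h2 k
    simp only [Matrix.vecMul, dotProduct, zX, ← mul_div_assoc, ← sum_div, Pi.zero_apply,
      div_eq_zero_iff, hu, or_false] at h3
    simpa only [Finset.sum_apply, Pi.smul_apply, smul_eq_mul, Pi.zero_apply] using h3
  rw [hl1] at hex
  obtain ⟨hτ, hp⟩ := fst_spec hex
  have hmin := fun τ => fst_min (n := c.l * (c.l * c.nK)) (k := τ)
    (p := fun τ => ∃ j < τ / (c.l * c.nK) + 1,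
      c.kC u a (τ / (c.l * c.nK)) (τ % (c.l * c.nK)) j ≠ 0)
  unfold kAl kBe
  change c.kT u a < _ at hτ
  change ∃ j < c.kT u a / _ + 1, c.kC u a (c.kT u a / _) (c.kT u a % _) j ≠ 0 at hp
  change ∀ τ < c.kT u a, _ at hmin
  have hd : c.kT u a % (c.l * c.nK) < c.l * c.nK := Nat.mod_lt _ hn
  have hr : c.kT u a / (c.l * c.nK) < c.l := (Nat.div_lt_iff_lt_mul hn).2 hτ
  have hrτ := Nat.div_mul_le_self (c.kT u a) (c.l * c.nK)
  generalize c.kT u a % (c.l * c.nK) = d at hp hd ⊢
  generalize c.kT u a / (c.l * c.nK) = r at hp hr hrτ ⊢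
  have hrel := fun k hk => kryA_sol hr (fun j hj => hY j (hj.trans_lt hr)) hd (k := k) hk
  have h0 : 0 < r := by
    refine Nat.pos_of_ne_zero ?_
    rintro rfl
    obtain ⟨j, hj, h1⟩ := hp
    obtain rfl : j = 0 := by omega
    obtain ⟨k, hk, h2⟩ := hne
    have h3 := hrel k hk
    rw [zero_add, sum_range_one, kY, if_pos (Nat.zero_le k)] at h3
    exact mul_ne_zero h1 (mul_ne_zero hu (sg_ne h2 0)) h3
  have hind : LinearIndependent c.L fun (j : Fin r) (k : Fin c.l) => c.kY u a j k := by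
    obtain ⟨r, rfl⟩ : ∃ r', r = r' + 1 := ⟨r - 1, by omega⟩
    by_contra h
    obtain ⟨τ, h1, h2⟩ := key r (by omega) h
    exact hmin τ (h1.trans_le hrτ) h2
  obtain ⟨g0, gr, hN⟩ := nrm_of_rel hu hσ hr hind
    (hp.imp fun j hj => ⟨Nat.le_of_lt_succ hj.1, hj.2⟩) hrel h0
  obtain ⟨hs, hs'⟩ : c.rinv r < c.l ∧ r * c.rinv r % c.l = 1 := by
    obtain ⟨m, h1, h2⟩ := Nat.exists_mul_mod_eq_one_of_coprime
      (Nat.coprime_of_lt_prime h0.ne' hr c.hl).symm c.hl.one_lt
    exact fst_spec ⟨m, h1, h2⟩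
  generalize c.rinv r = s at hs hs' ⊢
  have hq : c.l * (r * s / c.l) + 1 = r * s := by
    have := Nat.div_add_mod (r * s) c.l
    rwa [hs'] at this
  have hq' : r * s / c.l ≤ c.l := Nat.div_le_of_le_mul (Nat.mul_le_mul hr.le hs.le)
  generalize r * s / c.l = q at hq hq' ⊢
  refine ⟨pow_ne_zero _ gr, mul_ne_zero (pow_ne_zero _ g0) (pow_ne_zero _ hu),
    S_mono (Nat.mul_le_mul_right _ hs.le) (pow_mem_S (kryA_mem u a r d r) s),
    S_mono (add_le_add (Nat.mul_le_mul_right _ hs.le) (Nat.mul_le_mul_right _ hq'))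
      (mul_mem_S (pow_mem_S (kryA_mem u a r d 0) s) (pow_mem_S hu' q)), ?_⟩
  have h1 : c.div (c.nrm (c.kC u a r d r)) = (r : ℤ) • c.div u + c.div (c.nrm (c.kC u a r d 0)) := by
    rw [← div_pow, ← div_mul (pow_ne_zero _ hu) (nrm_ne g0)]
    rcases hN with h | h
    · rw [h]
    · rw [h, div_neg]
  have h2 : (r : ℤ) * s = c.l * q + 1 := by exact_mod_cast hq.symm
  rw [nrm_pow, nrm_mul, nrm_pow, nrm_pow, nrm_of_fixed hσ,
    div_mul (pow_ne_zero _ (nrm_ne g0)) (pow_ne_zero _ (pow_ne_zero _ hu)), div_pow, div_pow,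
    div_pow, div_pow, h1, smul_add, smul_smul, smul_smul, mul_comm (s : ℤ), h2, mul_comm (q : ℤ),
    add_smul, one_smul]
  abel

end Crv
end Crest.Agent.R312
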