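import Crest.Agent.R312.AlgZD2
import Crest.Agent.R312.AlgKry

/-!
# Row 312, algorithm half: auxiliary lemmas for the division by `1 - σ`
-/

set_option autoImplicit false
open Finset Polynomial
open scoped Classical

noncomputable section
namespace Crest.Agent.R312
namespace Crv
variable {E : Type} [Field E] {c : Crv E}

/-- The factor of `hF` which depends on `j` only. -/
def dv1_psi (c : Crv E) (α γ : c.L) (j : ℕ) : c.L :=
  c.sj α j * ∏ i ∈ range c.l, if j ≤ i then c.sg i γ else 1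

theorem dv1_tail_mul (γ : c.L) {j : ℕ} (hj : j ≤ c.l) :
    (∏ i ∈ range j, c.sg i γ) * (∏ i ∈ range c.l, if j ≤ i then c.sg i γ else 1) = c.nrm γ := by
  rw [← Finset.prod_filter, nrm, ← Finset.prod_range_mul_prod_Ico _ hj]
  congr 2
  ext i
  simp only [Finset.mem_filter, Finset.mem_range, Finset.mem_Ico]
  tauto

theorem dv1_sj_ne {α : c.L} (hα : α ≠ 0) (j : ℕ) : (∏ i ∈ range j, c.sg i α) ≠ 0 :=
  Finset.prod_ne_zero_iff.2 fun i _ => sg_ne hα i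

theorem dv1_tail_ne {γ : c.L} (hγ : γ ≠ 0) (j : ℕ) :
    (∏ i ∈ range c.l, if j ≤ i then c.sg i γ else 1) ≠ 0 := by
  refine Finset.prod_ne_zero_iff.2 fun i _ => ?_
  split_ifs
  exacts [sg_ne hγ i, one_ne_zero]

theorem dv1_psi_ne {α γ : c.L} (hα : α ≠ 0) (hγ : γ ≠ 0) (j : ℕ) : dv1_psi c α γ j ≠ 0 :=
  mul_ne_zero (dv1_sj_ne hα j) (dv1_tail_ne hγ j)

theorem dv1_psi_mem {α γ : c.L} {N : ℕ} (hα : α ∈ c.S N) (hγ : γ ∈ c.S N) {j : ℕ} (hj : j ≤ c.l) :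
    dv1_psi c α γ j ∈ c.S (c.l * N + c.l * N) := by
  refine mul_mem_S ?_ ?_
  · have h1 := prod_mem_S (range j) (φ := fun i => c.sg i α) fun i _ => sg_mem_S hα i
    rw [Finset.card_range] at h1
    exact S_mono (Nat.mul_le_mul_right N hj) h1
  · have h1 := prod_mem_S (N := N) (range c.l) (φ := fun i => if j ≤ i then c.sg i γ else 1)
      fun i _ => by
        split_ifs
        exacts [sg_mem_S hγ i, one_mem_S N]
    rwa [Finset.card_range] at h1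

theorem dv1_hF_eq (W : ℕ → c.L) (s α β : c.L) (e z : ℕ) :
    c.hF W s α β e z = c.Wj W (z / (2 * c.rl)) (z % (2 * c.rl) / 2) *
      dv1_psi c α (β * s) (z / (2 * c.rl)) *
      if z % 2 = 0 then 1 else c.x ^ ((c.l - 1 - z / (2 * c.rl)) * e) := by
  rw [hF, dv1_psi, mul_assoc (c.Wj W _ _)]

theorem dv1_index {R l z : ℕ} (hz : z < l * (2 * R)) : z / (2 * R) < l ∧ z % (2 * R) / 2 < R := by
  have hR : 0 < 2 * R := Nat.pos_of_ne_zero fun h => by simp [h] at hz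
  refine ⟨Nat.div_lt_of_lt_mul (by rwa [mul_comm] at hz), ?_⟩
  have := Nat.mod_lt z hR
  omega

theorem dv1_index' {R l j k b : ℕ} (hj : j < l) (hk : k < R) (hb : b < 2) :
    j * (2 * R) + (2 * k + b) < l * (2 * R) ∧ (j * (2 * R) + (2 * k + b)) / (2 * R) = j ∧
      (j * (2 * R) + (2 * k + b)) % (2 * R) / 2 = k ∧ (j * (2 * R) + (2 * k + b)) % 2 = b := by
  have h1 : 2 * k + b < 2 * R := by omega
  have h2 : (j + 1) * (2 * R) ≤ l * (2 * R) := Nat.mul_le_mul_right _ hj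
  refine ⟨?_, ?_, ?_, ?_⟩
  · rw [add_mul] at h2
    omega
  · rw [add_comm, Nat.add_mul_div_right _ _ (by omega), Nat.div_eq_of_lt h1, zero_add]
  · rw [add_comm, Nat.add_mul_mod_self_right, Nat.mod_eq_of_lt h1]
    omega
  · rw [show j * (2 * R) = 2 * (j * R) by ring]
    omega

theorem dv1_hN_eq : c.hN = c.Nl + (c.l * c.hB + c.l * c.hB) + c.l * c.Ns := by
  rw [hN, add_assoc c.Nl]

variable [IsAlgClosed E]

theorem dv1_div_psi {α γ : c.L} (hα : α ≠ 0) (hγ : γ ≠ 0) {j : ℕ} (hj : j ≤ c.l) :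
    c.div (dv1_psi c α γ j) = c.nD j (c.div α) + c.div (c.nrm γ) - c.nD j (c.div γ) := by
  rw [dv1_psi, sj, div_mul (dv1_sj_ne hα j) (dv1_tail_ne hγ j), div_prod_sg j hα,
    ← dv1_tail_mul γ hj, div_mul (dv1_sj_ne hγ j) (dv1_tail_ne hγ j), div_prod_sg j hγ]
  abel

/-- The pair `1`, `x ^ n` has greatest common divisor `-n Dinf`. -/
theorem dv1_pair_ge (n : ℕ) (p : Prop) [Decidable p] (P : c.Place) :
    c.Ge P ((-((n : ℤ) • c.Dinf)) P) (if p then 1 else c.x ^ n) := by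
  have h1 : (if p then 1 else c.x ^ n) ∈ c.S n := by
    split_ifs
    · exact one_mem_S n
    · simpa using pow_mem_S (c := c) x_mem_S n
  rw [← LL_Dinf] at h1
  simpa using h1 P

theorem dv1_pair_co (n : ℕ) (P : c.Place) :
    ∃ b < 2, c.co P ((-((n : ℤ) • c.Dinf)) P) (if b = 0 then 1 else c.x ^ n) ≠ 0 := by
  by_cases hP : P.1.1 = none
  · refine ⟨1, by norm_num, ?_⟩
    have h1 := (ge_po_inf hP (g := (X ^ n : E[X])) (n := n) (by simp)).2
    have h2 : c.po (X ^ n) = c.x ^ n := by simp [po]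
    rw [h2, coeff_X_pow_self] at h1
    simp [Dinf_apply, hP, h1]
  · refine ⟨0, by norm_num, ?_⟩
    simp [Dinf_apply, hP, co_one]

theorem dv1_hF {W : ℕ → c.L} {Δ D : c.Div} (h : Prep W Δ D) (hB : Big E c.thr) {e : ℕ}
    (he : c.dg D = c.l * e) {α β : c.L} (hα : α ≠ 0) (hβ : β ≠ 0) (hα' : α ∈ c.S (c.l * c.kN))
    (hβ' : β ∈ c.S (c.l * c.kN + c.l * c.Nl))
    (hn : c.div (c.nrm α) = c.nD c.l D - ((c.l * e : ℕ) : ℤ) • c.Dinf + c.div (c.nrm β)) :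
    ∃ z, c.Rep c.hr c.hN (c.hF W (c.sec W) α β e) z ∧ c.lam z = c.cl Δ := by
  set s := c.sec W with hs
  have hγ : β * s ≠ 0 := mul_ne_zero hβ h.ne
  set Δ' : c.Div := c.div α - c.div β + (e : ℤ) • c.Dinf - D with hΔ'
  have hN : c.nD c.l Δ' = 0 := by
    rw [hΔ', nD_sub, nD_add, nD_sub, nD_Dinf, ← div_nrm hα, ← div_nrm hβ, hn]
    push_cast
    abel
  obtain ⟨F, hF, hF'⟩ := exists_inf_nD (fun j => c.nD j Δ') c.l_pos
  have hFσ : F - c.sD 1 F = Δ' := inf_nD hN hF hF'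
  set G₀ : c.Div := c.div (c.nrm (β * s)) - (((c.l - 1) * e : ℕ) : ℤ) • c.Dinf with hG₀
  have key : ∀ j < c.l, c.nD j Δ' + G₀ = c.nD j Δ + c.div (dv1_psi c α (β * s) j) +
      -((((c.l - 1 - j) * e : ℕ) : ℤ) • c.Dinf) := by
    intro j hj
    have e1 : (((c.l - 1) * e : ℕ) : ℤ) = ((c.l - 1 - j) * e : ℕ) + (j : ℤ) * e := by
      have : c.l - 1 = c.l - 1 - j + j := by omega
      conv_lhs => rw [this]
      push_cast
      ring
    rw [dv1_div_psi hα hγ hj.le, div_mul hβ h.ne, hG₀, hΔ', h.eq, nD_sub, nD_add, nD_sub, nD_sub,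
      nD_add, nD_Dinf, e1, add_smul]
    abel
  have hle : c.l * e ≤ c.l * c.Ns := by
    have := h.dg_le
    rw [he] at this
    exact_mod_cast this
  refine ⟨c.cl (F + G₀), ⟨fun z hz => ?_, F + G₀, ⟨fun z hz P => ?_, fun P => ?_⟩, rfl⟩, ?_⟩
  · obtain ⟨hj, -⟩ := dv1_index hz
    rw [dv1_hF_eq, dv1_hN_eq]
    refine mul_mem_S (mul_mem_S ?_ (dv1_psi_mem (S_mono ?_ hα') (mul_mem_S hβ' h.sec_mem) hj.le)) ?_
    · exact S_mono (Nat.mul_le_mul_right _ hj.le) (prodF_mem (fun i _ => h.mem.sg i) _)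
    · omega
    · split_ifs
      · exact one_mem_S _
      · refine S_mono ?_ (pow_mem_S x_mem_S _)
        rw [mul_one]
        exact (Nat.mul_le_mul_right e ((Nat.sub_le _ _).trans (Nat.sub_le _ _))).trans hle
  · obtain ⟨hj, hk⟩ := dv1_index hz
    rw [dv1_hF_eq]
    set j := z / (2 * c.rl)
    have h1 := (((h.isG.Wj hB hj.le).1 _ hk P).mul (ge_ord P (dv1_psi c α (β * s) j))).mul
      (dv1_pair_ge ((c.l - 1 - j) * e) (z % 2 = 0) P)
    refine h1.mono ?_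
    have h2 := DFunLike.congr_fun (key j hj) P
    have h3 := hF j hj P
    simp only [Finsupp.add_apply, Finsupp.neg_apply, div_apply, neg_neg] at h2 h3 ⊢
    linarith
  · obtain ⟨j, hj, hP⟩ := hF' P
    obtain ⟨k, hk, hk'⟩ := (h.isG.Wj hB hj.le).2 P
    obtain ⟨b, hb, hb'⟩ := dv1_pair_co (c := c) ((c.l - 1 - j) * e) P
    obtain ⟨i1, i2, i3, i4⟩ := dv1_index' hj hk hb
    refine ⟨_, i1, ?_⟩
    have g1 : c.Ge P (c.nD j Δ P) (c.Wj W j k) := by
      simpa using (h.isG.Wj hB hj.le).1 _ hk P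
    have g2 := ge_ord P (dv1_psi c α (β * s) j)
    have h2 : (F + G₀) P = c.nD j Δ P + c.ord P (dv1_psi c α (β * s) j) +
        (-((((c.l - 1 - j) * e : ℕ) : ℤ) • c.Dinf)) P := by
      have h3 := DFunLike.congr_fun (key j hj) P
      rw [Finsupp.add_apply, hP]
      exact h3
    rw [dv1_hF_eq, i2, i3, i4, h2, (g1.mul g2).co_mul (dv1_pair_ge _ _ P), g1.co_mul g2]
    exact mul_ne_zero (mul_ne_zero hk' (co_ord_ne P (dv1_psi_ne hα hγ j))) hb'
  · have h1 : c.cl (F + G₀) = c.cl F := by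
      rw [map_add, hG₀, map_sub, map_smul, cl_div, cl_Dinf, smul_zero, sub_zero, add_zero]
    rw [h1, lam_cl, hFσ, hΔ', map_sub, map_add, map_sub, map_smul, cl_div, cl_div, cl_Dinf,
      h.cl_eq]
    simp

theorem dv1_dvd {W : ℕ → c.L} {z : c.G} (h : c.Std W z) (hB : Big E c.thr) (hz : c.dG z = 0)
    {a₀ : E} (h₀ : c.f.eval a₀ = 0) {rt : E → E}
    (hrt : ∀ a, c.f.eval a = 0 →
      rt (c.ev0 (c.uN a₀ W (c.del W)) a)⁻¹ ^ c.l = (c.ev0 (c.uN a₀ W (c.del W)) a)⁻¹) :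
    ∃ z', c.Std (c.dvd rt a₀ W) z' ∧ c.lam z' = z := by
  obtain ⟨hW, Δ, hΔ, rfl⟩ := h
  obtain ⟨D, hD⟩ := exists_prep hB hΔ hW
  have hdel := (hD.norm hB).1
  obtain ⟨u1, u2, u3, u4, u5, -⟩ := hD.norm' hB h₀
  have hdvd : c.l ∣ c.del W := by
    have h1 : c.dG (c.cl D) = 0 := by rw [hD.cl_eq, map_neg, hz, neg_zero]
    rw [dG_cl, ← hdel, Int.cast_natCast] at h1
    exact (ZMod.natCast_eq_zero_iff _ _).1 h1
  have hδ : c.del W = c.l * (c.del W / c.l) := (Nat.mul_div_cancel' hdvd).symm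
  set e := c.del W / c.l with hedef
  set u := c.uN a₀ W (c.del W) with hu
  have he : c.dg D = c.l * e := by
    rw [← hdel, hδ]
    push_cast
    rfl
  have hle : c.l * e ≤ c.l * c.Ns := by
    have := hD.dg_le
    rw [he] at this
    exact_mod_cast this
  have hd : c.div u = c.nD c.l D - ((c.l * e : ℕ) : ℤ) • c.Dinf := by rw [u4, ← hδ]
  obtain ⟨z1, z2, z3, z4⟩ := hD.zd hB he fun a => rt (c.ev0 u a)⁻¹
  have hdet := det_zX hD.nonneg hD.inf u1 u3 u2 hd z2 (ρ := fun a => rt (c.ev0 u a)⁻¹)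
    (fun a ha => by rw [hrt a ha, inv_mul_cancel₀ (u5 a ha)]) z3 z4
  obtain ⟨k1, k2, k3, k4, k5⟩ := kry_spec u1 (S_mono (hδ.trans_le hle) u3) u2
    (fun j hj => S_mono (Nat.add_le_add_left ((Nat.mul_le_mul_right e hj.le).trans hle) _)
      (LL_le_S (nD_nonneg hD.nonneg j) (z2 j hj))) z1 hdet
  obtain ⟨z', hz', hl⟩ := dv1_hF hD hB he k1 k2 k3 k4 (by rw [k5, hd])
  exact ⟨z', hz'.red, hl⟩

end Crv
end Crest.Agent.R312
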