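import Crest.Agent.R312.AlgZD2
import Crest.Agent.R312.AlgKry
import Crest.Agent.R312.AlgDvdAux1

/-!
# Row 312, algorithm half: division by `1 - σ` and rationality
-/

set_option autoImplicit false
open Finset Polynomial
open scoped Classical

noncomputable section
namespace Crest.Agent.R312
namespace Crv
variable {E : Type} [Field E] {c : Crv E} [IsAlgClosed E]

/-- The family `hF` has gcd `F + div (nrm (β s)) - (l-1) e Dinf` where `F` is the infimum of the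
`nD j Δ'`, `Δ' = Δ + div α - div β - div s + e Dinf` (`exists_inf_nD`, `inf_nD`, `IsG.Wj`). -/
theorem Prep.hF {W : ℕ → c.L} {Δ D : c.Div} (h : Prep W Δ D) (hB : Big E c.thr) {e : ℕ}
    (he : c.dg D = c.l * e) {α β : c.L} (hα : α ≠ 0) (hβ : β ≠ 0) (hα' : α ∈ c.S (c.l * c.kN))
    (hβ' : β ∈ c.S (c.l * c.kN + c.l * c.Nl))
    (hn : c.div (c.nrm α) = c.nD c.l D - ((c.l * e : ℕ) : ℤ) • c.Dinf + c.div (c.nrm β)) :
    ∃ z, c.Rep c.hr c.hN (c.hF W (c.sec W) α β e) z ∧ c.lam z = c.cl Δ :=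
  dv1_hF h hB he hα hβ hα' hβ' hn

/-- Division works when the required roots are found. -/
theorem Std.dvd {W : ℕ → c.L} {z : c.G} (h : c.Std W z) (hB : Big E c.thr) (hz : c.dG z = 0)
    {a₀ : E} (h₀ : c.f.eval a₀ = 0) {rt : E → E}
    (hrt : ∀ a, c.f.eval a = 0 →
      rt (c.ev0 (c.uN a₀ W (c.del W)) a)⁻¹ ^ c.l = (c.ev0 (c.uN a₀ W (c.del W)) a)⁻¹) :
    ∃ z', c.Std (c.dvd rt a₀ W) z' ∧ c.lam z' = z :=
  dv1_dvd h hB hz h₀ hrt

/-- Over the algebraically closed field the norm equation is solvable (`Prep.zd` or `exists_zd` with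
exact roots, `det_zX`, `kry_spec`, then rescale with `exists_smul_of_div_eq`). -/
theorem Prep.exists_nrm {W : ℕ → c.L} {Δ D : c.Div} (h : Prep W Δ D) (hB : Big E c.thr) {e : ℕ}
    (he : c.dg D = c.l * e) {a₀ : E} (h₀ : c.f.eval a₀ = 0) :
    ∃ φ : c.L, c.nrm φ = c.uN a₀ W (c.del W) := by
  obtain ⟨h1, h2, h3, h4, h5, -⟩ := h.norm' hB h₀
  have hδ : c.del W = c.l * e := by
    have := (h.norm hB).1
    rw [he] at this
    exact_mod_cast this
  have hle : c.l * e ≤ c.l * c.Ns := by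
    have := h.dg_le
    rw [he] at this
    exact_mod_cast this
  generalize c.uN a₀ W (c.del W) = u at h1 h2 h3 h4 h5
  rw [hδ] at h3 h4
  choose ρ hρ using fun α : E => IsAlgClosed.exists_pow_nat_eq (c.ev0 u α)⁻¹ c.l_pos
  obtain ⟨a, a1, a2, a3, a4⟩ := exists_zd h.nonneg he ρ
  have hdet := det_zX h.nonneg h.inf h1 h3 h2 h4 a2
    (fun α hα => by rw [hρ, inv_mul_cancel₀ (h5 α hα)]) a3 a4
  obtain ⟨k1, k2, -, -, k3⟩ := kry_spec h1 (S_mono hle h3) h2 (a := a) (fun j hj =>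
    S_mono (Nat.add_le_add_left ((Nat.mul_le_mul_right e hj.le).trans hle) _)
      (LL_le_S (nD_nonneg h.nonneg j) (a2 j hj))) a1 hdet
  obtain ⟨t, ht, e1⟩ := exists_smul_of_div_eq (nrm_ne (div_ne_zero k1 k2)) h1 (by
    rw [nrm_div, div_div (nrm_ne k1) (nrm_ne k2), k3, add_sub_cancel_right])
  obtain ⟨r, hr⟩ := IsAlgClosed.exists_pow_nat_eq t⁻¹ c.l_pos
  exact ⟨_, by rw [nrm_smul, e1, hr, smul_smul, inv_mul_cancel₀ ht, one_smul]⟩

/-- Rationality.  `nrm φ = u`, `div φ - D + e Dinf = F - σ F`, `lam (cl F) = z`, so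
`T F - F = div χ + n Dinf`; `T D = D`; hence `T φ / φ = κ χ / σ χ`, `χ` is a unit at the ramification
points, so `θ (r_a) = κ r_a` for the values `r_a` of `φ`, `r_a ^ l = u(a)`; `r_{a₀}` is an `l`-th
root of unity, so `κ = 1`. -/
theorem Std.rational {W : ℕ → c.L} {z : c.G} (h : c.Std W z) (hB : Big E c.thr) (hz : c.dG z = 0)
    {a₀ : E} (h₀ : c.f.eval a₀ = 0) (T : c.Sym) (hW : ∀ k < c.rs, T.aut (W k) = W k)
    (hT : ∀ z', c.lam z' = z → T.g z' = z') {a : E} (ha : c.f.eval a = 0) :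
    ∃ w : E, T.θ w = w ∧ w ^ c.l = (c.ev0 (c.uN a₀ W (c.del W)) a)⁻¹ := by
  obtain ⟨hW', Δ, hΔ, rfl⟩ := h
  obtain ⟨D, hP⟩ := exists_prep hB hΔ hW'
  obtain ⟨e, he⟩ : ∃ e : ℕ, c.dg D = c.l * e := by
    have h1 : c.dg D = -c.dg Δ := by rw [hP.eq, map_sub, dg_div, zero_sub]
    rw [dG_cl, ZMod.intCast_zmod_eq_zero_iff_dvd] at hz
    obtain ⟨k, hk⟩ : (c.l : ℤ) ∣ c.dg D := h1 ▸ hz.neg_right
    have h2 := dg_nonneg hP.nonneg
    have h3 : (0 : ℤ) < c.l := by exact_mod_cast c.l_pos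
    have h4 : 0 ≤ k := by
      rw [hk] at h2
      exact nonneg_of_mul_nonneg_right h2 h3
    exact ⟨k.toNat, by rw [hk, Int.toNat_of_nonneg h4]⟩
  obtain ⟨φ, hφ⟩ := hP.exists_nrm hB he h₀
  obtain ⟨h1, -, h3, h4, h5, h6⟩ := hP.norm' hB h₀
  rw [(hP.norm hB).1, he] at h4
  generalize c.uN a₀ W (c.del W) = u at hφ h1 h3 h4 h5 h6
  have hφ0 : φ ≠ 0 := by
    rintro rfl
    refine h1 (hφ.symm.trans (Finset.prod_eq_zero (Finset.mem_range.2 c.l_pos) (map_zero _)))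
  obtain ⟨F, f1, f2⟩ := exists_inf_nD
    (fun j => c.nD j (c.div φ - D + (e : ℤ) • c.Dinf)) c.l_pos
  have hF := inf_nD (by
    rw [nD_add, nD_sub, nD_Dinf, ← div_nrm hφ0, hφ, h4]; abel) f1 f2
  have hg := hT (c.cl F) (by
    rw [lam_cl, hF, map_add, map_sub, map_zsmul, cl_div, cl_Dinf, hP.cl_eq]; simp)
  rw [Sym.g_cl, ← sub_eq_zero, ← map_sub, cl_eq_zero] at hg
  obtain ⟨χ, hχ, n, hn⟩ := hg
  have hTΔ : T.dv Δ = Δ := by
    have := hΔ.aut T
    refine IsG.unique (W := W) (r := c.rs) ⟨fun k hk => ?_, fun P => ?_⟩ hΔ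
    · rw [← hW k hk]; exact this.1 k hk
    · obtain ⟨k, hk, h⟩ := this.2 P
      exact ⟨k, hk, by rw [← hW k hk]; exact h⟩
  have hTs : T.aut (c.sec W) = c.sec W := by
    unfold sec pS comb
    rw [map_sum]
    refine Finset.sum_congr rfl fun k hk => ?_
    rw [T.aut_smul, hW k (Finset.mem_range.1 hk), map_pow, map_natCast]
  have hTD : T.dv D = D := by
    rw [hP.eq, map_sub, ← T.div_aut, hTs, hTΔ]
  have hTφ : T.aut φ ≠ 0 := (map_ne_zero T.aut).2 hφ0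
  obtain ⟨κ, -, hκ⟩ := exists_smul_of_div_eq (mul_ne_zero hTφ (sg_ne hχ 1)) (mul_ne_zero hφ0 hχ) (by
    have e1 : c.div φ = F - c.sD 1 F + D - (e : ℤ) • c.Dinf := by rw [hF]; abel
    have e2 : T.dv F = F + c.div χ + n • c.Dinf := by rw [add_assoc, ← hn]; abel
    rw [div_mul hTφ (sg_ne hχ 1), div_mul hφ0 hχ, T.div_aut, div_sg, e1]
    simp only [map_add, map_sub, map_zsmul, T.dv_sD, T.dv_Dinf, hTD, e2, sD_Dinf]
    abel)
  have key : ∀ b (hb : c.f.eval b = 0), c.co (c.ram b hb) 0 φ ^ c.l = c.ev0 u b ∧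
      T.θ (c.co (c.ram b hb) 0 φ) = κ * c.co (c.ram b hb) 0 φ := by
    intro b hb
    have d0 : c.Dinf (c.ram b hb) = 0 := by
      rw [Dinf_apply, if_neg]
      simp [ram]
    have o1 : c.ord (c.ram b hb) φ = 0 := by
      have := DFunLike.congr_fun hF (c.ram b hb)
      simp only [Finsupp.coe_sub, Finsupp.coe_add, Finsupp.coe_smul, Pi.sub_apply, Pi.add_apply,
        Pi.smul_apply, sD_apply, sP_ram, div_apply, hP.ram b hb, d0, smul_zero] at this
      omega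
    have o2 : c.ord (c.ram b hb) χ = 0 := by
      have := DFunLike.congr_fun hn (c.ram b hb)
      simp only [Finsupp.coe_sub, Finsupp.coe_add, Finsupp.coe_smul, Pi.sub_apply, Pi.add_apply,
        Pi.smul_apply, Sym.dv_apply, Sym.pl_ram, div_apply, d0, smul_zero] at this
      omega
    have g1 : c.Ge (c.ram b hb) 0 φ := o1 ▸ ge_ord _ φ
    have g2 : c.Ge (c.ram b hb) 0 χ := o2 ▸ ge_ord _ χ
    have n2 : c.co (c.ram b hb) 0 χ ≠ 0 := o2 ▸ co_ord_ne _ hχ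
    have s1 : ∀ (k : ℕ) (ψ : c.L), c.co (c.ram b hb) 0 (c.sg k ψ) = c.co (c.ram b hb) 0 ψ := by
      intro k ψ
      rw [co_sg, zpow_zero, one_mul, sP_ram]
    constructor
    · have := Ge.co_prod (P := c.ram b hb) (n := fun _ => 0) (s := range c.l)
        (φ := fun k => c.sg k φ) fun k _ => ge_sg.2 (by rw [sP_ram]; exact g1)
      simp only [Finset.sum_const_zero, s1, Finset.prod_const, Finset.card_range] at this
      rw [← this, ← co_ram_eq_ev0 b hb h3, ← hφ]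
      rfl
    · have g3 : c.Ge (c.ram b hb) 0 (T.aut φ) := T.ge_aut.2 (by rw [T.pl_ram]; exact g1)
      have g4 : c.Ge (c.ram b hb) 0 (c.sg 1 χ) := ge_sg.2 (by rw [sP_ram]; exact g2)
      have m1 := g3.co_mul g4
      have m2 := g1.co_mul g2
      rw [add_zero] at m1 m2
      rw [hκ, co_smul, m2, s1, T.co_aut, T.pl_ram, ← mul_assoc] at m1
      exact (mul_right_cancel₀ n2 m1).symm
  have hκ1 : κ = 1 := by
    obtain ⟨k1, k2⟩ := key a₀ h₀
    rw [h6] at k1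
    have : NeZero c.l := ⟨c.l_pos.ne'⟩
    obtain ⟨i, -, hi⟩ := c.hζ.eq_pow_of_pow_eq_one k1
    rw [← hi, map_pow, T.hζ] at k2
    exact (mul_eq_right₀ (pow_ne_zero i c.ζ_ne)).1 k2.symm
  obtain ⟨k1, k2⟩ := key a ha
  exact ⟨(c.co (c.ram a ha) 0 φ)⁻¹, by rw [map_inv₀, k2, hκ1, one_mul], by rw [inv_pow, k1]⟩

end Crv
end Crest.Agent.R312
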