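import Crest.Agent.R312.AlgPlace

/-!
# Row 312, algorithm half: symmetries of the expansions, orders of the basic functions
-/

set_option autoImplicit false
open Polynomial Finset HahnSeries
open scoped Classical

noncomputable section
namespace Crest.Agent.R312
namespace Crv
variable {E : Type} [Field E] {c : Crv E} [IsAlgClosed E]

/-- The local twist: `ζ ^ k` at ramification points, `1` elsewhere. -/
def tw (k : ℕ) (P : c.Place) : E := if P.1.2 = 0 then c.ζ ^ k else 1

/-- The coefficientwise twist `∑ aₙ tⁿ ↦ ∑ uⁿ θ(aₙ) tⁿ`. -/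
def e1_twF (θ : E →+* E) (u : E) (z : LaurentSeries E) : LaurentSeries E where
  coeff n := u ^ n * θ (z.coeff n)
  isPWO_support' := z.isPWO_support.mono fun n hn => by
    intro h
    exact hn (by simp [h])

omit [IsAlgClosed E] in
theorem e1_twF_coeff (θ : E →+* E) (u : E) (z : LaurentSeries E) (n : ℤ) :
    (e1_twF θ u z).coeff n = u ^ n * θ (z.coeff n) := rfl

omit [IsAlgClosed E] in
theorem e1_twF_support (θ : E →+* E) (u : E) (z : LaurentSeries E) :
    (e1_twF θ u z).support ⊆ z.support := fun n hn h => hn (by simp [e1_twF_coeff, h])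

/-- The twist as a ring homomorphism. -/
def e1_tw (θ : E →+* E) (u : E) (hu : u ≠ 0) : LaurentSeries E →+* LaurentSeries E where
  toFun := e1_twF θ u
  map_one' := by
    ext n
    by_cases h : n = 0 <;> simp [e1_twF_coeff, HahnSeries.coeff_one, h]
  map_mul' z w := by
    ext n
    rw [e1_twF_coeff, HahnSeries.coeff_mul,
      HahnSeries.coeff_mul_left' z.isPWO_support (e1_twF_support θ u z), map_sum, Finset.mul_sum]
    have h1 : ∑ ij ∈ antidiagonal z.isPWO_support (e1_twF θ u w).isPWO_support n,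
          (e1_twF θ u z).coeff ij.1 * (e1_twF θ u w).coeff ij.2 =
        ∑ ij ∈ antidiagonal z.isPWO_support w.isPWO_support n,
          (e1_twF θ u z).coeff ij.1 * (e1_twF θ u w).coeff ij.2 := by
      refine Finset.sum_subset_zero_on_sdiff
        (antidiagonal_mono_right (e1_twF_support θ u w)) ?_ (fun _ _ => rfl)
      intro b hb
      simp only [Finset.mem_sdiff, Finset.mem_antidiagonal, HahnSeries.mem_support, not_and] at hb
      have : (e1_twF θ u w).coeff b.2 = 0 := by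
        by_contra h
        exact hb.2 hb.1.1 h hb.1.2.2
      rw [this, mul_zero]
    rw [h1]
    refine Finset.sum_congr rfl fun b hb => ?_
    rw [Finset.mem_antidiagonal] at hb
    rw [e1_twF_coeff, e1_twF_coeff, ← hb.2.2, zpow_add₀ hu, map_mul]
    ring
  map_zero' := by
    ext n
    simp [e1_twF_coeff]
  map_add' z w := by
    ext n
    simp [e1_twF_coeff, mul_add]

omit [IsAlgClosed E] in
theorem e1_tw_coeff (θ : E →+* E) (u : E) (hu : u ≠ 0) (z : LaurentSeries E) (n : ℤ) :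
    (e1_tw θ u hu z).coeff n = u ^ n * θ (z.coeff n) := rfl

omit [IsAlgClosed E] in
theorem e1_tw_single (θ : E →+* E) (u : E) (hu : u ≠ 0) (n : ℤ) (a : E) :
    e1_tw θ u hu (single n a) = single n (u ^ n * θ a) := by
  ext k
  rw [e1_tw_coeff]
  by_cases h : k = n
  · subst h; simp
  · simp [HahnSeries.coeff_single_of_ne h]

omit [IsAlgClosed E] in
theorem e1_tw_C (θ : E →+* E) (u : E) (hu : u ≠ 0) (a : E) :
    e1_tw θ u hu (HahnSeries.C a) = HahnSeries.C (θ a) := by
  rw [HahnSeries.C_apply, e1_tw_single, HahnSeries.C_apply]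
  simp

omit [IsAlgClosed E] in
theorem e1_tw_lead (θ : E →+* E) (u : E) (hu : u ≠ 0) {z : LaurentSeries E} {n : ℤ} {a : E}
    (h : Lead z n a) : Lead (e1_tw θ u hu z) n (u ^ n * θ a) :=
  ⟨fun k hk => by rw [e1_tw_coeff, h.1 k hk, map_zero, mul_zero], by rw [e1_tw_coeff, h.2]⟩

omit [IsAlgClosed E] in
theorem e1_lead_C_mul (b : E) {z : LaurentSeries E} {n : ℤ} {a : E}
    (h : Lead z n a) : Lead (HahnSeries.C b * z) n (b * a) :=
  ⟨fun k hk => by rw [HahnSeries.C_mul_eq_smul, HahnSeries.coeff_smul, h.1 k hk, smul_zero],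
    by rw [HahnSeries.C_mul_eq_smul, HahnSeries.coeff_smul, h.2, smul_eq_mul]⟩

omit [IsAlgClosed E] in
/-- Ring homomorphisms agreeing on constants and `x` agree on polynomials in `x`. -/
theorem e1_po_ext {F : Type} [Field F] {e₁ e₂ : c.L →+* F}
    (hc : ∀ a : E, e₁ (algebraMap E c.L a) = e₂ (algebraMap E c.L a)) (hx : e₁ c.x = e₂ c.x)
    (g : E[X]) : e₁ (c.po g) = e₂ (c.po g) := by
  induction g using Polynomial.induction_on' with
  | add p q hp hq => simp [hp, hq]
  | monomial n a => simp [po, aeval_monomial, hc, hx]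

omit [IsAlgClosed E] in
/-- Two expansions agreeing on constants and `x`, with the same leading term of `y`, agree. -/
theorem e1_hom_ext {e₁ e₂ : c.L →+* LaurentSeries E}
    (hc : ∀ a : E, e₁ (algebraMap E c.L a) = e₂ (algebraMap E c.L a)) (hx : e₁ c.x = e₂ c.x)
    {n : ℤ} {a : E} (ha : a ≠ 0) (h₁ : Lead (e₁ c.y) n a) (h₂ : Lead (e₂ c.y) n a) : e₁ = e₂ := by
  refine c.ringHom_ext hc hx (eq_of_pow_eq_of_lead c.l_pos c.hζ ha ?_ h₁ h₂)
  rw [← map_pow, ← map_pow, c.y_pow]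
  exact e1_po_ext hc hx _

omit [IsAlgClosed E] in
theorem e1_snd_ne_of_none {P : c.Place} (h : P.1.1 = none) : P.1.2 ≠ 0 := by
  intro h0
  have := P.2
  rw [h, h0, zero_pow c.l_pos.ne'] at this
  exact zero_ne_one this

omit [IsAlgClosed E] in
theorem e1_snd_eq_zero_iff {P : c.Place} {α : E} (h : P.1.1 = some α) :
    P.1.2 = 0 ↔ c.f.eval α = 0 := by
  have := P.2
  rw [h] at this
  change P.1.2 ^ c.l = c.f.eval α at this
  rw [← this, pow_eq_zero_iff c.l_pos.ne']

omit [IsAlgClosed E] in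
theorem e1_yc_ne (P : c.Place) : c.yc P ≠ 0 := by
  rcases h : P.1.1 with _ | α
  · simpa [yc, h] using e1_snd_ne_of_none h
  · by_cases hα : c.f.eval α = 0
    · simp [yc, h, hα]
    · simpa [yc, h, hα] using fun h0 => hα ((e1_snd_eq_zero_iff h).1 h0)

omit [IsAlgClosed E] in
theorem e1_tw_ne (k : ℕ) (P : c.Place) : tw k P ≠ 0 := by
  unfold tw
  split_ifs
  · exact pow_ne_zero _ c.ζ_ne
  · exact one_ne_zero

theorem e1_emb_sg (P : c.Place) (k : ℕ) :
    (c.emb P).comp (c.sg k : c.L →+* c.L) =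
      (e1_tw (RingHom.id E) (tw k P) (e1_tw_ne k P)).comp (c.emb (c.sP k P)) := by
  have hy : Lead ((c.emb P).comp (c.sg k : c.L →+* c.L) c.y) (c.yo P) (c.ζ ^ k * c.yc P) := by
    have : (c.emb P).comp (c.sg k : c.L →+* c.L) c.y = HahnSeries.C (c.ζ ^ k) * c.emb P c.y := by
      change c.emb P (c.sg k c.y) = _
      rw [sg_y, Algebra.smul_def, map_mul, emb_C]
    rw [this]
    exact e1_lead_C_mul _ (c.emb_y P)
  refine e1_hom_ext (fun a => ?_) ?_ (mul_ne_zero (pow_ne_zero k c.ζ_ne) (e1_yc_ne P)) hy ?_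
  · change c.emb P (c.sg k _) = e1_tw _ _ (e1_tw_ne k P) (c.emb _ _)
    rw [AlgHom.commutes, emb_C, emb_C, e1_tw_C, RingHom.id_apply]
  · change c.emb P (c.sg k _) = e1_tw _ _ (e1_tw_ne k P) (c.emb _ _)
    rw [sg_x, emb_x, emb_x]
    have h1 : (c.sP k P).1.1 = P.1.1 := rfl
    rcases h : P.1.1 with _ | α
    · have ht : tw k P = 1 := if_neg (e1_snd_ne_of_none h)
      simp only [xs, h1, h, Option.elim_none, e1_tw_single, ht, one_zpow, map_one, mul_one]
    · by_cases hα : c.f.eval α = 0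
      · have ht : tw k P = c.ζ ^ k := if_pos ((e1_snd_eq_zero_iff h).2 hα)
        have hl : (c.ζ ^ k) ^ (c.l : ℤ) = 1 := by
          rw [zpow_natCast, ← pow_mul, mul_comm, pow_mul, c.ζ_pow, one_pow]
        simp only [xs, h1, h, Option.elim_some, hα, if_true, map_add, e1_tw_C, e1_tw_single, ht,
          hl, RingHom.id_apply, one_mul]
      · have ht : tw k P = 1 := if_neg fun h0 => hα ((e1_snd_eq_zero_iff h).1 h0)
        simp only [xs, h1, h, Option.elim_some, hα, if_false, map_add, e1_tw_C, e1_tw_single, ht,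
          one_zpow, RingHom.id_apply, one_mul]
  · have h2 := e1_tw_lead (RingHom.id E) (tw k P) (e1_tw_ne k P) (c.emb_y (c.sP k P))
    have h1 : (c.sP k P).1.1 = P.1.1 := rfl
    have h1' : (c.sP k P).1.2 = c.ζ ^ k * P.1.2 := rfl
    have ho : c.yo (c.sP k P) = c.yo P := rfl
    have hc : tw k P ^ c.yo P * RingHom.id E (c.yc (c.sP k P)) = c.ζ ^ k * c.yc P := by
      rcases h : P.1.1 with _ | α
      · have ht : tw k P = 1 := if_neg (e1_snd_ne_of_none h)
        simp [yc, h1, h1', h, ht]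
      · by_cases hα : c.f.eval α = 0
        · have ht : tw k P = c.ζ ^ k := if_pos ((e1_snd_eq_zero_iff h).2 hα)
          simp [yc, yo, h1, h, ht, hα]
        · have ht : tw k P = 1 := if_neg fun h0 => hα ((e1_snd_eq_zero_iff h).1 h0)
          simp [yc, h1, h1', h, ht, hα]
    rw [ho, hc] at h2
    exact h2

/-- Both sides are coefficients of ring homomorphisms `L → E((t))`: `emb P ∘ sg k` and
`scale (tw k P) ∘ emb (sP k P)`, where `scale u` is the ring endomorphism `t ↦ u t`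
(coefficient `n` times `u ^ n`); use `ringHom_ext` and `eq_of_pow_eq_of_lead`.
(`P.1.2 = 0` iff `P` is a ramification point.) -/
theorem co_sg (P : c.Place) (k : ℕ) (n : ℤ) (φ : c.L) :
    c.co P n (c.sg k φ) = tw k P ^ n * c.co (c.sP k P) n φ := by
  have h := DFunLike.congr_fun (e1_emb_sg P k) φ
  change c.emb P (c.sg k φ) = e1_tw _ _ (e1_tw_ne k P) (c.emb _ φ) at h
  unfold co
  rw [h, e1_tw_coeff, RingHom.id_apply]

theorem ge_sg {P : c.Place} {k : ℕ} {n : ℤ} {φ : c.L} :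
    c.Ge P n (c.sg k φ) ↔ c.Ge (c.sP k P) n φ := by
  refine forall₂_congr fun j _ => ?_
  rw [co_sg, mul_eq_zero, or_iff_right (zpow_ne_zero j (e1_tw_ne k P))]

theorem ord_sg (P : c.Place) (k : ℕ) (φ : c.L) : c.ord P (c.sg k φ) = c.ord (c.sP k P) φ := by
  by_cases h : φ = 0
  · subst h
    rw [map_zero, ord_zero, ord_zero]
  · refine ord_eq (ge_sg.2 (ge_ord _ _)) ?_
    rw [co_sg]
    exact mul_ne_zero (zpow_ne_zero _ (e1_tw_ne k P)) (co_ord_ne _ h)

omit [IsAlgClosed E] in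
theorem Sym.e1_eval_symm (T : c.Sym) (α : E) : c.f.eval (T.θ.symm α) = 0 ↔ c.f.eval α = 0 := by
  have := T.eval_θ (T.θ.symm α)
  rw [RingEquiv.apply_symm_apply] at this
  rw [this, map_eq_zero_iff _ T.θ.injective]

omit [IsAlgClosed E] in
theorem Sym.e1_deriv (T : c.Sym) (α : E) :
    T.θ (c.f.derivative.eval (T.θ.symm α)) = c.f.derivative.eval α := by
  have h : c.f.derivative.map (T.θ : E →+* E) = c.f.derivative := by
    rw [← Polynomial.derivative_map, T.hf]
  have := Polynomial.eval_map_apply (p := c.f.derivative) (T.θ : E →+* E) (T.θ.symm α)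
  rw [h] at this
  simpa using this.symm

theorem Sym.e1_emb_aut (T : c.Sym) (P : c.Place) :
    (c.emb P).comp T.aut =
      (e1_tw (T.θ : E →+* E) 1 one_ne_zero).comp (c.emb (T.pl P)) := by
  have hy : Lead ((c.emb P).comp T.aut c.y) (c.yo P) (c.yc P) := by
    have : (c.emb P).comp T.aut c.y = c.emb P c.y := by
      change c.emb P (T.aut c.y) = _
      rw [T.aut_y]
    rw [this]
    exact c.emb_y P
  have h1 : (T.pl P).1.1 = P.1.1.map T.θ.symm := rfl
  have h1' : (T.pl P).1.2 = T.θ.symm P.1.2 := rfl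
  refine e1_hom_ext (fun a => ?_) ?_ (e1_yc_ne P) hy ?_
  · change c.emb P (T.aut _) = e1_tw _ _ one_ne_zero (c.emb _ _)
    rw [T.aut_algebraMap, emb_C, emb_C, e1_tw_C]
    rfl
  · change c.emb P (T.aut _) = e1_tw _ _ one_ne_zero (c.emb _ _)
    rw [T.aut_x, emb_x, emb_x]
    rcases h : P.1.1 with _ | α
    · simp only [xs, h1, h, Option.map_none, Option.elim_none, e1_tw_single, one_zpow, map_one,
        mul_one]
    · by_cases hα : c.f.eval α = 0
      · have hα' := (T.e1_eval_symm α).2 hα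
        simp only [xs, h1, h, Option.map_some, Option.elim_some, hα, hα', if_true, map_add,
          e1_tw_C, e1_tw_single, one_zpow, one_mul, map_inv₀, RingHom.coe_coe, T.e1_deriv,
          RingEquiv.apply_symm_apply]
      · have hα' : ¬ c.f.eval (T.θ.symm α) = 0 := fun h0 => hα ((T.e1_eval_symm α).1 h0)
        simp only [xs, h1, h, Option.map_some, Option.elim_some, hα, hα', if_false, map_add,
          e1_tw_C, e1_tw_single, one_zpow, one_mul, map_one, RingHom.coe_coe,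
          RingEquiv.apply_symm_apply]
  · have h2 := e1_tw_lead (T.θ : E →+* E) 1 one_ne_zero (c.emb_y (T.pl P))
    have ho : c.yo (T.pl P) = c.yo P := by
      rcases h : P.1.1 with _ | α
      · simp [yo, h1, h]
      · simp [yo, h1, h, T.e1_eval_symm]
    have hc : (1 : E) ^ c.yo P * (T.θ : E →+* E) (c.yc (T.pl P)) = c.yc P := by
      rcases h : P.1.1 with _ | α
      · simp [yc, h1, h1', h]
      · by_cases hα : c.f.eval α = 0
        · simp [yc, h1, h, T.e1_eval_symm, hα]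
        · simp [yc, h1, h1', h, T.e1_eval_symm, hα]
    rw [ho, hc] at h2
    exact h2

/-- Same proof with `HahnSeries.map` (`HahnSeries.map_mul`). -/
theorem Sym.co_aut (T : c.Sym) (P : c.Place) (n : ℤ) (φ : c.L) :
    c.co P n (T.aut φ) = T.θ (c.co (T.pl P) n φ) := by
  have h := DFunLike.congr_fun (T.e1_emb_aut P) φ
  change c.emb P (T.aut φ) = e1_tw _ _ one_ne_zero (c.emb _ φ) at h
  unfold co
  rw [h, e1_tw_coeff, one_zpow, one_mul]
  rfl

theorem Sym.ge_aut (T : c.Sym) {P : c.Place} {n : ℤ} {φ : c.L} :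
    c.Ge P n (T.aut φ) ↔ c.Ge (T.pl P) n φ := by
  refine forall₂_congr fun j _ => ?_
  rw [T.co_aut, map_eq_zero_iff _ T.θ.injective]

theorem Sym.ord_aut (T : c.Sym) (P : c.Place) (φ : c.L) :
    c.ord P (T.aut φ) = c.ord (T.pl P) φ := by
  by_cases h : φ = 0
  · subst h
    rw [map_zero, ord_zero, ord_zero]
  · refine ord_eq (T.ge_aut.2 (ge_ord _ _)) ?_
    rw [T.co_aut, Ne, map_eq_zero_iff _ T.θ.injective]
    exact co_ord_ne _ h

/-! ### the action on places -/

omit [IsAlgClosed E] in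
@[simp] theorem sP_zero (P : c.Place) : c.sP 0 P = P :=
  Subtype.ext (Prod.ext rfl (by change c.ζ ^ 0 * P.1.2 = P.1.2; rw [pow_zero, one_mul]))

omit [IsAlgClosed E] in
theorem sP_sP (a b : ℕ) (P : c.Place) : c.sP a (c.sP b P) = c.sP (a + b) P :=
  Subtype.ext (Prod.ext rfl (by
    change c.ζ ^ a * (c.ζ ^ b * P.1.2) = c.ζ ^ (a + b) * P.1.2; rw [_root_.pow_add, mul_assoc]))

omit [IsAlgClosed E] in
@[simp] theorem sP_l (P : c.Place) : c.sP c.l P = P :=
  Subtype.ext (Prod.ext rfl (by change c.ζ ^ c.l * P.1.2 = P.1.2; rw [c.ζ_pow, one_mul]))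

omit [IsAlgClosed E] in
@[simp] theorem sP_fst (k : ℕ) (P : c.Place) : (c.sP k P).1.1 = P.1.1 := rfl

omit [IsAlgClosed E] in
theorem sP_inf (k t : ℕ) : c.sP k (c.inf t) = c.inf (k + t) :=
  Subtype.ext (Prod.ext rfl (by change c.ζ ^ k * c.ζ ^ t = c.ζ ^ (k + t); rw [_root_.pow_add]))

omit [IsAlgClosed E] in
@[simp] theorem sP_ram (k : ℕ) (a : E) (h : c.f.eval a = 0) : c.sP k (c.ram a h) = c.ram a h :=
  Subtype.ext (Prod.ext rfl (by change c.ζ ^ k * 0 = 0; rw [mul_zero]))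

omit [IsAlgClosed E] in
theorem inf_inj {s t : ℕ} (hs : s < c.l) (ht : t < c.l) (h : c.inf s = c.inf t) : s = t :=
  c.hζ.pow_inj hs ht (congrArg (fun P : c.Place => P.1.2) h)

omit [IsAlgClosed E] in
theorem inf_ne_ram (t : ℕ) (a : E) (h : c.f.eval a = 0) : c.inf t ≠ c.ram a h := by
  intro e
  have : (none : Option E) = some a := congrArg (fun P : c.Place => P.1.1) e
  cases this

omit [IsAlgClosed E] in
theorem exists_inf {P : c.Place} (h : P.1.1 = none) : ∃ t < c.l, P = c.inf t := by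
  have : NeZero c.l := ⟨c.l_pos.ne'⟩
  have h1 := P.2
  rw [h] at h1
  obtain ⟨t, ht, e⟩ := c.hζ.eq_pow_of_pow_eq_one (ξ := P.1.2) h1
  exact ⟨t, ht, Subtype.ext (Prod.ext h e.symm)⟩

omit [IsAlgClosed E] in
theorem eq_ram {P : c.Place} {a : E} (h : P.1.1 = some a) (ha : c.f.eval a = 0) :
    P = c.ram a ha :=
  Subtype.ext (Prod.ext h ((e1_snd_eq_zero_iff h).2 ha))

omit [IsAlgClosed E] in
/-- `σ` is transitive on the fibres. -/
theorem exists_sP {P Q : c.Place} (h : P.1.1 = Q.1.1) : ∃ k < c.l, Q = c.sP k P := by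
  have : NeZero c.l := ⟨c.l_pos.ne'⟩
  have h1 : Q.1.2 ^ c.l = P.1.2 ^ c.l := by rw [P.2, Q.2, h]
  by_cases h0 : P.1.2 = 0
  · refine ⟨0, c.l_pos, ?_⟩
    rw [sP_zero]
    rw [h0, zero_pow c.l_pos.ne', pow_eq_zero_iff c.l_pos.ne'] at h1
    exact Subtype.ext (Prod.ext h.symm (h1.trans h0.symm))
  · have h2 : (Q.1.2 / P.1.2) ^ c.l = 1 := by
      rw [div_pow, h1, div_self (pow_ne_zero _ h0)]
    obtain ⟨t, ht, e⟩ := c.hζ.eq_pow_of_pow_eq_one h2
    refine ⟨t, ht, Subtype.ext (Prod.ext h.symm ?_)⟩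
    change Q.1.2 = c.ζ ^ t * P.1.2
    rw [e, div_mul_cancel₀ _ h0]

omit [IsAlgClosed E] in
/-- `σ` acts freely outside the ramification points. -/
theorem sP_inj_of_ne {P : c.Place} (h : P.1.2 ≠ 0) {a b : ℕ} (ha : a < c.l) (hb : b < c.l)
    (e : c.sP a P = c.sP b P) : a = b :=
  c.hζ.pow_inj ha hb (mul_right_cancel₀ h (congrArg (fun P : c.Place => P.1.2) e))

theorem exists_place (o : Option E) : ∃ P : c.Place, P.1.1 = o := by
  obtain ⟨β, hβ⟩ := IsAlgClosed.exists_pow_nat_eq (o.elim 1 fun α => c.f.eval α) c.l_pos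
  exact ⟨⟨(o, β), hβ⟩, rfl⟩

omit [IsAlgClosed E] in
theorem Sym.e1_symm_ζ (T : c.Sym) : T.θ.symm c.ζ = c.ζ := by
  rw [RingEquiv.symm_apply_eq, T.hζ]

omit [IsAlgClosed E] in
@[simp] theorem Sym.pl_inf (T : c.Sym) (t : ℕ) : T.pl (c.inf t) = c.inf t :=
  Subtype.ext (Prod.ext rfl (by
    change T.θ.symm (c.ζ ^ t) = c.ζ ^ t; rw [map_pow, T.e1_symm_ζ]))

omit [IsAlgClosed E] in
@[simp] theorem Sym.pl_ram (T : c.Sym) (a : E) (h : c.f.eval a = 0) :
    T.pl (c.ram a h) = c.ram a h := by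
  have ha : T.θ.symm a = a := by rw [RingEquiv.symm_apply_eq, T.hr a h]
  refine Subtype.ext (Prod.ext ?_ (map_zero T.θ.symm))
  change some (T.θ.symm a) = some a
  rw [ha]

omit [IsAlgClosed E] in
theorem Sym.pl_sP (T : c.Sym) (k : ℕ) (P : c.Place) : T.pl (c.sP k P) = c.sP k (T.pl P) :=
  Subtype.ext (Prod.ext rfl (by
    change T.θ.symm (c.ζ ^ k * P.1.2) = c.ζ ^ k * T.θ.symm P.1.2
    rw [map_mul, map_pow, T.e1_symm_ζ]))

omit [IsAlgClosed E] in
theorem Sym.pl_pow (T : c.Sym) (k : ℕ) (P : c.Place) : (T.pow k).pl P = T.pl^[k] P := by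
  induction k with
  | zero =>
    refine Subtype.ext (Prod.ext ?_ rfl)
    change P.1.1.map _ = P.1.1
    cases P.1.1 <;> rfl
  | succ k ih =>
    rw [Function.iterate_succ_apply', ← ih]
    have hs : ∀ a : E, (T.pow (k + 1)).θ.symm a = T.θ.symm ((T.pow k).θ.symm a) := by
      intro a
      rw [RingEquiv.symm_apply_eq]
      change a = (T.θ ^ (k + 1) : RingAut E) _
      rw [pow_succ]
      change a = (T.pow k).θ (T.θ _)
      rw [RingEquiv.apply_symm_apply, RingEquiv.apply_symm_apply]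
    refine Subtype.ext (Prod.ext ?_ (hs _))
    change P.1.1.map (T.pow (k + 1)).θ.symm = (P.1.1.map (T.pow k).θ.symm).map T.θ.symm
    cases P.1.1 with
    | none => rfl
    | some α => exact congrArg some (hs α)

omit [IsAlgClosed E] in
theorem Sym.pl_surjective (T : c.Sym) : Function.Surjective T.pl := by
  rintro ⟨⟨o, β⟩, h⟩
  refine ⟨⟨(o.map T.θ, T.θ β), ?_⟩, Subtype.ext (Prod.ext ?_ (T.θ.symm_apply_apply β))⟩
  · cases o with
    | none =>
      change β ^ c.l = 1 at h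
      change T.θ β ^ c.l = 1
      rw [← map_pow, h, map_one]
    | some α =>
      change β ^ c.l = c.f.eval α at h
      change T.θ β ^ c.l = c.f.eval (T.θ α)
      rw [← map_pow, h, T.eval_θ]
  · change (o.map T.θ).map T.θ.symm = o
    cases o with
    | none => rfl
    | some α => exact congrArg some (T.θ.symm_apply_apply α)

/-! ### orders and values of the basic functions -/

theorem e2_pow {P : c.Place} {n : ℤ} {φ : c.L} (h : c.Ge P n φ) (k : ℕ) :
    c.Ge P (k * n) (φ ^ k) ∧ c.co P (k * n) (φ ^ k) = c.co P n φ ^ k := by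
  have h1 := Ge.prod (s := range k) (n := fun _ => n) (φ := fun _ => φ) fun _ _ => h
  have h2 := Ge.co_prod (s := range k) (n := fun _ => n) (φ := fun _ => φ) fun _ _ => h
  simp only [sum_const, prod_const, card_range, nsmul_eq_mul] at h1 h2
  exact ⟨h1, h2⟩

theorem e2_const (P : c.Place) (a : E) : c.Ge P 0 (algebraMap E c.L a) := fun k hk => by
  rw [co_algebraMap, if_neg hk.ne]

theorem e2_x_inf {P : c.Place} (h : P.1.1 = none) (n : ℤ) :
    c.co P n c.x = if n = -1 then 1 else 0 := by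
  rw [co, emb_x, xs, h, Option.elim_none, HahnSeries.coeff_single]
  congr

theorem e2_x_fin {P : c.Place} {α : E} (h : P.1.1 = some α) :
    c.Ge P (if c.f.eval α = 0 then (c.l : ℤ) else 1) (c.x - algebraMap E c.L α) ∧
      c.co P (if c.f.eval α = 0 then (c.l : ℤ) else 1) (c.x - algebraMap E c.L α) ≠ 0 := by
  simp only [Ge, co, map_sub, emb_x, emb_C, xs, h, Option.elim_some, add_sub_cancel_left]
  split_ifs with h0
  · exact ⟨fun k hk => HahnSeries.coeff_single_of_ne hk.ne, by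
      rw [HahnSeries.coeff_single_same]; exact inv_ne_zero (c.derivative_ne h0)⟩
  · exact ⟨fun k hk => HahnSeries.coeff_single_of_ne hk.ne, by
      rw [HahnSeries.coeff_single_same]; exact one_ne_zero⟩

omit [IsAlgClosed E] in
theorem e2_pos (α : E) : 0 < (if c.f.eval α = 0 then (c.l : ℤ) else 1) := by
  split_ifs
  · exact_mod_cast c.l_pos
  · exact one_pos

omit [IsAlgClosed E] in
theorem e2_po_sub (α : E) : c.po (X - Polynomial.C α) = c.x - algebraMap E c.L α := by
  simp [po]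

theorem e2_po_zero {P : c.Place} {α : E} (h : P.1.1 = some α) (g : E[X]) : c.Ge P 0 (c.po g) := by
  have hx : c.Ge P 0 c.x := by
    simpa using ((e2_x_fin h).1.mono (e2_pos α).le).add (e2_const P α)
  rw [po, aeval_eq_sum_range]
  exact Ge.sum fun i _ => Ge.smul (by simpa using (e2_pow hx i).1) _

theorem e2_po_fin {P : c.Place} {α : E} (h : P.1.1 = some α) (g : E[X]) :
    c.Ge P (if c.f.eval α = 0 then (c.l : ℤ) else 1) (c.po g - algebraMap E c.L (g.eval α)) := by
  obtain ⟨q, hq⟩ := X_sub_C_dvd_sub_C_eval (p := g) (a := α)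
  have h1 := congrArg c.po hq
  rw [map_sub, map_mul, e2_po_sub, show c.po (Polynomial.C (g.eval α)) = _ from aeval_C _ _] at h1
  simpa [h1] using (e2_x_fin h).1.mul (e2_po_zero h q)

theorem e2_co_fin {P : c.Place} {α : E} (h : P.1.1 = some α) (g : E[X]) :
    c.co P 0 (c.po g) = g.eval α := by
  have h1 := e2_po_fin h g 0 (e2_pos α)
  rwa [co_sub, co_algebraMap, if_pos rfl, sub_eq_zero] at h1

theorem e2_po_inf {P : c.Place} (h : P.1.1 = none) {g : E[X]} {n : ℕ} (hg : g.natDegree ≤ n) :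
    c.Ge P (-(n : ℤ)) (c.po g) ∧ c.co P (-(n : ℤ)) (c.po g) = g.coeff n := by
  have hx : c.Ge P (-1) c.x := fun k hk => by rw [e2_x_inf h, if_neg hk.ne]
  have hp := fun i => e2_pow hx i
  simp only [mul_neg, mul_one, e2_x_inf h, if_true, one_pow] at hp
  rw [po, aeval_eq_sum_range' (Nat.lt_succ_of_le hg)]
  refine ⟨Ge.sum fun i hi => ((hp i).1.mono ?_).smul _, ?_⟩
  · have := mem_range.1 hi
    omega
  · rw [co_sum, sum_range_succ, co_smul, (hp n).2, mul_one, sum_eq_zero, zero_add]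
    intro i hi
    have := mem_range.1 hi
    rw [co_smul, (hp i).1 _ (by omega), mul_zero]

theorem ord_x_sub (P : c.Place) (α : E) : c.ord P (c.x - algebraMap E c.L α) =
    if P.1.1 = none then -1 else if P.1.1 = some α then (if c.f.eval α = 0 then (c.l : ℤ) else 1)
      else 0 := by
  rcases h : P.1.1 with _ | β
  · rw [if_pos rfl]
    refine ord_eq (fun k hk => ?_) ?_
    · rw [co_sub, e2_x_inf h, if_neg hk.ne, co_algebraMap, if_neg (by omega), sub_zero]
    · rw [co_sub, e2_x_inf h, if_pos rfl, co_algebraMap, if_neg (by omega), sub_zero]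
      exact one_ne_zero
  · rw [if_neg (Option.some_ne_none β)]
    by_cases hβ : β = α
    · subst hβ
      rw [if_pos rfl]
      exact ord_eq (e2_x_fin h).1 (e2_x_fin h).2
    · rw [if_neg fun e => hβ (Option.some.inj e), ← e2_po_sub]
      refine ord_eq (e2_po_zero h _) ?_
      rw [e2_co_fin h, eval_sub, eval_X, eval_C]
      exact sub_ne_zero.2 hβ

theorem ord_y (P : c.Place) : c.ord P c.y = c.yo P := by
  refine ord_eq (c.emb_y P).1 ((c.emb_y P).2.trans_ne ?_)
  obtain ⟨⟨_ | α, β⟩, h⟩ := P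
  · exact fun h0 : β = 0 => by simp [h0, c.l_pos.ne'] at h
  · change (if c.f.eval α = 0 then 1 else β) ≠ 0
    split_ifs with h1
    · exact one_ne_zero
    · exact fun h0 => h1 (by simpa [h0, c.l_pos.ne'] using h.symm)

theorem ord_po_inf {P : c.Place} (h : P.1.1 = none) {g : E[X]} (hg : g ≠ 0) :
    c.ord P (c.po g) = -(g.natDegree : ℤ) := by
  exact ord_eq (e2_po_inf h le_rfl).1 ((e2_po_inf h le_rfl).2.trans_ne (leadingCoeff_ne_zero.2 hg))

theorem ord_po_fin {P : c.Place} {α : E} (h : P.1.1 = some α) {g : E[X]} (hg : g ≠ 0) :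
    c.ord P (c.po g) = (if c.f.eval α = 0 then (c.l : ℤ) else 1) * (g.rootMultiplicity α : ℤ) := by
  obtain ⟨q, hq, hd⟩ := exists_eq_pow_rootMultiplicity_mul_and_not_dvd g hg α
  have h1 : c.co P 0 (c.po q) ≠ 0 := by
    rw [e2_co_fin h]
    exact fun h0 => hd (dvd_iff_isRoot.2 h0)
  conv_lhs => rw [hq]
  rw [map_mul, map_pow, e2_po_sub, ord_mul P (pow_ne_zero _ (ne_of_co (e2_x_fin h).2)) (ne_of_co h1),
    ord_pow, ord_eq (e2_x_fin h).1 (e2_x_fin h).2, ord_eq (e2_po_zero h q) h1, add_zero, mul_comm]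

theorem ge_po_fin {P : c.Place} {α : E} (h : P.1.1 = some α) (g : E[X]) :
    c.Ge P 0 (c.po g) ∧ c.co P 0 (c.po g) = g.eval α := by
  exact ⟨e2_po_zero h g, e2_co_fin h g⟩

theorem ge_y_fin {P : c.Place} {α : E} (h : P.1.1 = some α) :
    c.Ge P 0 c.y ∧ c.co P 0 c.y = P.1.2 := by
  have h1 := c.emb_y P
  have h2 := P.2
  rw [yo, yc, h, Option.elim_some, Option.elim_some] at h1
  rw [h, Option.elim_some] at h2
  split_ifs at h1 with h0
  · rw [h0] at h2
    exact ⟨fun k hk => h1.1 k (by omega),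
      (h1.1 0 one_pos).trans ((pow_eq_zero_iff c.l_pos.ne').1 h2).symm⟩
  · exact h1

theorem ge_po_inf {P : c.Place} (h : P.1.1 = none) {g : E[X]} {n : ℕ} (hg : g.natDegree ≤ n) :
    c.Ge P (-(n : ℤ)) (c.po g) ∧ c.co P (-(n : ℤ)) (c.po g) = g.coeff n := by
  exact e2_po_inf h hg

theorem ge_y_inf {P : c.Place} (h : P.1.1 = none) :
    c.Ge P (-(c.m : ℤ)) c.y ∧ c.co P (-(c.m : ℤ)) c.y = P.1.2 := by
  have h1 := c.emb_y P
  rw [yo, yc, h, Option.elim_none, Option.elim_none] at h1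
  exact h1

theorem ge_y_ram (a : E) (h : c.f.eval a = 0) :
    c.Ge (c.ram a h) 1 c.y ∧ c.co (c.ram a h) 1 c.y = 1 := by
  have h1 := c.emb_y (c.ram a h)
  simp only [yo, yc, ram, Option.elim_some, if_pos h] at h1
  exact h1

/-- At a ramification point a polynomial in `x` is its value up to order `l`. -/
theorem ge_po_sub_ram (a : E) (h : c.f.eval a = 0) (g : E[X]) :
    c.Ge (c.ram a h) c.l (c.po g - algebraMap E c.L (g.eval a)) := by
  simpa only [if_pos h] using e2_po_fin (P := c.ram a h) rfl g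

theorem ge_S_fin {P : c.Place} {α : E} (h : P.1.1 = some α) {N : ℕ} {φ : c.L} (hφ : φ ∈ c.S N) :
    c.Ge P 0 φ := by
  rw [← c.mkp_pc hφ, mkp]
  exact Ge.sum fun j _ => by simpa using (e2_po_zero h _).mul (e2_pow (ge_y_fin h).1 j).1

theorem e2_term_inf {P : c.Place} (h : P.1.1 = none) {N : ℕ} {φ : c.L} (hφ : φ ∈ c.S N) (j : ℕ) :
    c.Ge P (-(N : ℤ)) (c.po (c.pc φ j) * c.y ^ j) ∧ c.co P (-(N : ℤ)) (c.po (c.pc φ j) * c.y ^ j) =
      if j * c.m ≤ N then (c.pc φ j).coeff (N - j * c.m) * P.1.2 ^ j else 0 := by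
  have h1 := c.degree_pc_lt hφ j
  split_ifs with hj
  · rw [Nat.succ_sub hj] at h1
    obtain ⟨a1, a2⟩ := e2_po_inf h (g := c.pc φ j) (n := N - j * c.m)
      (natDegree_le_iff_coeff_eq_zero.2 fun k hk =>
        coeff_eq_zero_of_degree_lt (h1.trans_le (by exact_mod_cast hk)))
    obtain ⟨b1, b2⟩ := e2_pow (ge_y_inf h).1 j
    have e : -(N : ℤ) = -((N - j * c.m : ℕ) : ℤ) + j * -(c.m : ℤ) := by
      rw [Nat.cast_sub hj]; push_cast; ring
    rw [e]
    exact ⟨a1.mul b1, by rw [a1.co_mul b1, a2, b2, (ge_y_inf h).2]⟩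
  · rw [Nat.sub_eq_zero_of_le (by omega), Nat.cast_zero, Nat.WithBot.lt_zero_iff, degree_eq_bot] at h1
    rw [h1, map_zero, zero_mul]
    exact ⟨Ge.zero _ _, co_zero _ _⟩

theorem ge_S_inf {P : c.Place} (h : P.1.1 = none) {N : ℕ} {φ : c.L} (hφ : φ ∈ c.S N) :
    c.Ge P (-(N : ℤ)) φ := by
  rw [← c.mkp_pc hφ, mkp]
  exact Ge.sum fun j _ => (e2_term_inf h hφ j).1

theorem co_ram_eq_ev0 (a : E) (h : c.f.eval a = 0) {N : ℕ} {φ : c.L} (hφ : φ ∈ c.S N) :
    c.co (c.ram a h) 0 φ = c.ev0 φ a := by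
  have h1 : ∀ j, c.co (c.ram a h) 0 (c.po (c.pc φ j) * c.y ^ j) = (c.pc φ j).eval a * 0 ^ j :=
    fun j => by
      obtain ⟨b1, b2⟩ := e2_pow (ge_y_fin (P := c.ram a h) rfl).1 j
      rw [mul_zero] at b1 b2
      have := (e2_po_zero (P := c.ram a h) rfl (c.pc φ j)).co_mul b1
      rwa [add_zero, b2, e2_co_fin rfl, (ge_y_fin rfl).2] at this
  conv_lhs => rw [← c.mkp_pc hφ, mkp]
  rw [co_sum, sum_eq_single_of_mem 0 (mem_range.2 c.l_pos) fun j _ hj => by
    rw [h1, zero_pow hj, mul_zero], h1, pow_zero, mul_one, ev0]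

theorem co_inf_eq_topv (t : ℕ) {N : ℕ} {φ : c.L} (hφ : φ ∈ c.S N) :
    c.co (c.inf t) (-(N : ℤ)) φ = c.topv N t φ := by
  conv_lhs => rw [← c.mkp_pc hφ, mkp]
  rw [co_sum, topv]
  exact sum_congr rfl fun j _ => by rw [(e2_term_inf rfl hφ j).2, pow_mul]; rfl

/-- Low coordinates vanishing at `a` give vanishing at the ramification point. -/
theorem ge_ram_of_pc (a : E) (h : c.f.eval a = 0) {N : ℕ} {φ : c.L} (hφ : φ ∈ c.S N) {n : ℕ}
    (hn : n ≤ c.l) (h0 : ∀ k < n, (c.pc φ k).eval a = 0) : c.Ge (c.ram a h) n φ := by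
  rw [← c.mkp_pc hφ, mkp]
  refine Ge.sum fun j _ => ?_
  have h1 := (e2_pow (ge_y_ram a h).1 j).1
  rcases lt_or_ge j n with hj | hj
  · have h2 := ge_po_sub_ram a h (c.pc φ j)
    rw [h0 j hj, map_zero, sub_zero] at h2
    exact (h2.mul h1).mono (by omega)
  · exact ((e2_po_zero (P := c.ram a h) rfl _).mul h1).mono (by omega)

end Crv
end Crest.Agent.R312
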