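import Crest.Agent.R312.AlgCPoly

/-!
# Row 312, algorithm half: adjoining a root (field extension or splitting into components)
DO NOT change the definitions.  (Write `_root_.funext`: `Polynomial.funext` is open.)
-/

set_option autoImplicit false
open Finset Polynomial Crest.Agent.Lib.PolyTime
open scoped Classical

noncomputable section
namespace Crest.Agent.R312
namespace Ctx
variable {α : Type} [PEnc α] {E : α → Type} [∀ a, Field (E a)] {ι ι' : α → Type} (C : Ctx α E ι)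
  {β γ : Type} [PEnc β] [PEnc γ]

/-- Codes are lists of `d` codes `v_k`, standing for `∑ v_k ρ ^ k`. -/
def ext (d : α → ℕ) (pr : ∀ a, ι' a → ι a) (ρ : ∀ a, ι' a → E a) (K' : ∀ a, Subfield (E a))
    (Q' : α → ℕ) : Ctx α E ι' where
  Cd := List C.Cd
  pe := inferInstance
  val a v i := ∑ k ∈ range (d a), (v[k]?).elim 0 (fun w => C.val a w (pr a i)) * ρ a i ^ k
  Good a v := v.length = d a ∧ ∀ w ∈ v, C.Good a w
  K := K'
  Q := Q'

/-- Hypotheses for `ext`: `ρ` is a root of the monic polynomial `h` of degree `d`. -/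
structure ExtOK (d : α → ℕ) (pr : ∀ a, ι' a → ι a) (ρ : ∀ a, ι' a → E a) (K' : ∀ a, Subfield (E a))
    (Q' : α → ℕ) (h : ∀ a, (E a)[X]) : Prop where
  ok : C.OK
  pn : PN d
  cx : C.CX (fun a => a) fun a _ => h a
  monic : ∀ a, (h a).Monic ∧ (h a).natDegree = d a
  root : ∀ a i, (h a).eval (ρ a i) = 0
  le : ∀ a, C.K a ≤ K' a
  mem : ∀ a i, ρ a i ∈ K' a
  polyQ : Poly Q'
  two_le : ∀ a, 2 ≤ Q' a
  pow_Q : ∀ a, ∀ z ∈ K' a, z ^ Q' a = z

variable {C} {d : α → ℕ} {pr : ∀ a, ι' a → ι a} {ρ : ∀ a, ι' a → E a} {K' : ∀ a, Subfield (E a)}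
  {Q' : α → ℕ} {h : ∀ a, (E a)[X]} {π : β → α}

theorem AlgExt_eval {K : Type} [Field K] {G : K[X]} {n : ℕ} (hG : G.degree < n) (x : K) :
    G.eval x = ∑ k ∈ range n, G.coeff k * x ^ k := by
  by_cases h0 : G = 0
  · simp [h0]
  · exact eval_eq_sum_range' ((natDegree_lt_iff_degree_lt h0).2 hG) x

/-- Reduce modulo `h` and pack the `d` coefficients (`Poly.ofFn`). -/
theorem ExtOK.of_cx (H : C.ExtOK d pr ρ K' Q' h) {G : ∀ b, ι (π b) → (E (π b))[X]}
    (hG : C.CX π G) : (C.ext d pr ρ K' Q').CP π fun b i => (G b (pr _ i)).eval (ρ _ i) := by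
  have hπ := hG.poly
  have hh : C.CX π fun b _ => h (π b) := H.cx.comp hπ
  have hd : PN fun b => d (π b) := H.pn.comp hπ
  obtain ⟨-, g, hg, e⟩ := (hG.modByMonic H.ok hh hd fun b _ => H.monic _).cv
  refine ⟨hπ, fun b => (List.range (d (π b))).map fun k => g (b, k),
    (hd.poly.range hd.pb).map (f := fun b k => g (b, k)) hg, fun b => ⟨⟨by simp, fun w hw => ?_⟩,
      _root_.funext fun i => ?_⟩⟩
  · obtain ⟨k, -, rfl⟩ := List.mem_map.1 hw
    exact (e (b, k)).1
  · have h1 : (G b (pr _ i) %ₘ h (π b)).degree < d (π b) := by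
      rw [← (H.monic _).2, ← degree_eq_natDegree (H.monic _).1.ne_zero]
      exact degree_modByMonic_lt _ (H.monic _).1
    have h2 := congrArg (Polynomial.eval (ρ _ i)) (modByMonic_add_div (G b (pr _ i)) (h (π b)))
    rw [eval_add, eval_mul, H.root, zero_mul, add_zero, AlgExt_eval h1] at h2
    refine Eq.trans ?_ h2
    change ∑ k ∈ range (d (π b)), (((List.range (d (π b))).map fun k => g (b, k))[k]?).elim 0
      (fun w => C.val _ w (pr _ i)) * ρ _ i ^ k = _
    refine Finset.sum_congr rfl fun k hk => ?_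
    rw [List.getElem?_map, List.getElem?_range (mem_range.1 hk), Option.map_some, Option.elim_some,
      (e (b, k)).2]

/-- Unpack. -/
theorem ExtOK.exists_cx (H : C.ExtOK d pr ρ K' Q' h) {F : ∀ b, ι' (π b) → E (π b)}
    (hF : (C.ext d pr ρ K' Q').CP π F) : ∃ G : ∀ b, ι (π b) → (E (π b))[X], C.CX π G ∧
      (∀ b i, (G b i).degree < d (π b)) ∧ ∀ b i, F b i = (G b (pr _ i)).eval (ρ _ i) := by
  obtain ⟨hπ, g0, hg0, e0⟩ := hF
  obtain ⟨g, hg, e⟩ : ∃ g : β → List C.Cd, Poly g ∧ ∀ b, ((g b).length = d (π b) ∧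
      ∀ w ∈ g b, C.Good (π b) w) ∧ (fun i => ∑ k ∈ range (d (π b)),
        ((g b)[k]?).elim 0 (fun w => C.val _ w (pr _ i)) * ρ _ i ^ k) = F b := ⟨g0, hg0, e0⟩
  obtain ⟨-, z, hz, -⟩ := CP.zero H.ok hπ
  have hd : PN fun b => d (π b) := H.pn.comp hπ
  refine ⟨fun b i => ∑ k ∈ range (d (π b)), monomial k
    (((g b)[k]?).elim 0 fun w => C.val _ w i),
    CX.of_sum H.ok hπ hd ⟨hπ.comp (poly_ix1 _), fun p => List.getD (g p.1) p.2 (z p.1),
      (hg.comp (poly_ix1 _)).listGetD (poly_ix2 _) (hz.comp (poly_ix1 _)), fun p => ?_⟩,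
    fun b i => ?_, fun b i => ?_⟩
  · have h1 : (p.2 : ℕ) < (g p.1).length := p.2.2.trans_eq (e p.1).1.1.symm
    have h2 : List.getD (g p.1) p.2 (z p.1) = (g p.1)[(p.2 : ℕ)] := List.getD_eq_getElem _ _ h1
    simp only [h2]
    refine ⟨(e p.1).1.2 _ (List.getElem_mem _), _root_.funext fun i => ?_⟩
    rw [List.getElem?_eq_getElem h1, Option.elim_some]
  · refine (degree_sum_le _ _).trans_lt ((Finset.sup_lt_iff (WithBot.bot_lt_coe _)).2 fun k hk => ?_)
    exact (degree_monomial_le _ _).trans_lt (by exact_mod_cast mem_range.1 hk)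
  · rw [← (e b).2, eval_finsetSum]
    exact Finset.sum_congr rfl fun k _ => (eval_monomial).symm

theorem ExtOK.ext_ok (H : C.ExtOK d pr ρ K' Q' h) : (C.ext d pr ρ K' Q').OK := by
  obtain ⟨B, hB, hb⟩ := H.ok.szb
  refine ⟨fun a (v : List C.Cd) hv i => ?_,
    ⟨fun a => d a * (B a + 1) + 1, (H.pn.pb.mul (hB.add (PB.const 1))).add (PB.const 1),
      fun a v hv => ?_⟩, H.polyQ, H.two_le, H.pow_Q,
    (H.of_cx (CX.const H.ok H.ok.negOne)).congr fun _ _ => eval_C, fun β _ π F G hF hG => ?_,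
    fun β _ π F G hF hG => ?_⟩
  · change ∑ k ∈ range (d a), (v[k]?).elim 0 (fun w => C.val a w (pr a i)) * ρ a i ^ k ∈ K' a
    refine sum_mem fun k _ => mul_mem ?_ (pow_mem (H.mem a i) k)
    cases hk : v[k]? with
    | none => exact zero_mem _
    | some w => exact H.le a (H.ok.mem a w (hv.2 w (List.mem_of_getElem? hk)) _)
  · have h1 := sz_list_le (l := (show List C.Cd from v)) fun w hw => hb a w (hv.2 w hw)
    rw [show List.length (show List C.Cd from v) = d a from hv.1] at h1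
    exact h1
  · obtain ⟨F', h1, -, e1⟩ := H.exists_cx hF
    obtain ⟨G', h2, -, e2⟩ := H.exists_cx hG
    exact (H.of_cx (h1.add H.ok h2)).congr fun b i => by rw [eval_add, e1, e2]
  · obtain ⟨F', h1, -, e1⟩ := H.exists_cx hF
    obtain ⟨G', h2, -, e2⟩ := H.exists_cx hG
    exact (H.of_cx (h1.mul H.ok h2)).congr fun b i => by rw [eval_mul, e1, e2]

theorem ExtOK.up (H : C.ExtOK d pr ρ K' Q' h) {F : ∀ b, ι (π b) → E (π b)} (hF : C.CP π F) :
    (C.ext d pr ρ K' Q').CP π fun b i => F b (pr _ i) := by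
  exact (H.of_cx (CX.const H.ok hF)).congr fun _ _ => eval_C

theorem ExtOK.gen (H : C.ExtOK d pr ρ K' Q' h) (hπ : Poly π) :
    (C.ext d pr ρ K' Q').CP π fun b i => ρ (π b) i := by
  exact (H.of_cx (CX.X_pow H.ok hπ (PN.const 1))).congr fun _ _ => by simp

theorem ExtOK.upX (H : C.ExtOK d pr ρ K' Q' h) {G : ∀ b, ι (π b) → (E (π b))[X]} (hG : C.CX π G) :
    (C.ext d pr ρ K' Q').CX π fun b i => G b (pr _ i) := by
  obtain ⟨⟨B, hB, le⟩, hv⟩ := hG
  exact ⟨⟨B, hB, fun b i => le b _⟩, H.up hv⟩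

/-- Values in the smaller field come down if `1, ρ, …, ρ ^ (d-1)` are independent over it. -/
theorem ExtOK.down {ρ : ∀ a, ι a → E a} (H : C.ExtOK d (fun _ i => i) ρ K' Q' h)
    (hind : ∀ a i (G : (E a)[X]), (∀ k, G.coeff k ∈ C.K a) → G.degree < d a →
      G.eval (ρ a i) = 0 → G = 0) (hd : ∀ a, 0 < d a)
    {F : ∀ b, ι (π b) → E (π b)} (hF : (C.ext d (fun _ i => i) ρ K' Q').CP π F)
    (hK : ∀ b i, F b i ∈ C.K (π b)) : C.CP π F := by
  obtain ⟨G, h1, h2, e⟩ := H.exists_cx hF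
  refine (h1.coeff (Lib.PolyTime.Poly.const 0)).congr fun b i => ?_
  have h3 := hind (π b) i (G b i - Polynomial.C (F b i)) (fun k => ?_)
    ((degree_sub_le _ _).trans_lt (max_lt (h2 b i) (degree_C_le.trans_lt (by exact_mod_cast hd _))))
    (by rw [eval_sub, eval_C, ← e, sub_self])
  · rw [sub_eq_zero.1 h3, coeff_C_zero]
  · rw [coeff_sub, coeff_C]
    refine sub_mem (CP.mem H.ok h1.cv (b, k) i) ?_
    split_ifs
    exacts [hK b i, zero_mem _]

variable (C)

/-- One more component index: the points of the finite set `s a`. -/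
def split (s : ∀ a, Finset (E a)) : Ctx α E fun a => ι a × {z // z ∈ s a} :=
  C.ext (fun a => (s a).card) (fun _ i => i.1) (fun _ i => i.2.1) C.K C.Q

/-- Hypotheses for `split`. -/
structure SplitOK (s : ∀ a, Finset (E a)) : Prop where
  ok : C.OK
  pn : PN fun a => (s a).card
  cx : C.CX (fun a => a) fun a _ => ∏ z ∈ s a, (X - Polynomial.C z)
  mem : ∀ a, ∀ z ∈ s a, z ∈ C.K a

variable {C} {s : ∀ a, Finset (E a)}

theorem SplitOK.extOK (H : C.SplitOK s) : C.ExtOK (fun a => (s a).card)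
    (fun a (i : ι a × {z // z ∈ s a}) => i.1) (fun _ i => i.2.1) C.K C.Q
    fun a => ∏ z ∈ s a, (X - Polynomial.C z) := by
  refine ⟨H.ok, H.pn, H.cx, fun a => ⟨monic_prod_of_monic _ _ fun z _ => monic_X_sub_C z, ?_⟩,
    fun a i => ?_, fun _ => le_rfl, fun a i => H.mem a _ i.2.2, H.ok.polyQ, H.ok.two_le, H.ok.pow_Q⟩
  · exact Lagrange.natDegree_nodal (s := s a) (v := id)
  · rw [eval_prod]
    exact Finset.prod_eq_zero i.2.2 (by simp)

theorem SplitOK.split_ok (H : C.SplitOK s) : (C.split s).OK := H.extOK.ext_ok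

theorem SplitOK.up (H : C.SplitOK s) {F : ∀ b, ι (π b) → E (π b)} (hF : C.CP π F) :
    (C.split s).CP π fun b i => F b i.1 := H.extOK.up hF

theorem SplitOK.upX (H : C.SplitOK s) {G : ∀ b, ι (π b) → (E (π b))[X]} (hG : C.CX π G) :
    (C.split s).CX π fun b i => G b i.1 := H.extOK.upX hG

theorem SplitOK.pt (H : C.SplitOK s) (hπ : Poly π) : (C.split s).CP π fun _ i => i.2.1 :=
  H.extOK.gen hπ

theorem SplitOK.split (H : C.SplitOK s) : (C.split s).SplitOK s :=
  ⟨H.split_ok, H.pn, H.upX H.cx, H.mem⟩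

/-- The code is the interpolation polynomial (`Lagrange.eq_interpolate_of_eval_eq`). -/
theorem SplitOK.itp (H : C.SplitOK s) {F : ∀ b, ι (π b) → E (π b) → E (π b)}
    (hF : (C.split s).CP π fun b i => F b i.1 i.2.1) :
    C.CX π fun b i => itp (s (π b)) (F b i) := by
  obtain ⟨G, h1, h2, e⟩ := H.extOK.exists_cx hF
  exact h1.congr fun b i => Lagrange.eq_interpolate_of_eval_eq _ (Set.injOn_id _) (h2 b i)
    fun z hz => (e b (i, ⟨z, hz⟩)).symm

theorem SplitOK.forall (H : C.SplitOK s) {P : ∀ b, ι (π b) → E (π b) → Prop}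
    (hP : (C.split s).CB π fun b i => P b i.1 i.2.1) :
    C.CB π fun b i => ∀ z ∈ s (π b), P b i z := by
  refine (((H.itp (F := fun b i z => if ¬ P b i z then 1 else 0)
    (CP.congr (hP.not H.split_ok) fun _ _ => by split_ifs <;> rfl)).ne_zero H.ok).not H.ok).congr fun b i => ?_
  rw [not_not]
  refine ⟨fun h z hz => ?_, fun h => ?_⟩
  · have := Lagrange.eval_interpolate_at_node (fun z => if ¬ P b i z then (1 : E (π b)) else 0)
      (Set.injOn_id _) hz
    rw [show Lagrange.interpolate (s (π b)) id _ = 0 from h, eval_zero] at this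
    by_contra hn
    rw [if_pos hn] at this
    exact zero_ne_one this
  · exact (Lagrange.eq_interpolate_of_eval_eq _ (Set.injOn_id _)
      (by rw [degree_zero]; exact WithBot.bot_lt_coe _)
      fun z hz => by rw [eval_zero, if_neg (not_not.2 (h z hz))]).symm

/-- The sum is the coefficient of `X ^ (card - 1)` of the interpolation polynomial of
`z ↦ F z * h'(z)`, `h = ∏ (X - z)` (`Lagrange.coeff_eq_sum`, `Lagrange.eval_nodal_derivative_eval_node_eq`). -/
theorem SplitOK.sum (H : C.SplitOK s) {F : ∀ b, ι (π b) → E (π b) → E (π b)}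
    (hF : (C.split s).CP π fun b i => F b i.1 i.2.1) :
    C.CP π fun b i => ∑ z ∈ s (π b), F b i z := by
  have hπ := hF.poly
  have hh : C.CX π fun b _ => ∏ z ∈ s (π b), (X - Polynomial.C z) := H.cx.comp hπ
  have h1 := H.itp (F := fun b i z => F b i z *
    (derivative (∏ z ∈ s (π b), (X - Polynomial.C z))).eval z)
    (hF.mul H.split_ok (((H.upX hh).derivative H.split_ok).eval H.split_ok (H.pt hπ)))
  refine (h1.coeff ((H.pn.comp hπ).poly.sub (Lib.PolyTime.Poly.const 1))).congr fun b i => ?_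
  rw [R312.itp, Lagrange.coeff_eq_sum (Set.injOn_id _)
    (Lagrange.degree_interpolate_lt _ (Set.injOn_id _))]
  refine Finset.sum_congr rfl fun z hz => ?_
  have h2 := Lagrange.eval_nodal_derivative_eval_node_eq (v := id) hz
  rw [Lagrange.eval_nodal] at h2
  rw [Lagrange.eval_interpolate_at_node _ (Set.injOn_id _) hz,
    show (derivative (∏ z ∈ s (π b), (X - Polynomial.C z))).eval z = _ from h2,
    mul_div_cancel_right₀]
  exact Finset.prod_ne_zero_iff.2 fun y hy => sub_ne_zero.2 (Finset.ne_of_mem_erase hy).symm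

end Ctx
end Crest.Agent.R312
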