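import Crest.Agent.R312.AlgRR

/-!
# Row 312, algorithm half: the group `G = Pic / ⟨Dinf⟩` with `σ`, Frobenius and degree mod `l`
DO NOT change the definitions.
-/

set_option autoImplicit false
open Polynomial Finset
open scoped Classical

noncomputable section
namespace Crest.Agent.R312
namespace Crv
variable {E : Type} [Field E] (c : Crv E) [IsAlgClosed E]

/-- Principal divisors and multiples of the fibre at infinity. -/
def Prin : Submodule ℤ c.Div :=
  Submodule.span ℤ (insert c.Dinf (Set.range c.div))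

/-- The divisor class group modulo the fibre class. -/
abbrev G : Type := c.Div ⧸ c.Prin

/-- Class of a divisor. -/
def cl : c.Div →ₗ[ℤ] c.G := c.Prin.mkQ

theorem Prin_le_sD : c.Prin ≤ c.Prin.comap (c.sD 1) := by
  refine Submodule.span_le.2 ?_
  rintro _ (rfl | ⟨φ, rfl⟩)
  · exact Submodule.subset_span (by simp)
  · exact Submodule.subset_span (Or.inr ⟨c.sg 1 φ, div_sg 1 φ⟩)

/-- `σ` on `G`. -/
def sG : Module.End ℤ c.G := c.Prin.mapQ c.Prin (c.sD 1) c.Prin_le_sD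

/-- `λ = 1 - σ`. -/
def lam : Module.End ℤ c.G := 1 - c.sG

/-- Degree modulo `l`. -/
def dG : c.G →ₗ[ℤ] ZMod c.l :=
  c.Prin.liftQ ((Int.castAddHom (ZMod c.l)).toIntLinearMap ∘ₗ c.dg) (by
    refine Submodule.span_le.2 ?_
    rintro _ (rfl | ⟨φ, rfl⟩) <;> simp)

variable {c}

theorem Sym.Prin_le (T : c.Sym) : c.Prin ≤ c.Prin.comap T.dv := by
  refine Submodule.span_le.2 ?_
  rintro _ (rfl | ⟨φ, rfl⟩)
  · exact Submodule.subset_span (by simp)
  · exact Submodule.subset_span (Or.inr ⟨T.aut φ, T.div_aut φ⟩)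

/-- Frobenius on `G`. -/
def Sym.g (T : c.Sym) : Module.End ℤ c.G := c.Prin.mapQ c.Prin T.dv T.Prin_le

/-- Class of the ramification point above `a` (`0` if `a` is not a root). -/
def gP (a : E) : c.G := if h : c.f.eval a = 0 then c.cl (c.pt (c.ram a h)) else 0

/-- Class of the first point at infinity. -/
def gI : c.G := c.cl (c.pt (c.inf 0))

theorem cl_surjective : Function.Surjective c.cl := c.Prin.mkQ_surjective

theorem g1_div_zpow (φ : c.L) (a : ℤ) : c.div (φ ^ a) = a • c.div φ := by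
  obtain ⟨n, rfl | rfl⟩ := a.eq_nat_or_neg
  · rw [zpow_natCast, div_pow]
  · rw [zpow_neg, zpow_natCast, div_inv, div_pow, neg_smul]

theorem cl_eq_zero {D : c.Div} :
    c.cl D = 0 ↔ ∃ φ : c.L, φ ≠ 0 ∧ ∃ n : ℤ, D = c.div φ + n • c.Dinf := by
  rw [cl, Submodule.mkQ_apply, Submodule.Quotient.mk_eq_zero]
  constructor
  · intro h
    induction h using Submodule.span_induction with
    | mem D hD =>
      rcases hD with rfl | ⟨φ, rfl⟩
      · exact ⟨1, one_ne_zero, 1, by simp⟩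
      · by_cases hφ : φ = 0
        · exact ⟨1, one_ne_zero, 0, by simp [hφ]⟩
        · exact ⟨φ, hφ, 0, by simp⟩
    | zero => exact ⟨1, one_ne_zero, 0, by simp⟩
    | add D D' _ _ h h' =>
      obtain ⟨φ, hφ, n, rfl⟩ := h
      obtain ⟨ψ, hψ, n', rfl⟩ := h'
      refine ⟨φ * ψ, mul_ne_zero hφ hψ, n + n', ?_⟩
      rw [div_mul hφ hψ, add_smul]; abel
    | smul a D _ h =>
      obtain ⟨φ, hφ, n, rfl⟩ := h
      refine ⟨φ ^ a, zpow_ne_zero _ hφ, a * n, ?_⟩
      rw [g1_div_zpow, smul_add, mul_smul]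
  · rintro ⟨φ, -, n, rfl⟩
    exact Submodule.add_mem _ (Submodule.subset_span (Or.inr ⟨φ, rfl⟩))
      (Submodule.smul_mem _ _ (Submodule.subset_span (Or.inl rfl)))

@[simp] theorem cl_div (φ : c.L) : c.cl (c.div φ) = 0 := by
  rw [cl, Submodule.mkQ_apply, Submodule.Quotient.mk_eq_zero]
  exact Submodule.subset_span (Or.inr ⟨φ, rfl⟩)

@[simp] theorem cl_Dinf : c.cl c.Dinf = 0 := by
  rw [cl, Submodule.mkQ_apply, Submodule.Quotient.mk_eq_zero]
  exact Submodule.subset_span (Or.inl rfl)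

theorem sG_cl (D : c.Div) : c.sG (c.cl D) = c.cl (c.sD 1 D) := rfl

theorem sG_pow_cl (k : ℕ) (D : c.Div) : (c.sG ^ k) (c.cl D) = c.cl (c.sD k D) := by
  induction k with
  | zero => simp
  | succ k ih => rw [pow_succ', Module.End.mul_apply, ih, sG_cl, sD_sD, add_comm]

theorem lam_cl (D : c.Div) : c.lam (c.cl D) = c.cl (D - c.sD 1 D) := by
  rw [lam, LinearMap.sub_apply, Module.End.one_apply, sG_cl, map_sub]

theorem dG_cl (D : c.Div) : c.dG (c.cl D) = (c.dg D : ZMod c.l) := rfl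

theorem Sym.g_cl (T : c.Sym) (D : c.Div) : T.g (c.cl D) = c.cl (T.dv D) := rfl

theorem sG_pow_l : c.sG ^ c.l = 1 := by
  refine LinearMap.ext fun z => ?_
  obtain ⟨D, rfl⟩ := cl_surjective z
  rw [sG_pow_cl, sD_l, Module.End.one_apply]

theorem dG_sG (z : c.G) : c.dG (c.sG z) = c.dG z := by
  obtain ⟨D, rfl⟩ := cl_surjective z
  rw [sG_cl, dG_cl, dG_cl, dg_sD]

theorem dG_sG_pow (k : ℕ) (z : c.G) : c.dG ((c.sG ^ k) z) = c.dG z := by
  obtain ⟨D, rfl⟩ := cl_surjective z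
  rw [sG_pow_cl, dG_cl, dG_cl, dg_sD]

theorem dG_lam (z : c.G) : c.dG (c.lam z) = 0 := by
  rw [lam, LinearMap.sub_apply, Module.End.one_apply, map_sub, dG_sG, sub_self]

theorem dG_gP {a : E} (h : c.f.eval a = 0) : c.dG (gP a) = 1 := by
  rw [gP, dif_pos h, dG_cl, dg_pt, Int.cast_one]

theorem dG_gI : c.dG gI = 1 := by
  rw [gI, dG_cl, dg_pt, Int.cast_one]

theorem sG_gP (a : E) : c.sG (gP a) = gP a := by
  unfold gP
  split_ifs with h
  · rw [sG_cl, sD_ram]
  · exact map_zero _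

theorem lam_gP (a : E) : c.lam (gP a) = 0 := by
  rw [lam, LinearMap.sub_apply, Module.End.one_apply, sG_gP, sub_self]

theorem sum_gP : ∑ a ∈ c.rts, (gP a : c.G) = 0 := by
  rw [← Finset.sum_attach]
  have h : ∀ a ∈ c.rts.attach, (gP a.1 : c.G) = c.cl (c.pt (c.ram a.1 (mem_rts.1 a.2))) :=
    fun a _ => by rw [gP, dif_pos (mem_rts.1 a.2)]
  rw [Finset.sum_congr rfl h, ← map_sum, ← sub_add_cancel (∑ a ∈ c.rts.attach, _)
    ((c.m : ℤ) • c.Dinf), ← div_y, map_add, map_smul, cl_div, cl_Dinf, smul_zero, add_zero]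

theorem Sym.g_gP (T : c.Sym) (a : E) : T.g (gP a) = gP a := by
  unfold gP
  split_ifs with h
  · rw [T.g_cl, T.dv_ram]
  · exact map_zero _

theorem Sym.g_gI (T : c.Sym) : T.g gI = gI := by
  rw [gI, T.g_cl, T.dv_inf]

theorem Sym.g_comm (T : c.Sym) : Commute T.g c.sG := by
  refine LinearMap.ext fun z => ?_
  obtain ⟨D, rfl⟩ := cl_surjective z
  rw [Module.End.mul_apply, Module.End.mul_apply, sG_cl, T.g_cl, T.g_cl, sG_cl, T.dv_sD]

theorem Sym.g_pow (T : c.Sym) (k : ℕ) : (T.pow k).g = T.g ^ k := by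
  refine LinearMap.ext fun z => ?_
  obtain ⟨D, rfl⟩ := cl_surjective z
  rw [Sym.g_cl, T.dv_pow]
  induction k with
  | zero => simp
  | succ k ih => rw [pow_succ', pow_succ', Module.End.mul_apply, Module.End.mul_apply, ← ih, T.g_cl]

omit [IsAlgClosed E] in
theorem g1_x_sub_ne (α : E) : c.x - algebraMap E c.L α ≠ 0 := by
  have := po_ne (c := c) (X_sub_C_ne_zero α)
  simpa [po] using this

/-- Invariant divisors come from the projective line and the ramification points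
(induction on the support; an invariant divisor is constant on fibres, and the unramified fibre
above `α` is `div (x - α) + Dinf`). -/
theorem exists_of_invariant {D : c.Div} (h : c.sD 1 D = D) :
    ∃ φ : c.L, φ ≠ 0 ∧ c.sg 1 φ = φ ∧ ∃ n : ℤ, D = c.div φ + n • c.Dinf +
      ∑ a ∈ c.rts.attach, D (c.ram a.1 (mem_rts.1 a.2)) • c.pt (c.ram a.1 (mem_rts.1 a.2)) := by
  have hk : ∀ (k : ℕ) (P : c.Place), D (c.sP k P) = D P := by
    intro k P
    induction k with
    | zero => rw [sP_zero]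
    | succ k ih => rw [add_comm, ← sP_sP, ← sD_apply, h, ih]
  have hf : ∀ P Q : c.Place, P.1.1 = Q.1.1 → D P = D Q := by
    intro P Q e
    obtain ⟨k, -, rfl⟩ := exists_sP e
    rw [hk]
  choose pl hpl using fun α : E => exists_place (c := c) (some α)
  set A : Finset E :=
    (D.support.image fun P => P.1.1).eraseNone.filter fun α => c.f.eval α ≠ 0 with hA
  refine ⟨∏ α ∈ A, (c.x - algebraMap E c.L α) ^ D (pl α),
    Finset.prod_ne_zero_iff.2 fun α _ => zpow_ne_zero _ (g1_x_sub_ne α), ?_,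
    D (c.inf 0) + ∑ α ∈ A, D (pl α), ?_⟩
  · rw [map_prod]
    refine Finset.prod_congr rfl fun α _ => ?_
    rw [map_zpow₀, map_sub, sg_x, AlgHom.commutes]
  · rw [div_prod _ fun α _ => zpow_ne_zero _ (g1_x_sub_ne α)]
    ext P
    simp only [g1_div_zpow, Finsupp.add_apply, Finsupp.finsetSum_apply, Finsupp.smul_apply,
      div_apply, ord_x_sub, Dinf_apply, pt_apply, smul_eq_mul]
    rcases hP : P.1.1 with _ | β
    · have h1 : ∀ a ∈ c.rts.attach, (D (c.ram a.1 (mem_rts.1 a.2)) *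
          if c.ram a.1 (mem_rts.1 a.2) = P then 1 else 0) = 0 := by
        intro a _
        rw [if_neg, mul_zero]
        rintro rfl
        exact absurd hP (by simp [ram])
      rw [Finset.sum_eq_zero h1, hf P (c.inf 0) hP]
      simp
    · by_cases hβ : c.f.eval β = 0
      · have h1 : ∀ α ∈ A, (D (pl α) * if (some β : Option E) = none then (-1 : ℤ) else
            if some β = some α then (if c.f.eval α = 0 then (c.l : ℤ) else 1) else 0) = 0 := by
          intro α hα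
          rw [if_neg (by simp), if_neg, mul_zero]
          intro e
          rw [← Option.some.inj e] at hα
          exact (Finset.mem_filter.1 hα).2 hβ
        rw [Finset.sum_eq_zero h1,
          Finset.sum_eq_single (⟨β, mem_rts.2 hβ⟩ : {a // a ∈ c.rts})]
        · rw [← eq_ram hP hβ]; simp
        · intro a _ ha
          rw [if_neg, mul_zero]
          rintro rfl
          exact ha (Subtype.ext (Option.some.inj hP))
        · intro h'; exact absurd (Finset.mem_attach _ _) h'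
      · have h1 : ∀ a ∈ c.rts.attach, (D (c.ram a.1 (mem_rts.1 a.2)) *
            if c.ram a.1 (mem_rts.1 a.2) = P then 1 else 0) = 0 := by
          intro a _
          rw [if_neg, mul_zero]
          rintro rfl
          exact hβ (Option.some.inj hP ▸ mem_rts.1 a.2)
        have h2 : D (pl β) = D P := hf _ _ ((hpl β).trans hP.symm)
        rw [Finset.sum_eq_zero h1, Finset.sum_eq_single β]
        · simp [hβ, h2]
        · intro α _ hα
          simp [hα.symm]
        · intro h'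
          have : D P = 0 := by
            by_contra h0
            refine h' (Finset.mem_filter.2 ⟨Finset.mem_eraseNone.2 ?_, hβ⟩)
            exact Finset.mem_image.2 ⟨P, Finsupp.mem_support_iff.2 h0, hP⟩
          rw [h2, this, zero_mul]

theorem g1_l_smul_pt (a : E) (h : c.f.eval a = 0) :
    (c.l : ℤ) • c.pt (c.ram a h) = c.div (c.x - algebraMap E c.L a) + c.Dinf := by
  ext P
  simp only [Finsupp.add_apply, Finsupp.smul_apply, div_apply, ord_x_sub, Dinf_apply, pt_apply,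
    smul_eq_mul]
  rcases hP : P.1.1 with _ | β
  · rw [if_neg]
    · simp
    · rintro rfl
      exact absurd hP (by simp [ram])
  · by_cases hβ : β = a
    · subst hβ
      rw [if_pos (eq_ram hP h).symm]
      simp [h]
    · rw [if_neg]
      · simp [hβ]
      · rintro rfl
        exact hβ (Option.some.inj hP).symm

/-- The norm map vanishes on `G` (`nD l D` is invariant with coefficients `l * D (ram a)`, and
`l • pt (ram a) = div (x - a) + Dinf`). -/
theorem sum_sG_pow : ∑ k ∈ range c.l, c.sG ^ k = 0 := by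
  refine LinearMap.ext fun z => ?_
  obtain ⟨D, rfl⟩ := cl_surjective z
  rw [LinearMap.sum_apply, Finset.sum_congr rfl fun k _ => sG_pow_cl k D, ← map_sum,
    LinearMap.zero_apply]
  change c.cl (c.nD c.l D) = 0
  obtain ⟨φ, -, -, n, e⟩ := exists_of_invariant (sD_nD_l D)
  rw [e, map_add, map_add, map_smul, cl_div, cl_Dinf, smul_zero, add_zero, zero_add, map_sum]
  refine Finset.sum_eq_zero fun a _ => ?_
  have : c.nD c.l D (c.ram a.1 (mem_rts.1 a.2)) = D (c.ram a.1 (mem_rts.1 a.2)) * c.l := by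
    simp [nD, Finsupp.finsetSum_apply, mul_comm]
  rw [this, mul_smul, g1_l_smul_pt, map_smul, map_add, cl_div, cl_Dinf, add_zero, smul_zero]

theorem l_smul_gP (a : E) : (c.l : ℤ) • (gP a : c.G) = 0 := by
  unfold gP
  split_ifs with h
  · rw [← map_smul, g1_l_smul_pt, map_add, cl_div, cl_Dinf, add_zero]
  · exact smul_zero _

theorem exists_div_of_lam {D : c.Div} (h : c.lam (c.cl D) = 0) :
    ∃ ψ : c.L, ψ ≠ 0 ∧ D - c.sD 1 D = c.div ψ := by
  rw [lam_cl] at h
  obtain ⟨ψ, hψ, n, e⟩ := cl_eq_zero.1 h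
  have hd := congrArg c.dg e
  rw [map_sub, dg_sD, sub_self, map_add, dg_div, map_zsmul, dg_Dinf, zero_add, smul_eq_mul] at hd
  have hn : n = 0 := (mul_eq_zero.1 hd.symm).resolve_right (by exact_mod_cast c.l_pos.ne')
  exact ⟨ψ, hψ, by rw [e, hn, zero_smul, add_zero]⟩

theorem g2_nrm_const {D : c.Div} {ψ : c.L} (hψ : ψ ≠ 0) (h : D - c.sD 1 D = c.div ψ) :
    ∃ κ : E, κ ≠ 0 ∧ c.nrm ψ = κ • (1 : c.L) := by
  refine exists_smul_of_div_eq (nrm_ne hψ) one_ne_zero ?_
  have e : c.nD c.l (c.sD 1 D) = c.sD 1 (c.nD c.l D) := by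
    simp only [nD, map_sum, sD_sD, add_comm]
  rw [div_nrm hψ, ← h, nD_sub, e, sD_nD_l, sub_self, div_one]

theorem g2_invariant {D : c.Div} {ψ χ : c.L} (hψ : ψ ≠ 0) (h : D - c.sD 1 D = c.div ψ)
    (hχ : χ ≠ 0) (e : ψ * c.sg 1 χ = χ) : c.sD 1 (D - c.div χ) = D - c.div χ := by
  have h1 := congrArg c.div e
  rw [div_mul hψ (sg_ne hχ 1), div_sg, ← h] at h1
  rw [map_sub]
  conv_rhs => rw [← h1]
  abel

theorem g2_cl_eq {D : c.Div} {ψ χ : c.L} (hψ : ψ ≠ 0) (h : D - c.sD 1 D = c.div ψ)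
    (hχ : χ ≠ 0) (e : ψ * c.sg 1 χ = χ) : c.cl D = ∑ a ∈ c.rts.attach,
      (D - c.div χ) (c.ram a.1 (mem_rts.1 a.2)) • (gP a.1 : c.G) := by
  obtain ⟨φ, -, -, n, e'⟩ := exists_of_invariant (g2_invariant hψ h hχ e)
  have h1 := congrArg c.cl e'
  rw [map_sub, cl_div, sub_zero, map_add, map_add, cl_div, map_zsmul, cl_Dinf, smul_zero, zero_add,
    zero_add, map_sum] at h1
  rw [h1]
  refine Finset.sum_congr rfl fun a _ => ?_
  rw [map_zsmul, gP, dif_pos (mem_rts.1 a.2)]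

/-- The kernel of `λ` is spanned by the ramification points (`hilbert90`, `exists_of_invariant`). -/
theorem mem_span_of_lam {z : c.G} (h : c.lam z = 0) :
    z ∈ Submodule.span ℤ (Set.range (gP : E → c.G)) := by
  obtain ⟨D, rfl⟩ := cl_surjective z
  obtain ⟨ψ, hψ, e⟩ := exists_div_of_lam h
  obtain ⟨κ, hκ, hn⟩ := g2_nrm_const hψ e
  obtain ⟨b, rfl⟩ := IsAlgClosed.exists_pow_nat_eq κ c.l_pos
  have hb : b⁻¹ ≠ 0 := inv_ne_zero fun h0 => hκ (by rw [h0, zero_pow c.l_pos.ne'])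
  obtain ⟨χ, hχ, e'⟩ := hilbert90 (ψ := b⁻¹ • ψ) (by
    rw [nrm_smul, hn, smul_smul, inv_pow, inv_mul_cancel₀ hκ, one_smul])
  rw [g2_cl_eq (smul_ne_zero hb hψ) (e.trans (div_smul hb ψ).symm) hχ e']
  exact Submodule.sum_mem _ fun a _ => Submodule.smul_mem _ _ (Submodule.subset_span ⟨_, rfl⟩)

theorem g2_ord_ram {D : c.Div} {ψ : c.L} (h : D - c.sD 1 D = c.div ψ) (a : E)
    (ha : c.f.eval a = 0) : c.ord (c.ram a ha) ψ = 0 := by
  rw [← div_apply, ← h, Finsupp.sub_apply, sD_apply, sP_ram, sub_self]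

theorem g2_prod_ram {ψ : c.L} {a : E} {ha : c.f.eval a = 0} (h : c.Ge (c.ram a ha) 0 ψ) (j : ℕ) :
    c.Ge (c.ram a ha) 0 (∏ k ∈ range j, c.sg k ψ) ∧
      c.co (c.ram a ha) 0 (∏ k ∈ range j, c.sg k ψ) = c.co (c.ram a ha) 0 ψ ^ j := by
  have h1 : ∀ k ∈ range j, c.Ge (c.ram a ha) ((fun _ => 0 : ℕ → ℤ) k) (c.sg k ψ) := fun k _ =>
    ge_sg.2 (by rwa [sP_ram])
  have h2 := Ge.prod h1
  have h3 := Ge.co_prod h1
  simp only [Finset.sum_const_zero, co_sg, zpow_zero, one_mul, sP_ram, Finset.prod_const,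
    Finset.card_range] at h2 h3
  exact ⟨h2, h3⟩

theorem g2_pow_eq {D : c.Div} {ψ : c.L} (h : D - c.sD 1 D = c.div ψ) {κ : E}
    (hn : c.nrm ψ = κ • (1 : c.L)) (a : E) (ha : c.f.eval a = 0) :
    c.co (c.ram a ha) 0 ψ ^ c.l = κ := by
  have h1 := ge_ord (c.ram a ha) ψ
  rw [g2_ord_ram h] at h1
  rw [← (g2_prod_ram h1 c.l).2, ← nrm, hn, co_smul, co_one, if_pos rfl, mul_one]

/-- Decoding: if `D - σ D = div ψ`, `D` avoids the ramification points and `ψ` has the same
value at all of them then `D` is trivial.  (Scale the value to `1`; `nrm ψ` is a constant with value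
`1`; `χ = ∑_{j<l} ∏_{k<j} σ^k ψ` has value `l ≠ 0` at every ramification point, `ψ σχ = χ`,
`D - div χ` is invariant.) -/
theorem cl_eq_zero_of_const {D : c.Div} {ψ : c.L} (hψ : ψ ≠ 0) (h : D - c.sD 1 D = c.div ψ)
    (hD : ∀ a (ha : c.f.eval a = 0), D (c.ram a ha) = 0) {v : E}
    (hv : ∀ a (ha : c.f.eval a = 0), c.co (c.ram a ha) 0 ψ = v) : c.cl D = 0 := by
  obtain ⟨κ, hκ, hn⟩ := g2_nrm_const hψ h
  obtain ⟨a₀, ha₀⟩ : c.rts.Nonempty := by
    rw [← Finset.card_pos, card_rts]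
    exact Nat.mul_pos c.l_pos c.hm
  have ha₀ := mem_rts.1 ha₀
  have hvκ : v ^ c.l = κ := by rw [← hv a₀ ha₀, g2_pow_eq h hn]
  have hv0 : v ≠ 0 := fun h0 => hκ (by rw [← hvκ, h0, zero_pow c.l_pos.ne'])
  have hψ' : v⁻¹ • ψ ≠ 0 := smul_ne_zero (inv_ne_zero hv0) hψ
  have h' : D - c.sD 1 D = c.div (v⁻¹ • ψ) := h.trans (div_smul (inv_ne_zero hv0) ψ).symm
  have hn' : c.nrm (v⁻¹ • ψ) = 1 := by
    rw [nrm_smul, hn, smul_smul, inv_pow, hvκ, inv_mul_cancel₀ hκ, one_smul]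
  have hv' : ∀ a (ha : c.f.eval a = 0), c.co (c.ram a ha) 0 (v⁻¹ • ψ) = 1 := fun a ha => by
    rw [co_smul, hv, inv_mul_cancel₀ hv0]
  generalize v⁻¹ • ψ = ψ' at hψ' h' hn' hv'
  set χ := ∑ j ∈ range c.l, ∏ k ∈ range j, c.sg k ψ' with hχ
  have hc : ∀ a (ha : c.f.eval a = 0), c.Ge (c.ram a ha) 0 χ ∧ c.co (c.ram a ha) 0 χ ≠ 0 := by
    intro a ha
    have h1 := ge_ord (c.ram a ha) ψ'
    rw [g2_ord_ram h'] at h1
    refine ⟨Ge.sum fun j _ => (g2_prod_ram h1 j).1, ?_⟩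
    simp only [hχ, co_sum, (g2_prod_ram h1 _).2, hv', one_pow, Finset.sum_const, Finset.card_range,
      nsmul_eq_mul, mul_one]
    exact c.l_ne
  have e : ψ' * c.sg 1 χ = χ := by
    have h1 : ψ' * c.sg 1 χ = ∑ j ∈ range c.l, ∏ k ∈ range (j + 1), c.sg k ψ' := by
      rw [hχ, map_sum, Finset.mul_sum]
      refine Finset.sum_congr rfl fun j _ => ?_
      rw [Finset.prod_range_succ', sg_zero, map_prod, mul_comm]
      simp only [sg_sg, add_comm]
    have h2 := Finset.sum_range_succ' (fun j => ∏ k ∈ range j, c.sg k ψ') c.l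
    rw [Finset.sum_range_succ, ← hχ, ← h1, ← nrm, hn', Finset.prod_range_zero] at h2
    exact (add_right_cancel h2).symm
  rw [g2_cl_eq hψ' h' (ne_of_co (hc a₀ ha₀).2) e]
  refine Finset.sum_eq_zero fun a _ => ?_
  rw [Finsupp.sub_apply, hD, div_apply, ord_eq (hc _ _).1 (hc _ _).2, sub_zero, zero_smul]

/-- The `l`-th powers of the values of such a `ψ` agree. -/
theorem exists_pow_eq_const {D : c.Div} {ψ : c.L} (hψ : ψ ≠ 0) (h : D - c.sD 1 D = c.div ψ) :
    ∃ κ : E, κ ≠ 0 ∧ ∀ a (ha : c.f.eval a = 0), c.co (c.ram a ha) 0 ψ ^ c.l = κ := by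
  obtain ⟨κ, hκ, hn⟩ := g2_nrm_const hψ h
  exact ⟨κ, hκ, g2_pow_eq h hn⟩

end Crv
end Crest.Agent.R312
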