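import Crest.Agent.R312.AlgT4

/-!
# Row 312, algorithm half: the factorisation loop
-/

set_option autoImplicit false
open Finset Polynomial Crest.Agent.Lib.PolyTime Crest.PolyFactor
open scoped Classical

noncomputable section
namespace Crest.Agent.R312.AlgMainAux1

theorem round_math {F : Type} [Field F] (S : F[X] → List F[X]) (L : List F[X])
    (h : ∀ g ∈ L, (S g = [g] ∧ g.Monic ∧ 0 < g.natDegree ∧ Irreducible g) ∨
      ∃ u v, S g = [u, v] ∧ u * v = g ∧ u.Monic ∧ 0 < u.natDegree ∧ v.Monic ∧ 0 < v.natDegree) :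
    (∀ g ∈ L.flatMap S, g.Monic ∧ 0 < g.natDegree) ∧ (L.flatMap S).prod = L.prod ∧
      L.length ≤ (L.flatMap S).length ∧ ((∀ g ∈ L.flatMap S, Irreducible g) ∨
        (L.length < (L.flatMap S).length ∧ ¬∀ g ∈ L, Irreducible g)) := by
  induction L with
  | nil => simp
  | cons g L ih =>
    obtain ⟨h1, h2, h3, h4⟩ := ih fun g hg => h g (List.mem_cons_of_mem _ hg)
    rw [List.flatMap_cons]
    rcases h g List.mem_cons_self with ⟨e, hm, h0, hi⟩ | ⟨u, v, e, huv, hu, hu0, hv, hv0⟩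
    · rw [e, List.singleton_append]
      refine ⟨List.forall_mem_cons.2 ⟨⟨hm, h0⟩, h1⟩, by simp only [List.prod_cons, h2],
        by simpa using h3, ?_⟩
      rcases h4 with h4 | ⟨h4, h5⟩
      · exact Or.inl (List.forall_mem_cons.2 ⟨hi, h4⟩)
      · exact Or.inr ⟨by simpa using h4, fun h6 => h5 fun g hg => h6 g (List.mem_cons_of_mem _ hg)⟩
    · rw [e, List.cons_append, List.singleton_append]
      refine ⟨List.forall_mem_cons.2 ⟨⟨hu, hu0⟩, List.forall_mem_cons.2 ⟨⟨hv, hv0⟩, h1⟩⟩,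
        by simp only [List.prod_cons, h2, ← huv, mul_assoc], ?_, Or.inr ⟨?_, fun h6 => ?_⟩⟩
      · simp only [List.length_cons]; omega
      · simp only [List.length_cons]; omega
      · rcases (h6 g List.mem_cons_self).isUnit_or_isUnit huv.symm with h7 | h7
        · exact hu0.ne' (natDegree_eq_zero_of_isUnit h7)
        · exact hv0.ne' (natDegree_eq_zero_of_isUnit h7)

theorem deg_le {F : Type} [Field F] (L : List F[X]) (h : ∀ g ∈ L, g.Monic ∧ 0 < g.natDegree) :
    L.prod.Monic ∧ L.length ≤ L.prod.natDegree ∧ ∀ g ∈ L, g.natDegree ≤ L.prod.natDegree := by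
  induction L with
  | nil => simp
  | cons g L ih =>
    obtain ⟨h1, h2, h3⟩ := ih fun g hg => h g (List.mem_cons_of_mem _ hg)
    obtain ⟨hm, h0⟩ := h g List.mem_cons_self
    rw [List.prod_cons, hm.natDegree_mul h1, List.length_cons]
    refine ⟨hm.mul h1, by omega, List.forall_mem_cons.2 ⟨by omega, fun g' hg' => ?_⟩⟩
    have := h3 g' hg'
    omega

variable {α : Type} [PEnc α] {p : α → ℕ} [∀ a, Fact (p a).Prime] {f : ∀ a, (ZMod (p a))[X]}

/-- The splitting step on a family of polynomials. -/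
theorem split_step (hA : AuxPrime) (hp : Poly p) (hf : PX f) (hm : ∀ a, (f a).Monic)
    (h0 : ∀ a, 0 < (f a).natDegree) (hc : HasCyc p fun a => (f a).natDegree) :
    ∃ S : ∀ a, List (ZMod (p a))[X], (Poly fun a => (S a).map clP) ∧ ∀ a,
      (S a = [f a] ∧ Irreducible (f a)) ∨ ∃ u v, S a = [u, v] ∧ u * v = f a ∧ u.Monic ∧
        0 < u.natDegree ∧ v.Monic ∧ 0 < v.natDegree := by
  obtain ⟨u, hu, H⟩ := berlekamp hA hp hf hm h0 hc
  have hum : ∀ a, (u a).Monic := fun a => (H a).elim (fun h => h.1) fun h => h.1 ▸ monic_one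
  refine ⟨fun a => if u a = 1 then [f a] else [u a, f a /ₘ u a], ?_, fun a => ?_⟩
  · have h1 : Poly fun a => decide (u a = 1) := hu.decide_eq (PX.one hp)
    have h2 : Poly fun a => [clP (f a)] := Poly.cons hf (Lib.PolyTime.Poly.const [])
    have h3 : Poly fun a => [clP (u a), clP (f a /ₘ u a)] :=
      Poly.cons hu (Poly.cons (PX.divByMonic hp hf hu hum) (Lib.PolyTime.Poly.const []))
    refine (Poly.ite h1 h2 h3).congr fun a => ?_
    beta_reduce
    split_ifs <;> rfl
  · rcases H a with ⟨h1, h2, h3, h4⟩ | ⟨h1, h2⟩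
    · have hne : u a ≠ 1 := fun h => by rw [h, natDegree_one] at h3; exact lt_irrefl _ h3
      have e : u a * (f a /ₘ u a) = f a := by
        have := modByMonic_add_div (f a) (u a)
        rwa [(modByMonic_eq_zero_iff_dvd h1).2 h2, zero_add] at this
      have hv : (f a /ₘ u a).Monic := h1.of_mul_monic_left (e.symm ▸ hm a)
      refine Or.inr ⟨_, _, if_neg hne, e, h1, h3, hv, ?_⟩
      rw [natDegree_divByMonic _ h1]
      omega
    · exact Or.inl ⟨if_pos h1, h2⟩

theorem round (hA : AuxPrime) (hp : Poly p) {n : α → ℕ} (hc : HasCyc p n)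
    {L : ∀ a, List (ZMod (p a))[X]} (hL : Poly fun a => (L a).map clP)
    (h : ∀ a, ∀ g ∈ L a, g.Monic ∧ 0 < g.natDegree ∧ g.natDegree ≤ n a) :
    ∃ L' : ∀ a, List (ZMod (p a))[X], (Poly fun a => (L' a).map clP) ∧ ∀ a,
      (∀ g ∈ L' a, g.Monic ∧ 0 < g.natDegree) ∧ (L' a).prod = (L a).prod ∧
      ((∀ g ∈ L' a, Irreducible g) ∨
        ((L a).length < (L' a).length ∧ ¬∀ g ∈ L a, Irreducible g)) := by
  have hπ : Poly fun b : {q : α × List ℕ // q.2 ∈ (L q.1).map clP} => b.1.1 := Poly.id'.val.fst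
  have hmem : ∀ b : {q : α × List ℕ // q.2 ∈ (L q.1).map clP},
      ofCoeffList (p b.1.1) b.1.2 ∈ L b.1.1 := by
    intro b
    obtain ⟨g, hg, e⟩ := List.mem_map.1 b.2
    rw [← e, ofCoeffList_cl]
    exact hg
  obtain ⟨S, hS, H⟩ := split_step (α := {q : α × List ℕ // q.2 ∈ (L q.1).map clP})
    (p := fun b => p b.1.1) (f := fun b => ofCoeffList (p b.1.1) b.1.2) hA (hp.comp hπ)
    (PX.of_list (hp.comp hπ) Poly.id'.val.snd) (fun b => (h _ _ (hmem b)).1)
    (fun b => (h _ _ (hmem b)).2.1) (hc.comp hπ fun b => (h _ _ (hmem b)).2.2)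
  refine ⟨fun a => (L a).flatMap fun g =>
    if hg : clP g ∈ (L a).map clP then S ⟨(a, clP g), hg⟩ else [], ?_, fun a => ?_⟩
  · have h1 := (Poly.map_mem (f := fun a cs =>
      if hg : cs ∈ (L a).map clP then (S ⟨(a, cs), hg⟩).map clP else []) hL
      (hS.congr fun b => by rw [dif_pos b.2])).flatten
    refine h1.congr fun a => ?_
    rw [List.map_flatMap, List.map_map, List.flatMap_def]
    congr 1
    refine List.map_congr_left fun g _ => ?_
    simp only [Function.comp]
    split_ifs <;> rfl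
  · have := round_math (fun g => if hg : clP g ∈ (L a).map clP then S ⟨(a, clP g), hg⟩ else [])
      (L a) fun g hg => by
        have hg' : clP g ∈ (L a).map clP := List.mem_map_of_mem hg
        have h1 := H ⟨(a, clP g), hg'⟩
        simp only [ofCoeffList_cl] at h1
        simp only [dif_pos hg']
        exact h1.imp_left fun h2 => ⟨h2.1, (h a g hg).1, (h a g hg).2.1, h2.2⟩
    exact ⟨this.1, this.2.1, this.2.2.2⟩

theorem all (hA : AuxPrime) (hp : Poly p) (hf : PX f) (hm : ∀ a, (f a).Monic)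
    (hc : HasCyc p fun a => (f a).natDegree) :
    ∃ L : ∀ a, List (ZMod (p a))[X], (Poly fun a => (L a).map clP) ∧ ∀ a,
      (∀ g ∈ L a, g.Monic ∧ Irreducible g) ∧ (L a).prod = f a := by
  have hn := hf.natDegree
  have hi : Poly fun a => if (f a).natDegree = 0 then [] else [clP (f a)] :=
    Poly.ite (hn.poly.decide_eq (Lib.PolyTime.Poly.const 0)) (Lib.PolyTime.Poly.const [])
      (Poly.cons hf (Lib.PolyTime.Poly.const []))
  suffices key : ∃ out : α → List (List ℕ), R37.DP out ∧ ∀ a, ∃ L : List (ZMod (p a))[X],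
      out a = L.map clP ∧ (∀ g ∈ L, g.Monic ∧ 0 < g.natDegree) ∧ L.prod = f a ∧
      ((∀ g ∈ L, Irreducible g) ∨ (f a).natDegree < L.length) by
    obtain ⟨out, ho, H⟩ := key
    choose L e h1 h2 h3 using H
    refine ⟨L, ho.poly.congr e, fun a => ⟨fun g hg => ⟨(h1 a g hg).1, ?_⟩, h2 a⟩⟩
    rcases h3 a with h3 | h3
    · exact h3 g hg
    · have := (deg_le _ (h1 a)).2.1
      rw [h2 a] at this
      omega
  refine R37.DP.loop (β := fun _ : α => List (List ℕ)) hn.poly hn.pb
    (B := fun a => (f a).natDegree * (((f a).natDegree + 1) * (4 * sz (p a) + 1) + 1 + 1) + 1)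
    ((hn.pb.mul ((((hn.pb.add (PB.const 1)).mul (((PB.const 4).mul hp.pb_sz).add
      (PB.const 1))).add (PB.const 1)).add (PB.const 1))).add (PB.const 1))
    (fun a i s => ∃ L : List (ZMod (p a))[X], s = L.map clP ∧
      (∀ g ∈ L, g.Monic ∧ 0 < g.natDegree) ∧ L.prod = f a ∧
      ((∀ g ∈ L, Irreducible g) ∨ i < L.length))
    (R37.DP.of_poly hi) (fun a => by
      by_cases h0 : (f a).natDegree = 0
      · exact ⟨[], by simp [h0], by simp, by
          rw [List.prod_nil, (hm a).natDegree_eq_zero.1 h0], Or.inl (by simp)⟩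
      · exact ⟨[f a], by simp [h0], by simpa using ⟨hm a, Nat.pos_of_ne_zero h0⟩, by simp,
          Or.inr (by simp)⟩) ?_ ?_
  · have hex := fun q : {q : Σ _ : α, Un × List (List ℕ) //
        (∃ L : List (ZMod (p q.1))[X], q.2.2 = L.map clP ∧
          (∀ g ∈ L, g.Monic ∧ 0 < g.natDegree) ∧ L.prod = f q.1 ∧
          ((∀ g ∈ L, Irreducible g) ∨ q.2.1.n < L.length)) ∧ q.2.1.n < (f q.1).natDegree} => q.2.1
    choose L e h1 h2 h3 using hex
    have hπ := (R37.poly_fst (α := α) (β := fun _ => Un × List (List ℕ))).restrict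
      fun q => (∃ L : List (ZMod (p q.1))[X], q.2.2 = L.map clP ∧
          (∀ g ∈ L, g.Monic ∧ 0 < g.natDegree) ∧ L.prod = f q.1 ∧
          ((∀ g ∈ L, Irreducible g) ∨ q.2.1.n < L.length)) ∧ q.2.1.n < (f q.1).natDegree
    have hs := ((R37.DP.snd (α := α) (β := fun _ => Un × List (List ℕ))).snd'.poly).restrict
      fun q => (∃ L : List (ZMod (p q.1))[X], q.2.2 = L.map clP ∧
          (∀ g ∈ L, g.Monic ∧ 0 < g.natDegree) ∧ L.prod = f q.1 ∧
          ((∀ g ∈ L, Irreducible g) ∨ q.2.1.n < L.length)) ∧ q.2.1.n < (f q.1).natDegree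
    obtain ⟨L', hL', H'⟩ := round hA (hp.comp hπ) (hc.comp hπ fun _ => le_rfl) (L := L)
      (hs.congr e) fun q g hg => ⟨(h1 q g hg).1, (h1 q g hg).2, by
        rw [← h2 q]; exact (deg_le _ (h1 q)).2.2 g hg⟩
    refine ⟨fun q => (L' q).map clP, R37.DP.of_poly hL', fun q =>
      ⟨L' q, rfl, (H' q).1, (H' q).2.1.trans (h2 q), (H' q).2.2.imp_right fun h4 => ?_⟩⟩
    have := (h3 q).resolve_left h4.2
    have := h4.1
    omega
  · rintro a i s - ⟨L, rfl, h1, h2, -⟩
    obtain ⟨-, h3, h4⟩ := deg_le _ h1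
    rw [h2] at h3 h4
    refine (sz_list_le (B := ((f a).natDegree + 1) * (4 * sz (p a) + 1) + 1) fun x hx => ?_).trans ?_
    · obtain ⟨g, hg, rfl⟩ := List.mem_map.1 hx
      refine (sz_cl_le g).trans ?_
      have := h4 g hg
      gcongr
    · rw [List.length_map]
      gcongr

end Crest.Agent.R312.AlgMainAux1
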