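import Crest.Agent.R312.AlgT4
import Crest.Agent.R312.AlgMainAux1
import Crest.Agent.Lib.PolyTime.Bridge

/-!
# Row 312, algorithm half: complete factorisation, `AuxPrime → S0484`
(Write `_root_.funext`: `Polynomial.funext` is open.)
-/

set_option autoImplicit false
open Finset Polynomial Crest.Agent.Lib.PolyTime Crest.PolyFactor
open scoped Classical

noncomputable section
namespace Crest.Agent.R312

variable {α : Type} [PEnc α] {p : α → ℕ} [∀ a, Fact (p a).Prime] {f : ∀ a, (ZMod (p a))[X]}

/-- One round: split every member which is not irreducible (`berlekamp` on the index type of pairs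
`(a, cs)` with `cs ∈ L a`, `Poly.map_mem`; replace `g` by `[u, g /ₘ u]` unless `u = 1`). -/
theorem factor_round (hA : AuxPrime) (hp : Poly p) {n : α → ℕ} (hc : HasCyc p n)
    {L : ∀ a, List (ZMod (p a))[X]} (hL : Poly fun a => (L a).map clP)
    (h : ∀ a, ∀ g ∈ L a, g.Monic ∧ 0 < g.natDegree ∧ g.natDegree ≤ n a) :
    ∃ L' : ∀ a, List (ZMod (p a))[X], (Poly fun a => (L' a).map clP) ∧ ∀ a,
      (∀ g ∈ L' a, g.Monic ∧ 0 < g.natDegree) ∧ (L' a).prod = (L a).prod ∧
      ((∀ g ∈ L' a, Irreducible g) ∨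
        ((L a).length < (L' a).length ∧ ¬∀ g ∈ L a, Irreducible g)) :=
  AlgMainAux1.round hA hp hc hL h

/-- `R37.DP.loop` with `natDegree f` rounds; the state is a list of coefficient lists (or a list of
polynomials coded by `clP`); invariant: monic, positive degrees, product `f`, and all members are
irreducible or the length exceeds the number of rounds; always `length ≤ natDegree f`.
Start with `[f]`, or `[]` if the degree is `0`. -/
theorem factor_all (hA : AuxPrime) (hp : Poly p) (hf : PX f) (hm : ∀ a, (f a).Monic)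
    (hc : HasCyc p fun a => (f a).natDegree) :
    ∃ L : ∀ a, List (ZMod (p a))[X], (Poly fun a => (L a).map clP) ∧ ∀ a,
      (∀ g ∈ L a, g.Monic ∧ Irreducible g) ∧ (L a).prod = f a :=
  AlgMainAux1.all hA hp hf hm hc

/-- `R37.DP.loop`: the state is the table of coefficient lists for `l ≤ i`; the next entry is the first
factor of `∑_{k ≤ i} X ^ k` (`cyclotomic_prime`, degree `i`), found by `factor_all` with the table so
far (`PX.of_list`). -/
theorem hasCyc (hA : AuxPrime) (hp : Poly p) {n : α → ℕ} (hn : PN n) : HasCyc p n := by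
  obtain ⟨B, hB, eB⟩ : ∃ B : α → ℕ, PB B ∧ ∀ a, B a = (n a + 1) * (4 * sz (p a) + 1) + 1 :=
    ⟨_, ((hn.pb.add (PB.const 1)).mul (((PB.const 4).mul hp.pb_sz).add (PB.const 1))).add
      (PB.const 1), fun _ => rfl⟩
  let I : α → ℕ → List (List ℕ) → Prop := fun a i t => t.length = i + 1 ∧ (∀ cs ∈ t, sz cs ≤ B a) ∧
    ∀ l ≤ i, l.Prime → CycF l (ofCoeffList (p a) (t.getD l []))
  have hnil : ∀ a, sz ([] : List ℕ) ≤ B a := fun a => by
    rw [eB]
    exact Nat.le_add_left 1 _
  obtain ⟨out, ho, hI⟩ := R37.DP.loop (β := fun _ => List (List ℕ)) hn.poly hn.pb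
    (B := fun a => (n a + 1) * (B a + 1) + 1)
    (((hn.pb.add (PB.const 1)).mul (hB.add (PB.const 1))).add (PB.const 1)) I
    (init := fun _ => [[]]) (R37.DP.of_poly (Lib.PolyTime.Poly.const _))
    (fun a => ⟨rfl, by simpa using hnil a, fun l hl hl' => absurd hl'.pos (by omega)⟩)
    (by
      let γ := {q : Σ _ : α, Un × List (List ℕ) // I q.1 q.2.1.n q.2.2 ∧ q.2.1.n < n q.1}
      have ha : Poly fun q : γ => q.1.1 := Poly.id'.val.sigmaFst
      have hs : Poly fun q : γ => q.1.2 := Poly.id'.val.sigmaSnd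
      have hi : PN fun q : γ => q.1.2.1.n := ⟨hs.fst.unVal, PB.unVal hs.fst⟩
      have hp' : Poly fun q : γ => p q.1.1 := hp.comp ha
      have hf : PX (p := fun q : γ => p q.1.1) fun q => ∑ k ∈ range (q.1.2.1.n + 1), X ^ k :=
        PX.of_cx (p := fun q : γ => p q.1.1) (π := fun q => q)
          (Ctx.CX.sum (baseZ_ok hp') Poly.id' hi.succ (V := fun _ _ k => X ^ k)
            (Ctx.CX.X_pow (baseZ_ok hp') (poly_ix1 _) hi.succ.var))
      have hd : ∀ q : γ, (∑ k ∈ range (q.1.2.1.n + 1), X ^ k : (ZMod (p q.1.1))[X]).natDegree ≤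
          q.1.2.1.n := fun q => natDegree_sum_le_of_forall_le _ _ fun k hk =>
        (natDegree_X_pow_le k).trans (Nat.lt_succ_iff.1 (mem_range.1 hk))
      obtain ⟨L, hL, H⟩ := factor_all hA hp' hf (fun q => monic_geom_sum_X (Nat.succ_ne_zero _))
        ⟨fun r : γ × ℕ => ofCoeffList (p r.1.1.1) (r.1.1.2.2.getD r.2 []),
          PX.of_list (p := fun r : γ × ℕ => p r.1.1.1) (hp'.comp Poly.id'.fst)
            (Poly.listGetD (hs.snd.comp Poly.id'.fst) Poly.id'.snd (Lib.PolyTime.Poly.const _)),
          fun q l h1 h2 _ => q.2.1.2.2 l (h2.trans (hd q)) h1⟩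
      refine ⟨fun q => q.1.2.2 ++ [((L q).map clP).headD []],
        R37.DP.of_poly (hs.snd.append ((hL.headD (Lib.PolyTime.Poly.const _)).cons
          (Lib.PolyTime.Poly.const _))), fun q => ?_⟩
      obtain ⟨h1, h2⟩ := H q
      have hd' := hd q
      have hm : (∑ k ∈ range (q.1.2.1.n + 1), X ^ k : (ZMod (p q.1.1))[X]).Monic :=
        monic_geom_sum_X (Nat.succ_ne_zero _)
      obtain ⟨⟨e1, e2, e3⟩, e4⟩ := q.2
      change I q.1.1 (q.1.2.1.n + 1) (q.1.2.2 ++ [((L q).map clP).headD []])
      generalize L q = M at h1 h2 ⊢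
      refine ⟨by simp [e1], fun cs hcs => ?_, fun l hl hl' => ?_⟩
      · rcases List.mem_append.1 hcs with h | h
        · exact e2 cs h
        · rw [List.mem_singleton.1 h]
          rcases M with _ | ⟨g, M⟩
          · exact hnil _
          · have h3 : g.natDegree ≤ q.1.2.1.n :=
              (natDegree_le_of_dvd (h2 ▸ List.dvd_prod (by simp)) hm.ne_zero).trans hd'
            refine (sz_cl_le g).trans ?_
            rw [eB]
            gcongr
            omega
      · rcases Nat.lt_or_eq_of_le hl with h | h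
        · rw [List.getD_append _ _ _ _ (by omega)]
          exact e3 l (by omega) hl'
        · rw [List.getD_append_right _ _ _ _ (by omega), e1, h, Nat.sub_self]
          subst h
          have : Fact (q.1.2.1.n + 1).Prime := ⟨hl'⟩
          rw [← cyclotomic_prime] at h2
          rcases M with _ | ⟨g, M⟩
          · have h3 := degree_cyclotomic_pos _ (ZMod (p q.1.1)) hl'.pos
            rw [← h2] at h3
            simp at h3
          · change CycF _ (ofCoeffList _ (clP g))
            rw [ofCoeffList_cl]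
            exact ⟨(h1 g (by simp)).1, (h1 g (by simp)).2, h2 ▸ List.dvd_prod (by simp)⟩)
    fun a i t hi ht => (sz_list_le ht.2.1).trans (by
      rw [ht.1]
      gcongr)
  exact ⟨fun r => ofCoeffList (p r.1) ((out r.1).getD r.2 []),
    PX.of_list (p := fun r : α × ℕ => p r.1) (hp.comp Poly.id'.fst)
      (Poly.listGetD (ho.poly.comp Poly.id'.fst) Poly.id'.snd (Lib.PolyTime.Poly.const _)),
    fun a l h1 h2 _ => (hI a).2.2 l h2 h1⟩

/-- The algorithm on data. -/
theorem factor_data (hA : AuxPrime) :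
    ∃ G : ℕ × List ℕ → List Bool, Poly G ∧
      ∀ (p : ℕ) [Fact p.Prime] (f : (ZMod p)[X]), f ≠ 0 →
        (∀ g ∈ factorOutput p (G (p, clP f)), g.Monic ∧ Irreducible g) ∧
          C f.leadingCoeff * (factorOutput p (G (p, clP f))).prod = f := by
  let γ := {x : ℕ × List ℕ // x.1.Prime ∧ ofCoeffList x.1 x.2 ≠ 0}
  have : ∀ a : γ, Fact a.1.1.Prime := fun a => ⟨a.2.1⟩
  have hp : Poly fun a : γ => a.1.1 := Poly.id'.val.fst
  have hf : PX (p := fun a : γ => a.1.1) fun a => ofCoeffList a.1.1 a.1.2 :=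
    PX.of_list hp Poly.id'.val.snd
  have hg := PX.normalize hp hf
  obtain ⟨L, hL, H⟩ := factor_all hA hp hg (fun a => monic_mul_leadingCoeff_inv a.2.2)
    (hasCyc hA hp hg.natDegree)
  obtain ⟨G, hG, eG⟩ := exists_extend (o := fun a : γ => ((L a).map clP).flatMap encNatList)
    (hL.flatMap (f := fun _ cs => encNatList cs) (poly_encNatList.comp Poly.id'.snd))
  refine ⟨G, hG, fun p hp f hf => ?_⟩
  let a : γ := ⟨(p, clP f), hp.out, by rw [ofCoeffList_cl]; exact hf⟩
  have e : factorOutput p (G (p, clP f)) = L a := by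
    have e1 : G (p, clP f) = _ := eG a
    rw [e1, factorOutput, decodeLists_flatMap, List.map_map]
    exact List.map_id'' (fun g => ofCoeffList_cl (p := p) g) _
  obtain ⟨h1, h2⟩ := H a
  rw [e]
  refine ⟨h1, ?_⟩
  have h3 : (L a : List (ZMod p)[X]).prod =
      ofCoeffList p (clP f) * C (ofCoeffList p (clP f)).leadingCoeff⁻¹ := h2
  rw [ofCoeffList_cl] at h3
  rw [h3, mul_left_comm, ← C_mul, mul_inv_cancel₀ (leadingCoeff_ne_zero.2 hf), C_1, mul_one]

/-- **The algorithm half.** -/
theorem alg_main (hA : AuxPrime) :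
    ∃ F : List Bool → List Bool, Crest.Complexity.PolyTime F ∧
      ∀ (p : ℕ) [Fact p.Prime] (f : Polynomial (ZMod p)), f ≠ 0 →
        (∀ g ∈ Crest.PolyFactor.factorOutput p (F (Crest.PolyFactor.encodeInst p f)),
            g.Monic ∧ Irreducible g) ∧
          Polynomial.C f.leadingCoeff *
              (Crest.PolyFactor.factorOutput p (F (Crest.PolyFactor.encodeInst p f))).prod = f := by
  obtain ⟨G, hG, H⟩ := factor_data hA
  obtain ⟨P, hP, eP⟩ := exists_parse
  refine ⟨fun s => G ((P s).headD 0, (P s).tail), Poly.polyTime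
    (hG.comp ((hP.headD (Lib.PolyTime.Poly.const 0)).pair hP.tail)), fun p _ f hf => ?_⟩
  have e : P (encodeInst p f) = p :: clP f := eP _
  simpa only [e, List.headD_cons, List.tail_cons] using H p f hf

end Crest.Agent.R312
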