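import Crest.Agent.R312.AlgBasis

/-!
# Row 312, algorithm half: places as Laurent expansions

A place is a point `(α, β)` with `β ^ l = f α`, or a point at infinity `(none, β)`, `β ^ l = 1`
(`β` = value of `y / x ^ m`).  `c.emb P` is the expansion in a local parameter `t`.
DO NOT change the definitions.
-/

set_option autoImplicit false
open Polynomial Finset HahnSeries
open scoped Classical

noncomputable section
namespace Crest.Agent.R312

/-- The Laurent series `z` has leading term `a t ^ n` (or vanishes to higher order if `a = 0`). -/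
def Lead {E : Type} [Field E] (z : LaurentSeries E) (n : ℤ) (a : E) : Prop :=
  (∀ k < n, z.coeff k = 0) ∧ z.coeff n = a

section lead
variable {E : Type} [Field E] {z w : LaurentSeries E} {n n' : ℤ} {a b : E}

theorem Lead.mul (h : Lead z n a) (h' : Lead w n' b) : Lead (z * w) (n + n') (a * b) := by
  refine ⟨fun k hk => ?_, ?_⟩
  · rw [HahnSeries.coeff_mul]
    refine Finset.sum_eq_zero fun ij hij => ?_
    have e := (Finset.mem_antidiagonal.1 hij).2.2
    by_cases h1 : ij.1 < n
    · rw [h.1 _ h1, zero_mul]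
    · rw [h'.1 _ (by omega), mul_zero]
  · rw [HahnSeries.coeff_mul, Finset.sum_eq_single (n, n'), h.2, h'.2]
    · rintro ⟨i, j⟩ hij hne
      have e : i + j = n + n' := (Finset.mem_antidiagonal.1 hij).2.2
      by_cases h1 : i < n
      · rw [h.1 _ h1, zero_mul]
      · have : i ≠ n := fun e' => hne (Prod.ext e' (by dsimp only; omega))
        rw [h'.1 j (by omega), mul_zero]
    · intro hn
      by_contra h0
      exact hn (Finset.mem_antidiagonal.2 ⟨left_ne_zero_of_mul h0, right_ne_zero_of_mul h0, rfl⟩)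

theorem Lead.add (h : Lead z n a) (h' : Lead w n b) : Lead (z + w) n (a + b) :=
  ⟨fun k hk => by rw [HahnSeries.coeff_add, h.1 k hk, h'.1 k hk, add_zero],
    by rw [HahnSeries.coeff_add, h.2, h'.2]⟩

theorem Lead.lower (h : Lead z n a) (hn : n' < n) : Lead z n' 0 :=
  ⟨fun k hk => h.1 k (hk.trans hn), h.1 _ hn⟩

theorem lead_single (n : ℤ) (a : E) : Lead (single n a) n a :=
  ⟨fun _ hk => coeff_single_of_ne hk.ne, coeff_single_same _ _⟩

theorem lead_C (a : E) : Lead (HahnSeries.C a) 0 a := lead_single 0 a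

theorem lead_one : Lead (1 : LaurentSeries E) 0 1 := lead_single 0 1

theorem Lead.pow (h : Lead z n a) (k : ℕ) : Lead (z ^ k) (k * n) (a ^ k) := by
  induction k with
  | zero => simpa using lead_one
  | succ k ih =>
    rw [pow_succ, pow_succ, Nat.cast_succ, add_mul, one_mul]
    exact ih.mul h

theorem lead_prod {ι : Type} {s : Finset ι} {z : ι → LaurentSeries E} {n : ι → ℤ} {a : ι → E}
    (h : ∀ i ∈ s, Lead (z i) (n i) (a i)) : Lead (∏ i ∈ s, z i) (∑ i ∈ s, n i) (∏ i ∈ s, a i) := by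
  induction s using Finset.induction_on with
  | empty => simpa using lead_one
  | insert i s hi ih =>
    rw [Finset.prod_insert hi, Finset.sum_insert hi, Finset.prod_insert hi]
    exact (h i (Finset.mem_insert_self _ _)).mul (ih fun j hj => h j (Finset.mem_insert_of_mem hj))

theorem Lead.ne_zero (h : Lead z n a) (ha : a ≠ 0) : z ≠ 0 := by
  rintro rfl
  exact ha h.2.symm

theorem Lead.order_eq (h : Lead z n a) (ha : a ≠ 0) : z.order = n :=
  le_antisymm (order_le_of_coeff_ne_zero (h.2 ▸ ha)) ((le_order_iff_forall (h.ne_zero ha)).2 h.1)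

theorem lead_ofPowerSeries (g : PowerSeries E) :
    Lead (ofPowerSeries ℤ E g) 0 (PowerSeries.constantCoeff g) := by
  refine ⟨fun k hk => ?_, ?_⟩
  · rw [ofPowerSeries_apply, embDomain_of_notMem_range]
    simp only [Nat.castOrderEmbedding_apply, Set.mem_range]
    omega
  · rw [← PowerSeries.coeff_zero_eq_constantCoeff_apply, ← ofPowerSeries_apply_coeff (Γ := ℤ)]
    rfl

theorem Lead.eval₂ (h : Lead z 0 a) (q : E[X]) :
    Lead (q.eval₂ HahnSeries.C z) 0 (q.eval a) := by
  induction q using Polynomial.induction_on' with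
  | add p q hp hq =>
    rw [eval₂_add, eval_add]
    exact hp.add hq
  | monomial k b =>
    rw [eval₂_monomial, eval_monomial]
    simpa using (lead_C b).mul (h.pow k)

theorem eval₂_injective [IsAlgClosed E] (hn : n ≠ 0) (hz : z.coeff n ≠ 0) :
    Function.Injective (eval₂RingHom (HahnSeries.C : E →+* LaurentSeries E) z) := by
  rw [injective_iff_map_eq_zero]
  intro g hg
  by_contra h0
  rw [(IsAlgClosed.splits g).eq_prod_roots, map_mul, map_multiset_prod, mul_eq_zero] at hg
  rcases hg with hg | hg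
  · rw [coe_eval₂RingHom, eval₂_C, map_eq_zero] at hg
    exact h0 (leadingCoeff_eq_zero.1 hg)
  · rw [Multiset.prod_eq_zero_iff, Multiset.map_map, Multiset.mem_map] at hg
    obtain ⟨r, -, hr⟩ := hg
    rw [Function.comp_apply, coe_eval₂RingHom, eval₂_sub, eval₂_X, eval₂_C, sub_eq_zero] at hr
    rw [hr] at hz
    exact hz (coeff_single_of_ne hn)

end lead

/-- Hensel: write `F = single (l n) (a ^ l) * h` with a power series `h`, `h 0 = 1`
(`LaurentSeries.single_order_mul_powerSeriesPart`), and use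
`IsAdicComplete.henselianRing` for `PowerSeries E` and the polynomial `X ^ l - C h`. -/
theorem exists_root_lead {E : Type} [Field E] {l : ℕ} (hl : (l : E) ≠ 0) {F : LaurentSeries E}
    {n : ℤ} {a : E} (ha : a ≠ 0) (hF : Lead F (l * n) (a ^ l)) :
    ∃ z : LaurentSeries E, z ^ l = F ∧ Lead z n a := by
  have hl0 : l ≠ 0 := by
    rintro rfl
    exact hl Nat.cast_zero
  have ho := hF.order_eq (pow_ne_zero l ha)
  have hc : PowerSeries.constantCoeff F.powerSeriesPart = a ^ l := by
    rw [← PowerSeries.coeff_zero_eq_constantCoeff_apply, LaurentSeries.powerSeriesPart_coeff, ho,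
      Nat.cast_zero, add_zero, hF.2]
  obtain ⟨g, hg, hg'⟩ := HenselianRing.is_henselian
    (I := (Ideal.span {PowerSeries.X} : Ideal (PowerSeries E)))
    (X ^ l - Polynomial.C F.powerSeriesPart) (monic_X_pow_sub_C _ hl0) (PowerSeries.C a)
    (by
      rw [Ideal.mem_span_singleton, PowerSeries.X_dvd_iff]
      simp [hc])
    (by
      refine IsUnit.map _ ?_
      rw [PowerSeries.isUnit_iff_constantCoeff, isUnit_iff_ne_zero]
      simp [derivative_X_pow, hl, ha])
  rw [Ideal.mem_span_singleton, PowerSeries.X_dvd_iff, map_sub, PowerSeries.constantCoeff_C,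
    sub_eq_zero] at hg'
  have h1 : g ^ l = F.powerSeriesPart := by simpa [sub_eq_zero] using hg
  refine ⟨single n 1 * ofPowerSeries ℤ E g, ?_, ?_⟩
  · rw [mul_pow, ← map_pow (ofPowerSeries ℤ E), h1, single_pow, one_pow, nsmul_eq_mul, ← ho]
    exact F.single_order_mul_powerSeriesPart
  · have := (lead_single n (1 : E)).mul (lead_ofPowerSeries g)
    rwa [add_zero, one_mul, hg'] at this

/-- Uniqueness: the quotient is an `l`-th root of unity in a field, hence a constant `ζ ^ k`. -/
theorem eq_of_pow_eq_of_lead {E : Type} [Field E] {l : ℕ} (hl : 0 < l) {ζ : E}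
    (hζ : IsPrimitiveRoot ζ l) {z w : LaurentSeries E} {n : ℤ} {a : E} (ha : a ≠ 0)
    (h : z ^ l = w ^ l) (hz : Lead z n a) (hw : Lead w n a) : z = w := by
  have : NeZero l := ⟨hl.ne'⟩
  have hw0 := hw.ne_zero ha
  have h1 : IsPrimitiveRoot (HahnSeries.C ζ : LaurentSeries E) l :=
    hζ.map_of_injective HahnSeries.C_injective
  obtain ⟨i, -, hi⟩ := h1.eq_pow_of_pow_eq_one (ξ := z / w)
    (by rw [div_pow, h, div_self (pow_ne_zero _ hw0)])
  rw [← map_pow, eq_div_iff hw0] at hi
  have h2 := ((lead_C (ζ ^ i)).mul hw).2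
  rw [zero_add, hi, hz.2] at h2
  rw [← hi, (mul_eq_right₀ ha).1 h2.symm, map_one, one_mul]

namespace Crv
variable {E : Type} [Field E] (c : Crv E)

/-- Points of the complete curve. -/
def Place : Type := {p : Option E × E // p.2 ^ c.l = p.1.elim 1 fun α => c.f.eval α}

/-- Expansion of `x`. -/
def xs (P : c.Place) : LaurentSeries E :=
  P.1.1.elim (single (-1) 1) fun α => HahnSeries.C α +
    if c.f.eval α = 0 then single (c.l : ℤ) (c.f.derivative.eval α)⁻¹ else single 1 1

/-- Order of `y`. -/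
def yo (P : c.Place) : ℤ := P.1.1.elim (-(c.m : ℤ)) fun α => if c.f.eval α = 0 then 1 else 0

/-- Leading coefficient of `y`. -/
def yc (P : c.Place) : E := P.1.1.elim P.1.2 fun α => if c.f.eval α = 0 then 1 else P.1.2

/-- `xs P` is transcendental (over an algebraically closed field `g (xs P)` is a product of
non-zero factors), so `RatFunc.liftRingHom` applies to `eval₂RingHom HahnSeries.C (xs P)` (do not use
`Algebra E (LaurentSeries E)`: instance diamond); `f (xs P)` has leading term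
`yc ^ l t ^ (l yo)`; then `exists_root_lead` and `c.lift`. -/
theorem exists_emb [IsAlgClosed E] (P : c.Place) :
    ∃ e : c.L →+* LaurentSeries E, (∀ a, e (algebraMap E c.L a) = HahnSeries.C a) ∧
      e c.x = c.xs P ∧ Lead (e c.y) (c.yo P) (c.yc P) := by
  have hl0 : (0 : ℤ) < c.l := by exact_mod_cast c.l_pos
  have key : (∃ n : ℤ, n ≠ 0 ∧ (c.xs P).coeff n ≠ 0) ∧ c.yc P ≠ 0 ∧
      Lead (c.f.eval₂ HahnSeries.C (c.xs P)) (c.l * c.yo P) (c.yc P ^ c.l) := by
    obtain ⟨⟨o, β⟩, h⟩ := P
    cases o with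
    | none =>
      have h : β ^ c.l = 1 := h
      refine ⟨⟨-1, by norm_num, by simp [xs]⟩, ?_, ?_⟩
      · rintro (rfl : β = 0)
        rw [zero_pow c.l_pos.ne'] at h
        exact zero_ne_one h
      · change Lead (c.f.eval₂ HahnSeries.C (single (-1) 1)) (c.l * -(c.m : ℤ)) (β ^ c.l)
        have h1 : ∀ a ∈ c.rts, Lead ((X - Polynomial.C a).eval₂ HahnSeries.C
            (single (-1) 1 : LaurentSeries E)) (-1) 1 := by
          intro a _
          rw [eval₂_sub, eval₂_X, eval₂_C, sub_eq_add_neg, ← map_neg]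
          simpa using (lead_single (-1) (1 : E)).add ((lead_C (-a)).lower (by norm_num))
        have h2 := lead_prod h1
        rw [← eval₂_finsetProd, ← c.f_eq_prod, Finset.sum_const, c.card_rts, Finset.prod_const_one]
          at h2
        rw [h]
        simpa using h2
    | some α =>
      have h : β ^ c.l = c.f.eval α := h
      by_cases h0 : c.f.eval α = 0
      · have hd := c.derivative_ne h0
        have ex : c.xs ⟨(some α, β), h⟩ =
            HahnSeries.C α + single (c.l : ℤ) (c.f.derivative.eval α)⁻¹ := by simp [xs, h0]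
        have e1 : c.yo ⟨(some α, β), h⟩ = 1 := by simp [yo, h0]
        have e2 : c.yc ⟨(some α, β), h⟩ = 1 := by simp [yc, h0]
        rw [ex, e1, e2]
        refine ⟨⟨c.l, hl0.ne', ?_⟩, one_ne_zero, ?_⟩
        · rw [HahnSeries.coeff_add, HahnSeries.C_apply, coeff_single_of_ne hl0.ne', zero_add,
            coeff_single_same]
          exact inv_ne_zero hd
        · obtain ⟨q, hq⟩ := dvd_iff_isRoot.2 h0
          have h1 : c.f.derivative.eval α = q.eval α := by
            rw [hq]
            simp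
          have h2 := (lead_C α).add ((lead_single (c.l : ℤ) (c.f.derivative.eval α)⁻¹).lower hl0)
          rw [add_zero] at h2
          have h3 := (lead_single (c.l : ℤ) (c.f.derivative.eval α)⁻¹).mul (h2.eval₂ q)
          rw [add_zero, ← h1, inv_mul_cancel₀ hd] at h3
          generalize (c.f.derivative.eval α)⁻¹ = d at h3 ⊢
          rw [hq, eval₂_mul, eval₂_sub, eval₂_X, eval₂_C, add_sub_cancel_left, mul_one, one_pow]
          exact h3
      · have ex : c.xs ⟨(some α, β), h⟩ = HahnSeries.C α + single 1 1 := by simp [xs, h0]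
        have e1 : c.yo ⟨(some α, β), h⟩ = 0 := by simp [yo, h0]
        have e2 : c.yc ⟨(some α, β), h⟩ = β := by simp [yc, h0]
        rw [ex, e1, e2]
        refine ⟨⟨1, one_ne_zero, ?_⟩, ?_, ?_⟩
        · rw [HahnSeries.coeff_add, HahnSeries.C_apply, coeff_single_of_ne one_ne_zero, zero_add,
            coeff_single_same]
          exact one_ne_zero
        · rintro rfl
          rw [zero_pow c.l_pos.ne'] at h
          exact h0 h.symm
        · have h2 := (lead_C α).add ((lead_single 1 (1 : E)).lower zero_lt_one)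
          rw [add_zero] at h2
          rw [mul_zero, h]
          exact h2.eval₂ c.f
  obtain ⟨⟨n, hn, hx⟩, hy, hf⟩ := key
  obtain ⟨z, hz, hz'⟩ := exists_root_lead c.l_ne hy hf
  have hinj := eval₂_injective hn hx
  have hi : ∀ g : E[X], IsFractionRing.lift (K := RatFunc E) hinj (algebraMap E[X] (RatFunc E) g) =
      g.eval₂ HahnSeries.C (c.xs P) := fun g => IsFractionRing.lift_algebraMap hinj g
  have hp : ∀ g : E[X], c.lift (IsFractionRing.lift (K := RatFunc E) hinj) z (hz.trans (hi _).symm)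
      (c.po g) = g.eval₂ HahnSeries.C (c.xs P) := fun g => by
    rw [← c.of_algebraMap, c.lift_of, hi]
  refine ⟨c.lift (IsFractionRing.lift (K := RatFunc E) hinj) z (hz.trans (hi _).symm),
    fun a => ?_, ?_, ?_⟩
  · rw [← c.po_C, hp, eval₂_C]
  · rw [← c.po_X, hp, eval₂_X]
  · rw [c.lift_y]
    exact hz'

variable [IsAlgClosed E]

/-- Laurent expansion at `P`. -/
def emb (P : c.Place) : c.L →+* LaurentSeries E := (c.exists_emb P).choose

theorem emb_C (P : c.Place) (a : E) : c.emb P (algebraMap E c.L a) = HahnSeries.C a :=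
  (c.exists_emb P).choose_spec.1 a

theorem emb_x (P : c.Place) : c.emb P c.x = c.xs P := (c.exists_emb P).choose_spec.2.1

theorem emb_y (P : c.Place) : Lead (c.emb P c.y) (c.yo P) (c.yc P) :=
  (c.exists_emb P).choose_spec.2.2

/-- Coefficient of `t ^ n`. -/
def co (P : c.Place) (n : ℤ) (φ : c.L) : E := (c.emb P φ).coeff n

/-- Order of vanishing (`0` for `φ = 0`). -/
def ord (P : c.Place) (φ : c.L) : ℤ := (c.emb P φ).order

/-- `φ` vanishes at `P` to order at least `n` (true for `φ = 0`). -/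
def Ge (P : c.Place) (n : ℤ) (φ : c.L) : Prop := ∀ k < n, c.co P k φ = 0

omit [IsAlgClosed E] in
/-- The point at infinity `y / x ^ m = ζ ^ t`. -/
def inf (t : ℕ) : c.Place :=
  ⟨(none, c.ζ ^ t), by
    change (c.ζ ^ t) ^ c.l = 1
    rw [← pow_mul, mul_comm t, pow_mul, c.ζ_pow, one_pow]⟩

omit [IsAlgClosed E] in
/-- The ramification point above a root. -/
def ram (a : E) (h : c.f.eval a = 0) : c.Place := ⟨(some a, 0), by simp [h, c.l_pos.ne']⟩

omit [IsAlgClosed E] in
/-- Action of `σ ^ k` on places. -/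
def sP (k : ℕ) (P : c.Place) : c.Place :=
  ⟨(P.1.1, c.ζ ^ k * P.1.2), by
    rw [mul_pow, ← pow_mul, mul_comm k, pow_mul, c.ζ_pow, one_pow, one_mul]; exact P.2⟩

omit [IsAlgClosed E] in
theorem sP_injective (k : ℕ) : Function.Injective (c.sP k) := by
  rintro ⟨⟨o, β⟩, h⟩ ⟨⟨o', β'⟩, h'⟩ e
  have e := Prod.mk.inj (congrArg Subtype.val e)
  exact Subtype.ext (Prod.ext e.1 (mul_left_cancel₀ (pow_ne_zero k c.ζ_ne) e.2))

variable {c}

omit [IsAlgClosed E] in
theorem Sym.eval_θ (T : c.Sym) (α : E) : c.f.eval (T.θ α) = T.θ (c.f.eval α) := by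
  conv_lhs => rw [← T.hf]
  exact Polynomial.eval_map_apply (p := c.f) (T.θ : E →+* E) α

omit [IsAlgClosed E] in
/-- Inverse action of Frobenius on places. -/
def Sym.pl (T : c.Sym) (P : c.Place) : c.Place :=
  ⟨(P.1.1.map T.θ.symm, T.θ.symm P.1.2), by
    obtain ⟨⟨o, β⟩, h⟩ := P
    apply T.θ.injective
    cases o with
    | none => simpa using h
    | some α => simpa [← T.eval_θ] using h⟩

omit [IsAlgClosed E] in
theorem Sym.pl_injective (T : c.Sym) : Function.Injective T.pl := by
  rintro ⟨⟨o, β⟩, h⟩ ⟨⟨o', β'⟩, h'⟩ e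
  have e := Prod.mk.inj (congrArg Subtype.val e)
  exact Subtype.ext (Prod.ext (Option.map_injective T.θ.symm.injective e.1)
    (T.θ.symm.injective e.2))

/-! ### calculus of coefficients and orders -/

@[simp] theorem co_zero (P : c.Place) (n : ℤ) : c.co P n 0 = 0 := by
  simp [co]

theorem co_add (P : c.Place) (n : ℤ) (φ ψ : c.L) : c.co P n (φ + ψ) = c.co P n φ + c.co P n ψ := by
  simp [co]

theorem co_sub (P : c.Place) (n : ℤ) (φ ψ : c.L) : c.co P n (φ - ψ) = c.co P n φ - c.co P n ψ := by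
  simp [co]

theorem co_smul (P : c.Place) (n : ℤ) (a : E) (φ : c.L) : c.co P n (a • φ) = a * c.co P n φ := by
  rw [co, co, Algebra.smul_def, map_mul, emb_C, C_mul_eq_smul, HahnSeries.coeff_smul, smul_eq_mul]

theorem co_sum {ι : Type} (P : c.Place) (n : ℤ) (s : Finset ι) (φ : ι → c.L) :
    c.co P n (∑ i ∈ s, φ i) = ∑ i ∈ s, c.co P n (φ i) := by
  induction s using Finset.induction_on with
  | empty => simp
  | insert i s hi ih => rw [Finset.sum_insert hi, Finset.sum_insert hi, co_add, ih]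

theorem co_algebraMap (P : c.Place) (n : ℤ) (a : E) :
    c.co P n (algebraMap E c.L a) = if n = 0 then a else 0 := by
  rw [co, emb_C, HahnSeries.C_apply, coeff_single]
  split_ifs <;> rfl

theorem co_one (P : c.Place) (n : ℤ) : c.co P n 1 = if n = 0 then 1 else 0 := by
  rw [← co_algebraMap, map_one]

theorem Ge.zero (P : c.Place) (n : ℤ) : c.Ge P n 0 := by
  exact fun k _ => co_zero P k

theorem Ge.one (P : c.Place) : c.Ge P 0 1 := by
  intro k hk
  rw [co_one, if_neg hk.ne]

theorem Ge.mono {P : c.Place} {n n' : ℤ} {φ : c.L} (h : c.Ge P n φ) (hn : n' ≤ n) : c.Ge P n' φ := by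
  exact fun k hk => h k (hk.trans_le hn)

theorem Ge.add {P : c.Place} {n : ℤ} {φ ψ : c.L} (h : c.Ge P n φ) (h' : c.Ge P n ψ) :
    c.Ge P n (φ + ψ) := by
  intro k hk
  rw [co_add, h k hk, h' k hk, add_zero]

theorem Ge.sub {P : c.Place} {n : ℤ} {φ ψ : c.L} (h : c.Ge P n φ) (h' : c.Ge P n ψ) :
    c.Ge P n (φ - ψ) := by
  intro k hk
  rw [co_sub, h k hk, h' k hk, sub_zero]

theorem Ge.smul {P : c.Place} {n : ℤ} {φ : c.L} (h : c.Ge P n φ) (a : E) : c.Ge P n (a • φ) := by
  intro k hk
  rw [co_smul, h k hk, mul_zero]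

theorem Ge.sum {ι : Type} {P : c.Place} {n : ℤ} {s : Finset ι} {φ : ι → c.L}
    (h : ∀ i ∈ s, c.Ge P n (φ i)) : c.Ge P n (∑ i ∈ s, φ i) := by
  intro k hk
  rw [co_sum]
  exact Finset.sum_eq_zero fun i hi => h i hi k hk

theorem Ge.succ {P : c.Place} {n : ℤ} {φ : c.L} (h : c.Ge P n φ) (h0 : c.co P n φ = 0) :
    c.Ge P (n + 1) φ := by
  intro k hk
  rcases (Int.lt_add_one_iff.1 hk).eq_or_lt with rfl | hk
  · exact h0
  · exact h k hk

theorem Ge.mul {P : c.Place} {n n' : ℤ} {φ ψ : c.L} (h : c.Ge P n φ) (h' : c.Ge P n' ψ) :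
    c.Ge P (n + n') (φ * ψ) := by
  intro k hk
  rw [co, map_mul]
  exact (Lead.mul ⟨h, rfl⟩ ⟨h', rfl⟩).1 k hk

theorem Ge.co_mul {P : c.Place} {n n' : ℤ} {φ ψ : c.L} (h : c.Ge P n φ) (h' : c.Ge P n' ψ) :
    c.co P (n + n') (φ * ψ) = c.co P n φ * c.co P n' ψ := by
  rw [co, map_mul]
  exact (Lead.mul ⟨h, rfl⟩ ⟨h', rfl⟩).2

theorem Ge.prod {ι : Type} {P : c.Place} {n : ι → ℤ} {s : Finset ι} {φ : ι → c.L}
    (h : ∀ i ∈ s, c.Ge P (n i) (φ i)) : c.Ge P (∑ i ∈ s, n i) (∏ i ∈ s, φ i) := by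
  intro k hk
  rw [co, map_prod]
  exact (lead_prod (z := fun i => c.emb P (φ i)) fun i hi => ⟨h i hi, rfl⟩).1 k hk

theorem Ge.co_prod {ι : Type} {P : c.Place} {n : ι → ℤ} {s : Finset ι} {φ : ι → c.L}
    (h : ∀ i ∈ s, c.Ge P (n i) (φ i)) :
    c.co P (∑ i ∈ s, n i) (∏ i ∈ s, φ i) = ∏ i ∈ s, c.co P (n i) (φ i) := by
  rw [co, map_prod]
  exact (lead_prod (z := fun i => c.emb P (φ i)) fun i hi => ⟨h i hi, rfl⟩).2

theorem ge_iff {P : c.Place} {n : ℤ} {φ : c.L} (h : φ ≠ 0) : c.Ge P n φ ↔ n ≤ c.ord P φ := by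
  exact (le_order_iff_forall ((_root_.map_ne_zero (c.emb P)).2 h)).symm

theorem ge_ord (P : c.Place) (φ : c.L) : c.Ge P (c.ord P φ) φ := by
  exact fun k hk => coeff_eq_zero_of_lt_order hk

theorem co_ord_ne (P : c.Place) {φ : c.L} (h : φ ≠ 0) : c.co P (c.ord P φ) φ ≠ 0 := by
  exact coeff_order_eq_zero.not.2 ((_root_.map_ne_zero (c.emb P)).2 h)

theorem ne_of_co {P : c.Place} {n : ℤ} {φ : c.L} (h : c.co P n φ ≠ 0) : φ ≠ 0 := by
  rintro rfl
  exact h (co_zero P n)

theorem ord_le_of_co {P : c.Place} {n : ℤ} {φ : c.L} (h : c.co P n φ ≠ 0) : c.ord P φ ≤ n := by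
  exact order_le_of_coeff_ne_zero h

theorem ord_eq {P : c.Place} {n : ℤ} {φ : c.L} (h : c.Ge P n φ) (h' : c.co P n φ ≠ 0) :
    c.ord P φ = n := by
  exact Lead.order_eq ⟨h, rfl⟩ h'

@[simp] theorem ord_zero (P : c.Place) : c.ord P 0 = 0 := by
  rw [ord, map_zero, order_zero]

theorem ord_mul (P : c.Place) {φ ψ : c.L} (h : φ ≠ 0) (h' : ψ ≠ 0) :
    c.ord P (φ * ψ) = c.ord P φ + c.ord P ψ := by
  refine ord_eq ((ge_ord P φ).mul (ge_ord P ψ)) ?_
  rw [(ge_ord P φ).co_mul (ge_ord P ψ)]
  exact mul_ne_zero (co_ord_ne P h) (co_ord_ne P h')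

theorem ord_inv (P : c.Place) (φ : c.L) : c.ord P φ⁻¹ = -c.ord P φ := by
  rcases eq_or_ne φ 0 with rfl | h
  · simp
  · have h1 := ord_mul P h (inv_ne_zero h)
    rw [mul_inv_cancel₀ h, ord, map_one, order_one] at h1
    omega

theorem ord_pow (P : c.Place) (φ : c.L) (k : ℕ) : c.ord P (φ ^ k) = k * c.ord P φ := by
  rcases eq_or_ne φ 0 with rfl | h
  · rcases Nat.eq_zero_or_pos k with rfl | hk
    · rw [pow_zero, ord, map_one, order_one]
      simp
    · simp [zero_pow hk.ne']
  · induction k with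
    | zero =>
      rw [pow_zero, ord, map_one, order_one]
      simp
    | succ k ih =>
      rw [pow_succ, ord_mul P (pow_ne_zero k h) h, ih]
      push_cast
      ring

theorem ord_algebraMap (P : c.Place) (a : E) : c.ord P (algebraMap E c.L a) = 0 := by
  rw [ord, emb_C, order_C]

theorem ord_smul (P : c.Place) {a : E} (ha : a ≠ 0) (φ : c.L) : c.ord P (a • φ) = c.ord P φ := by
  rcases eq_or_ne φ 0 with rfl | h
  · rw [smul_zero]
  · rw [Algebra.smul_def, ord_mul P ((_root_.map_ne_zero _).2 ha) h, ord_algebraMap, zero_add]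

end Crv
end Crest.Agent.R312
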