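import Crest.Agent.R312.AlgDiv

/-!
# Row 312, algorithm half: a weak Riemann–Roch theorem
-/

set_option autoImplicit false
open Polynomial Finset
open scoped Classical

noncomputable section
namespace Crest.Agent.R312
namespace Crv
variable {E : Type} [Field E] {c : Crv E} [IsAlgClosed E]

omit [IsAlgClosed E] in
theorem RR1_vdm {a : ℕ → E} (h : ∀ k < c.l, ∑ j ∈ range c.l, a j * (c.ζ ^ k) ^ j = 0) {j : ℕ}
    (hj : j < c.l) : a j = 0 :=
  congrFun (Matrix.eq_zero_of_forall_index_sum_mul_pow_eq_zero (n := c.l)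
    (f := fun k => c.ζ ^ (k : ℕ)) (v := fun j => a j)
    (fun i k e => Fin.ext (c.hζ.pow_inj i.2 k.2 e)) fun k =>
      (Fin.sum_univ_eq_sum_range (fun j => a j * (c.ζ ^ (k : ℕ)) ^ j) c.l).trans (h k k.2)) ⟨j, hj⟩

theorem RR1_pow {P : c.Place} {n : ℤ} {φ : c.L} (h : c.Ge P n φ) (j : ℕ) :
    c.Ge P (j * n) (φ ^ j) ∧ c.co P (j * n) (φ ^ j) = c.co P n φ ^ j := by
  have h1 := Ge.prod (s := range j) (n := fun _ => n) fun _ _ => h
  have h2 := Ge.co_prod (s := range j) (n := fun _ => n) fun _ _ => h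
  simp only [sum_const, prod_const, card_range, nsmul_eq_mul] at h1 h2
  exact ⟨h1, h2⟩

/-- One step of normality: if `ψ = ∑ g_j y ^ j` is divisible by `x - α` at all places above `α`
then all `g_j` vanish at `α` (Vandermonde in the values `ζ ^ k β` if `f α ≠ 0`; if `f α = 0`
induct on `j` using `co (ram) j ψ = g_j(α)` when the lower `g_i(α)` vanish). -/
theorem pc_eval_eq_zero {N : ℕ} {ψ : c.L} (hψ : ψ ∈ c.S N) {α : E}
    (h : ∀ P : c.Place, P.1.1 = some α → c.Ge P (c.ord P (c.x - algebraMap E c.L α)) ψ) (j : ℕ) :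
    (c.pc ψ j).eval α = 0 := by
  rcases le_or_gt c.l j with hj | hj
  · rw [pc_eq_zero ψ hj, eval_zero]
  by_cases hα : c.f.eval α = 0
  · induction j using Nat.strong_induction_on with
    | _ j ih =>
      have h1 := h (c.ram α hα) rfl
      rw [ord_x_sub, if_neg (by simp [ram]), if_pos (by simp [ram]), if_pos hα] at h1
      have h2 := h1 j (by exact_mod_cast hj)
      have h3 := fun i => RR1_pow (ge_y_ram α hα).1 i
      have h4 := fun i => ge_po_fin (P := c.ram α hα) rfl (c.pc ψ i)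
      simp only [mul_one, (ge_y_ram α hα).2, one_pow] at h3
      rw [← mkp_pc hψ, mkp, co_sum, sum_eq_single_of_mem j (mem_range.2 hj) fun i _ hi => ?_] at h2
      · rw [← h2, ← zero_add (j : ℤ), (h4 j).1.co_mul (h3 j).1, (h4 j).2, (h3 j).2, mul_one]
      · rcases lt_or_gt_of_ne hi with hi | hi
        · have h5 := ge_po_sub_ram α hα (c.pc ψ i)
          rw [ih i hi (hi.trans hj), map_zero, sub_zero] at h5
          exact h5.mul (h3 i).1 j (by omega)
        · exact (h4 i).1.mul (h3 i).1 j (by omega)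
  · obtain ⟨P, hP⟩ := exists_place (c := c) (some α)
    have hβ : P.1.2 ≠ 0 := fun h0 => hα (by
      have h1 := P.2
      rw [hP, h0, zero_pow c.l_pos.ne'] at h1
      exact h1.symm)
    refine (mul_eq_zero.1 (RR1_vdm (a := fun j => (c.pc ψ j).eval α * P.1.2 ^ j)
      (fun k _ => ?_) hj)).resolve_right (pow_ne_zero _ hβ)
    have hQ : (c.sP k P).1.1 = some α := hP
    have h1 := h _ hQ
    rw [ord_x_sub, if_neg (by simp [hP]), if_pos hQ, if_neg hα] at h1
    have h2 := h1 0 one_pos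
    rw [← mkp_pc hψ, mkp, co_sum] at h2
    refine (sum_congr rfl fun i _ => ?_).trans h2
    have h3 := RR1_pow (ge_y_fin hQ).1 i
    have h4 := (ge_po_fin hQ (c.pc ψ i)).1.co_mul h3.1
    rw [h3.2, mul_zero, add_zero, (ge_y_fin hQ).2, (ge_po_fin hQ _).2] at h4
    rw [h4, mul_assoc, ← mul_pow, mul_comm P.1.2]
    rfl

/-- A function without finite poles is a polynomial in `x`, `y` (induction on the degree of the
denominator in `exists_frac`). -/
theorem exists_S_of_ge {φ : c.L} (h : ∀ P : c.Place, P.1.1 ≠ none → c.Ge P 0 φ) :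
    ∃ N, φ ∈ c.S N := by
  obtain ⟨g, hg, N, hN⟩ := exists_frac φ
  refine ⟨N, ?_⟩
  induction hn : g.natDegree generalizing g with
  | zero =>
    obtain ⟨a, rfl⟩ := natDegree_eq_zero.1 hn
    rw [po_C, ← Algebra.smul_def] at hN
    exact (Submodule.smul_mem_iff _ (C_ne_zero.1 hg)).1 hN
  | succ n ih =>
    obtain ⟨α, hα⟩ := IsAlgClosed.exists_root g fun h0 => by
      rw [natDegree_eq_of_degree_eq_some (n := 0) h0] at hn
      omega
    obtain ⟨g, rfl⟩ := dvd_iff_isRoot.2 hα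
    have hg' := right_ne_zero_of_mul hg
    rw [natDegree_mul (X_sub_C_ne_zero α) hg', natDegree_X_sub_C] at hn
    refine ih g hg' ?_ (by omega)
    have h1 := pc_eval_eq_zero hN (α := α) fun P hP => by
      have h2 := (ge_ord P (c.x - algebraMap E c.L α)).mul
        ((ge_po_fin hP g).1.mul (h P (by simp [hP])))
      rwa [add_zero, add_zero, ← mul_assoc, ← po_C, ← po_X, ← map_sub, ← map_mul, map_sub, po_C,
        po_X] at h2
    refine mem_S.2 ⟨fun j => c.pc (c.po ((X - C α) * g) * φ) j /ₘ (X - C α),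
      mul_left_cancel₀ (po_ne (X_sub_C_ne_zero α)) ?_, fun j _ =>
        (degree_divByMonic_le _ _).trans_lt (degree_pc_lt hN j)⟩
    rw [← mul_assoc, ← map_mul, mkp, mul_sum]
    refine (mkp_pc hN).symm.trans (sum_congr rfl fun j _ => ?_)
    rw [← mul_assoc, ← map_mul, mul_divByMonic_eq_iff_isRoot.2 (h1 j)]

omit [IsAlgClosed E] in
/-- Lowering the weight: Vandermonde on `topv`. -/
theorem mem_S_of_topv {N : ℕ} {φ : c.L} (h : φ ∈ c.S (N + 1))
    (h0 : ∀ t < c.l, c.topv (N + 1) t φ = 0) : φ ∈ c.S N := by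
  refine mem_S.2 ⟨c.pc φ, (mkp_pc h).symm, fun j hj =>
    (degree_lt_iff_coeff_zero _ _).2 fun n hn => ?_⟩
  by_cases h1 : N + 1 + 1 - j * c.m ≤ n
  · exact (degree_lt_iff_coeff_zero _ _).1 (degree_pc_lt h j) n h1
  · have h2 := RR1_vdm (a := fun j => if j * c.m ≤ N + 1 then
      (c.pc φ j).coeff (N + 1 - j * c.m) else 0) (fun t ht => (sum_congr rfl fun i _ => by
        rw [ite_mul, zero_mul, pow_mul]).trans (h0 t ht)) hj
    simp only [show j * c.m ≤ N + 1 by omega, if_true] at h2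
    rwa [show n = N + 1 - j * c.m by omega]

theorem LL_Dinf (N : ℕ) : c.LL ((N : ℤ) • c.Dinf) = c.S N := by
  ext φ
  simp only [mem_LL, Finsupp.smul_apply, Dinf_apply, smul_eq_mul, mul_ite, mul_one, mul_zero]
  refine ⟨fun h => ?_, fun h P => ?_⟩
  · obtain ⟨M, hM⟩ := exists_S_of_ge (φ := φ) fun P hP => by simpa [hP] using h P
    induction M with
    | zero => exact S_mono N.zero_le hM
    | succ M ih =>
      rcases le_or_gt (M + 1) N with h1 | h1
      · exact S_mono h1 hM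
      · refine ih (mem_S_of_topv hM fun t _ => (co_inf_eq_topv t hM).symm.trans (h _ _ ?_))
        rw [if_pos (show (c.inf t).1.1 = none from rfl)]
        omega
  · rcases hP : P.1.1 with _ | α
    · rw [if_pos rfl]
      exact ge_S_inf hP h
    · rw [if_neg (Option.some_ne_none α), neg_zero]
      exact ge_S_fin hP h

theorem LL_le_S {N : ℕ} {D : c.Div} (h : 0 ≤ D) : c.LL ((N : ℤ) • c.Dinf - D) ≤ c.S N :=
  (LL_mono (sub_le_self _ h)).trans (LL_Dinf N).le

theorem LL_neg_Dinf {n : ℤ} (h : n < 0) : c.LL (n • c.Dinf) = ⊥ := by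
  refine eq_bot_iff.2 fun φ hφ => eq_zero_of_dg_neg hφ ?_
  rw [map_smul, dg_Dinf, smul_eq_mul]
  exact mul_neg_of_neg_of_pos h (by exact_mod_cast c.l_pos)

/-- Functions with the same divisor are proportional. -/
theorem exists_smul_of_mem_LL {φ ψ : c.L} (hψ : ψ ≠ 0) (h : φ ∈ c.LL (-c.div ψ)) :
    ∃ a : E, φ = a • ψ := by
  rw [← div_mul_cancel₀ φ hψ, mul_mem_LL_iff hψ, neg_add_cancel, ← zero_smul ℤ c.Dinf,
    ← Nat.cast_zero, LL_Dinf] at h
  obtain ⟨a, ha⟩ := mem_S_zero h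
  exact ⟨a, by rw [Algebra.smul_def, ← ha, div_mul_cancel₀ φ hψ]⟩

theorem exists_smul_of_div_eq {φ ψ : c.L} (hφ : φ ≠ 0) (hψ : ψ ≠ 0) (h : c.div φ = c.div ψ) :
    ∃ a : E, a ≠ 0 ∧ φ = a • ψ := by
  obtain ⟨a, ha⟩ := exists_smul_of_mem_LL hψ (h ▸ self_mem_LL φ)
  exact ⟨a, fun h0 => hφ (by rw [ha, h0, zero_smul]), ha⟩

theorem rr2_mem {D : c.Div} {P : c.Place} {φ : c.L} (h : φ ∈ c.LL (D + c.pt P))
    (h0 : c.co P (-(D P + 1)) φ = 0) : φ ∈ c.LL D := fun Q => by
  have h1 := h Q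
  rw [Finsupp.add_apply, pt_apply] at h1
  split_ifs at h1 with e
  · subst e
    simpa using h1.succ h0
  · simpa using h1

theorem rr2_step (D : c.Div) (P : c.Place) :
    ∃ v : c.L, c.LL (D + c.pt P) ≤ c.LL D ⊔ Submodule.span E {v} := by
  by_cases h : ∃ v ∈ c.LL (D + c.pt P), c.co P (-(D P + 1)) v ≠ 0
  · obtain ⟨v, hv, h0⟩ := h
    refine ⟨v, fun φ hφ => Submodule.mem_sup.2 ⟨φ - (c.co P (-(D P + 1)) φ /
      c.co P (-(D P + 1)) v) • v, rr2_mem (sub_mem hφ (Submodule.smul_mem _ _ hv)) ?_, _,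
      Submodule.smul_mem _ _ (Submodule.mem_span_singleton_self v), sub_add_cancel _ _⟩⟩
    rw [co_sub, co_smul, div_mul_cancel₀ _ h0, sub_self]
  · push Not at h
    exact ⟨0, fun φ hφ => Submodule.mem_sup_left (rr2_mem hφ (h φ hφ))⟩

/-- `LL D` is the kernel of the functional `co P (-(D P + 1))` on `LL (D + pt P)`; induction. -/
instance finite_LL (D : c.Div) : Module.Finite E (c.LL D) := by
  have h : Module.Finite E (c.LL (D ⊔ 0)) := by
    refine eff_induction (p := fun F => Module.Finite E (c.LL F)) ?_ (fun F P _ hF => ?_)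
      le_sup_right
    · have := LL_Dinf (c := c) 0
      rw [Nat.cast_zero, zero_smul] at this
      rw [this]
      infer_instance
    · obtain ⟨v, hv⟩ := rr2_step F P
      exact Submodule.finiteDimensional_of_le hv
  exact Submodule.finiteDimensional_of_le (LL_mono (D' := D ⊔ 0) le_sup_left)

/-- Dimension of a Riemann–Roch space. -/
def ll (D : c.Div) : ℕ := Module.finrank E (c.LL D)

theorem ll_add_pt (D : c.Div) (P : c.Place) : ll (D + c.pt P) ≤ ll D + 1 := by
  obtain ⟨v, hv⟩ := rr2_step D P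
  exact (Submodule.finrank_mono hv).trans ((Submodule.finrank_add_le_finrank_add_finrank _ _).trans
    (Nat.add_le_add_left (by simpa using finrank_span_le_card ({v} : Set c.L)) _))

theorem ll_add_le (D : c.Div) {F : c.Div} (h : 0 ≤ F) : (ll (D + F) : ℤ) ≤ ll D + c.dg F := by
  refine eff_induction (p := fun F => (ll (D + F) : ℤ) ≤ ll D + c.dg F) (by simp)
    (fun F P _ hF => ?_) h
  have := ll_add_pt (D + F) P
  rw [← add_assoc, map_add, dg_pt]
  omega

theorem ll_add_div (D : c.Div) {s : c.L} (hs : s ≠ 0) : ll (D + c.div s) = ll D := by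
  let e : c.L ≃ₗ[E] c.L := LinearEquiv.ofBijective (LinearMap.mulRight E s)
    (mulRight_bijective₀ s hs)
  have : c.LL (D + c.div s) = (c.LL D).comap (e : c.L →ₗ[E] c.L) :=
    Submodule.ext fun φ => (mul_mem_LL_iff hs).symm
  rw [ll, ll, this, Submodule.comap_equiv_eq_map_symm, LinearEquiv.finrank_map_eq]

/-- Riemann's inequality. -/
theorem riemann (N : ℕ) {F : c.Div} (h : 0 ≤ F) :
    (c.l : ℤ) * (N + 1) - c.gg - c.dg F ≤ ll ((N : ℤ) • c.Dinf - F) := by
  have h1 := ll_add_le ((N : ℤ) • c.Dinf - F) h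
  have h2 : (c.l : ℤ) * (N + 1) ≤ Module.finrank E (c.S N) + c.gg := by
    exact_mod_cast finrank_S_ge (c := c) N
  rw [sub_add_cancel, ll, LL_Dinf] at h1
  linarith

/-- Every effective divisor of degree `d` lies below the zeros of a form of degree `d`
(`x - α` for a point above `α`, `1` for a point at infinity). -/
theorem exists_form {F : c.Div} (h : 0 ≤ F) :
    ∃ u : c.L, u ≠ 0 ∧ F ≤ c.div u + c.dg F • c.Dinf := by
  refine eff_induction (p := fun F => ∃ u : c.L, u ≠ 0 ∧ F ≤ c.div u + c.dg F • c.Dinf)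
    ⟨1, one_ne_zero, by simp⟩ (fun F P _ ⟨u, hu, hF⟩ => ?_) h
  have key : ∃ w : c.L, w ≠ 0 ∧ c.pt P ≤ c.div w + c.Dinf := by
    have hl := c.l_pos
    rcases hP : P.1.1 with _ | α
    · refine ⟨1, one_ne_zero, fun Q => ?_⟩
      rw [div_one, zero_add, pt_apply, Dinf_apply]
      split_ifs with h1 h2
      · rfl
      · exact absurd (h1 ▸ hP) h2
      · norm_num
      · rfl
    · refine ⟨c.x - algebraMap E c.L α, fun e => ?_, fun Q => ?_⟩
      · have h1 := ord_x_sub P α
        rw [e, ← div_apply, div_zero, hP] at h1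
        simp only [reduceCtorEq, if_false, if_true, Finsupp.coe_zero, Pi.zero_apply] at h1
        split_ifs at h1 <;> omega
      · rw [Finsupp.add_apply, div_apply, ord_x_sub, pt_apply, Dinf_apply]
        by_cases h1 : P = Q
        · subst h1
          simp only [hP, reduceCtorEq, if_false, if_true]
          split_ifs <;> omega
        · rw [if_neg h1]
          split_ifs <;> omega
  obtain ⟨w, hw, hP⟩ := key
  refine ⟨u * w, mul_ne_zero hu hw, ?_⟩
  rw [div_mul hu hw, map_add, dg_pt, add_smul, one_smul, add_add_add_comm]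
  exact add_le_add hF hP

/-- Equality for large `N`: compare with `N Dinf - (div u + dg F • Dinf)`. -/
theorem riemann_eq (N : ℕ) {F : c.Div} (h : 0 ≤ F) (hN : c.dg F + c.B0 ≤ N + 1) :
    (ll ((N : ℤ) • c.Dinf - F) : ℤ) = (c.l : ℤ) * (N + 1) - c.gg - c.dg F := by
  refine le_antisymm ?_ (riemann N h)
  obtain ⟨u, hu, hF⟩ := exists_form h
  have h1 := ll_add_le ((N : ℤ) • c.Dinf - (c.div u + c.dg F • c.Dinf)) (sub_nonneg.2 hF)
  have h2 := ll_add_div ((N : ℤ) • c.Dinf - (c.div u + c.dg F • c.Dinf)) hu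
  rw [show (N : ℤ) • c.Dinf - (c.div u + c.dg F • c.Dinf) + c.div u = (N - c.dg F) • c.Dinf by
    rw [sub_smul]; abel] at h2
  rw [sub_add_sub_cancel, ← h2, map_sub, map_add, dg_div, map_smul, dg_Dinf, smul_eq_mul] at h1
  have h3 : (ll (((N : ℤ) - c.dg F) • c.Dinf) : ℤ) + c.gg = c.l * (N - c.dg F + 1) := by
    rcases lt_or_ge ((N : ℤ) - c.dg F) 0 with h4 | h4
    · have h5 : c.B0 = 0 := by omega
      have h6 := gg_le (c := c)
      rw [h5, mul_zero, Nat.le_zero] at h6
      rw [ll, LL_neg_Dinf h4, finrank_bot, h6, show (N : ℤ) - c.dg F + 1 = 0 by omega]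
      simp
    · obtain ⟨n, hn⟩ := Int.eq_ofNat_of_zero_le h4
      rw [hn, ll, LL_Dinf]
      exact_mod_cast finrank_S_eq (c := c) (N := n) (by omega)
  linarith

/-- No base points. -/
theorem exists_co_ne (N : ℕ) {F : c.Div} (h : 0 ≤ F) (hN : c.dg F + c.B0 ≤ N) (P : c.Place) :
    ∃ φ ∈ c.LL ((N : ℤ) • c.Dinf - F), c.co P ((F - (N : ℤ) • c.Dinf) P) φ ≠ 0 := by
  by_contra hc
  push Not at hc
  have h1 := riemann_eq N h (by omega)
  have h2 := riemann_eq N (add_nonneg h (pt_nonneg P)) (by rw [map_add, dg_pt]; omega)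
  have h3 : c.LL ((N : ℤ) • c.Dinf - F) ≤ c.LL ((N : ℤ) • c.Dinf - (F + c.pt P)) := fun φ hφ => by
    refine rr2_mem (P := P) (by rwa [← sub_sub, sub_add_cancel]) ?_
    rw [← hc φ hφ]
    congr 1
    simp only [Finsupp.sub_apply, Finsupp.add_apply, pt_apply, if_true]
    ring
  have h4 : ll ((N : ℤ) • c.Dinf - F) ≤ ll ((N : ℤ) • c.Dinf - (F + c.pt P)) :=
    Submodule.finrank_mono h3
  rw [map_add, dg_pt] at h2
  omega

end Crv
end Crest.Agent.R312
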