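import Crest.Agent.R312.AlgFam

/-!
# Row 312, algorithm half: reduction, moving, norm of a divisor, degree adjustment
-/

set_option autoImplicit false
open Finset Polynomial
open scoped Classical

noncomputable section
namespace Crest.Agent.R312
namespace Crv
variable {E : Type} [Field E] {c : Crv E} [IsAlgClosed E]

theorem red1_eff {D : c.Div} {s : c.L} (hs0 : s ≠ 0) (hs : s ∈ c.LL (-D)) : 0 ≤ c.div s - D := by
  rw [sub_eq_add_neg]
  exact (mem_LL_iff hs0).1 hs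

theorem red1_dg {r B : ℕ} {W : ℕ → c.L} {D : c.Div} (h : c.IsG r W D) (hW : c.In r B W) (s : c.L) :
    c.dg (c.div s - D) ≤ c.l * B := by
  rw [map_sub, dg_div, zero_sub]
  exact h.neg_dg_le hW

theorem red1_colon {r B : ℕ} {W : ℕ → c.L} {D : c.Div} {s : c.L} (h : c.IsG r W D)
    (hW : c.In r B W) (hs : s ∈ c.S B) (hs0 : s ≠ 0) (hs' : s ∈ c.LL (-D)) (N : ℕ) :
    c.Spans (c.dimN N) (c.colon r B W s N N) (c.LL ((N : ℤ) • c.Dinf - (c.div s - D))) :=
  h.colon_eq hW hs hs0 (red1_eff hs0 hs') (by abel)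

theorem red1_ll {D : c.Div} : c.LL D = ⊥ ↔ ll D = 0 := Submodule.finrank_eq_zero.symm

/-- `s₀ = fnz r W`, `F = div s₀ - D ≥ 0`, `dg F ≤ l B`.  `colon … s₀ N N` spans `LL (N Dinf - F)`
(`IsG.colon_eq`), which is non-zero for `N = B + B0` (`riemann`, `gg_le`); for the least such `N₁` and
`0 ≠ s₁ ∈ LL (N₁ Dinf - F)` the divisor `F₁ = div s₁ + N₁ Dinf - F ≥ 0` has degree `≤ gg ≤ l B0`
(`riemann` at `N₁ - 1`); with `N₂ = l B + B0` the inner `colon` has gcd `F - N₂ Dinf` (`Spans.isG`),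
the outer one spans `LL (Ns Dinf - F₁)`. -/
theorem Rep.red {r B : ℕ} {W : ℕ → c.L} {z : c.G} (h : c.Rep r B W z) : c.Std (c.red r B W) z := by
  obtain ⟨hW, D, hD, rfl⟩ := h
  obtain ⟨hs0, k, hk, hsk⟩ := fnz_spec hD.exists_ne
  have hs : c.fnz r W ∈ c.S B := hW.fnz
  have hs' : c.fnz r W ∈ c.LL (-D) := hsk ▸ hD.1 k hk
  have hF := red1_eff hs0 hs'
  have hdF := red1_dg hD hW (c.fnz r W)
  have hcol := red1_colon hD hW hs hs0 hs'
  have hcl : c.cl (c.div (c.fnz r W) - D) = -c.cl D := by simp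
  unfold Crv.red minN redA
  generalize c.div (c.fnz r W) - D = F at hF hdF hcol hcl
  generalize c.fnz r W = s₀ at hs hs0 hs' hcol
  have hgg : (c.gg : ℤ) ≤ c.l * c.B0 := by exact_mod_cast gg_le
  have hl : (1 : ℤ) ≤ c.l := by exact_mod_cast c.l_pos
  have hex : ∃ N < B + c.B0 + 1, ∃ d < c.dimN N, c.colon r B W s₀ N N d ≠ 0 := by
    refine ⟨B + c.B0, Nat.lt_succ_self _, (hcol _).exists_ne.2 fun h0 => ?_⟩
    have h1 := riemann (B + c.B0) hF
    rw [red1_ll.1 h0] at h1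
    push_cast at h1
    nlinarith
  obtain ⟨hN₁, hp⟩ := fst_spec hex
  have hmin : ∀ k < fst (B + c.B0 + 1) fun N => ∃ d < c.dimN N, c.colon r B W s₀ N N d ≠ 0,
      ¬∃ d < c.dimN k, c.colon r B W s₀ k k d ≠ 0 := fun k hk => fst_min hk
  generalize fst (B + c.B0 + 1) (fun N => ∃ d < c.dimN N, c.colon r B W s₀ N N d ≠ 0) = N₁
    at hN₁ hp hmin
  obtain ⟨h10, k₁, hk₁, hs₁⟩ := fnz_spec hp
  have h1L : c.fnz (c.dimN N₁) (c.colon r B W s₀ N₁ N₁) ∈ c.LL ((N₁ : ℤ) • c.Dinf - F) :=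
    hs₁ ▸ (hcol N₁).1 k₁ hk₁
  generalize c.fnz (c.dimN N₁) (c.colon r B W s₀ N₁ N₁) = s₁ at h10 h1L
  have hF₁ := (mem_LL_iff h10).1 h1L
  have hle : N₁ ≤ c.l * B + c.B0 := by
    have := Nat.le_mul_of_pos_left B c.l_pos
    omega
  have hd₁ : c.dg (c.div s₁ + ((N₁ : ℤ) • c.Dinf - F)) ≤ c.l * c.B0 := by
    rw [map_add, map_sub, map_smul, dg_div, dg_Dinf, zero_add, smul_eq_mul]
    rcases N₁ with _ | n
    · have := dg_nonneg hF
      have : (0 : ℤ) ≤ c.l * c.B0 := by positivity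
      push_cast
      linarith
    · have h0 := hmin n (Nat.lt_succ_self n)
      rw [(hcol n).exists_ne, not_not, red1_ll] at h0
      have h1 := riemann n hF
      rw [h0] at h1
      push_cast at h1 ⊢
      linarith
  have hG₂ := (hcol (c.l * B + c.B0)).isG hF (by push_cast; linarith)
  have hsp := hG₂.colon_eq (N := c.Ns) (M := c.Ns + (c.l * B + c.B0) - N₁)
    (B := c.l * B + c.B0) (fun d _ => colon_mem _ _ _ _ _ _ d) (S_mono hle (LL_le_S hF h1L)) h10 hF₁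
    (by
      rw [Nat.cast_sub (hle.trans (Nat.le_add_left _ _)), Nat.cast_add c.Ns, sub_smul, add_smul]
      abel)
  refine ⟨fun d _ => colon_mem _ _ _ _ _ _ d, _, hsp.isG hF₁ ?_, ?_⟩
  · unfold Ns
    push_cast
    linarith
  · simp [hcl]

/-- The properties of the good section `s = sec W` and of `D = div s - gcd W`. -/
structure Prep (W : ℕ → c.L) (Δ D : c.Div) : Prop where
  isG : c.IsG c.rs W Δ
  mem : c.In c.rs c.Ns W
  ne : c.sec W ≠ 0
  sec_mem : c.sec W ∈ c.S c.Ns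
  eq : D = c.div (c.sec W) - Δ
  nonneg : 0 ≤ D
  dg_le : c.dg D ≤ c.l * c.Ns
  ram : ∀ a (ha : c.f.eval a = 0), D (c.ram a ha) = 0
  inf : ∀ t, D (c.inf t) = 0
  spans : c.Spans c.r4 (c.pW W (c.tau W)) (c.LL ((c.N4 : ℤ) • c.Dinf - D))
  isG' : c.IsG c.r4 (c.pW W (c.tau W)) (D - (c.N4 : ℤ) • c.Dinf)
  pB_mem : c.pB W (c.tau W) ∈ c.LL ((c.N4 : ℤ) • c.Dinf - D)
  pB_ne : ∀ a, c.f.eval a = 0 → c.ev0 (c.pB W (c.tau W)) a ≠ 0

/-- A good `τ = t T2 + t'` exists: apply `IsG.exists_comb` twice to the set of the `l m + l`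
ramification points and points at infinity; conversely `good` gives all the properties
(`co_ram_eq_ev0`, `co_inf_eq_topv`). -/
theorem exists_prep {W : ℕ → c.L} {Δ : c.Div} (hB : Big E c.thr) (h : c.IsG c.rs W Δ)
    (hW : c.In c.rs c.Ns W) : ∃ D, Prep W Δ D := by
  have key : ∀ τ, c.pS W τ ≠ 0 → 0 ≤ c.div (c.pS W τ) - Δ ∧
      c.Spans c.r4 (c.pW W τ) (c.LL ((c.N4 : ℤ) • c.Dinf - (c.div (c.pS W τ) - Δ))) ∧
      c.IsG c.r4 (c.pW W τ) (c.div (c.pS W τ) - Δ - (c.N4 : ℤ) • c.Dinf) ∧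
      c.pB W τ ∈ c.S c.N4 := by
    intro τ h0
    have h1 := red1_eff h0 (h.comb_mem _)
    have h2 := red1_colon (s := c.pS W τ) h hW (hW.comb _) h0 (h.comb_mem _) c.N4
    refine ⟨h1, h2, h2.isG h1 ?_, In.comb (fun d _ => colon_mem _ _ _ _ _ _ d) _⟩
    have := red1_dg h hW (c.pS W τ)
    unfold N4
    push_cast
    linarith
  have hram : ∀ a (ha : c.f.eval a = 0), c.Dinf (c.ram a ha) = 0 := fun a ha => by
    rw [Dinf_apply, if_neg (by simp [Crv.ram])]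
  have hinf : ∀ t, c.Dinf (c.inf t) = 1 := fun t => by
    rw [Dinf_apply]
    exact if_pos rfl
  have hex : ∃ τ < c.T1 * c.T2, c.good W τ := by
    let s : Finset c.Place :=
      c.rts.attach.image (fun a => c.ram a.1 (mem_rts.1 a.2)) ∪ (range c.l).image c.inf
    have hs : s.card ≤ c.l * c.m + c.l := by
      refine (card_union_le _ _).trans (add_le_add (card_image_le.trans ?_) (card_image_le.trans ?_))
      · rw [card_attach, card_rts]
      · rw [card_range]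
    have hsr : ∀ a (ha : c.f.eval a = 0), c.ram a ha ∈ s := fun a ha =>
      mem_union_left _ (mem_image.2 ⟨⟨a, mem_rts.2 ha⟩, mem_attach _ _, rfl⟩)
    have hsi : ∀ t < c.l, c.inf t ∈ s := fun t ht =>
      mem_union_right _ (mem_image.2 ⟨t, mem_range.2 ht, rfl⟩)
    have hthr : s.card * c.r4 ≤ c.thr := by
      have h1 := Nat.le_mul_of_pos_right c.l c.hm
      have h2 : s.card ≤ 2 * (c.l * c.m) + 2 := by omega
      exact (Nat.mul_le_mul_right _ h2).trans (Nat.le_succ _)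
    obtain ⟨t, ht, hts⟩ := h.exists_comb s
      (hB.mono ((Nat.mul_le_mul_left _ rs_le_r4).trans hthr))
    have hT2 : 0 < c.T2 := Nat.succ_pos _
    have e0 : c.pS W (t * c.T2) = c.comb c.rs W t := by rw [pS, Nat.mul_div_cancel _ hT2]
    have h0 : c.pS W (t * c.T2) ≠ 0 := e0 ▸ ne_of_co (hts _ (hsi 0 c.l_pos))
    obtain ⟨-, -, hG, -⟩ := key _ h0
    have hz : ∀ P ∈ s, (c.div (c.pS W (t * c.T2)) - Δ) P = 0 := fun P hP => by
      have := h.comb_mem t P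
      rw [Finsupp.neg_apply, neg_neg] at this
      rw [Finsupp.sub_apply, div_apply, e0, ord_eq this (hts P hP), sub_self]
    obtain ⟨t', ht', hts'⟩ := hG.exists_comb s (hB.mono hthr)
    have ht1 : t < c.T1 := Nat.lt_succ_of_le (ht.trans (Nat.mul_le_mul_right _ hs))
    have ht2 : t' < c.T2 := Nat.lt_succ_of_le (ht'.trans (Nat.mul_le_mul_right _ hs))
    have e1 : c.pS W (t * c.T2 + t') = c.pS W (t * c.T2) := by
      rw [pS, pS, Nat.mul_div_cancel _ hT2, add_comm, Nat.add_mul_div_right _ _ hT2,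
        Nat.div_eq_of_lt ht2, zero_add]
    have e2 : c.pB W (t * c.T2 + t') = c.comb c.r4 (c.pW W (t * c.T2)) t' := by
      rw [pB, pW, pW, e1, add_comm, Nat.add_mul_mod_self_right, Nat.mod_eq_of_lt ht2]
    have hS := (key _ (e1 ▸ h0)).2.2.2
    refine ⟨t * c.T2 + t', ?_, e1 ▸ h0, fun a ha => ?_, fun u hu => ?_⟩
    · calc t * c.T2 + t' < (t + 1) * c.T2 := by rw [add_mul, one_mul]; omega
        _ ≤ _ := Nat.mul_le_mul_right _ ht1
    · have ha' := mem_rts.1 ha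
      have := hts' _ (hsr a ha')
      rw [Finsupp.sub_apply, hz _ (hsr a ha'), Finsupp.smul_apply, hram, smul_zero, sub_zero,
        ← e2, co_ram_eq_ev0 a ha' hS] at this
      exact this
    · have := hts' _ (hsi u hu)
      rw [Finsupp.sub_apply, hz _ (hsi u hu), Finsupp.smul_apply, hinf, smul_eq_mul, mul_one,
        zero_sub, ← e2, co_inf_eq_topv u hS] at this
      exact this
  obtain ⟨-, h0, hgr, hgi⟩ := fst_spec hex
  obtain ⟨h1, h2, h3, h4⟩ := key (c.tau W) h0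
  have h5 : c.pB W (c.tau W) ∈ c.LL ((c.N4 : ℤ) • c.Dinf - (c.div (c.sec W) - Δ)) := by
    have := h3.comb_mem (c.tau W % c.T2)
    rw [neg_sub] at this
    exact this
  refine ⟨c.div (c.sec W) - Δ, h, hW, h0, hW.comb _, rfl, h1, red1_dg h hW _, fun a ha => ?_,
    fun t => ?_, h2, h3, h5, fun a ha => hgr a (mem_rts.2 ha)⟩
  · refine le_antisymm (not_lt.1 fun hlt => hgr a (mem_rts.2 ha) ?_) (h1 _)
    refine (co_ram_eq_ev0 a ha h4).symm.trans (h5 (c.ram a ha) 0 ?_)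
    rw [Finsupp.sub_apply, Finsupp.smul_apply, hram]
    simpa using hlt
  · obtain ⟨u, hu, e⟩ := exists_inf (P := c.inf t) rfl
    rw [e]
    refine le_antisymm (not_lt.1 fun hlt => hgi u hu ?_) (h1 _)
    refine (co_inf_eq_topv u h4).symm.trans (h5 (c.inf u) _ ?_)
    rw [Finsupp.sub_apply, Finsupp.smul_apply, hinf, smul_eq_mul, mul_one]
    linarith

theorem Prep.cl_eq {W : ℕ → c.L} {Δ D : c.Div} (h : Prep W Δ D) : c.cl D = -c.cl Δ := by
  rw [h.eq]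
  simp

theorem Prep.spans_Cj {W : ℕ → c.L} {Δ D : c.Div} (h : Prep W Δ D) (hB : Big E c.thr) {j : ℕ}
    (hj : j ≤ c.l) (N : ℕ) :
    c.Spans (c.dimN N) (c.Cj W (c.sec W) j N) (c.LL ((N : ℤ) • c.Dinf - c.nD j D)) := by
  have hle : j * c.Ns ≤ c.Nl := Nat.mul_le_mul_right _ hj
  refine (h.isG.Wj hB hj).colon_eq
    (fun t _ => S_mono hle (prodF_mem (fun i _ => h.mem.sg i) t)) (S_mono hle ?_)
    (prod_ne_zero_iff.2 fun i _ => sg_ne h.ne i) (nD_nonneg h.nonneg j) ?_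
  · have := prod_mem_S (range j) fun i _ => sg_mem_S h.sec_mem i
    rw [card_range] at this
    exact this
  · rw [sj, div_prod_sg j h.ne, h.eq, nD_sub]
    abel

/-- `nD l D = div φ + n Dinf` with `σ φ = φ` (`exists_of_invariant`), `n = dg D`, so
`LL (N Dinf - nD l D) = φ * LL ((N - n) Dinf)`. -/
theorem Prep.norm {W : ℕ → c.L} {Δ D : c.Div} (h : Prep W Δ D) (hB : Big E c.thr) :
    (c.del W : ℤ) = c.dg D ∧ c.uA W (c.del W) ≠ 0 ∧ c.sg 1 (c.uA W (c.del W)) = c.uA W (c.del W) ∧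
    c.uA W (c.del W) ∈ c.S (c.del W) ∧
    c.div (c.uA W (c.del W)) = c.nD c.l D - (c.del W : ℤ) • c.Dinf ∧
    ∀ a, c.f.eval a = 0 → c.ev0 (c.uA W (c.del W)) a ≠ 0 := by
  have hram : ∀ a (ha : c.f.eval a = 0), c.nD c.l D (c.ram a ha) = 0 := fun a ha => by
    simp [nD, Finsupp.finsetSum_apply, h.ram a ha]
  obtain ⟨φ, hφ, hσ, n, hn⟩ := exists_of_invariant (sD_nD_l D)
  rw [Finset.sum_eq_zero fun a _ => by rw [hram, zero_smul], add_zero] at hn
  have hl : (0 : ℤ) < c.l := by exact_mod_cast c.l_pos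
  have hnD : n = c.dg D := by
    have := congrArg c.dg hn
    rw [dg_nD, map_add, dg_div, map_smul, dg_Dinf, zero_add, smul_eq_mul, mul_comm n] at this
    exact (mul_left_cancel₀ hl.ne' this).symm
  obtain ⟨δ, rfl⟩ := Int.eq_ofNat_of_zero_le (hnD ▸ dg_nonneg h.nonneg : 0 ≤ n)
  have e : (δ : ℤ) • c.Dinf - c.nD c.l D = -c.div φ := by rw [hn]; abel
  have hne : ∃ d < c.dimN δ, c.Cj W (c.sec W) c.l δ d ≠ 0 := by
    rw [(h.spans_Cj hB le_rfl δ).exists_ne, e]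
    exact (Submodule.ne_bot_iff _).2 ⟨φ, self_mem_LL φ, hφ⟩
  have hdel : c.del W = δ := by
    refine fst_eq_iff.2 ⟨?_, fun _ => hne, fun j hj hex => ?_⟩
    · have := h.dg_le
      rw [← hnD] at this
      exact Nat.le_succ_of_le (by exact_mod_cast this)
    · obtain ⟨d, hd, h0⟩ := hex
      refine h0 (eq_zero_of_dg_neg ((h.spans_Cj hB le_rfl j).1 d hd) ?_)
      rw [map_sub, map_smul, dg_Dinf, dg_nD, ← hnD, smul_eq_mul, mul_comm, ← mul_sub]
      exact mul_neg_of_pos_of_neg hl (by omega)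
  rw [hdel]
  obtain ⟨h0, k, hk, ek⟩ := fnz_spec hne
  have hS : c.uA W δ ∈ c.S δ := (show c.uA W δ = _ from ek) ▸ colon_mem _ _ _ _ _ _ _
  obtain ⟨b, hb⟩ : ∃ b : E, c.uA W δ = b • φ :=
    exists_smul_of_mem_LL hφ (e ▸ (show c.uA W δ = _ from ek) ▸ (h.spans_Cj hB le_rfl δ).1 k hk)
  have hb0 : b ≠ 0 := fun h' => h0 (hb.trans (by rw [h', zero_smul]))
  have hdiv : c.div (c.uA W δ) = c.nD c.l D - (δ : ℤ) • c.Dinf := by
    rw [hb, div_smul hb0, hn, add_sub_cancel_right]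
  refine ⟨hnD, h0, by rw [hb, map_smul, hσ], hS, hdiv, fun a ha => ?_⟩
  have ho : c.ord (c.ram a ha) (c.uA W δ) = 0 := by
    rw [← div_apply, hdiv, Finsupp.sub_apply, hram, Finsupp.smul_apply, Dinf_apply]
    simp [Crv.ram]
  rw [← co_ram_eq_ev0 a ha hS, ← ho]
  exact co_ord_ne _ h0

/-- The same for the normalised norm. -/
theorem Prep.norm' {W : ℕ → c.L} {Δ D : c.Div} (h : Prep W Δ D) (hB : Big E c.thr) {a₀ : E}
    (h₀ : c.f.eval a₀ = 0) :
    c.uN a₀ W (c.del W) ≠ 0 ∧ c.sg 1 (c.uN a₀ W (c.del W)) = c.uN a₀ W (c.del W) ∧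
    c.uN a₀ W (c.del W) ∈ c.S (c.del W) ∧
    c.div (c.uN a₀ W (c.del W)) = c.nD c.l D - (c.del W : ℤ) • c.Dinf ∧
    (∀ a, c.f.eval a = 0 → c.ev0 (c.uN a₀ W (c.del W)) a ≠ 0) ∧
    c.ev0 (c.uN a₀ W (c.del W)) a₀ = 1 := by
  obtain ⟨-, h0, hσ, hS, hdiv, hev⟩ := h.norm hB
  have hb := inv_ne_zero (hev a₀ h₀)
  have e : ∀ a, c.ev0 (c.uN a₀ W (c.del W)) a =
      (c.ev0 (c.uA W (c.del W)) a₀)⁻¹ * c.ev0 (c.uA W (c.del W)) a := fun a => by
    rw [uN, ev0, pc_smul hS, eval_smul, smul_eq_mul]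
    rfl
  refine ⟨smul_ne_zero hb h0, by rw [uN, map_smul, hσ], Submodule.smul_mem _ _ hS,
    by rw [uN, div_smul hb, hdiv], fun a ha => ?_, ?_⟩
  · rw [e]
    exact mul_ne_zero hb (hev a ha)
  · rw [e, inv_mul_cancel₀ (hev a₀ h₀)]

theorem Std.adj {W : ℕ → c.L} {z : c.G} (h : c.Std W z) (hB : Big E c.thr) {a₀ : E}
    (h₀ : c.f.eval a₀ = 0) :
    ∃ n : ℤ, c.Std (c.adj a₀ W) (z + n • gP a₀) ∧ c.dG (z + n • gP a₀) = 0 := by
  obtain ⟨hW, Δ, hΔ, hz⟩ := id h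
  obtain ⟨D, hD⟩ := exists_prep hB hΔ hW
  have hlt : c.del W % c.l + 1 ≤ c.l := Nat.mod_lt _ c.l_pos
  have h1 : (range (c.del W % c.l + 1)).card * c.rs ≤ c.l * c.rs := by
    rw [card_range]
    exact Nat.mul_le_mul_right _ hlt
  have h2 : c.l * c.rs ≤ c.thr := by
    have : c.l * 1 ≤ c.l * c.m := Nat.mul_le_mul_left _ c.hm
    exact Nat.le_succ_of_le (Nat.mul_le_mul (by omega) rs_le_r4)
  have h3 := Rep.prod (range (c.del W % c.l + 1)) (r' := c.rl) (N' := c.Nl)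
    (F := fun i => if i = 0 then W else c.famP a₀) (z := fun i => if i = 0 then z else gP a₀)
    (fun i _ => by
      split_ifs
      · exact h
      · exact famP_std h₀) (hB.mono (h1.trans h2)) (Nat.lt_succ_of_le h1)
    (by rw [card_range]; exact Nat.mul_le_mul_right _ hlt)
  rw [sum_range_succ', if_pos rfl, add_comm _ z] at h3
  simp only [Nat.succ_ne_zero, if_false, sum_const, card_range] at h3
  have h5 : c.Rep c.rl c.Nl (c.prodF (c.del W % c.l + 1) c.rs fun i =>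
      if i = 0 then W else c.famP a₀) (z + (c.del W % c.l) • gP a₀) := h3
  refine ⟨(c.del W % c.l : ℕ), by rw [natCast_zsmul, Crv.adj, adjA]; exact h5.red, ?_⟩
  have h4 : z = -c.cl D := by rw [hD.cl_eq, neg_neg, hz]
  rw [map_add, map_smul, dG_gP h₀, h4, map_neg, dG_cl, ← (hD.norm hB).1]
  simp

end Crv
end Crest.Agent.R312
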