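import Crest.Agent.R312.AlgCLin
import Crest.Agent.R302.OPolyAux
import Crest.Agent.R37.Enc
import Crest.Prelude.Def_PolyFactor

/-!
# Row 312, algorithm half: polynomials over `ZMod p` as data, the base context
DO NOT change the definitions.  (Write `_root_.funext`: `Polynomial.funext` is open.)
-/

set_option autoImplicit false
open Finset Polynomial Crest.Agent.Lib.PolyTime Crest.PolyFactor
open scoped Classical

noncomputable section
namespace Crest.Agent.R312

/-- Dense coefficient list. -/
def clP {p : ℕ} (f : (ZMod p)[X]) : List ℕ :=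
  (List.range (f.natDegree + 1)).map fun i => (f.coeff i).val

theorem length_cl {p : ℕ} (f : (ZMod p)[X]) : (clP f).length = f.natDegree + 1 := by simp [clP]

theorem getD_cl {p : ℕ} (f : (ZMod p)[X]) (k : ℕ) : (clP f).getD k 0 = (f.coeff k).val := by
  rw [List.getD_eq_getElem?_getD, clP, List.getElem?_map]
  by_cases hk : k < f.natDegree + 1
  · rw [List.getElem?_range hk]
    rfl
  · rw [List.getElem?_eq_none (by simpa using hk), coeff_eq_zero_of_natDegree_lt (by omega),
      ZMod.val_zero]
    rfl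

theorem coeff_ofCoeffList (p : ℕ) (cs : List ℕ) (k : ℕ) :
    (ofCoeffList p cs).coeff k = ((cs.getD k 0 : ℕ) : ZMod p) := by
  simp only [ofCoeffList, finsetSum_coeff, coeff_monomial, Finset.sum_ite_eq', Finset.mem_range]
  split_ifs with hk
  · rfl
  · rw [List.getD_eq_default _ _ (not_lt.1 hk), Nat.cast_zero]

theorem ofCoeffList_cl {p : ℕ} [NeZero p] (f : (ZMod p)[X]) : ofCoeffList p (clP f) = f := by
  ext k
  rw [coeff_ofCoeffList, getD_cl, ZMod.natCast_zmod_val]

theorem cl_injective {p : ℕ} [NeZero p] : Function.Injective (clP (p := p)) :=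
  Function.LeftInverse.injective ofCoeffList_cl

/-- `sz_list_le`, `sz_le_of_le`. -/
theorem sz_cl_le {p : ℕ} [NeZero p] (f : (ZMod p)[X]) :
    sz (clP f) ≤ (f.natDegree + 1) * (4 * sz p + 1) + 1 := by
  rw [← length_cl]
  refine sz_list_le fun x hx => ?_
  obtain ⟨i, -, rfl⟩ := List.mem_map.1 hx
  exact sz_le_of_le (ZMod.val_lt _).le

variable {α β γ : Type} [PEnc α] [PEnc β] [PEnc γ]

/-- Computable families of polynomials over `ZMod (p b)`. -/
def PX {p : β → ℕ} (F : ∀ b, (ZMod (p b))[X]) : Prop := Poly fun b => clP (F b)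

section px
variable {p : β → ℕ} {F G : ∀ b, (ZMod (p b))[X]}

theorem PX.comp (h : PX F) {g : γ → β} (hg : Poly g) : PX fun c => F (g c) :=
  Poly.comp (f := fun b => clP (F b)) h hg

theorem PX.restrict (h : PX F) (q : β → Prop) : PX fun b : {b // q b} => F b.1 :=
  h.comp Poly.id'.val

theorem PX.congr (h : PX F) (e : ∀ b, F b = G b) : PX G := Poly.congr h fun b => by rw [e b]

theorem PX.natDegree (h : PX F) : PN fun b => (F b).natDegree := by
  have e : ∀ b, (clP (F b)).length - 1 = (F b).natDegree := fun b => by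
    rw [length_cl, Nat.add_sub_cancel]
  exact ⟨((Poly.length h).sub (Lib.PolyTime.Poly.const 1)).congr e,
    (PB.length h).mono fun b => (e b).symm.trans_le (Nat.sub_le _ _)⟩

theorem PX.coeff (h : PX F) {k : β → ℕ} (hk : Poly k) : Poly fun b => ((F b).coeff (k b)).val :=
  ((Poly.getElem? h hk).getD (Lib.PolyTime.Poly.const 0)).congr fun b => getD_cl (F b) (k b)

theorem PX.ite {q : β → Prop} [DecidablePred q] (hq : Poly fun b => decide (q b)) (h : PX F)
    (h' : PX G) : PX fun b => if q b then F b else G b :=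
  (Poly.ite hq h h').congr fun _ => (apply_ite clP _ _ _).symm

/-- Case distinction with promises (`Poly.dite`). -/
theorem PX.cases {q : β → Prop} [DecidablePred q] (hq : Poly fun b => decide (q b))
    {R : ∀ b, (ZMod (p b))[X] → Prop}
    (h₁ : ∃ g : ∀ b : {b // q b}, (ZMod (p b.1))[X], PX g ∧ ∀ b, R b.1 (g b))
    (h₂ : ∃ g : ∀ b : {b // ¬q b}, (ZMod (p b.1))[X], PX g ∧ ∀ b, R b.1 (g b)) :
    ∃ g : ∀ b, (ZMod (p b))[X], PX g ∧ ∀ b, R b (g b) := by
  obtain ⟨g₁, h₁, r₁⟩ := h₁
  obtain ⟨g₂, h₂, r₂⟩ := h₂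
  refine ⟨fun b => if h : q b then g₁ ⟨b, h⟩ else g₂ ⟨b, h⟩,
    (Poly.dite (f := fun b h => clP (g₁ ⟨b, h⟩)) (g := fun b h => clP (g₂ ⟨b, h⟩)) hq h₁ h₂).congr
      fun b => ?_, fun b => ?_⟩
  · beta_reduce
    split_ifs <;> rfl
  · beta_reduce
    split_ifs with h
    exacts [r₁ ⟨b, h⟩, r₂ ⟨b, h⟩]

variable [∀ b, Fact (p b).Prime]

theorem PX.decide_eq (h : PX F) (h' : PX G) [∀ b, Decidable (F b = G b)] :
    Poly fun b => decide (F b = G b) :=
  Poly.decide_congr (Poly.decide_eq (f := fun b => clP (F b)) (g := fun b => clP (G b)) h h')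
    fun _ => cl_injective.eq_iff

end px

/-- One component, values in the prime field. -/
def base (p : α → ℕ) (E : α → Type) [∀ a, Field (E a)] : Ctx α E fun _ => Unit where
  Cd := ℕ
  pe := inferInstance
  val a v _ := (v : E a)
  Good a v := v < p a
  K _ := ⊥
  Q := p

section base
variable {p : α → ℕ} [∀ a, Fact (p a).Prime] {E : α → Type} [∀ a, Field (E a)]
  [∀ a, Algebra (ZMod (p a)) (E a)] {π : β → α}

omit [PEnc α] in
theorem base_range (a : α) {z : E a} (hz : z ∈ (⊥ : Subfield (E a))) :
    ∃ w : ZMod (p a), algebraMap (ZMod (p a)) (E a) w = z :=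
  (bot_le (a := (algebraMap (ZMod (p a)) (E a)).fieldRange)) hz

/-- `charP_of_injective_algebraMap`, `Subfield.mem_bot_iff_pow_eq_self`; codes `(v + w) % p`,
`v * w % p`, `p - 1`. -/
theorem base_ok (hp : Poly p) : (base p E).OK := by
  have hc : ∀ a, CharP (E a) (p a) := fun a =>
    charP_of_injective_algebraMap (algebraMap (ZMod (p a)) (E a)).injective _
  have h0 : ∀ a, 0 < p a := fun a => (Fact.out : (p a).Prime).pos
  refine ⟨fun a v _ _ => natCast_mem (⊥ : Subfield (E a)) v,
    ⟨fun a => 4 * sz (p a), (PB.const 4).mul hp.pb_sz, fun a v hv => sz_le_of_le (le_of_lt hv)⟩,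
    hp, fun a => (Fact.out : (p a).Prime).two_le, fun a z hz => ?_,
    ⟨Poly.id', fun a => p a - 1, hp.sub (Lib.PolyTime.Poly.const 1), fun a =>
      ⟨Nat.sub_lt (h0 a) one_pos, _root_.funext fun _ => ?_⟩⟩, ?_, ?_⟩
  · obtain ⟨w, rfl⟩ := base_range (p := p) a hz
    change _ ^ p a = _
    rw [← map_pow, ZMod.pow_card]
  · change ((p a - 1 : ℕ) : E a) = -1
    rw [Nat.cast_sub (h0 a), CharP.cast_eq_zero, Nat.cast_one, zero_sub]
  · rintro β _ π F G ⟨hπ, v, hv, e⟩ ⟨-, w, hw, e'⟩
    refine ⟨hπ, fun b => Nat.mod (Nat.add (v b) (w b)) (p (π b)),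
      (Poly.add hv hw).mod (hp.comp hπ), fun b => ⟨Nat.mod_lt _ (h0 _), _root_.funext fun i => ?_⟩⟩
    exact ((CharP.cast_eq_mod (E (π b)) (p (π b)) _).symm.trans (Nat.cast_add _ _)).trans
      (congrArg₂ (· + ·) (congrFun (e b).2 i) (congrFun (e' b).2 i))
  · rintro β _ π F G ⟨hπ, v, hv, e⟩ ⟨-, w, hw, e'⟩
    refine ⟨hπ, fun b => Nat.mod (Nat.mul (v b) (w b)) (p (π b)),
      (Poly.mul hv hw).mod (hp.comp hπ), fun b => ⟨Nat.mod_lt _ (h0 _), _root_.funext fun i => ?_⟩⟩
    exact ((CharP.cast_eq_mod (E (π b)) (p (π b)) _).symm.trans (Nat.cast_mul _ _)).trans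
      (congrArg₂ (· * ·) (congrFun (e b).2 i) (congrFun (e' b).2 i))

theorem base_cp (hπ : Poly π) {z : ∀ b, ZMod (p (π b))} :
    (base p E).CP π (fun b _ => algebraMap (ZMod (p (π b))) (E (π b)) (z b)) ↔
      Poly fun b => (z b).val := by
  constructor
  · rintro ⟨-, v, hv, e⟩
    refine Poly.congr (f := fun b => (v b : ℕ)) hv fun b => ?_
    have h1 : algebraMap (ZMod (p (π b))) (E (π b)) (Nat.cast (v b)) =
        algebraMap (ZMod (p (π b))) (E (π b)) (z b) :=
      (map_natCast _ _).trans (congrFun (e b).2 ())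
    rw [← (algebraMap (ZMod (p (π b))) (E (π b))).injective h1]
    exact (ZMod.val_cast_of_lt (e b).1).symm
  · intro h
    refine ⟨hπ, fun b => (z b).val, h, fun b => ⟨ZMod.val_lt _, _root_.funext fun _ => ?_⟩⟩
    exact (map_natCast (algebraMap (ZMod (p (π b))) (E (π b))) _).symm.trans
      (congrArg _ (ZMod.natCast_zmod_val _))

/-- `→`: the degree is found by `PN.fst'` below the bound; `←`: `PX.natDegree`, `PX.coeff`. -/
theorem base_cx (hπ : Poly π) {F : ∀ b, (ZMod (p (π b)))[X]} :
    (base p E).CX π (fun b _ => (F b).map (algebraMap (ZMod (p (π b))) (E (π b)))) ↔ PX F := by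
  have hπ' : Poly fun q : β × ℕ => π q.1 := hπ.comp (g := fun q : β × ℕ => q.1) Poly.id'.fst
  have hd : ∀ b, ((F b).map (algebraMap (ZMod (p (π b))) (E (π b)))).natDegree = (F b).natDegree :=
    fun b => natDegree_map _
  constructor
  · rintro ⟨⟨B, hB, le⟩, hv⟩
    have h1 : Poly fun q : β × ℕ => ((F q.1).coeff q.2).val :=
      (base_cp (E := E) hπ' (z := fun q => (F q.1).coeff q.2)).1
        (Ctx.CP.congr hv fun q _ => coeff_map _ _)
    have h2 := hB.fst' (p := fun b j => (F b).coeff (B b - j) ≠ 0)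
      ((Poly.decide_ne (h1.comp (g := fun q : Ix B => (q.1, B q.1 - q.2))
        ((poly_ix1 B).pair ((hB.ix B).poly.sub (poly_ix2 B)))) (Lib.PolyTime.Poly.const 0)).congr
      fun q => decide_eq_decide.2 (ZMod.val_eq_zero _).not)
    have h3 : ∀ b, B b - fst (B b) (fun j => (F b).coeff (B b - j) ≠ 0) = (F b).natDegree := by
      intro b
      have h4 : (F b).natDegree ≤ B b := (hd b).symm.trans_le (le b ())
      rw [fst_eq_iff.2 ⟨Nat.sub_le _ (F b).natDegree, fun h => ?_, fun j hj => ?_⟩,
        Nat.sub_sub_self h4]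
      · rw [Nat.sub_sub_self h4]
        refine leadingCoeff_ne_zero.2 fun h0 => ?_
        rw [h0, natDegree_zero] at h
        omega
      · exact not_not.2 (coeff_eq_zero_of_natDegree_lt (by omega))
    have h5 := (hB.sub h2.poly).succ
    exact ((h5.poly.range h5.pb).map h1).congr fun b => by rw [h3 b, clP]
  · intro h
    refine ⟨⟨_, h.natDegree, fun b _ => (hd b).le⟩, Ctx.CP.congr
      ((base_cp (E := E) hπ' (z := fun q => (F q.1).coeff q.2)).2
        ((h.comp (g := fun q : β × ℕ => q.1) Poly.id'.fst).coeff Poly.id'.snd))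
      fun q _ => (coeff_map _ _).symm⟩

/-- The coefficients lie in the prime field (`CP.mem`, `Polynomial.lifts_iff_coeff_lifts`). -/
theorem base_exists_px (hp : Poly p) {G : ∀ b, Unit → (E (π b))[X]} (h : (base p E).CX π G) :
    ∃ F : ∀ b, (ZMod (p (π b)))[X], PX F ∧
      ∀ b, G b () = (F b).map (algebraMap (ZMod (p (π b))) (E (π b))) := by
  have h1 : ∀ b, ∃ q : (ZMod (p (π b)))[X],
      q.map (algebraMap (ZMod (p (π b))) (E (π b))) = G b () := fun b =>
    (mem_lifts _).1 ((lifts_iff_coeff_lifts _).2 fun n =>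
      base_range (π b) (Ctx.CP.mem (base_ok hp) h.cv (b, n) ()))
  choose F hF using h1
  exact ⟨F, (base_cx h.poly).1 (h.congr fun b _ => (hF b).symm), fun b => (hF b).symm⟩

theorem base_cb {P : β → Prop} [DecidablePred P] (h : (base p E).CB π fun b _ => P b) :
    Poly fun b => decide (P b) := by
  have h1 := (base_cp (E := E) h.poly (z := fun b => if P b then 1 else 0)).1
    (Ctx.CP.congr h fun b _ => by split_ifs <;> simp)
  refine Poly.decide_congr (Poly.decide_ne h1 (Lib.PolyTime.Poly.const 0)) fun b => ?_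
  rw [Ne, ZMod.val_eq_zero]
  split_ifs with hb <;> simp [hb]

theorem base_cn {B e : β → ℕ} (h : (base p E).CN π B fun b _ => e b) : PN e := by
  have h1 := h.pn.fst' (p := fun b k => e b = k)
    ((base_cb (P := fun q : Ix B => e q.1 = q.2) h.cb).congr fun _ => decide_eq_decide.2 Iff.rfl)
  have h2 : (fun b => fst (B b) fun k => e b = k) = e := _root_.funext fun b =>
    fst_eq_iff.2 ⟨(h.lt b ()).le, fun _ => rfl, fun j hj => hj.ne'⟩
  rwa [h2] at h1

end base

/-- The base context over `ZMod p` itself. -/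
abbrev baseZ (p : α → ℕ) [∀ a, Fact (p a).Prime] : Ctx α (fun a => ZMod (p a)) fun _ => Unit :=
  base p fun a => ZMod (p a)

section baseZ
variable {p : β → ℕ} [∀ b, Fact (p b).Prime] {F G : ∀ b, (ZMod (p b))[X]}

theorem baseZ_ok (hp : Poly p) : (baseZ p).OK := base_ok hp

theorem PX.cx (h : PX F) : (baseZ p).CX (fun b => b) fun b _ => F b :=
  ((base_cx (E := fun b => ZMod (p b)) Poly.id').2 h).congr fun _ _ => by simp

theorem PX.of_cx {π : γ → β} {F : ∀ c, (ZMod (p (π c)))[X]} (h : (baseZ p).CX π fun c _ => F c) :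
    PX F :=
  (base_cx (E := fun b => ZMod (p b)) h.poly).1 (h.congr fun _ _ => by simp)

theorem cp_of_val {π : γ → β} (hπ : Poly π) {z : ∀ c, ZMod (p (π c))} (h : Poly fun c => (z c).val) :
    (baseZ p).CP π fun c _ => z c :=
  ((base_cp (E := fun b => ZMod (p b)) hπ).2 h).congr fun _ _ => by simp

theorem val_of_cp {π : γ → β} {z : ∀ c, ZMod (p (π c))} (h : (baseZ p).CP π fun c _ => z c) :
    Poly fun c => (z c).val :=
  (base_cp (E := fun b => ZMod (p b)) h.poly).1 (h.congr fun _ _ => by simp)

variable (hp : Poly p)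
include hp

theorem PX.of_list {cs : β → List ℕ} (h : Poly cs) : PX fun b => ofCoeffList (p b) (cs b) :=
  .of_cx (π := fun b => b) (Ctx.CX.of_sum (baseZ_ok hp) Poly.id' ⟨h.length, PB.length h⟩
    (V := fun b _ k => (((cs b).getD k 0 : ℕ) : ZMod (p b)))
    (Ctx.CP.natCast (baseZ_ok hp) (poly_ix1 _)
      (((h.comp (poly_ix1 _)).getElem? (poly_ix2 _)).getD (Lib.PolyTime.Poly.const 0))))

theorem PX.one : PX fun b => (1 : (ZMod (p b))[X]) := .of_cx (Ctx.CX.one (baseZ_ok hp) Poly.id')

theorem PX.X_pow {n : β → ℕ} (hn : PN n) : PX fun b => (X ^ n b : (ZMod (p b))[X]) :=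
  .of_cx (Ctx.CX.X_pow (baseZ_ok hp) Poly.id' hn)

theorem PX.add (h : PX F) (h' : PX G) : PX fun b => F b + G b :=
  .of_cx (h.cx.add (baseZ_ok hp) h'.cx)

theorem PX.sub (h : PX F) (h' : PX G) : PX fun b => F b - G b :=
  .of_cx (h.cx.sub (baseZ_ok hp) h'.cx)

theorem PX.mul (h : PX F) (h' : PX G) : PX fun b => F b * G b :=
  .of_cx (h.cx.mul (baseZ_ok hp) h'.cx)

theorem PX.derivative (h : PX F) : PX fun b => derivative (F b) :=
  .of_cx (h.cx.derivative (baseZ_ok hp))

theorem PX.modByMonic (h : PX F) (h' : PX G) (hG : ∀ b, (G b).Monic) : PX fun b => F b %ₘ G b :=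
  .of_cx (h.cx.modByMonic (baseZ_ok hp) h'.cx h'.natDegree fun b _ => ⟨hG b, rfl⟩)

theorem PX.divByMonic (h : PX F) (h' : PX G) (hG : ∀ b, (G b).Monic) : PX fun b => F b /ₘ G b :=
  .of_cx (h.cx.divByMonic (baseZ_ok hp) h'.cx h'.natDegree fun b _ => ⟨hG b, rfl⟩)

theorem PX.powMod (h : PX F) (h' : PX G) (hG : ∀ b, (G b).Monic) {e : β → ℕ} (he : Poly e) :
    PX fun b => F b ^ e b %ₘ G b :=
  .of_cx (h.cx.powMod (baseZ_ok hp) h'.cx h'.natDegree (fun b _ => ⟨hG b, rfl⟩) he)

/-- Normalisation of the leading coefficient. -/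
theorem PX.normalize (h : PX F) : PX fun b => F b * C (F b).leadingCoeff⁻¹ :=
  .of_cx (h.cx.mul (baseZ_ok hp)
    (Ctx.CX.const (baseZ_ok hp) ((h.cx.coeff h.natDegree.poly).inv (baseZ_ok hp))))

end baseZ

/-- A function with a promise extends to a total one (`R302.OPolyAux.exists_total` and a total
polynomial-time decoder `V → List Bool`, e.g. `toL` followed by a test). -/
theorem exists_extend {P : α → Prop} {o : {a // P a} → List Bool} (ho : Poly o) :
    ∃ F : α → List Bool, Poly F ∧ ∀ a : {a // P a}, F a.1 = o a := by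
  obtain ⟨h, hh, e⟩ := R302.exists_total ho
  refine ⟨fun a => (R302.decQ (V.node .nil (h (enc a)))).2,
    (R302.poly_decQ.comp ((Lib.PolyTime.Poly.const V.nil).node (hh.comp Poly.id'.enc'))).snd,
    fun a => ?_⟩
  have := e a
  rw [enc_subtype] at this
  change (R302.decQ (V.node .nil (h (enc a.1)))).2 = o a
  rw [this]
  exact congrArg Prod.snd (R302.decQ_enc (false, o a))

theorem t0b_ofDigits_bits (k : ℕ) : ofDigits k.bits = k := by
  have : ∀ l : List Bool, ofDigits l = ofBits l := by
    intro l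
    induction l with
    | nil => rfl
    | cons b l ih => rw [ofDigits, ofBits_cons, Nat.bit_val, ih, add_comm]
  rw [this, ofBits_bits]

theorem t0b_dec_bits (l s ds : List Bool) (cur : List ℕ) (done : List (List ℕ)) :
    decodeAux ((l.flatMap fun d => [true, d]) ++ s) ds cur done =
      decodeAux s (ds ++ l) cur done := by
  induction l generalizing ds with
  | nil => simp
  | cons b l ih =>
    simp only [List.flatMap_cons, List.cons_append, List.nil_append, decodeAux]
    rw [ih, List.append_assoc, List.singleton_append]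

theorem t0b_dec_nats (l : List ℕ) (s : List Bool) (cur : List ℕ) (done : List (List ℕ)) :
    decodeAux (l.flatMap encNat ++ s) [] cur done = decodeAux s [] (cur ++ l) done := by
  induction l generalizing cur with
  | nil => simp
  | cons k l ih =>
    rw [List.flatMap_cons, encNat, List.append_assoc, List.append_assoc, t0b_dec_bits]
    simp only [List.cons_append, List.nil_append, decodeAux]
    rw [ih, t0b_ofDigits_bits, List.append_assoc, List.singleton_append]

theorem t0b_dec_lists (L done : List (List ℕ)) :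
    decodeAux (L.flatMap encNatList) [] [] done = done ++ L := by
  induction L generalizing done with
  | nil => simp [decodeAux]
  | cons l L ih =>
    rw [List.flatMap_cons, encNatList, List.append_assoc, t0b_dec_nats]
    simp only [List.cons_append, List.nil_append, decodeAux]
    rw [ih, List.append_assoc, List.singleton_append]

theorem decodeLists_flatMap (L : List (List ℕ)) : decodeLists (L.flatMap encNatList) = L := by
  have := t0b_dec_lists L []
  rwa [List.nil_append] at this

theorem poly_encNatList : Poly encNatList := by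
  unfold encNatList encNat
  fun_prop

/-- One step of the parser: pending marker, digits, finished numbers. -/
def t0b_step (s : Option Bool × List Bool × List (List Bool)) (b : Bool) :
    Option Bool × List Bool × List (List Bool) :=
  s.1.elim (some b, s.2) fun m =>
    (none, cond m (s.2.1 ++ [b], s.2.2) ([], cond b s.2.2 (s.2.2 ++ [s.2.1])))

theorem t0b_fold_bits (l ds : List Bool) (cur : List (List Bool)) :
    (l.flatMap fun d => [true, d]).foldl t0b_step (none, ds, cur) = (none, ds ++ l, cur) := by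
  induction l generalizing ds with
  | nil => simp
  | cons b l ih =>
    rw [List.flatMap_cons, List.foldl_append]
    exact (ih (ds ++ [b])).trans (by rw [List.append_assoc, List.singleton_append])

theorem t0b_fold_nats (l : List ℕ) (cur : List (List Bool)) :
    (l.flatMap encNat).foldl t0b_step (none, [], cur) = (none, [], cur ++ l.map Nat.bits) := by
  induction l generalizing cur with
  | nil => simp
  | cons k l ih =>
    rw [List.flatMap_cons, List.foldl_append, encNat, List.foldl_append, t0b_fold_bits]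
    exact (ih (cur ++ [k.bits])).trans (by rw [List.append_assoc, List.singleton_append]; rfl)

/-- A parser for one token list (e.g. a fold over the pairs of bits). -/
theorem exists_parse : ∃ P : List Bool → List ℕ, Poly P ∧ ∀ l, P (encNatList l) = l := by
  refine ⟨fun w => (w.foldl t0b_step (none, [], [])).2.2.map ofBits, ?_, fun l => ?_⟩
  · have h : Poly fun w : List Bool => w.foldl t0b_step (none, [], []) := by
      refine Poly.foldl_add (h := fun _ => t0b_step) Poly.id' (Lib.PolyTime.Poly.const _) ?_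
        (fun _ _ => 10) (PB.const _) fun _ s b => ?_
      · unfold t0b_step
        fun_prop
      · obtain ⟨o, ds, cur⟩ := s
        have h1 : sz (ds ++ [b]) + 1 = sz ds + (sz b + 1 + 1) := sz_append ds [b]
        have h2 : sz (cur ++ [ds]) + 1 = sz cur + (sz ds + 1 + 1) := sz_append cur [ds]
        have h3 := sz_bool_le b
        have h4 := one_le_sz ds
        rcases o with _ | _ | _ <;> cases b <;> simp [t0b_step] <;> omega
    exact h.snd.snd.map (f := fun _ => ofBits) Poly.id'.snd.ofBits
  · dsimp only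
    rw [encNatList, List.foldl_append, t0b_fold_nats]
    simp [t0b_step, Function.comp_def]

end Crest.Agent.R312
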