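import Crest.Agent.R312.AlgT0

/-!
# Row 312, algorithm half: minimal relations (annihilators and minimal polynomials)
DO NOT change the definitions.  (Write `_root_.funext`: `Polynomial.funext` is open.)
-/

set_option autoImplicit false
open Finset Polynomial Crest.Agent.Lib.PolyTime
open scoped Classical

noncomputable section
namespace Crest.Agent.R312

/-- `∑ μ_j V_j`. -/
def rel {F : Type} [Field F] (V : ℕ → F[X]) (μ : F[X]) : F[X] := μ.sum fun j a => a • V j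

/-- Proper monic divisors. -/
def Proper {F : Type} [Field F] (f g : F[X]) : Prop :=
  g.Monic ∧ g ∣ f ∧ 0 < g.natDegree ∧ g.natDegree < f.natDegree

section math
variable {F : Type} [Field F]

/-- The candidates. -/
def T1K (n : ℕ) (V : ℕ → F[X]) (r d : ℕ) : F[X] :=
  ∑ j ∈ range (r + 1), monomial j (kerv (r + 1) n (fun e j => (V j).coeff e) d j)

theorem T1K_coeff (n : ℕ) (V : ℕ → F[X]) (r d j : ℕ) : (T1K n V r d).coeff j =
    if j < r + 1 then kerv (r + 1) n (fun e j => (V j).coeff e) d j else 0 := by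
  simp only [T1K, finsetSum_coeff, coeff_monomial, Finset.sum_ite_eq', Finset.mem_range]

theorem T1K_natDegree (n : ℕ) (V : ℕ → F[X]) (r d : ℕ) : (T1K n V r d).natDegree ≤ r :=
  natDegree_le_iff_coeff_eq_zero.2 fun j hj => by rw [T1K_coeff, if_neg (by omega)]

theorem T1_rel_coeff (V : ℕ → F[X]) {ν : F[X]} {r : ℕ} (h : ν.natDegree ≤ r) (e : ℕ) :
    (rel V ν).coeff e = ∑ j ∈ range (r + 1), (V j).coeff e * ν.coeff j := by
  rw [rel, sum_over_range' (f := fun j a => a • V j) _ (fun _ => zero_smul _ _) _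
    (Nat.lt_succ_of_le h), finsetSum_coeff]
  simp only [coeff_smul, smul_eq_mul, mul_comm]

theorem T1_rel_mul_C (V : ℕ → F[X]) (ν : F[X]) (a : F) : rel V (ν * C a) = a • rel V ν := by
  ext e
  rw [coeff_smul, T1_rel_coeff V (natDegree_mul_C_le ν a), T1_rel_coeff V le_rfl, smul_eq_mul,
    Finset.mul_sum]
  simp only [coeff_mul_C, mul_comm a, mul_assoc]

theorem T1K_rel {n : ℕ} {V : ℕ → F[X]} (hd : ∀ j ≤ n, (V j).degree < n) {r d : ℕ} (hr : r ≤ n)
    (h : d < r + 1) : rel V (T1K n V r d) = 0 := by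
  ext e
  rw [T1_rel_coeff V (T1K_natDegree n V r d), coeff_zero]
  rcases lt_or_ge e n with he | he
  · rw [← kerv_sol (r + 1) n (fun e j => (V j).coeff e) h he]
    exact Finset.sum_congr rfl fun j hj => by rw [T1K_coeff, if_pos (Finset.mem_range.1 hj)]
  · refine Finset.sum_eq_zero fun j hj => ?_
    rw [coeff_eq_zero_of_degree_lt ((hd j (by have := Finset.mem_range.1 hj; omega)).trans_le
      (Nat.cast_le.2 he)), zero_mul]

theorem T1K_span {n : ℕ} {V : ℕ → F[X]} {r : ℕ}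
    (h : ¬fst (r + 1) (fun d => T1K n V r d ≠ 0) < r + 1) {z : ℕ → F}
    (hz : ∀ e < n, ∑ j ∈ range (r + 1), (V j).coeff e * z j = 0) {j : ℕ} (hj : j < r + 1) :
    z j = 0 := by
  rw [kerv_span (r + 1) n (fun e j => (V j).coeff e) hz hj]
  refine Finset.sum_eq_zero fun d hd => ?_
  have h1 : T1K n V r d = 0 :=
    not_not.1 (fst_min ((Finset.mem_range.1 hd).trans_le (not_lt.1 h)))
  have h2 := T1K_coeff n V r d j
  rw [h1, coeff_zero, if_pos hj] at h2
  rw [← h2, mul_zero]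

theorem T1K_exists (n : ℕ) (V : ℕ → F[X]) :
    fst (n + 1) (fun d => T1K n V n d ≠ 0) < n + 1 := by
  by_contra h
  obtain ⟨z, hz, h0⟩ := Submodule.exists_mem_ne_zero_of_ne_bot (LinearMap.ker_ne_bot_of_finrank_lt
    (f := (Matrix.of fun (e : Fin n) (j : Fin (n + 1)) => (V j).coeff e).mulVecLin) (by simp))
  refine h0 (_root_.funext fun j => ?_)
  have := T1K_span h (z := fun j => if h : j < n + 1 then z ⟨j, h⟩ else 0) (fun e he => ?_) j.2
  · exact (dif_pos j.2).symm.trans this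
  · rw [Finset.sum_range]
    simp only [Fin.is_lt, dif_pos]
    exact congrFun (LinearMap.mem_ker.1 hz) ⟨e, he⟩

theorem T1_rel_lin (L : F[X] →ₗ[F] F[X]) (ν : F[X]) : rel (fun j => L (X ^ j)) ν = L ν := by
  conv_rhs => rw [ν.as_sum_support_C_mul_X_pow, map_sum]
  exact Finset.sum_congr rfl fun j _ => by rw [← smul_eq_C_mul, map_smul]

theorem T1_dvd {μ : F[X]} (hμ : μ.Monic) (I : Ideal F[X]) (h1 : μ ∈ I)
    (h2 : ∀ ν, ν.degree < μ.degree → ν ∈ I → ν = 0) (ν : F[X]) : ν ∈ I ↔ μ ∣ ν := by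
  refine ⟨fun h => (modByMonic_eq_zero_iff_dvd hμ).1 (h2 _ (degree_modByMonic_lt ν hμ) ?_),
    fun h => I.mem_of_dvd h h1⟩
  rw [modByMonic_eq_sub_mul_div]
  exact I.sub_mem h (I.mul_mem_right _ h1)

theorem T1_ann {f w g : F[X]} (hf : f.Monic) (hg : g.Monic) (h : ∀ ν, f ∣ ν * w ↔ g ∣ ν) :
    (¬f ∣ w → ¬IsCoprime f w → Proper f g) ∧ (IsCoprime f w → g = f) := by
  have h1 : g ∣ f := (h f).1 (dvd_mul_right _ _)
  refine ⟨fun h2 h3 => ⟨hg, h1, Nat.pos_of_ne_zero fun h0 => h2 ?_, not_le.1 fun h0 => h3 ?_⟩,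
    fun h2 => eq_of_monic_of_associated hg hf (associated_of_dvd_dvd h1
      (h2.dvd_of_dvd_mul_right ((h g).2 dvd_rfl)))⟩
  · rw [← one_mul w, h, hg.natDegree_eq_zero.1 h0]
  · obtain rfl := eq_of_monic_of_dvd_of_natDegree_le hg hf h1 h0
    obtain ⟨a, ha⟩ := EuclideanDomain.gcd_dvd_left f w
    obtain ⟨b, hb⟩ := EuclideanDomain.gcd_dvd_right f w
    rw [← EuclideanDomain.gcd_isUnit_iff]
    generalize EuclideanDomain.gcd f w = d at ha hb
    have h4 : f ∣ a := (h a).1 ⟨b, by rw [ha, hb]; ring⟩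
    have h5 : a ≠ 0 := fun h0 => hf.ne_zero (by rw [ha, h0, mul_zero])
    rw [ha] at h4
    exact isUnit_of_dvd_one ((mul_dvd_mul_iff_right h5).1 (by rwa [one_mul]))

end math

variable {β : Type} [PEnc β] {p : β → ℕ} [∀ b, Fact (p b).Prime] {f w : ∀ b, (ZMod (p b))[X]}

theorem T1K_px (hp : Poly p) {n : β → ℕ} (hn : PN n) {V : ∀ b, ℕ → (ZMod (p b))[X]}
    (hV : PX fun q : Ix fun b => n b + 1 => V q.1 q.2) {γ : Type} [PEnc γ] {g : γ → β}
    (hg : Poly g) {r d : γ → ℕ} (hr : Poly r) (hle : ∀ c, r c ≤ n (g c)) (hd : Poly d) :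
    PX fun c => T1K (n (g c)) (V (g c)) (r c) (d c) := by
  have hr1 := ((hn.comp hg).of_le hr hle).succ
  have a1 := hg.comp (poly_ix1 fun q : Ix fun s : Ix fun c => r c + 1 => n (g s.1) =>
    r q.1.1 + 1).sigmaFst.sigmaFst
  exact .of_cx (π := g) (Ctx.CX.of_sum (baseZ_ok hp) hg hr1
    (V := fun c _ j => kerv (r c + 1) (n (g c)) (fun e j => (V (g c) j).coeff e) (d c) j)
    (Ctx.CP.kerv (baseZ_ok hp) (π := fun s : Ix fun c => r c + 1 => g s.1) (hg.comp (poly_ix1 _))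
      (hr1.ix _) ((hn.comp hg).ix _) (M := fun s _ e j => (V (g s.1) j).coeff e)
      (cp_of_val a1 ((hV.comp (poly_ixMk (n := fun b => n b + 1) a1 (poly_ix2 _)
        fun q => q.2.2.trans_le (Nat.succ_le_succ (hle _)))).coeff (poly_ix1 _).sigmaFinVal))
      (hd.comp (poly_ix1 _)) (poly_ix2 _)))

theorem T1D_pn (hp : Poly p) {n : β → ℕ} (hn : PN n) {V : ∀ b, ℕ → (ZMod (p b))[X]}
    (hV : PX fun q : Ix fun b => n b + 1 => V q.1 q.2) {γ : Type} [PEnc γ] {g : γ → β}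
    (hg : Poly g) {r : γ → ℕ} (hr : Poly r) (hle : ∀ c, r c ≤ n (g c)) :
    PN fun c => fst (r c + 1) fun d => T1K (n (g c)) (V (g c)) (r c) d ≠ 0 := by
  have a1 := hg.comp (poly_ix1 fun c => r c + 1)
  exact PN.fst' ((hn.comp hg).of_le hr hle).succ
    (p := fun c d => T1K (n (g c)) (V (g c)) (r c) d ≠ 0)
    ((Poly.decide_not ((T1K_px hp hn hV a1 (hr.comp (poly_ix1 _)) (fun _ => hle _)
      (poly_ix2 _)).decide_eq (.of_cx (Ctx.CX.zero (baseZ_ok hp) a1)))).congr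
      fun _ => decide_eq_decide.2 Iff.rfl)

/-- The monic relation of least degree between `n + 1` polynomials of degree `< n`.
For `r ≤ n` the vectors `kerv (r + 1) n M d`, `d ≤ r`, `M e j = (V j).coeff e`, span the relations of
degree `≤ r` (`kerv_sol`, `kerv_span`, `Ctx.CP.kerv` in `baseZ p`); take the first pair `(r, d)` with a
non-zero vector (`PN.fst'`; there is one for `r = n` by dimension count) and normalise. -/
theorem exists_minRel (hp : Poly p) {n : β → ℕ} (hn : PN n) {V : ∀ b, ℕ → (ZMod (p b))[X]}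
    (hV : PX fun q : Ix fun b => n b + 1 => V q.1 q.2) (hd : ∀ b, ∀ j ≤ n b, (V b j).degree < n b) :
    ∃ μ : ∀ b, (ZMod (p b))[X], PX μ ∧ ∀ b, (μ b).Monic ∧ (μ b).natDegree ≤ n b ∧
      rel (V b) (μ b) = 0 ∧
      ∀ ν : (ZMod (p b))[X], ν.degree < (μ b).degree → rel (V b) ν = 0 → ν = 0 := by
  have h1 : ∀ b, ∃ r < n b + 1, fst (r + 1) (fun d => T1K (n b) (V b) r d ≠ 0) < r + 1 :=
    fun b => ⟨n b, Nat.lt_succ_self _, T1K_exists _ _⟩
  have hr : PN fun b => fst (n b + 1) fun r =>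
      fst (r + 1) (fun d => T1K (n b) (V b) r d ≠ 0) < r + 1 :=
    PN.fst' hn.succ (p := fun b r => fst (r + 1) (fun d => T1K (n b) (V b) r d ≠ 0) < r + 1)
      (((T1D_pn hp hn hV (poly_ix1 _) (poly_ix2 _)
        fun q => Nat.le_of_lt_succ q.2.2).poly.decide_lt hn.succ.var.succ.poly).congr
        fun _ => decide_eq_decide.2 Iff.rfl)
  have hle := fun b => Nat.le_of_lt_succ (fst_spec (h1 b)).1
  refine ⟨_, (T1K_px hp hn hV Poly.id' hr.poly hle
    (T1D_pn hp hn hV Poly.id' hr.poly hle).poly).normalize hp, fun b => ?_⟩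
  have h2 := (fst_spec (h1 b)).2
  have h3 := fun r d a => (natDegree_mul_C_le _ a).trans (T1K_natDegree (n b) (V b) r d)
  refine ⟨monic_mul_leadingCoeff_inv (fst_of_lt h2), (h3 _ _ _).trans (hle b),
    by rw [T1_rel_mul_C, T1K_rel (hd b) (hle b) h2, smul_zero], fun ν h4 h5 => ?_⟩
  by_contra h0
  have h6 := fst_min ((natDegree_lt_natDegree h0 h4).trans_le (h3 _ _ _))
  refine h0 (leadingCoeff_eq_zero.1 (T1K_span h6 (z := ν.coeff) (fun e _ => ?_)
    (Nat.lt_succ_self _)))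
  rw [← T1_rel_coeff (V b) le_rfl, h5, coeff_zero]

/-- The annihilator of `w` modulo `f`: `V j = X ^ j * w %ₘ f`, `rel V ν = ν * w %ₘ f` for
`natDegree ν ≤ n`.  Division with remainder shows that it divides `f`. -/
theorem exists_ann (hp : Poly p) (hf : PX f) (hw : PX w) (hm : ∀ b, (f b).Monic) :
    ∃ g : ∀ b, (ZMod (p b))[X], PX g ∧ ∀ b,
      (¬f b ∣ w b → ¬IsCoprime (f b) (w b) → Proper (f b) (g b)) ∧
        (IsCoprime (f b) (w b) → g b = f b) := by
  have a1 := poly_ix1 fun b => (f b).natDegree + 1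
  obtain ⟨g, hg, h⟩ := exists_minRel hp hf.natDegree (V := fun b j => X ^ j * w b %ₘ f b)
    (((PX.X_pow (hp.comp a1) hf.natDegree.succ.var).mul (hp.comp a1) (hw.comp a1)).modByMonic
      (hp.comp a1) (hf.comp a1) fun _ => hm _)
    fun b j _ => degree_eq_natDegree (hm b).ne_zero ▸ degree_modByMonic_lt _ (hm b)
  refine ⟨g, hg, fun b => T1_ann (hm b) (h b).1 fun ν => ?_⟩
  have e : ∀ ν, ν ∈ Submodule.comap (LinearMap.mulRight (ZMod (p b))[X] (w b)) (Ideal.span {f b}) ↔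
      rel (fun j => X ^ j * w b %ₘ f b) ν = 0 := fun ν => by
    rw [show rel (fun j => X ^ j * w b %ₘ f b) ν = ν * w b %ₘ f b from
      T1_rel_lin (modByMonicHom (f b) ∘ₗ LinearMap.mulRight _ (w b)) ν,
      modByMonic_eq_zero_iff_dvd (hm b)]
    exact Ideal.mem_span_singleton
  exact Ideal.mem_span_singleton.symm.trans (T1_dvd (h b).1 _ ((e _).2 (h b).2.2.1)
    (fun ν h1 h2 => (h b).2.2.2 ν h1 ((e ν).1 h2)) ν)

theorem PX.pcomp (hp : Poly p) (hf : PX f) (hw : PX w) : PX fun b => (f b).comp (w b) := by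
  have H := baseZ_ok hp
  refine .of_cx ((Ctx.CX.sum H Poly.id' hf.natDegree.succ
    (V := fun b _ k => (f b).coeff k • w b ^ k)
    (((hw.cx.ix _).pow H hf.natDegree.succ.var).smul H ((hf.cx.ix _).coeff (poly_ix2 _)))).congr
    fun b _ => ?_)
  rw [comp_eq_aeval, aeval_eq_sum_range]

/-- The minimal polynomial of `w` modulo `f`: `V j = w ^ j %ₘ f`. -/
theorem exists_minpoly (hp : Poly p) (hf : PX f) (hw : PX w) (hm : ∀ b, (f b).Monic) :
    ∃ μ : ∀ b, (ZMod (p b))[X], PX μ ∧ ∀ b, (μ b).Monic ∧ (μ b).natDegree ≤ (f b).natDegree ∧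
      ∀ ν : (ZMod (p b))[X], f b ∣ ν.comp (w b) ↔ μ b ∣ ν := by
  have a1 := poly_ix1 fun b => (f b).natDegree + 1
  obtain ⟨g, hg, h⟩ := exists_minRel hp hf.natDegree (V := fun b j => w b ^ j %ₘ f b)
    ((hw.comp a1).powMod (hp.comp a1) (hf.comp a1) (fun _ => hm _) (poly_ix2 _))
    fun b j _ => degree_eq_natDegree (hm b).ne_zero ▸ degree_modByMonic_lt _ (hm b)
  refine ⟨g, hg, fun b => ⟨(h b).1, (h b).2.1, fun ν => ?_⟩⟩
  have e : ∀ ν, ν ∈ (Ideal.span {f b}).comap (aeval (R := ZMod (p b)) (w b)) ↔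
      rel (fun j => w b ^ j %ₘ f b) ν = 0 := fun ν => by
    have := T1_rel_lin (modByMonicHom (f b) ∘ₗ (aeval (w b)).toLinearMap) ν
    simp only [LinearMap.comp_apply, AlgHom.toLinearMap_apply, modByMonicHom_apply, map_pow,
      aeval_X] at this
    rw [this, modByMonic_eq_zero_iff_dvd (hm b)]
    exact Ideal.mem_span_singleton
  rw [comp_eq_aeval]
  exact Ideal.mem_span_singleton.symm.trans (T1_dvd (h b).1 _ ((e _).2 (h b).2.2.1)
    (fun ν h1 h2 => (h b).2.2.2 ν h1 ((e ν).1 h2)) ν)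

end Crest.Agent.R312
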