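import Mathlib

/-!
# Row 312, algorithm half: Gauss sums for `nonres_spec` (auxiliary file)
-/

set_option autoImplicit false
open Finset

noncomputable section
namespace Crest.Agent.R312.T2B

theorem sum_zmod {M : Type} [AddCommMonoid M] (r : ℕ) [NeZero r] (f : ZMod r → M) :
    ∑ x : ZMod r, f x = ∑ x ∈ range r, f (x : ZMod r) := by
  refine Finset.sum_nbij' (fun x => x.val) (fun x => (x : ZMod r)) ?_ ?_ ?_ ?_ ?_
  · intro x _; simpa using ZMod.val_lt x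
  · intro x _; simp
  · intro x _; simp
  · intro x hx; exact ZMod.val_cast_of_lt (by simpa using hx)
  · intro x _; simp

theorem pow_transfer {A B : Type} [CommMonoid A] [CommMonoid B] {l : ℕ} (hl : 0 < l) {h : A} {ζ : B}
    (hh : IsPrimitiveRoot h l) (hζ : IsPrimitiveRoot ζ l) {a b : ℕ} (e : h ^ a = h ^ b) :
    ζ ^ a = ζ ^ b := by
  rw [(hh.isOfFinOrder hl.ne').pow_eq_pow_iff_modEq, ← hh.eq_orderOf] at e
  rw [(hζ.isOfFinOrder hl.ne').pow_eq_pow_iff_modEq, ← hζ.eq_orderOf]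
  exact e

theorem cast_ne {r p : ℕ} (hr : r.Prime) (hp : p.Prime) (hrp : r ≠ p) : (p : ZMod r) ≠ 0 := by
  rw [Ne, ZMod.natCast_eq_zero_iff, Nat.prime_dvd_prime_iff_eq hr hp]
  exact hrp

theorem prim_aux {l r p : ℕ} [Fact r.Prime] (hl : l.Prime) (hp : p.Prime) (hrp : r ≠ p)
    (hlr : l ∣ r - 1) (hpr : p ^ ((r - 1) / l) % r ≠ 1) :
    IsPrimitiveRoot ((p : ZMod r) ^ ((r - 1) / l)) l := by
  have hr : r.Prime := Fact.out
  have : Fact l.Prime := ⟨hl⟩
  rw [IsPrimitiveRoot.iff_orderOf]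
  refine orderOf_eq_prime ?_ fun h => hpr ?_
  · rw [← pow_mul, Nat.div_mul_cancel hlr]
    exact ZMod.pow_card_sub_one_eq_one (cast_ne hr hp hrp)
  · rw [← Nat.cast_pow, ← Nat.cast_one (R := ZMod r), ZMod.natCast_eq_natCast_iff'] at h
    rw [h, Nat.mod_eq_of_lt hr.one_lt]

theorem gaussSum_frob_iter {F E : Type} [Field F] [Fintype F] [Field E] (p : ℕ) [Fact p.Prime]
    [CharP E p] (χ : MulChar F E) (ψ : AddChar F E) (d : ℕ) :
    gaussSum χ ψ ^ p ^ d = gaussSum (χ ^ p ^ d) (ψ ^ p ^ d) := by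
  induction d with
  | zero => simp
  | succ d ih => rw [pow_succ, pow_mul, ih, gaussSum_frob, ← pow_mul, ← pow_mul]

/-- The `l`-th power of the Gauss sum is not an `l`-th power in the field with `p ^ d` elements. -/
theorem gauss_spec {E : Type} [Field E] {l r p : ℕ} [Fact r.Prime] [CharP E p] (hl : l.Prime)
    (hp : p.Prime) (hrp : r ≠ p) {ζ : E} (hζ : IsPrimitiveRoot ζ l) {χ : MulChar (ZMod r) E}
    (ho : orderOf χ = l) (hχ : χ (p : ZMod r) = ζ) {ψ : AddChar (ZMod r) E} (hψ : ψ.IsPrimitive) :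
    gaussSum χ ψ ≠ 0 ∧
      ∀ d, l ∣ p ^ d - 1 → ¬l ∣ d → (gaussSum χ ψ ^ l) ^ ((p ^ d - 1) / l) ≠ 1 := by
  have hr : r.Prime := Fact.out
  have : Fact p.Prime := ⟨hp⟩
  have h1 : χ ≠ 1 := by
    rintro rfl
    rw [orderOf_one] at ho
    exact hl.one_lt.ne ho
  have hc : (Fintype.card (ZMod r) : E) ≠ 0 := by
    rw [ZMod.card, Ne, CharP.cast_eq_zero_iff E p, Nat.prime_dvd_prime_iff_eq hp hr]
    exact hrp.symm
  have hg := gaussSum_ne_zero_of_nontrivial hc h1 hψ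
  refine ⟨hg, fun d hd hd' h => hd' ?_⟩
  rw [← pow_mul, Nat.mul_div_cancel' hd] at h
  have hpd : 1 ≤ p ^ d := Nat.one_le_pow _ _ hp.pos
  have e1 : gaussSum χ ψ ^ p ^ d = gaussSum χ ψ := by
    conv_lhs => rw [← Nat.sub_add_cancel hpd, pow_succ, h, one_mul]
  have e2 : χ ^ p ^ d = χ := by
    obtain ⟨t, ht⟩ := hd
    conv_lhs => rw [← Nat.sub_add_cancel hpd, pow_succ, ht, pow_mul, ← ho, pow_orderOf_eq_one,
      one_pow, one_mul]
  have hu : ((p ^ d : ℕ) : ZMod r) ≠ 0 := by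
    rw [Nat.cast_pow]; exact pow_ne_zero _ (cast_ne hr hp hrp)
  have e3 := gaussSum_mulShift χ ψ (Units.mk0 _ hu)
  rw [gaussSum_frob_iter, e2, AddChar.pow_mulShift] at e1
  rw [Units.val_mk0, e1, Nat.cast_pow, map_pow, hχ] at e3
  exact (hζ.pow_eq_one_iff_dvd d).1 (mul_right_cancel₀ hg (e3.trans (one_mul _).symm))

end Crest.Agent.R312.T2B
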