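import Crest.Agent.R17.Defs

/-!
# Row 312 (deterministic factoring over `𝔽_p`): the two interfaces between the three halves

* (A) `MobBound E` for every number field `E ∋ ω`  (files `R312/*`, cubic theta function over `E`);
* (B) `(∀ E, MobBound E) → AuxPrime`               (files `R312/Z*`, zeta functions, explicit formula);
* (C) `AuxPrime → S0484`                            (files `R312/Alg*`, the algorithm).
DO NOT change a definition of this file.
-/

set_option autoImplicit false

noncomputable section

namespace Crest.Agent.R312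

open NumberField

open Classical in
/-- Smooth Möbius sums over the ideals prime to some `m` are `O(N^{11/12+ε})`. -/
def MobBound (E : Type) [Field E] [NumberField E] : Prop :=
  ∃ m : ℕ, m ≠ 0 ∧ ∀ ε : ℝ, 0 < ε → ∃ C : ℝ, ∀ N : ℝ, 1 ≤ N →
    ‖∑' I : Ideal (𝓞 E),
        (if IsCoprime I (Ideal.span {(m : 𝓞 E)}) then
          ((UniqueFactorizationMonoid.moebius I : ℤ) : ℂ) else 0) *
          R17.Wc ((Ideal.absNorm I : ℝ) / N) 0‖ ≤ C * N ^ (11 / 12 + ε)

/-- The bound for all number fields which contain a primitive cube root of unity. -/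
def MobAll : Prop :=
  ∀ (E : Type) [Field E] [NumberField E], (∃ ω : E, ω ^ 2 + ω + 1 = 0) → MobBound E

/-- Small auxiliary primes modulo which `p` is not an `l`-th power. -/
def AuxPrime : Prop :=
  ∃ C : ℕ, ∀ l p : ℕ, l.Prime → p.Prime → 3 < p → l < p →
    ∃ r : ℕ, r.Prime ∧ r ≠ p ∧ r ≤ (l * Nat.log 2 p + 2) ^ C ∧ r % (3 * l) = 1 ∧
      ¬ ∃ x : ZMod r, x ^ l = (p : ZMod r)

end Crest.Agent.R312
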