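import Crest.Agent.R312.AlgT0
import Crest.Agent.R312.Iface
import Crest.Agent.R312.AlgT2AuxB

/-!
# Row 312, algorithm half: finite fields inside `E`, Kummer extensions, non-residues by Gauss sums
DO NOT change the definitions.  (Write `_root_.funext`: `Polynomial.funext` is open.)
-/

set_option autoImplicit false
open Finset Polynomial Crest.Agent.Lib.PolyTime
open scoped Classical

noncomputable section
namespace Crest.Agent.R312

section fields
variable {E : Type} [Field E]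

/-- The solutions of `z ^ p ^ d = z`. -/
def Kq (E : Type) [Field E] (p d : ℕ) [Fact p.Prime] [CharP E p] : Subfield E :=
  RingHom.eqLocusField (iterateFrobenius E p d) (RingHom.id E)

theorem mem_Kq {p d : ℕ} [Fact p.Prime] [CharP E p] {z : E} : z ∈ Kq E p d ↔ z ^ p ^ d = z :=
  Iff.rfl

theorem Kq_le {p : ℕ} [Fact p.Prime] [CharP E p] (d k : ℕ) : Kq E p d ≤ Kq E p (d * k) := by
  intro z hz
  rw [mem_Kq] at hz ⊢
  induction k with
  | zero => simp
  | succ k ih => rw [Nat.mul_succ, pow_add, pow_mul, ih, hz]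

theorem big_of_lt {p T : ℕ} [CharP E p] (h : T < p) : Big E T := by
  intro a ha b hb hab
  exact CharP.natCast_injOn_Iio E p (ha.trans_lt h) (hb.trans_lt h) hab

/-- `AdjoinRoot h` is a finite field with `p ^ natDegree h` elements and embeds by
`AdjoinRoot.liftAlgHom`; or `FiniteField.X_pow_card_pow_sub_X…`/`Irreducible.natDegree_dvd_iff_dvd_X_pow_card_pow_sub_X`. -/
theorem root_mem_Kq {p : ℕ} [Fact p.Prime] [CharP E p] [Algebra (ZMod p) E] {h : (ZMod p)[X]}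
    (hi : Irreducible h) {ζ : E} (hζ : aeval ζ h = 0) : ζ ∈ Kq E p h.natDegree := by
  rw [mem_Kq]
  have h1 := (hi.natDegree_dvd_iff_dvd_X_pow_card_pow_sub_X (n := h.natDegree)).1 dvd_rfl
  have h2 := aeval_eq_zero_of_dvd_aeval_eq_zero h1 hζ
  rw [Nat.card_zmod, map_sub, map_pow, aeval_X] at h2
  exact sub_eq_zero.1 h2

/-- `minpoly.eq_of_irreducible`, `minpoly.degree_le_of_ne_zero`, `Polynomial.lifts`. -/
theorem indep_of_irreducible {F : Type} [Field F] [Algebra F E] {h : F[X]} (hi : Irreducible h)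
    {ρ : E} (hρ : aeval ρ h = 0) {G : E[X]} (hG : ∀ k, G.coeff k ∈ (algebraMap F E).range)
    (hd : G.degree < h.natDegree) (h0 : G.eval ρ = 0) : G = 0 := by
  obtain ⟨g, hg, hgd⟩ := exists_degree_eq_of_mem_lifts ((lifts_iff_coeff_lifts G).2 fun k => hG k)
  by_contra hne
  have hg0 : g ≠ 0 := by
    rintro rfl
    exact hne (by rw [← hg, Polynomial.map_zero])
  have h1 : aeval ρ g = 0 := by rw [← eval_map_algebraMap, hg, h0]
  have h2 := minpoly.degree_le_of_ne_zero F ρ hg0 h1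
  rw [← minpoly.eq_of_irreducible hi hρ, degree_mul_leadingCoeff_inv _ hi.ne_zero, hgd,
    degree_eq_natDegree hi.ne_zero] at h2
  exact absurd hd (not_lt.2 h2)

/-- `X_pow_sub_C_irreducible_of_prime_pow` over the subfield `K`. -/
theorem kummer_indep {l q v : ℕ} (hl : l.Prime) (hl2 : l ≠ 2) (hd : l ∣ q - 1) (hq : 2 ≤ q)
    (K : Subfield E) (hK : ∀ z ∈ K, z ^ q = z) {a ρ : E} (ha : a ∈ K) (ha0 : a ≠ 0)
    (ha' : a ^ ((q - 1) / l) ≠ 1) (hρ : ρ ^ l ^ v = a) {G : E[X]} (hG : ∀ k, G.coeff k ∈ K)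
    (hdeg : G.degree < (l ^ v : ℕ)) (h0 : G.eval ρ = 0) : G = 0 := by
  have hi : Irreducible (X ^ l ^ v - C (⟨a, ha⟩ : K)) := by
    refine X_pow_sub_C_irreducible_of_prime_pow hl hl2 v fun b hb => ha' ?_
    have hb' : (b : E) ^ l = a := congrArg Subtype.val hb
    have hb0 : (b : E) ≠ 0 := fun h => ha0 (by rw [← hb', h, zero_pow hl.ne_zero])
    rw [← hb', ← pow_mul, Nat.mul_div_cancel' hd]
    refine mul_right_cancel₀ hb0 ?_
    rw [← pow_succ, Nat.sub_add_cancel (by omega), hK _ b.2, one_mul]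
  refine indep_of_irreducible hi (ρ := ρ) ?_ (fun k => ⟨⟨_, hG k⟩, rfl⟩) ?_ h0
  · rw [map_sub, map_pow, aeval_X, aeval_C, hρ]
    exact sub_self _
  · rwa [natDegree_X_pow_sub_C]

/-- Lifting the exponent (`Nat.emultiplicity_pow_sub_pow` or induction on `v`):
`q ^ l ^ v - 1 = (q - 1) * l ^ v * u` with `¬ l ∣ u`. -/
theorem lte_aux {l q : ℕ} (hl : l.Prime) (hl2 : l ≠ 2) (hq : 2 ≤ q) (hd : l ∣ q - 1) (v : ℕ) :
    ∃ u, ¬l ∣ u ∧ q ^ l ^ v - 1 = (q - 1) * l ^ v * u := by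
  have := Fact.mk hl
  obtain ⟨S, hS⟩ : q - 1 ∣ q ^ l ^ v - 1 := by
    simpa using Nat.sub_dvd_pow_sub_pow q 1 (l ^ v)
  have hx : ¬l ∣ q := fun h => by
    have := Nat.dvd_sub h hd
    rw [Nat.sub_sub_self (by omega)] at this
    exact hl.one_lt.ne' (Nat.dvd_one.1 this)
  have h1 := padicValNat.pow_sub_pow (p := l) (hl.odd_of_ne_two hl2) (x := q) (y := 1) (by omega) hd
    hx (n := l ^ v) (pow_ne_zero _ hl.ne_zero)
  have hS0 : S ≠ 0 := by
    rintro rfl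
    have := Nat.one_lt_pow (pow_ne_zero v hl.ne_zero) (show 1 < q by omega)
    omega
  obtain ⟨e, u, hu, rfl⟩ := Nat.exists_eq_pow_mul_and_not_dvd hS0 l hl.ne_one
  have hu0 : u ≠ 0 := right_ne_zero_of_mul hS0
  rw [one_pow, hS, padicValNat.mul (by omega) hS0, padicValNat.mul (pow_ne_zero _ hl.ne_zero) hu0,
    padicValNat.prime_pow, padicValNat.prime_pow, padicValNat.eq_zero_of_not_dvd hu] at h1
  obtain rfl : e = v := by omega
  exact ⟨u, hu, by rw [hS, mul_assoc]⟩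

theorem kummer_spec {l q v : ℕ} (hl : l.Prime) (hl2 : l ≠ 2) (hq : 2 ≤ q) (hd : l ∣ q - 1) {a ρ : E}
    (ha : a ^ (q - 1) = 1) (ha' : a ^ ((q - 1) / l) ≠ 1) (hρ : ρ ^ l ^ v = a) :
    l ∣ q ^ l ^ v - 1 ∧ ρ ^ (q ^ l ^ v - 1) = 1 ∧ ρ ^ ((q ^ l ^ v - 1) / l) ≠ 1 := by
  have := Fact.mk hl
  obtain ⟨u, hu, h⟩ := lte_aux hl hl2 hq hd v
  obtain ⟨m, hm⟩ := hd
  rw [hm, Nat.mul_div_cancel_left _ hl.pos] at ha'
  rw [h]
  refine ⟨by rw [hm, mul_assoc, mul_assoc]; exact dvd_mul_right _ _, ?_, fun h1 => hu ?_⟩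
  · rw [mul_comm (q - 1), pow_mul, pow_mul, hρ, ha, one_pow]
  · rw [hm, mul_assoc, mul_assoc, Nat.mul_div_cancel_left _ hl.pos, ← mul_assoc, mul_comm m,
      pow_mul, pow_mul, hρ] at h1
    have h2 : orderOf (a ^ m) = l :=
      orderOf_eq_prime (by rw [← pow_mul, mul_comm, ← hm, ha]) ha'
    rw [← h2]
    exact orderOf_dvd_of_pow_eq_one h1

/-- The character of order `l` modulo `r` with `χ p = ζ`. -/
def chiF (l r p : ℕ) (ζ : E) (x : ℕ) : E :=
  if x % r = 0 then 0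
  else ζ ^ fst l fun k => x ^ ((r - 1) / l) % r = p ^ ((r - 1) / l * k) % r

/-- The `l`-th power of the Gauss sum: `χ(-1) r ∏ J(χ, χ ^ j)`. -/
def nonres (l r p : ℕ) (ζ : E) : E :=
  chiF l r p ζ (r - 1) * r * ∏ j ∈ range (l - 2),
    ∑ x ∈ range r, chiF l r p ζ x * chiF l r p ζ (r + 1 - x) ^ (j + 1)

/-- `h = p ^ ((r-1)/l)` is a primitive `l`-th root of unity in `ZMod r`
(`IsPrimitiveRoot.eq_pow_of_pow_eq_one`). -/
theorem exists_mulChar {l r p : ℕ} [Fact r.Prime] (hl : l.Prime) (hp : p.Prime) (hrp : r ≠ p)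
    (hlr : l ∣ r - 1) (hpr : p ^ ((r - 1) / l) % r ≠ 1) {ζ : E} (hζ : IsPrimitiveRoot ζ l) :
    ∃ χ : MulChar (ZMod r) E, (∀ x : ℕ, χ (x : ZMod r) = chiF l r p ζ x) ∧ orderOf χ = l ∧
      χ (p : ZMod r) = ζ := by
  have hr : r.Prime := Fact.out
  have : NeZero l := ⟨hl.ne_zero⟩
  have hh := T2B.prim_aux hl hp hrp hlr hpr
  set e := (r - 1) / l with he
  set h : ZMod r := (p : ZMod r) ^ e with hhd
  let lg : ZMod r → ℕ := fun x => fst l fun k => x ^ e = h ^ k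
  have hlg : ∀ x : ZMod r, x ≠ 0 → x ^ e = h ^ lg x := by
    intro x hx
    have h1 : (x ^ e) ^ l = 1 := by
      rw [← pow_mul, he, Nat.div_mul_cancel hlr]
      exact ZMod.pow_card_sub_one_eq_one hx
    obtain ⟨k, hk, hk'⟩ := hh.eq_pow_of_pow_eq_one h1
    exact (fst_spec (p := fun k => x ^ e = h ^ k) ⟨k, hk, hk'.symm⟩).2
  let χ : MulChar (ZMod r) E :=
    { toFun := fun x => if x = 0 then 0 else ζ ^ lg x
      map_one' := by
        rw [if_neg one_ne_zero, ← pow_zero ζ]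
        refine T2B.pow_transfer hl.pos hh hζ ?_
        rw [← hlg 1 one_ne_zero, one_pow, pow_zero]
      map_mul' := fun x y => by
        by_cases hx : x = 0
        · simp [hx]
        by_cases hy : y = 0
        · simp [hy]
        rw [if_neg hx, if_neg hy, if_neg (mul_ne_zero hx hy), ← pow_add]
        refine T2B.pow_transfer hl.pos hh hζ ?_
        rw [← hlg _ (mul_ne_zero hx hy), pow_add, ← hlg x hx, ← hlg y hy, mul_pow]
      map_nonunit' := fun x hx => if_pos (by simpa using hx) }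
  have hχ : ∀ x, χ x = if x = 0 then 0 else ζ ^ lg x := fun _ => rfl
  have hp0 := T2B.cast_ne hr hp hrp
  have hχp : χ (p : ZMod r) = ζ := by
    rw [hχ, if_neg hp0]
    conv_rhs => rw [← pow_one ζ]
    refine T2B.pow_transfer hl.pos hh hζ ?_
    rw [← hlg _ hp0, pow_one]
  refine ⟨χ, fun x => ?_, ?_, hχp⟩
  · rw [hχ, chiF]
    have h0 : (x : ZMod r) = 0 ↔ x % r = 0 := by
      rw [ZMod.natCast_eq_zero_iff, Nat.dvd_iff_mod_eq_zero]
    have h1 : (fun k => (x : ZMod r) ^ e = h ^ k) = fun k => x ^ e % r = p ^ (e * k) % r := by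
      refine _root_.funext fun k => propext ?_
      rw [← ZMod.natCast_eq_natCast_iff', Nat.cast_pow, Nat.cast_pow, pow_mul]
    rw [← he, ← h1]
    simp only [h0, lg]
  · have : Fact l.Prime := ⟨hl⟩
    refine orderOf_eq_prime (MulChar.ext fun a => ?_) fun h1 => ?_
    · rw [MulChar.pow_apply_coe, MulChar.one_apply_coe, hχ, if_neg a.ne_zero, ← pow_mul, mul_comm,
        pow_mul, hζ.pow_eq_one, one_pow]
    · rw [h1, MulChar.one_apply (Ne.isUnit hp0)] at hχp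
      exact hζ.ne_one hl.one_lt hχp.symm

/-- With `g = gaussSum χ ψ` (`ψ = AddChar.zmodChar` of a primitive `r`-th root of unity in `E`):
`g ^ l = nonres` (`gaussSum_pow_eq_prod_jacobiSum`), `g ≠ 0` (`gaussSum_ne_zero_of_nontrivial`),
`g ^ p ^ d = gaussSum (χ ^ p ^ d) (ψ ^ p ^ d) = χ⁻¹ (p ^ d) g` (`gaussSum_frob`, `AddChar.pow_mulShift`,
`gaussSum_mulShift`). -/
theorem nonres_spec [IsAlgClosed E] {l r p : ℕ} [CharP E p] (hl : l.Prime) (hr : r.Prime)
    (hp : p.Prime) (hrp : r ≠ p) (hlr : l ∣ r - 1) (hpr : p ^ ((r - 1) / l) % r ≠ 1) {ζ : E}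
    (hζ : IsPrimitiveRoot ζ l) :
    nonres l r p ζ ≠ 0 ∧ ∀ d, l ∣ p ^ d - 1 → ¬l ∣ d → nonres l r p ζ ^ ((p ^ d - 1) / l) ≠ 1 := by
  have : Fact r.Prime := ⟨hr⟩
  obtain ⟨χ, hχ, ho, hχp⟩ := exists_mulChar (E := E) hl hp hrp hlr hpr hζ
  have : NeZero (r : E) := ⟨by
    rw [Ne, CharP.cast_eq_zero_iff E p, Nat.prime_dvd_prime_iff_eq hp hr]
    exact hrp.symm⟩
  obtain ⟨ω, hω⟩ := HasEnoughRootsOfUnity.exists_primitiveRoot E r
  have hψ := AddChar.zmodChar_primitive_of_primitive_root r hω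
  obtain ⟨hg, hg'⟩ := T2B.gauss_spec hl hp hrp hζ ho hχp hψ
  have key := gaussSum_pow_eq_prod_jacobiSum (χ := χ) (ho ▸ hl.two_le) hψ
  have e : gaussSum χ (AddChar.zmodChar r ((IsPrimitiveRoot.iff_def ω r).mp hω).left) ^ l =
      nonres l r p ζ := by
    rw [ho] at key
    rw [key, nonres, ZMod.card, Finset.prod_Ico_eq_prod_range, ← hχ, Nat.cast_sub hr.one_le,
      ZMod.natCast_self, zero_sub, Nat.cast_one]
    congr 1
    refine Finset.prod_congr rfl fun j _ => ?_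
    rw [jacobiSum, T2B.sum_zmod]
    refine Finset.sum_congr rfl fun x hx => ?_
    rw [MulChar.pow_apply' _ (by omega), ← hχ, ← hχ,
      Nat.cast_sub (by have := Finset.mem_range.1 hx; omega), Nat.cast_add, ZMod.natCast_self,
      zero_add, Nat.cast_one, add_comm]
  rw [← e]
  exact ⟨pow_ne_zero _ hg, hg'⟩

end fields

/-- In the cyclic group `(ZMod r)ˣ` the kernel of `x ↦ x ^ ((r-1)/l)` consists of the `l`-th powers. -/
theorem exists_pow_eq_of {l r p : ℕ} (hr : r.Prime) (hlr : l ∣ r - 1)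
    (h : p ^ ((r - 1) / l) % r = 1) : ∃ x : ZMod r, x ^ l = (p : ZMod r) := by
  have := Fact.mk hr
  obtain ⟨m, hm⟩ := hlr
  have h2 := hr.two_le
  have hl : 0 < l := Nat.pos_of_ne_zero fun h0 => by rw [h0] at hm; omega
  have hm0 : 0 < m := Nat.pos_of_ne_zero fun h0 => by rw [h0] at hm; omega
  rw [hm, Nat.mul_div_cancel_left _ hl] at h
  have h1 : (p : ZMod r) ^ m = 1 := by
    rw [← Nat.cast_pow, ← ZMod.natCast_mod, h, Nat.cast_one]
  have hp0 : (p : ZMod r) ≠ 0 := fun h0 => by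
    rw [h0, zero_pow hm0.ne'] at h1
    exact zero_ne_one h1
  obtain ⟨g, hg⟩ := IsCyclic.exists_monoid_generator (α := (ZMod r)ˣ)
  obtain ⟨k, hk⟩ := hg (Units.mk0 _ hp0)
  have hk' : (g : ZMod r) ^ k = p := congrArg Units.val hk
  have ho : orderOf g = l * m := by
    rw [orderOf_eq_card_of_forall_mem_powers hg, Nat.card_eq_fintype_card, ZMod.card_units, hm]
  have h3 : g ^ (k * m) = 1 := Units.ext (by
    rw [Units.val_pow_eq_pow_val, pow_mul, hk', h1, Units.val_one])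
  have h4 := orderOf_dvd_of_pow_eq_one h3
  rw [ho] at h4
  obtain ⟨c, rfl⟩ := Nat.dvd_of_mul_dvd_mul_right hm0 h4
  exact ⟨(g : ZMod r) ^ c, by rw [← pow_mul, mul_comm, hk']⟩

variable {α β : Type} [PEnc α] [PEnc β]

/-- `PN.fst'` for an arbitrary decidability instance. -/
theorem t2c_fst {n : β → ℕ} (hn : PN n) {p : β → ℕ → Prop} [∀ b k, Decidable (p b k)]
    (hp : Poly fun q : Ix n => decide (p q.1 q.2)) : PN fun b => fst (n b) (p b) :=
  hn.fst' (hp.congr fun _ => decide_eq_decide.2 Iff.rfl)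

/-- Search (`PN.fst'`, `Poly.decide_prime_of_pb`, `Poly.powMod`) below `(l * log₂ p + 2) ^ C + 1`. -/
theorem exists_aux (hA : AuxPrime) {p l : β → ℕ} (hp : Poly p) (hl : PN l)
    (h : ∀ b, (l b).Prime ∧ (p b).Prime ∧ 3 < p b ∧ l b < p b) :
    ∃ r : β → ℕ, PN r ∧ ∀ b, (r b).Prime ∧ r b ≠ p b ∧ l b ∣ r b - 1 ∧
      p b ^ ((r b - 1) / l b) % r b ≠ 1 := by
  obtain ⟨c, hc⟩ := hA
  have hB : PN fun b => (l b * Nat.log 2 (p b) + 2) ^ c + 1 :=
    PN.succ ⟨((hl.poly.mul ((Lib.PolyTime.Poly.const 2).log hp)).add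
      (Lib.PolyTime.Poly.const 2)).pow (Lib.PolyTime.Poly.const c) (PB.const c),
      ((hl.pb.mul (PB.log _ hp)).add (PB.const 2)).pow c⟩
  have hv := hB.var
  have he := (hv.sub (Lib.PolyTime.Poly.const 1)).div (hl.ix _).poly
  have hp' := hp.comp (poly_ix1 fun b => (l b * Nat.log 2 (p b) + 2) ^ c + 1)
  refine ⟨fun b => fst ((l b * Nat.log 2 (p b) + 2) ^ c + 1) fun r =>
    r.Prime ∧ r ≠ p b ∧ l b ∣ r - 1 ∧ p b ^ ((r - 1) / l b) % r ≠ 1,
    t2c_fst hB (p := fun b r => r.Prime ∧ r ≠ p b ∧ l b ∣ r - 1 ∧ p b ^ ((r - 1) / l b) % r ≠ 1)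
      (Poly.decide_and (Poly.decide_prime_of_pb hv.poly hv.pb)
        (Poly.decide_and (Poly.decide_ne hv.poly hp')
          (Poly.decide_and
            (Poly.decide_dvd (hl.ix _).poly (hv.poly.sub (Lib.PolyTime.Poly.const 1)))
            (Poly.decide_ne ((hp'.pow he.poly he.pb).mod hv.poly) (Lib.PolyTime.Poly.const 1))))),
    fun b => ?_⟩
  obtain ⟨h1, h2, h3, h4⟩ := h b
  obtain ⟨r, r1, r2, r3, r4, r5⟩ := hc _ _ h1 h2 h3 h4
  have hd : l b ∣ r - 1 := by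
    have e := Nat.div_add_mod r (3 * l b)
    rw [r4] at e
    refine ⟨3 * (r / (3 * l b)), ?_⟩
    rw [← mul_assoc, mul_comm (l b) 3]
    omega
  exact (fst_spec (p := fun r => r.Prime ∧ r ≠ p b ∧ l b ∣ r - 1 ∧ p b ^ ((r - 1) / l b) % r ≠ 1)
    ⟨r, Nat.lt_succ_of_le r3, r1, r2, hd, fun h5 => r5 (exists_pow_eq_of r1 hd h5)⟩).2

theorem Ctx.CP.chiF {E : α → Type} [∀ a, Field (E a)] {ι : α → Type} {C : Ctx α E ι} (H : C.OK)
    {π : β → α} {l r p x : β → ℕ} (hl : PN l) (hr : PN r) (hp : Poly p) (hx : Poly x)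
    {ζ : ∀ b, ι (π b) → E (π b)} (hζ : C.CP π ζ) :
    C.CP π fun b i => chiF (l b) (r b) (p b) (ζ b i) (x b) := by
  have he := ((hr.sub (Lib.PolyTime.Poly.const 1)).div hl.poly).ix l
  have he' := he.mul hl.var
  have hk : PN fun b => R312.fst (l b) fun k =>
      x b ^ ((r b - 1) / l b) % r b = p b ^ ((r b - 1) / l b * k) % r b :=
    t2c_fst hl (p := fun b k => x b ^ ((r b - 1) / l b) % r b = p b ^ ((r b - 1) / l b * k) % r b)
      (Poly.decide_eq (((hx.comp (poly_ix1 l)).pow he.poly he.pb).mod (hr.ix l).poly)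
        (((hp.comp (poly_ix1 l)).pow he'.poly he'.pb).mod (hr.ix l).poly))
  exact Ctx.CP.ite' (p := fun b => x b % r b = 0)
    (Poly.decide_eq (hx.mod hr.poly) (Lib.PolyTime.Poly.const 0)) (Ctx.CP.zero H hζ.poly)
    (hζ.pow H hk.poly)

theorem Ctx.CP.nonres {E : α → Type} [∀ a, Field (E a)] {ι : α → Type} {C : Ctx α E ι} (H : C.OK)
    {π : β → α} {l r p : β → ℕ} (hl : PN l) (hr : PN r) (hp : Poly p)
    {ζ : ∀ b, ι (π b) → E (π b)} (hζ : C.CP π ζ) :
    C.CP π fun b i => nonres (l b) (r b) (p b) (ζ b i) := by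
  have hn : PN fun b => l b - 2 := hl.sub (Lib.PolyTime.Poly.const 2)
  have g1 : Poly fun q : Ix fun q : Ix fun b => l b - 2 => r q.1 => q.1.1 :=
    (poly_ix1 _).comp (poly_ix1 _)
  have gx : Poly fun q : Ix fun q : Ix fun b => l b - 2 => r q.1 => (q.2 : ℕ) := poly_ix2 _
  have gj : Poly fun q : Ix fun q : Ix fun b => l b - 2 => r q.1 => (q.1.2 : ℕ) :=
    (poly_ix2 _).comp (poly_ix1 _)
  have h1 := Ctx.CP.chiF H (hl.comp g1) (hr.comp g1) (hp.comp g1) gx (hζ.comp g1)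
  have h2 := Ctx.CP.chiF H (hl.comp g1) (hr.comp g1) (hp.comp g1)
    (((hr.comp g1).poly.add (Lib.PolyTime.Poly.const 1)).sub gx) (hζ.comp g1)
  have h3 := Ctx.CP.sum H (π := fun q : Ix fun b => l b - 2 => π q.1)
    (hζ.poly.comp (poly_ix1 _)) (hr.ix fun b => l b - 2)
    (V := fun q i x => R312.chiF (l q.1) (r q.1) (p q.1) (ζ q.1 i) x *
      R312.chiF (l q.1) (r q.1) (p q.1) (ζ q.1 i) (r q.1 + 1 - x) ^ ((q.2 : ℕ) + 1))
    (h1.mul H (h2.pow H (gj.add (Lib.PolyTime.Poly.const 1))))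
  have h4 := Ctx.CP.prod H hζ.poly hn
    (V := fun b i j => ∑ x ∈ range (r b), R312.chiF (l b) (r b) (p b) (ζ b i) x *
      R312.chiF (l b) (r b) (p b) (ζ b i) (r b + 1 - x) ^ (j + 1)) h3
  exact ((Ctx.CP.chiF H hl hr hp (hr.poly.sub (Lib.PolyTime.Poly.const 1)) hζ).mul H
    (Ctx.CP.natCast H hζ.poly hr.poly)).mul H h4

end Crest.Agent.R312
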