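import Crest.Agent.R312.AlgT1
import Crest.Agent.R312.AlgT2
import Crest.Agent.R312.AlgCF4

/-!
# Row 312, algorithm half: splitting a product of distinct linear factors
DO NOT change the definitions.  (Write `_root_.funext`: `Polynomial.funext` is open.)
-/

set_option autoImplicit false
open Finset Polynomial Crest.Agent.Lib.PolyTime
open scoped Classical

noncomputable section
namespace Crest.Agent.R312

/-- The algebraic closure of the prime field. -/
abbrev Fb (p : ℕ) [Fact p.Prime] : Type := AlgebraicClosure (ZMod p)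

/-- Products of at least two distinct linear factors. -/
def SP {p : ℕ} (f : (ZMod p)[X]) : Prop := f.Monic ∧ f ∣ X ^ p - X ∧ 2 ≤ f.natDegree

/-- The image of `f` over the algebraic closure. -/
def upP {p : ℕ} [Fact p.Prime] (f : (ZMod p)[X]) : (Fb p)[X] := f.map (algebraMap (ZMod p) (Fb p))

/-- The roots. -/
def rtsF {p : ℕ} [Fact p.Prime] (f : (ZMod p)[X]) : Finset (Fb p) := (upP f).roots.toFinset

/-- Monic irreducible factors of the cyclotomic polynomial. -/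
def CycF {p : ℕ} [Fact p.Prime] (l : ℕ) (h : (ZMod p)[X]) : Prop :=
  h.Monic ∧ Irreducible h ∧ h ∣ cyclotomic l (ZMod p)

section math
variable {p : ℕ} [Fact p.Prime] {f : (ZMod p)[X]}

/-- `galois_poly_separable`, `Separable.of_dvd`, `Separable.map`. -/
theorem SP.sep (h : SP f) : (upP f).Separable := by
  have h1 : (X ^ p - X : (ZMod p)[X]).Separable := galois_poly_separable p p dvd_rfl
  exact (h1.of_dvd h.2.1).map

theorem SP.mem_bot (h : SP f) {z : Fb p} (hz : z ∈ rtsF f) : z ∈ (⊥ : Subfield (Fb p)) := by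
  rw [Subfield.mem_bot_iff_pow_eq_self (Fb p) p]
  have h1 : (upP f).IsRoot z := (mem_roots'.1 (Multiset.mem_toFinset.1 hz)).2
  have h2 : upP f ∣ X ^ p - X := by
    have := Polynomial.map_dvd (algebraMap (ZMod p) (Fb p)) h.2.1
    rwa [Polynomial.map_sub, Polynomial.map_pow, Polynomial.map_X] at this
  have h3 := h1.dvd h2
  rw [IsRoot.def, eval_sub, eval_pow, eval_X] at h3
  exact sub_eq_zero.1 h3

theorem SP.card (h : SP f) : (rtsF f).card = f.natDegree := by
  have h1 : (rtsF f).card = Multiset.card (upP f).roots :=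
    Multiset.toFinset_card_of_nodup (nodup_roots h.sep)
  rw [h1, IsAlgClosed.card_roots_eq_natDegree]
  exact h.1.natDegree_map _

theorem SP.prod (h : SP f) : upP f = ∏ z ∈ rtsF f, (X - C z) := by
  have h1 : (upP f).Monic := h.1.map _
  have h2 := (IsAlgClosed.splits (upP f)).eq_prod_roots_of_monic h1
  have h3 : (rtsF f).val = (upP f).roots := Multiset.dedup_eq_self.2 (nodup_roots h.sep)
  rw [Finset.prod_eq_multiset_prod, h3]
  exact h2

theorem SP.exists_root (h : SP f) : ∃ t < p, f.eval (t : ZMod p) = 0 := by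
  have h0 : 0 < (rtsF f).card := by rw [h.card]; have := h.2.2; omega
  obtain ⟨z, hz⟩ := Finset.card_pos.1 h0
  obtain ⟨n, hn⟩ := (mem_bot_iff_intCast p (Fb p)).1 (h.mem_bot hz)
  have h1 : (upP f).IsRoot z := (mem_roots'.1 (Multiset.mem_toFinset.1 hz)).2
  refine ⟨(n : ZMod p).val, ZMod.val_lt _, ?_⟩
  rw [ZMod.natCast_zmod_val]
  apply (algebraMap (ZMod p) (Fb p)).injective
  have h2 : algebraMap (ZMod p) (Fb p) (n : ZMod p) = z := by rw [map_intCast, hn]
  rw [map_zero, ← Polynomial.eval_map_apply, h2]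
  exact h1

/-- Interpolation does not leave a subfield. -/
theorem itp_coeff_mem {E : Type} [Field E] (K : Subfield E) {s : Finset E} {F : E → E}
    (hs : ∀ z ∈ s, z ∈ K) (hF : ∀ z ∈ s, F z ∈ K) (k : ℕ) : (itp s F).coeff k ∈ K := by
  have hC : ∀ z ∈ K, (Polynomial.C z : E[X]) ∈ liftsRing K.subtype := fun z hz =>
    (lifts_iff_liftsRing _ _).1 (C'_mem_lifts ⟨⟨z, hz⟩, rfl⟩)
  have hX : (X : E[X]) ∈ liftsRing K.subtype := (lifts_iff_liftsRing _ _).1 (X_mem_lifts _)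
  have h1 : itp s F ∈ liftsRing K.subtype := by
    change ∑ i ∈ s, Polynomial.C (F i) *
      ∏ j ∈ s.erase i, (Polynomial.C (i - j)⁻¹ * (X - Polynomial.C j)) ∈ _
    refine Subring.sum_mem _ fun i hi => Subring.mul_mem _ (hC _ (hF i hi)) ?_
    refine Subring.prod_mem _ fun j hj => ?_
    have hj' := hs j (Finset.mem_of_mem_erase hj)
    exact Subring.mul_mem _ (hC _ (K.inv_mem (K.sub_mem (hs i hi) hj')))
      (Subring.sub_mem _ hX (hC _ hj'))
  obtain ⟨z, hz⟩ := (lifts_iff_coeff_lifts _).1 ((lifts_iff_liftsRing _ _).2 h1) k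
  rw [← hz]
  exact z.2

end math

/-- The curve `y ^ l = f x`. -/
def crv {p : ℕ} [Fact p.Prime] {f : (ZMod p)[X]} (hs : SP f) {l : ℕ} (hl : l.Prime)
    (hd : l ∣ f.natDegree) {ζ : Fb p} (hζ : IsPrimitiveRoot ζ l) : Crv (Fb p) where
  l := l
  m := f.natDegree / l
  ζ := ζ
  f := upP f
  hl := hl
  hm := Nat.div_pos (Nat.le_of_dvd (by have := hs.2.2; omega) hd) hl.pos
  hζ := hζ
  monic := hs.1.map _
  deg := by rw [Nat.mul_div_cancel' hd]; exact hs.1.natDegree_map _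
  sep := hs.sep

theorem crv_rts {p : ℕ} [Fact p.Prime] {f : (ZMod p)[X]} (hs : SP f) {l : ℕ} (hl : l.Prime)
    (hd : l ∣ f.natDegree) {ζ : Fb p} (hζ : IsPrimitiveRoot ζ l) :
    (crv hs hl hd hζ).rts = rtsF f := rfl

/-- A power of Frobenius as a symmetry of the curve. -/
theorem exists_sym {p : ℕ} [Fact p.Prime] {f : (ZMod p)[X]} (hs : SP f) {l : ℕ} (hl : l.Prime)
    (hd : l ∣ f.natDegree) {ζ : Fb p} (hζ : IsPrimitiveRoot ζ l) {d : ℕ} (h : ζ ∈ Kq (Fb p) p d) :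
    ∃ T : (crv hs hl hd hζ).Sym, ∀ k w, (T.pow k).θ w = w ↔ w ∈ Kq (Fb p) p (d * k) := by
  have hb : ∀ z ∈ (⊥ : Subfield (Fb p)), z ^ p ^ d = z := fun z hz =>
    mem_Kq.1 ((bot_le : (⊥ : Subfield (Fb p)) ≤ Kq (Fb p) p d) hz)
  refine ⟨⟨iterateFrobeniusEquiv (Fb p) p d, ?_, mem_Kq.1 h, fun a ha => hb a (hs.mem_bot ?_)⟩, ?_⟩
  · change (f.map (algebraMap (ZMod p) (Fb p))).map _ = f.map (algebraMap (ZMod p) (Fb p))
    rw [Polynomial.map_map]
    congr 1
    exact RingHom.ext_zmod _ _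
  · exact Multiset.mem_toFinset.2 ((mem_roots (hs.1.map _).ne_zero).2 ha)
  · intro k w
    have key : ∀ (k : ℕ) (w : Fb p),
        (iterateFrobeniusEquiv (Fb p) p d ^ k : RingAut (Fb p)) w = w ^ p ^ (d * k) := by
      intro k
      induction k with
      | zero => intro w; rw [pow_zero, Nat.mul_zero, pow_zero, pow_one]; rfl
      | succ k ih =>
        intro w
        rw [pow_succ, RingAut.mul_apply, ih, iterateFrobeniusEquiv_def, ← pow_mul, ← pow_add,
          Nat.mul_succ, Nat.add_comm]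
    change (iterateFrobeniusEquiv (Fb p) p d ^ k : RingAut (Fb p)) w = w ↔ w ^ p ^ (d * k) = w
    rw [key k w]

/-- A bound for all naturals used as field elements. -/
def thrN (n : ℕ) : ℕ := (2 * n + 2) * (n * (n * (n * n + n) + n + 1)) + 1 + n + 3

theorem Crv.thr_le {E : Type} [Field E] (c : Crv E) : c.thr ≤ thrN (c.l * c.m) := by
  have h1 : c.l ≤ c.l * c.m := Nat.le_mul_of_pos_right _ c.hm
  have h2 : c.B0 ≤ c.l * c.m := Nat.mul_le_mul_right _ (Nat.sub_le _ _)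
  unfold Crv.thr Crv.r4 Crv.dimN Crv.N4 Crv.Ns thrN
  generalize c.l * c.m = n at h1 h2 ⊢
  refine le_trans ?_ ((Nat.le_add_right _ n).trans (Nat.le_add_right _ 3))
  gcongr

variable {α β : Type} [PEnc α] [PEnc β] {p : α → ℕ} [∀ a, Fact (p a).Prime]
  {f : ∀ a, (ZMod (p a))[X]}

/-- The `l`-adic valuation (`PN.fst'`, or `Nat.exists_eq_pow_mul_and_not_dvd` and a search). -/
theorem exists_val {l n : α → ℕ} (hl : PN l) (hn : PN n) (h : ∀ a, (l a).Prime ∧ 0 < n a) :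
    ∃ v m' : α → ℕ, PN v ∧ PN m' ∧ (PN fun a => l a ^ v a) ∧
      ∀ a, n a = l a ^ v a * m' a ∧ ¬l a ∣ m' a := by
  have hk := hn.var.succ
  obtain ⟨v, hv, h1, h2⟩ : ∃ v : α → ℕ, PN v ∧ (∀ a, l a ^ v a ∣ n a) ∧
      ∀ a, ¬l a ^ (v a + 1) ∣ n a := by
    refine ⟨fun a => fst (n a) fun k => ¬l a ^ (k + 1) ∣ n a,
      t2c_fst hn (p := fun a k => ¬l a ^ (k + 1) ∣ n a) (Poly.decide_not
        (Poly.decide_dvd ((hl.ix n).poly.pow hk.poly hk.pb) (hn.ix n).poly)),
      fun a => ?_, fun a => ?_⟩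
    · have h3 : ∀ k < fst (n a) fun k => ¬l a ^ (k + 1) ∣ n a, l a ^ (k + 1) ∣ n a :=
        fun k hk => not_not.1 (fst_min hk)
      dsimp only
      generalize (fst (n a) fun k => ¬l a ^ (k + 1) ∣ n a) = w at h3 ⊢
      rcases w with _ | w
      · simp
      · exact h3 w (Nat.lt_succ_self w)
    · refine (fst_spec (p := fun k => ¬l a ^ (k + 1) ∣ n a)
        ⟨n a - 1, by have := (h a).2; omega, fun h3 => ?_⟩).2
      rw [Nat.sub_add_cancel (h a).2] at h3
      exact absurd (Nat.le_of_dvd (h a).2 h3) (not_le.2 (Nat.lt_pow_self (h a).1.one_lt))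
  have hp : Poly fun a => l a ^ v a := hl.poly.pow hv.poly hv.pb
  refine ⟨v, fun a => n a / l a ^ v a, hv, hn.div hp,
    hn.of_le hp fun a => Nat.le_of_dvd (h a).2 (h1 a),
    fun a => ⟨(Nat.mul_div_cancel' (h1 a)).symm, fun h3 => h2 a ?_⟩⟩
  rw [← Nat.mul_div_cancel' (h1 a), pow_succ]
  exact Nat.mul_dvd_mul_left _ h3

theorem PN.minFac {n : α → ℕ} (hn : PN n) : PN fun a => (n a).minFac := by
  have hB : PN fun a => n a + 3 := hn.add (PN.const 3)
  have hb : ∀ a, (n a).minFac < n a + 3 := fun a => by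
    rcases Nat.eq_zero_or_pos (n a) with h | h
    · rw [h, Nat.minFac_zero]
      omega
    · have := Nat.minFac_le h
      omega
  have hf := t2c_fst hB (p := fun a k => 2 ≤ k ∧ k ∣ n a)
    (Poly.decide_and (Poly.decide_le (Lib.PolyTime.Poly.const 2) (poly_ix2 _))
      (Poly.decide_dvd (poly_ix2 _) (hn.ix _).poly))
  refine hB.of_le ((Poly.ite (p := fun a => n a = 1)
    (Poly.decide_eq hn.poly (Lib.PolyTime.Poly.const 1)) (Lib.PolyTime.Poly.const 1)
    hf.poly).congr fun a => ?_) fun a => (hb a).le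
  split_ifs with h
  · rw [h, Nat.minFac_one]
  · exact fst_eq_iff.2 ⟨(hb a).le, fun _ => ⟨(Nat.minFac_prime h).two_le, Nat.minFac_dvd _⟩,
      fun j hj h3 => absurd (Nat.minFac_le_of_dvd h3.1 h3.2) (not_le.2 hj)⟩

/-- The base context over the algebraic closure. -/
abbrev baseF (p : α → ℕ) [∀ a, Fact (p a).Prime] : Ctx α (fun a => Fb (p a)) fun _ => Unit :=
  base p fun a => Fb (p a)

/-- Irreducible factors of the cyclotomic polynomials `Φ_l`, `l ≤ n`, are available. -/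
def HasCyc (p : α → ℕ) [∀ a, Fact (p a).Prime] (n : α → ℕ) : Prop :=
  ∃ h : ∀ q : α × ℕ, (ZMod (p q.1))[X], PX h ∧
    ∀ a l, l.Prime → l ≤ n a → l < p a → CycF l (h (a, l))

theorem HasCyc.comp {n : α → ℕ} (H : HasCyc p n) {g : β → α} (hg : Poly g) {n' : β → ℕ}
    (le : ∀ b, n' b ≤ n (g b)) : HasCyc (fun b => p (g b)) n' := by
  obtain ⟨h, hh, H⟩ := H
  exact ⟨fun q => h (g q.1, q.2),
    hh.comp (g := fun q : β × ℕ => (g q.1, q.2)) ((hg.comp Poly.id'.fst).pair Poly.id'.snd),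
    fun b l h1 h2 h3 => H _ l h1 (h2.trans (le b)) h3⟩

/-- A computable finite field `K` with `p ^ d` elements which contains a primitive `l`-th root of unity
`ζ` and an `l`-th power non-residue `g`. -/
structure Tower (p : α → ℕ) [∀ a, Fact (p a).Prime] (l : α → ℕ)
    (C : Ctx α (fun a => Fb (p a)) fun _ => Unit) (d : α → ℕ) (ζ g : ∀ a, Fb (p a)) : Prop where
  ok : C.OK
  up : ∀ (β : Type) [PEnc β] (π : β → α) (F : ∀ b, Unit → Fb (p (π b))),
    (baseF p).CP π F → C.CP π F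
  down : ∀ (β : Type) [PEnc β] (π : β → α) (F : ∀ b, Unit → Fb (p (π b))),
    C.CP π F → (∀ b i, F b i ∈ (⊥ : Subfield (Fb (p (π b))))) → (baseF p).CP π F
  pl : PN l
  pd : PN d
  prime : ∀ a, (l a).Prime
  pos : ∀ a, 0 < d a
  K : ∀ a, C.K a = Kq (Fb (p a)) (p a) (d a)
  cζ : C.CP (fun a => a) fun a _ => ζ a
  cg : C.CP (fun a => a) fun a _ => g a
  prim : ∀ a, IsPrimitiveRoot (ζ a) (l a)
  dvd : ∀ a, l a ∣ p a ^ d a - 1
  g1 : ∀ a, g a ^ (p a ^ d a - 1) = 1
  g2 : ∀ a, g a ^ ((p a ^ d a - 1) / l a) ≠ 1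

variable {l d : α → ℕ} {C : Ctx α (fun a => Fb (p a)) fun _ => Unit} {ζ g : ∀ a, Fb (p a)}

theorem T3b_two_le {p d : ℕ} (hp : p.Prime) (hd : 0 < d) : 2 ≤ p ^ d :=
  hp.two_le.trans (Nat.le_self_pow hd.ne' p)

theorem T3b_pow_pred {E : Type} [Field E] {q : ℕ} (hq : 2 ≤ q) {z : E} (h0 : z ≠ 0)
    (h : z ^ q = z) : z ^ (q - 1) = 1 :=
  mul_right_cancel₀ h0 (by rw [← pow_succ, Nat.sub_add_cancel (by omega), h, one_mul])

/-- `C = (baseF p).ext (natDegree h) id ζ (Kq …) (p ^ d)` with `ζ` a root of `h`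
(`isRoot_cyclotomic_iff`; `d ≤ l - 1`, `root_mem_Kq`, `ExtOK.down` with `indep_of_irreducible`),
`g = nonres l r p ζ` with `r` from `exists_aux`. -/
theorem exists_tower (hA : AuxPrime) (hp : Poly p) (hl : PN l)
    (h : ∀ a, (l a).Prime ∧ 3 < p a ∧ l a < p a) {h₁ : ∀ a, (ZMod (p a))[X]} (hh : PX h₁)
    (hc : ∀ a, CycF (l a) (h₁ a)) :
    ∃ (C : Ctx α (fun a => Fb (p a)) fun _ => Unit) (d : α → ℕ) (ζ g : ∀ a, Fb (p a)),
      Tower p l C d ζ g := by
  have hP : ∀ a, (p a).Prime := fun a => Fact.out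
  have hpos : ∀ a, 0 < (h₁ a).natDegree := fun a => (hc a).2.1.natDegree_pos
  choose ζ hζ using fun a => IsAlgClosed.exists_aeval_eq_zero (Fb (p a)) (h₁ a)
    (natDegree_pos_iff_degree_pos.1 (hpos a)).ne'
  have hprim : ∀ a, IsPrimitiveRoot (ζ a) (l a) := fun a => by
    have : NeZero ((l a : ℕ) : Fb (p a)) := ⟨fun h0 => (Nat.le_of_dvd (h a).1.pos
      ((CharP.cast_eq_zero_iff _ (p a) _).1 h0)).not_gt (h a).2.2⟩
    rw [← isRoot_cyclotomic_iff, ← map_cyclotomic _ (algebraMap (ZMod (p a)) (Fb (p a))), IsRoot,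
      eval_map_algebraMap]
    exact aeval_eq_zero_of_dvd_aeval_eq_zero (hc a).2.2 (hζ a)
  have hmem : ∀ a, ζ a ∈ Kq (Fb (p a)) (p a) (h₁ a).natDegree := fun a =>
    root_mem_Kq (hc a).2.1 (hζ a)
  have h2 : ∀ a, 2 ≤ p a ^ (h₁ a).natDegree := fun a => T3b_two_le (hP a) (hpos a)
  have hdvd : ∀ a, l a ∣ p a ^ (h₁ a).natDegree - 1 := fun a =>
    (hprim a).dvd_of_pow_eq_one _ (T3b_pow_pred (h2 a) ((hprim a).ne_zero (h a).1.ne_zero) (hmem a))
  have hnd : ∀ a, ¬l a ∣ (h₁ a).natDegree := fun a hd => by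
    have h3 := natDegree_le_of_dvd (hc a).2.2 (cyclotomic_ne_zero _ _)
    rw [natDegree_cyclotomic, Nat.totient_prime (h a).1] at h3
    have h4 := Nat.le_of_dvd (hpos a) hd
    have := (h a).1.pos
    omega
  have HE : (baseF p).ExtOK (fun a => (h₁ a).natDegree) (fun _ i => i) (fun a _ => ζ a)
      (fun a => Kq (Fb (p a)) (p a) (h₁ a).natDegree) (fun a => p a ^ (h₁ a).natDegree)
      fun a => upP (h₁ a) :=
    ⟨base_ok hp, hh.natDegree, (base_cx Poly.id').2 hh,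
      fun a => ⟨(hc a).1.map _, (hc a).1.natDegree_map _⟩,
      fun a _ => (eval_map_algebraMap _ _).trans (hζ a), fun _ => bot_le, fun a _ => hmem a,
      hp.pow hh.natDegree.poly hh.natDegree.pb, h2, fun _ _ hz => hz⟩
  obtain ⟨r, hr, er⟩ := exists_aux hA hp hl fun a => ⟨(h a).1, hP a, (h a).2⟩
  have hg := Ctx.CP.nonres HE.ext_ok hl hr hp (HE.gen Poly.id')
  have hs := fun a => nonres_spec (h a).1 (er a).1 (hP a) (er a).2.1 (er a).2.2.1 (er a).2.2.2
    (hprim a)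
  exact ⟨_, _, ζ, fun a => nonres (l a) (r a) (p a) (ζ a), HE.ext_ok, fun _ _ _ _ hF => HE.up hF,
    fun _ _ _ _ hF hb => HE.down (fun a _ G h1 h2 h3 => indep_of_irreducible (hc a).2.1 (hζ a)
      (fun k => (bot_le : ⊥ ≤ (algebraMap (ZMod (p a)) (Fb (p a))).fieldRange) (h1 k)) h2 h3)
      hpos hF hb,
    hl, hh.natDegree, fun a => (h a).1, hpos, fun _ => rfl, HE.gen Poly.id', hg, hprim, hdvd,
    fun a => T3b_pow_pred (h2 a) (hs a).1 (hg.mem HE.ext_ok a ()),
    fun a => (hs a).2 _ (hdvd a) (hnd a)⟩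

/-- Adjoin a root of `X ^ l ^ v - C g` (`kummer_spec`, `kummer_indep`, `Kq_le`). -/
theorem Tower.kummer (H : Tower p l C d ζ g) (hp : Poly p) (h2 : ∀ a, l a ≠ 2) {v : α → ℕ}
    (hv : PN fun a => l a ^ v a) :
    ∃ (C' : Ctx α (fun a => Fb (p a)) fun _ => Unit) (g' : ∀ a, Fb (p a)),
      Tower p l C' (fun a => d a * l a ^ v a) ζ g' := by
  have hP : ∀ a, (p a).Prime := fun a => Fact.out
  have hpos : ∀ a, 0 < l a ^ v a := fun a => pow_pos (H.prime a).pos _
  choose ρ hρ using fun a => IsAlgClosed.exists_pow_nat_eq (g a) (hpos a)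
  have hq : ∀ a, 2 ≤ p a ^ d a := fun a => T3b_two_le (hP a) (H.pos a)
  have hq' : ∀ a, 2 ≤ p a ^ (d a * l a ^ v a) := fun a =>
    T3b_two_le (hP a) (mul_pos (H.pos a) (hpos a))
  have hs := fun a => kummer_spec (H.prime a) (h2 a) (hq a) (H.dvd a) (H.g1 a) (H.g2 a) (hρ a)
  simp only [← pow_mul] at hs
  have hd := H.pd.mul hv
  have HE : C.ExtOK (fun a => l a ^ v a) (fun _ i => i) (fun a _ => ρ a)
      (fun a => Kq (Fb (p a)) (p a) (d a * l a ^ v a)) (fun a => p a ^ (d a * l a ^ v a))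
      fun a => X ^ l a ^ v a - Polynomial.C (g a) :=
    ⟨H.ok, hv, (Ctx.CX.X_pow H.ok Poly.id' hv).sub H.ok (Ctx.CX.const H.ok H.cg),
      fun a => ⟨monic_X_pow_sub_C _ (hpos a).ne', natDegree_X_pow_sub_C⟩,
      fun a _ => by simp [hρ a], fun a => (H.K a).trans_le (Kq_le _ _), fun a _ => by
        rw [mem_Kq, ← Nat.sub_add_cancel (one_le_two.trans (hq' a)), pow_succ, (hs a).2.1, one_mul],
      hp.pow hd.poly hd.pb, hq', fun _ _ hz => hz⟩
  refine ⟨_, ρ, HE.ext_ok, fun β _ π F hF => HE.up (H.up β π F hF),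
    fun β _ π F hF hb => H.down β π F (HE.down (fun a _ G h1 h3 h4 => ?_) hpos hF fun b i =>
      (bot_le : ⊥ ≤ C.K (π b)) (hb b i)) hb,
    H.pl, hd, H.prime, fun a => mul_pos (H.pos a) (hpos a), fun _ => rfl, HE.up H.cζ,
    HE.gen Poly.id', H.prim, fun a => (hs a).1, fun a => (hs a).2.1, fun a => (hs a).2.2⟩
  refine kummer_indep (H.prime a) (h2 a) (H.dvd a) (hq a) (C.K a) (fun z hz => ?_)
    (H.cg.mem H.ok a ()) (fun h0 => ?_) (H.g2 a) (hρ a) h1 h3 h4
  · rwa [H.K a] at hz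
  · have h5 := H.g1 a
    have h6 := hq a
    rw [h0, zero_pow (by omega)] at h5
    exact zero_ne_one h5

theorem Tower.upX (H : Tower p l C d ζ g) (hf : PX f) : C.CX (fun a => a) fun a _ => upP (f a) := by
  obtain ⟨hB, hv⟩ := (base_cx (p := p) (E := fun a => Fb (p a)) Poly.id').2 hf
  exact ⟨hB, H.up _ _ _ hv⟩

theorem Tower.splitOK (H : Tower p l C d ζ g) (hf : PX f) (hs : ∀ a, SP (f a)) :
    C.SplitOK fun a => rtsF (f a) := by
  refine ⟨H.ok, ?_, (H.upX hf).congr fun a _ => (hs a).prod, fun a z hz => ?_⟩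
  · have e : (fun a => (rtsF (f a)).card) = fun a => (f a).natDegree :=
      _root_.funext fun a => (hs a).card
    rw [e]
    exact hf.natDegree
  · exact (bot_le : (⊥ : Subfield (Fb (p a))) ≤ C.K a) ((hs a).mem_bot hz)

theorem Tower.root (H : Tower p l C d ζ g) (a : α) {w : Fb (p a)} (hw : w ∈ C.K a) :
    rtF (l a) (p a ^ d a) (g a) (w ^ l a) ^ l a = w ^ l a := by
  have hp : (p a).Prime := Fact.out
  have h2 : 2 ≤ p a ^ d a := hp.two_le.trans (Nat.le_self_pow (H.pos a).ne' _)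
  rw [H.K a] at hw
  exact rtF_pow (H.prime a) h2 (H.dvd a) (H.g1 a) (H.g2 a) (mem_Kq.1 hw)

/-- Small characteristic: try all `X - C t` (`PN.fst'`, `CX.eval`, `base_cb`). -/
theorem split_small (hp : PN p) (hf : PX f) (hs : ∀ a, SP (f a)) :
    ∃ u : ∀ a, (ZMod (p a))[X], PX u ∧ ∀ a, Proper (f a) (u a) := by
  have ok := baseZ_ok hp.poly
  have h1 : (baseZ p).CB (fun q : Ix p => q.1)
      fun q _ => (f q.1).eval (((q.2 : ℕ) : ZMod (p q.1))) = 0 :=
    Ctx.CB.eq ok ((hf.cx.ix p).eval ok (Ctx.CP.natCast ok (poly_ix1 p) (poly_ix2 p)))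
      (Ctx.CP.zero ok (poly_ix1 p))
  have h2 : PN fun a => fst (p a) fun t => (f a).eval (t : ZMod (p a)) = 0 :=
    PN.fst' (p := fun a t => (f a).eval (t : ZMod (p a)) = 0) hp
      (@base_cb _ _ _ _ _ _ _ _ _ _ _ (fun _ => Classical.propDecidable _) h1)
  refine ⟨fun a => X - Polynomial.C
    ((fst (p a) fun t => (f a).eval (t : ZMod (p a)) = 0 : ℕ) : ZMod (p a)), ?_, fun a => ?_⟩
  · refine PX.of_cx (π := fun a => a) ?_
    refine (((Ctx.CX.X_pow ok Poly.id' (PN.const 1)).sub ok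
      (Ctx.CX.const ok (Ctx.CP.natCast ok Poly.id' h2.poly))).congr fun a _ => ?_)
    rw [pow_one]
  · refine ⟨monic_X_sub_C _, dvd_iff_isRoot.2 (fst_spec (hs a).exists_root).2, ?_, ?_⟩
    · rw [natDegree_X_sub_C]; exact Nat.one_pos
    · rw [natDegree_X_sub_C]; exact (hs a).2.2

theorem t3c_proper {p : ℕ} [Fact p.Prime] {f w : (ZMod p)[X]} (hs : SP f) {P : Fb p → Prop}
    (e : (itp (rtsF f) fun x => if P x then 1 else 0) = w.map (algebraMap (ZMod p) (Fb p)))
    (h0 : w ≠ 0) (h1 : w ≠ 1) : ¬f ∣ w ∧ ¬IsCoprime f w := by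
  have hinj : Function.Injective (algebraMap (ZMod p) (Fb p)) := RingHom.injective _
  refine ⟨fun hdvd => h0 ?_, fun hco => h1 ?_⟩
  · refine eq_zero_of_dvd_of_degree_lt hdvd ?_
    rw [← degree_map_eq_of_injective hinj w, ← e, degree_eq_natDegree hs.1.ne_zero, ← hs.card]
    exact Lagrange.degree_interpolate_lt _ (Set.injOn_id _)
  · refine map_injective _ hinj ?_
    rw [← e, Polynomial.map_one]
    refine (Lagrange.eq_interpolate_of_eval_eq _ (Set.injOn_id _) ?_ fun x hx => ?_).symm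
    · rw [degree_one, hs.card]
      have := hs.2.2
      exact_mod_cast (by omega : 0 < f.natDegree)
    · rw [eval_one, if_pos]
      by_contra hn
      have e1 : (w.map (algebraMap (ZMod p) (Fb p))).eval x = 0 := by
        rw [← e]
        exact (Lagrange.eval_interpolate_at_node _ (Set.injOn_id _) hx).trans (if_neg hn)
      have e2 : (f.map (algebraMap (ZMod p) (Fb p))).eval x = 0 :=
        (mem_roots'.1 (Multiset.mem_toFinset.1 hx)).2
      obtain ⟨r, s, e⟩ := hco.map (mapRingHom (algebraMap (ZMod p) (Fb p)))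
      have := congrArg (Polynomial.eval x) e
      rw [eval_add, eval_mul, eval_mul, coe_mapRingHom, e1, e2] at this
      simp at this

/-- The interpolation polynomials `w z` of the indicators (`SplitOK.itp`) have coefficients in the prime
field (`itp_coeff_mem`, `H.down`, `base_exists_px`); take the first `z` with `w z ≠ 0`, `w z ≠ 1`
(`PN.fst'`, `PX.decide_eq`) and apply `exists_ann`. -/
theorem Tower.split_of_pred (H : Tower p l C d ζ g) (hp : Poly p) (hf : PX f) (hs : ∀ a, SP (f a))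
    {Z : α → ℕ} (hZ : PN Z) {P : ∀ a, ℕ → Fb (p a) → Prop}
    (hP : (C.split fun a => rtsF (f a)).CB (fun q : Ix Z => q.1) fun q i => P q.1 q.2 i.2.1)
    (hex : ∀ a, ∃ z < Z a, (∃ x ∈ rtsF (f a), P a z x) ∧ ∃ x ∈ rtsF (f a), ¬P a z x) :
    ∃ u : ∀ a, (ZMod (p a))[X], PX u ∧ ∀ a, Proper (f a) (u a) := by
  have HS := H.splitOK hf hs
  have hI := HS.itp (π := fun q : Ix Z => q.1)
    (F := fun q _ x => if P q.1 q.2 x then 1 else 0) hP
  have hI' : (baseF p).CX (fun q : Ix Z => q.1) fun q _ =>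
      itp (rtsF (f q.1)) fun x => if P q.1 q.2 x then 1 else 0 :=
    ⟨hI.bd, H.down _ _ _ hI.cv fun q _ => itp_coeff_mem ⊥ (fun z hz => (hs _).mem_bot hz)
      (fun z _ => by split_ifs; exacts [one_mem _, zero_mem _]) _⟩
  obtain ⟨W, hW, eW⟩ := base_exists_px hp hI'
  have ev : ∀ (q : Ix Z), ∀ x ∈ rtsF (f q.1), ((W q).map (algebraMap _ (Fb (p q.1)))).eval x =
      if P q.1 q.2 x then 1 else 0 := fun q x hx => by
    rw [← eW q]
    exact Lagrange.eval_interpolate_at_node _ (Set.injOn_id _) hx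
  have hp' : Poly fun q : Ix Z => p q.1 := hp.comp (poly_ix1 _)
  obtain ⟨z, hz, hsp⟩ : ∃ z : α → ℕ, PN z ∧ ∀ a, ∃ h : z a < Z a,
      W ⟨a, ⟨z a, h⟩⟩ ≠ 0 ∧ W ⟨a, ⟨z a, h⟩⟩ ≠ 1 := by
    refine ⟨_, PN.fst' hZ
      (p := fun a z => ∃ h : z < Z a, W ⟨a, ⟨z, h⟩⟩ ≠ 0 ∧ W ⟨a, ⟨z, h⟩⟩ ≠ 1) ?_, fun a => ?_⟩
    · have h0 : PX fun q : Ix Z => (0 : (ZMod (p q.1))[X]) :=
        ((PX.one hp').sub hp' (PX.one hp')).congr fun _ => sub_self _
      refine (Poly.decide_and (Poly.decide_not (hW.decide_eq h0))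
        (Poly.decide_not (hW.decide_eq (PX.one hp')))).congr fun q => decide_eq_decide.2 ?_
      exact ⟨fun h => ⟨q.2.2, h⟩, fun ⟨_, h⟩ => h⟩
    · obtain ⟨z, h, ⟨x, hx, h1⟩, y, hy, h2⟩ := hex a
      refine (fst_spec (p := fun z => ∃ h : z < Z a, W ⟨a, ⟨z, h⟩⟩ ≠ 0 ∧ W ⟨a, ⟨z, h⟩⟩ ≠ 1)
        ⟨z, h, h, fun e => ?_, fun e => ?_⟩).2
      · have := ev ⟨a, ⟨z, h⟩⟩ x hx
        rw [e, if_pos h1] at this
        simp at this
      · have := ev ⟨a, ⟨z, h⟩⟩ y hy
        rw [e, if_neg h2] at this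
        simp at this
  choose hlt hne using hsp
  have hw : PX fun a => W ⟨a, ⟨z a, hlt a⟩⟩ :=
    hW.comp (g := fun a => (⟨a, ⟨z a, hlt a⟩⟩ : Ix Z)) (poly_ixMk Poly.id' hz.poly hlt)
  obtain ⟨u, hu, eu⟩ := exists_ann hp hf hw fun a => (hs a).1
  refine ⟨u, hu, fun a => ?_⟩
  have := t3c_proper (hs a) (eW ⟨a, ⟨z a, hlt a⟩⟩) (hne a).1 (hne a).2
  exact (eu a).1 this.1 this.2

/-- Even degree: the tournament (`SplitOK.tour`, `tour_spec`). -/
theorem Tower.split_even (H : Tower p (fun _ => 2) C d ζ g) (hp : Poly p) (hf : PX f)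
    (hs : ∀ a, SP (f a)) (he : ∀ a, Even (f a).natDegree) (hb : ∀ a, (f a).natDegree < p a) :
    ∃ u : ∀ a, (ZMod (p a))[X], PX u ∧ ∀ a, Proper (f a) (u a) := by
  have HS := H.splitOK hf hs
  have hπ := poly_ix1 fun a => (f a).natDegree
  refine H.split_of_pred hp hf hs hf.natDegree
    (P := fun a z x => tour (rtsF (f a)) (rtF 2 (p a ^ d a) (g a)) z x)
    (HS.tour (π := fun q : Ix fun a => (f a).natDegree => q.1) (Q := fun q => p q.1 ^ d q.1)
      ((hp.pow H.pd.poly H.pd.pb).comp hπ) (H.cg.comp hπ) (poly_ix2 _)) fun a => ?_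
  have := tour_spec (s := rtsF (f a)) (rt := rtF 2 (p a ^ d a) (g a))
    (by rw [(hs a).card]; exact he a)
    (Finset.card_pos.1 (by have := (hs a).2.2; rw [(hs a).card]; omega))
    (big_of_lt (p := p a) (by rw [(hs a).card]; exact hb a))
    fun x hx y hy => H.root a (sub_mem (HS.mem a x hx) (HS.mem a y hy))
  rwa [(hs a).card] at this

/-- The curve `y ^ l = f x`: `n = l ^ v m'`, `Tower.kummer`, `crv`, `exists_sym`,
`CrvOK.cand_spec`, `CB.cand` in `C'.sp c` with `z = CrvOK.pt`. -/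
theorem Tower.split_odd (H : Tower p l C d ζ g) (hp : Poly p) (hf : PX f) (hs : ∀ a, SP (f a))
    (h2 : ∀ a, l a ≠ 2) (hd : ∀ a, l a ∣ (f a).natDegree)
    (hb : ∀ a, thrN (f a).natDegree < p a) :
    ∃ u : ∀ a, (ZMod (p a))[X], PX u ∧ ∀ a, Proper (f a) (u a) := by
  obtain ⟨v, m', hv, hm', hlv, e⟩ := exists_val H.pl hf.natDegree
    fun a => ⟨H.prime a, by have := (hs a).2.2; omega⟩
  obtain ⟨C', g', H'⟩ := H.kummer hp h2 hlv
  have hn : ∀ a, l a * ((f a).natDegree / l a) = (f a).natDegree :=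
    fun a => Nat.mul_div_cancel' (hd a)
  obtain ⟨c, hc⟩ : ∃ c : ∀ a, Crv (Fb (p a)), ∀ a, c a = crv (hs a) (H.prime a) (hd a) (H.prim a) :=
    ⟨_, fun _ => rfl⟩
  obtain ⟨rt, hrt⟩ : ∃ rt : ∀ a, Fb (p a) → Fb (p a),
      ∀ a, rt a = rtF (l a) (p a ^ (d a * l a ^ v a)) (g' a) := ⟨_, fun _ => rfl⟩
  have el : ∀ a, (c a).l = l a := fun a => by rw [hc]; rfl
  have em : ∀ a, (c a).m = (f a).natDegree / l a := fun a => by rw [hc]; rfl
  have eζ : ∀ a, (c a).ζ = ζ a := fun a => by rw [hc]; rfl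
  have ef : ∀ a, (c a).f = upP (f a) := fun a => by rw [hc]; rfl
  have er : ∀ a, (c a).rts = rtsF (f a) := fun a => by rw [hc, crv_rts]
  have elm : ∀ a, (c a).l * (c a).m = (f a).natDegree := fun a => by rw [el, em, hn]
  have HC : C'.CrvOK c rt := by
    refine ⟨H'.ok, ?_, ?_, H'.cζ.congr fun a _ => (eζ a).symm,
      (H'.upX hf).congr fun a _ => (ef a).symm, fun a => by rw [er, elm, (hs a).card],
      fun a => by rw [er, ef]; exact (hs a).prod,
      fun a => by rw [er]; exact (H'.splitOK hf hs).mem a,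
      fun a => big_of_lt (p := p a) ((Crv.thr_le _).trans_lt (by rw [elm]; exact hb a)),
      fun a => p a ^ (d a * l a ^ v a), g', hp.pow H'.pd.poly H'.pd.pb, H'.cg,
      fun a => by rw [el, hrt]⟩
    · simpa only [el] using H.pl
    · simpa only [em] using hf.natDegree.div H.pl.poly
  have hk : PN fun a => (l a - 1) * v a := (H.pl.sub (Lib.PolyTime.Poly.const 1)).mul hv
  have hZ : PN fun a => (l a - 1) * v a * l a := hk.mul H.pl
  have hπ := poly_ix1 fun a => (l a - 1) * v a * l a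
  have hP := Ctx.CB.cand HC.sp (π := fun q : Ix fun a => (l a - 1) * v a * l a => q.1) (hk.comp hπ)
    (hm'.comp hπ) hZ.var (HC.pt hπ)
  have hP' : ∀ s : ∀ a, Finset (Fb (p a)), (fun a => (c a).rts) = s →
      (C'.split s).CB (fun q : Ix fun a => (l a - 1) * v a * l a => q.1)
        fun q i => (c q.1).cand (rt q.1) ((l q.1 - 1) * v q.1) (m' q.1) q.2 i.2.1 := by
    rintro _ rfl
    exact hP
  refine H'.split_of_pred hp hf hs hZ
    (P := fun a z x => (c a).cand (rt a) ((l a - 1) * v a) (m' a) z x)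
    (hP' _ (_root_.funext er)) fun a => ?_
  have hT : ∃ T : (c a).Sym, ∀ k w, (T.pow k).θ w = w ↔ w ∈ Kq (Fb (p a)) (p a) (d a * k) := by
    rw [hc]
    refine exists_sym (hs a) (H.prime a) (hd a) (H.prim a) ?_
    rw [← H.K a]
    exact H.cζ.mem H.ok a ()
  obtain ⟨T, hT⟩ := hT
  have := HC.cand_spec hv hm' a () T (by rw [elm, el]; exact (e a).1) (by rw [el]; exact (e a).2)
    (fun w => by rw [H'.K a, el]; exact hT _ w)
    fun w hw => by rw [el, hrt]; exact H'.root a hw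
  rwa [el, er] at this

/-- `PX.cases` on `p ≤ thrN n` and on the parity of `n`; `l = minFac n` (`PN.fst'`). -/
theorem split_roots (hA : AuxPrime) (hp : Poly p) (hf : PX f) (hs : ∀ a, SP (f a))
    (hc : HasCyc p fun a => (f a).natDegree) :
    ∃ u : ∀ a, (ZMod (p a))[X], PX u ∧ ∀ a, Proper (f a) (u a) := by
  have hn := hf.natDegree
  have hT : PN fun a => thrN (f a).natDegree :=
    ((((((PN.const 2).mul hn).add (PN.const 2)).mul (hn.mul (((hn.mul ((hn.mul hn).add hn)).add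
      hn).add (PN.const 1)))).add (PN.const 1)).add hn).add (PN.const 3)
  refine PX.cases (q := fun a => p a ≤ thrN (f a).natDegree) (hp.decide_le hT.poly)
    (R := fun a u => Proper (f a) u) ?_ ?_
  · exact split_small (p := fun b : {a // p a ≤ thrN (f a).natDegree} => p b.1)
      ((hT.comp Poly.id'.val).of_le (hp.restrict _) fun b => b.2) (hf.restrict _) fun b => hs b.1
  · have key : ∀ (β : Type) [PEnc β] (π : β → α) (l : β → ℕ), Poly π → PN l →
        (∀ b, (l b).Prime ∧ l b ≤ (f (π b)).natDegree ∧ thrN (f (π b)).natDegree < p (π b)) →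
        ∃ (C : Ctx β (fun b => Fb (p (π b))) fun _ => Unit) (d : β → ℕ)
          (ζ g : ∀ b, Fb (p (π b))), Tower (fun b => p (π b)) l C d ζ g := by
      intro β _ π l hπ hl h
      obtain ⟨c, hc1, hc2⟩ := hc
      have h3 : ∀ b, 3 < p (π b) ∧ l b < p (π b) := fun b => by
        obtain ⟨-, h1, h2⟩ := h b
        unfold thrN at h2
        omega
      exact exists_tower hA (hp.comp hπ) hl (fun b => ⟨(h b).1, h3 b⟩)
        (h₁ := fun b => c (π b, l b)) (hc1.comp (g := fun b => (π b, l b)) (hπ.pair hl.poly))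
        fun b => hc2 _ _ (h b).1 (h b).2.1 (h3 b).2
    have hv : Poly fun b : {a // ¬p a ≤ thrN (f a).natDegree} => b.1 := Poly.id'.val
    refine PX.cases (β := {a // ¬p a ≤ thrN (f a).natDegree}) (p := fun b => p b.1)
      (q := fun b => Even (f b.1).natDegree) (hn.poly.comp hv).decide_even
      (R := fun b u => Proper (f b.1) u) ?_ ?_
    · have hπ : Poly fun b : {b : {a // ¬p a ≤ thrN (f a).natDegree} // Even (f b.1).natDegree} =>
          b.1.1 := Poly.id'.val.val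
      obtain ⟨C, d, ζ, g, H⟩ := key _ _ (fun _ => 2) hπ (PN.const 2)
        fun b => ⟨Nat.prime_two, (hs _).2.2, not_le.1 b.1.2⟩
      refine H.split_even (hp.comp hπ) (hf.comp hπ) (fun b => hs _) (fun b => b.2) fun b => ?_
      have := not_le.1 b.1.2
      unfold thrN at this
      omega
    · have hπ : Poly fun b : {b : {a // ¬p a ≤ thrN (f a).natDegree} // ¬Even (f b.1).natDegree} =>
          b.1.1 := Poly.id'.val.val
      obtain ⟨C, d, ζ, g, H⟩ := key _ _ (fun b => (f b.1.1).natDegree.minFac) hπ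
        (hn.comp hπ).minFac fun b => ⟨Nat.minFac_prime (by have := (hs b.1.1).2.2; omega),
          Nat.minFac_le (by have := (hs b.1.1).2.2; omega), not_le.1 b.1.2⟩
      exact H.split_odd (hp.comp hπ) (hf.comp hπ) (fun b => hs _)
        (fun b e => b.2 (even_iff_two_dvd.2 (e ▸ Nat.minFac_dvd _)))
        (fun b => Nat.minFac_dvd _) fun b => not_le.1 b.1.2

end Crest.Agent.R312
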