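import Crest.Agent.R312.AlgT3

/-!
# Row 312, algorithm half: Berlekamp's reduction
(Write `_root_.funext`: `Polynomial.funext` is open.)
-/

set_option autoImplicit false
open Finset Polynomial Crest.Agent.Lib.PolyTime
open scoped Classical

noncomputable section
namespace Crest.Agent.R312

section math
variable {p : ℕ} [Fact p.Prime] {f : (ZMod p)[X]}

/-- `expand_contract`, `ZMod.expand_card`: `f = contract p f ^ p`. -/
theorem proper_contract (hm : f.Monic) (h0 : 0 < f.natDegree) (hd : derivative f = 0) :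
    Proper f (contract p f) := by
  have hp : p.Prime := Fact.out
  have h1 : contract p f ^ p = f := by
    rw [← ZMod.expand_card, expand_contract p hd hp.ne_zero]
  have h2 : p * (contract p f).natDegree = f.natDegree := by rw [← natDegree_pow, h1]
  have h3 : 0 < (contract p f).natDegree := by
    rw [← h2] at h0
    exact Nat.pos_of_mul_pos_left h0
  refine ⟨?_, ?_, h3, ?_⟩
  · have h4 : (contract p f).leadingCoeff ^ p = 1 := by rw [← leadingCoeff_pow, h1]; exact hm
    rwa [ZMod.pow_card] at h4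
  · conv_rhs => rw [← h1]
    exact dvd_pow_self _ hp.ne_zero
  · rw [← h2]
    exact lt_mul_left h3 hp.one_lt

/-- An idempotent from the Chinese remainder theorem: `f = g h` with coprime non-units,
`a g + b h = 1`, `w = b h %ₘ f`. -/
theorem exists_berlekamp (hm : f.Monic) (h0 : 0 < f.natDegree) (hs : f.Separable)
    (hi : ¬Irreducible f) :
    ∃ w : (ZMod p)[X], w.degree < f.natDegree ∧ 0 < w.natDegree ∧ f ∣ w ^ p - w := by
  have hp : p.Prime := Fact.out
  have hu : ¬IsUnit f := not_isUnit_of_natDegree_pos f h0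
  rw [irreducible_iff] at hi
  push Not at hi
  obtain ⟨g, h, hgh, hg, hh⟩ := hi hu
  obtain ⟨a, b, hab⟩ : IsCoprime g h := (hgh ▸ hs).isCoprime
  have h1 : f ∣ b * h %ₘ f - b * h :=
    ⟨-(b * h /ₘ f), by linear_combination modByMonic_add_div (b * h) f⟩
  have h2 : ∀ k, f ∣ (b * h) ^ (k + 1) - b * h := fun k => by
    induction k with
    | zero => simp
    | succ k ih =>
      have : (b * h) ^ (k + 1 + 1) - b * h =
          (b * h) * ((b * h) ^ (k + 1) - b * h) + f * -(a * b) := by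
        rw [hgh]
        linear_combination (b * h) * hab
      rw [this]
      exact (ih.mul_left _).add (dvd_mul_right _ _)
  refine ⟨b * h %ₘ f, ?_, ?_, ?_⟩
  · rw [← degree_eq_natDegree hm.ne_zero]
    exact degree_modByMonic_lt _ hm
  · by_contra h3
    obtain ⟨c, hc⟩ : ∃ c, b * h %ₘ f = C c := ⟨_, eq_C_of_natDegree_eq_zero (by omega)⟩
    rw [hc, hgh] at h1
    have h4 : h ∣ C c := by
      have := ((dvd_mul_left h g).trans h1).add (dvd_mul_left h b)
      rwa [sub_add_cancel] at this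
    have h5 : g ∣ C (c - 1) := by
      have := ((dvd_mul_right g h).trans h1).sub (dvd_mul_left g a)
      rwa [show C c - b * h - a * g = C (c - 1) by rw [C_sub, C_1]; linear_combination -hab] at this
    by_cases h6 : c = 0
    · exact hg (isUnit_of_dvd_unit h5 (isUnit_C.2 (IsUnit.mk0 _ (by simp [h6]))))
    · exact hh (isUnit_of_dvd_unit h4 (isUnit_C.2 (IsUnit.mk0 _ h6)))
  · have h3 := h2 (p - 1)
    rw [Nat.sub_add_cancel hp.one_le] at h3
    have := ((h1.trans (sub_dvd_pow_sub_pow _ _ p)).add h3).sub h1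
    rwa [show (b * h %ₘ f) ^ p - (b * h) ^ p + ((b * h) ^ p - b * h) - (b * h %ₘ f - b * h) =
      (b * h %ₘ f) ^ p - b * h %ₘ f by ring] at this

theorem T4a_coeff {F : Type} [Field F] (n : ℕ) (z : ℕ → F) (k : ℕ) :
    (∑ j ∈ range n, monomial j (z j)).coeff k = if k < n then z k else 0 := by
  simp only [finsetSum_coeff, coeff_monomial, Finset.sum_ite_eq', Finset.mem_range]

theorem T4a_degree {F : Type} [Field F] (n : ℕ) (z : ℕ → F) :
    (∑ j ∈ range n, monomial j (z j)).degree < n :=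
  (degree_lt_iff_coeff_zero _ _).2 fun k hk => by rw [T4a_coeff, if_neg (not_lt.2 hk)]

/-- The linear equations for the Berlekamp algebra. -/
theorem T4a_ker (hm : f.Monic) (z : ℕ → ZMod p) :
    f ∣ (∑ j ∈ range f.natDegree, monomial j (z j)) ^ p - ∑ j ∈ range f.natDegree, monomial j (z j)
      ↔ ∀ e < f.natDegree,
        ∑ j ∈ range f.natDegree, (X ^ (j * p) %ₘ f - X ^ j : (ZMod p)[X]).coeff e * z j = 0 := by
  have h1 : f ∣ ((∑ j ∈ range f.natDegree, monomial j (z j)) ^ p -
      ∑ j ∈ range f.natDegree, monomial j (z j)) -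
      ∑ j ∈ range f.natDegree, (X ^ (j * p) %ₘ f - X ^ j) * C (z j) := by
    rw [← ZMod.expand_card, map_sum, ← Finset.sum_sub_distrib, ← Finset.sum_sub_distrib]
    refine Finset.dvd_sum fun j _ => ⟨X ^ (j * p) /ₘ f * C (z j), ?_⟩
    rw [expand_monomial, ← C_mul_X_pow_eq_monomial, ← C_mul_X_pow_eq_monomial]
    linear_combination (-C (z j)) * modByMonic_add_div (X ^ (j * p)) f
  have h2 : (∑ j ∈ range f.natDegree, (X ^ (j * p) %ₘ f - X ^ j) * C (z j) : (ZMod p)[X]).degree <
      (f.natDegree : WithBot ℕ) := by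
    refine (degree_lt_iff_coeff_zero _ _).2 fun k hk => ?_
    rw [finsetSum_coeff]
    refine Finset.sum_eq_zero fun j hj => ?_
    have h3 : (X ^ (j * p) %ₘ f).degree < f.natDegree := by
      rw [← degree_eq_natDegree hm.ne_zero]
      exact degree_modByMonic_lt _ hm
    rw [coeff_mul_C, coeff_sub, (degree_lt_iff_coeff_zero _ _).1 h3 k hk, coeff_X_pow,
      if_neg (by have := Finset.mem_range.1 hj; omega), sub_zero, zero_mul]
  rw [dvd_iff_dvd_of_dvd_sub h1]
  constructor
  · intro h e _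
    have h3 := eq_zero_of_dvd_of_degree_lt h (by rwa [degree_eq_natDegree hm.ne_zero])
    have h4 := congrArg (coeff · e) h3
    simpa only [finsetSum_coeff, coeff_mul_C, coeff_zero] using h4
  · intro h
    have h3 : ∑ j ∈ range f.natDegree, (X ^ (j * p) %ₘ f - X ^ j) * C (z j) = 0 := by
      ext e
      by_cases he : e < f.natDegree
      · simpa only [finsetSum_coeff, coeff_mul_C, coeff_zero] using h e he
      · exact (degree_lt_iff_coeff_zero _ _).1 h2 e (not_lt.1 he)
    rw [h3]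
    exact dvd_zero _

end math

variable {α : Type} [PEnc α] {p : α → ℕ} [∀ a, Fact (p a).Prime] {f : ∀ a, (ZMod (p a))[X]}

theorem PX.contract (hp : Poly p) (hf : PX f) : PX fun a => contract (p a) (f a) := by
  have h0 : ∀ a, p a ≠ 0 := fun a => (Fact.out : (p a).Prime).ne_zero
  refine .of_cx (π := fun a => a) (Ctx.CX.of_coeff (baseZ_ok hp) Poly.id' hf.natDegree.succ
    (fun a _ => ?_) ?_)
  · refine (degree_lt_iff_coeff_zero _ _).2 fun k hk => ?_
    rw [coeff_contract (h0 a)]
    exact coeff_eq_zero_of_natDegree_lt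
      (lt_of_lt_of_le hk (Nat.le_mul_of_pos_right k (Nat.pos_of_ne_zero (h0 a))))
  · exact ((hf.cx.ix _).coeff ((poly_ix2 _).mul (hp.comp (poly_ix1 _)))).congr fun q _ =>
      (coeff_contract (h0 q.1) _ _).symm

/-- The kernel vectors as polynomials. -/
theorem T4a_px (hp : Poly p) (hf : PX f) (hm : ∀ a, (f a).Monic) :
    PX fun q : α × ℕ => ∑ k ∈ range (f q.1).natDegree, monomial k
      (kerv (f q.1).natDegree (f q.1).natDegree
        (fun e j => (X ^ (j * p q.1) %ₘ f q.1 - X ^ j : (ZMod (p q.1))[X]).coeff e) q.2 k) := by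
  have H := baseZ_ok hp
  have hn := hf.natDegree
  have g1 : Poly fun q : Ix fun r : Ix fun a => (f a).natDegree => (f r.1).natDegree => q.1.1 :=
    (poly_ix1 _).comp (poly_ix1 _)
  have hp1 := hp.comp g1
  have hX : PX fun q : Ix fun r : Ix fun a => (f a).natDegree => (f r.1).natDegree =>
      (X : (ZMod (p q.1.1))[X]) := (PX.X_pow hp1 (PN.const 1)).congr fun _ => pow_one _
  have h1 := ((hX.powMod hp1 (hf.comp g1) (fun q => hm _) ((poly_ix2 _).mul hp1)).sub hp1
    (PX.X_pow hp1 (hn.ix _).var)).coeff ((poly_ix2 _).comp (poly_ix1 _))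
  have h2 := Ctx.CLinM.proj H Poly.id' hn hn
    (M := fun a _ e j => (X ^ (j * p a) %ₘ f a - X ^ j : (ZMod (p a))[X]).coeff e)
    (cp_of_val g1 h1)
  have g2 : Poly fun r : Ix fun q : α × ℕ => (f q.1).natDegree => r.1.1 := (poly_ix1 _).fst
  have g3 : Poly fun r : Ix fun q : α × ℕ => (f q.1).natDegree => r.1.2 := (poly_ix1 _).snd
  refine .of_cx (π := fun q : α × ℕ => q.1) (Ctx.CX.of_sum H Poly.id'.fst hn.fst
    (V := fun q _ k => kerv (f q.1).natDegree (f q.1).natDegree
      (fun e j => (X ^ (j * p q.1) %ₘ f q.1 - X ^ j : (ZMod (p q.1))[X]).coeff e) q.2 k) ?_)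
  exact ((Ctx.CP.ite' (Poly.decide_eq (poly_ix2 _) g3) (Ctx.CP.one H g2) (Ctx.CP.zero H g2)).sub H
    (h2.app g2 (poly_ix2 _) g3)).congr fun _ _ => rfl

/-- The kernel of `w ↦ w ^ p - w` modulo `f`: equations `M e j = (X ^ (j p) %ₘ f - X ^ j).coeff e`
(`e, j < n`; `(∑ z_j X ^ j) ^ p = ∑ z_j X ^ (j p)` by `ZMod.expand_card`); take the first non-constant
vector `kerv n n M d` (`kerv_sol`, `kerv_span`, `PN.fst'`), or `0`. -/
theorem exists_kernel (hp : Poly p) (hf : PX f) (hm : ∀ a, (f a).Monic) :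
    ∃ w : ∀ a, (ZMod (p a))[X], PX w ∧ ∀ a, (w a).degree < (f a).natDegree ∧
      f a ∣ w a ^ p a - w a ∧
      ((∃ w' : (ZMod (p a))[X], w'.degree < (f a).natDegree ∧ 0 < w'.natDegree ∧
        f a ∣ w' ^ p a - w') → 0 < (w a).natDegree) := by
  obtain ⟨W, hW, eW⟩ : ∃ W : ∀ a, ℕ → (ZMod (p a))[X], (PX fun q : α × ℕ => W q.1 q.2) ∧
      ∀ a d, W a d = ∑ k ∈ range (f a).natDegree, monomial k (kerv (f a).natDegree (f a).natDegree
        (fun e j => (X ^ (j * p a) %ₘ f a - X ^ j : (ZMod (p a))[X]).coeff e) d k) :=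
    ⟨_, T4a_px hp hf hm, fun _ _ => rfl⟩
  have hn := hf.natDegree
  have hD : PN fun a => fst (f a).natDegree fun d => 0 < (W a d).natDegree := by
    refine hn.fst' (p := fun a d => 0 < (W a d).natDegree) ?_
    have := (Lib.PolyTime.Poly.const 0).decide_lt (hW.comp
      (g := fun q : Ix fun a => (f a).natDegree => (q.1, (q.2 : ℕ)))
      ((poly_ix1 _).pair (poly_ix2 _))).natDegree.poly
    exact this.congr fun q => by congr
  have h0 : PX fun a => (0 : (ZMod (p a))[X]) := .of_cx (Ctx.CX.zero (baseZ_ok hp) Poly.id')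
  refine ⟨fun a => if (fst (f a).natDegree fun d => 0 < (W a d).natDegree) < (f a).natDegree then
      W a (fst (f a).natDegree fun d => 0 < (W a d).natDegree) else 0,
    PX.ite (hD.poly.decide_lt hn.poly) (hW.comp
      (g := fun a => (a, fst (f a).natDegree fun d => 0 < (W a d).natDegree))
      (Poly.id'.pair hD.poly)) h0, fun a => ⟨?_, ?_, ?_⟩⟩
  · beta_reduce
    split_ifs
    · rw [eW]
      exact T4a_degree _ _
    · exact WithBot.bot_lt_coe _
  · beta_reduce
    split_ifs with h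
    · rw [eW]
      exact (T4a_ker (hm a) _).2 fun e he => kerv_sol _ _
        (fun e j => (X ^ (j * p a) %ₘ f a - X ^ j : (ZMod (p a))[X]).coeff e) h he
    · rw [zero_pow (Fact.out : (p a).Prime).ne_zero, sub_zero]
      exact dvd_zero _
  · rintro ⟨w, h1, h2, h3⟩
    have hw0 : w ≠ 0 := by
      rintro rfl
      simp at h2
    have h4 : w.natDegree < (f a).natDegree := (natDegree_lt_iff_degree_lt hw0).2 h1
    rw [w.as_sum_range' _ h4] at h3
    have h5 := kerv_span _ _
      (fun e j => (X ^ (j * p a) %ₘ f a - X ^ j : (ZMod (p a))[X]).coeff e) ((T4a_ker (hm a) _).1 h3) h4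
    have h6 : w.coeff w.natDegree ≠ 0 := leadingCoeff_ne_zero.2 hw0
    rw [h5] at h6
    obtain ⟨d, hd, h7⟩ := Finset.exists_ne_zero_of_sum_ne_zero h6
    have h8 : 0 < (W a d).natDegree := by
      refine h2.trans_le (le_natDegree_of_ne_zero ?_)
      rw [eW, T4a_coeff, if_pos h4]
      exact right_ne_zero_of_mul h7
    obtain ⟨h9, h10⟩ := fst_spec (p := fun d => 0 < (W a d).natDegree)
      ⟨d, Finset.mem_range.1 hd, h8⟩
    beta_reduce
    rwa [if_pos h9]

/-- The minimal polynomial `μ` of `w` satisfies `SP`; for a proper factor `μ₁` (`split_roots`) the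
polynomial `μ₁(w)` is a zero divisor modulo `f` (`exists_ann`). -/
theorem split_of_kernel (hA : AuxPrime) (hp : Poly p) (hf : PX f) (hm : ∀ a, (f a).Monic)
    (hc : HasCyc p fun a => (f a).natDegree) {w : ∀ a, (ZMod (p a))[X]} (hw : PX w)
    (h : ∀ a, (w a).degree < (f a).natDegree ∧ 0 < (w a).natDegree ∧ f a ∣ w a ^ p a - w a) :
    ∃ u : ∀ a, (ZMod (p a))[X], PX u ∧ ∀ a, Proper (f a) (u a) := by
  obtain ⟨μ, hμ, sμ⟩ := exists_minpoly hp hf hw hm
  have hsp : ∀ a, SP (μ a) := fun a => by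
    obtain ⟨m1, -, m3⟩ := sμ a
    obtain ⟨w1, w2, w3⟩ := h a
    refine ⟨m1, (m3 _).1 (by simpa using w3), ?_⟩
    by_contra hlt
    have h1 : f a ∣ (μ a).comp (w a) := (m3 _).2 dvd_rfl
    have hw0 : w a ≠ 0 := fun e => by rw [e] at w2; simp at w2
    have h2 : (μ a).comp (w a) ≠ 0 := by
      rw [← leadingCoeff_ne_zero, leadingCoeff_comp w2.ne', m1.leadingCoeff, one_mul]
      exact pow_ne_zero _ (leadingCoeff_ne_zero.2 hw0)
    have h3 := natDegree_le_of_dvd h1 h2
    rw [natDegree_comp] at h3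
    have h4 : (w a).natDegree < (f a).natDegree := (natDegree_lt_iff_degree_lt hw0).2 w1
    have h5 : (μ a).natDegree * (w a).natDegree ≤ 1 * (w a).natDegree :=
      Nat.mul_le_mul_right _ (by omega)
    omega
  obtain ⟨μ₁, hμ₁, s₁⟩ := split_roots hA hp hμ hsp
    (hc.comp (g := fun a => a) Poly.id' fun a => (sμ a).2.1)
  obtain ⟨g, hg, sg⟩ := exists_ann hp hf (PX.pcomp hp hμ₁ hw) hm
  refine ⟨g, hg, fun a => (sg a).1 (fun hd => ?_) fun hco => ?_⟩
  · obtain ⟨p1, -, -, p4⟩ := s₁ a
    have := natDegree_le_of_dvd (((sμ a).2.2 _).1 hd) p1.ne_zero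
    omega
  · obtain ⟨p1, ⟨μ₂, e⟩, p3, -⟩ := s₁ a
    obtain ⟨m1, -, m3⟩ := sμ a
    have h0 : μ₂ ≠ 0 := fun e0 => m1.ne_zero (by rw [e, e0, mul_zero])
    have h1 : f a ∣ (μ₁ a).comp (w a) * μ₂.comp (w a) := by
      rw [← mul_comp, ← e]; exact (m3 _).2 dvd_rfl
    have h2 := natDegree_le_of_dvd ((m3 _).1 (hco.dvd_of_dvd_mul_left h1)) h0
    have h3 : (μ a).natDegree = (μ₁ a).natDegree + μ₂.natDegree := by
      rw [e, natDegree_mul p1.ne_zero h0]
    omega

/-- `PX.cases`: `f' = 0`; the annihilator of `f'` is not `f`; otherwise `f` is separable and the kernel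
vector is constant or not. -/
theorem berlekamp (hA : AuxPrime) (hp : Poly p) (hf : PX f) (hm : ∀ a, (f a).Monic)
    (h0 : ∀ a, 0 < (f a).natDegree) (hc : HasCyc p fun a => (f a).natDegree) :
    ∃ u : ∀ a, (ZMod (p a))[X], PX u ∧ ∀ a, Proper (f a) (u a) ∨ (u a = 1 ∧ Irreducible (f a)) := by
  have hz : PX fun a => (0 : (ZMod (p a))[X]) := .of_cx (Ctx.CX.zero (baseZ_ok hp) Poly.id')
  have hd := hf.derivative hp
  obtain ⟨g, hg, sg⟩ := exists_ann hp hf hd hm
  obtain ⟨w, hw, sw⟩ := exists_kernel hp hf hm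
  have hq : Poly fun a => decide (0 < (w a).natDegree) :=
    Poly.decide_lt (Lib.PolyTime.Poly.const 0) hw.natDegree.poly
  obtain ⟨v, hv, sv⟩ := PX.cases (p := p) (q := fun a => 0 < (w a).natDegree) hq
    (R := fun a u => Proper (f a) u ∨ (u = 1 ∧ ¬0 < (w a).natDegree))
    (by
      obtain ⟨u, hu, su⟩ := split_of_kernel
        (p := fun b : {a // 0 < (w a).natDegree} => p b.1) (f := fun b => f b.1) hA
        (hp.comp Poly.id'.val) (hf.restrict _) (fun b => hm b.1)
        (hc.comp (g := fun b : {a // 0 < (w a).natDegree} => b.1) Poly.id'.val fun _ => le_rfl)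
        (w := fun b => w b.1) (hw.restrict _) fun b => ⟨(sw b.1).1, b.2, (sw b.1).2.1⟩
      exact ⟨u, hu, fun b => Or.inl (su b)⟩)
    ⟨fun _ => 1, (PX.one hp).restrict _, fun b => Or.inr ⟨rfl, b.2⟩⟩
  refine ⟨fun a => if derivative (f a) = 0 then contract (p a) (f a)
      else if g a = f a then v a else g a,
    PX.ite (hd.decide_eq hz) (hf.contract hp) (PX.ite (hg.decide_eq hf) hv hg), fun a => ?_⟩
  beta_reduce
  split_ifs with h1 h2
  · exact Or.inl (proper_contract (hm a) (h0 a) h1)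
  · have hnd : ¬f a ∣ derivative (f a) := fun hdv => by
      have h3 := natDegree_le_of_dvd hdv h1
      have h4 := natDegree_derivative_lt (h0 a).ne'
      omega
    have hs : (f a).Separable := by
      by_contra hns
      have h3 := ((sg a).1 hnd hns).2.2.2
      rw [h2] at h3
      exact lt_irrefl _ h3
    rcases sv a with h3 | ⟨h3, h4⟩
    · exact Or.inl h3
    · refine Or.inr ⟨h3, ?_⟩
      by_contra hi
      exact h4 ((sw a).2.2 (exists_berlekamp (hm a) (h0 a) hs hi))
  · have hnd : ¬f a ∣ derivative (f a) := fun hdv => by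
      have h3 := natDegree_le_of_dvd hdv h1
      have h4 := natDegree_derivative_lt (h0 a).ne'
      omega
    exact Or.inl ((sg a).1 hnd fun hco => h2 ((sg a).2 hco))

end Crest.Agent.R312
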