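import Crest.Agent.R312.AlgPlace

/-!
# Row 312, algorithm half: auxiliary lemmas for the determinant at a ramification point
-/

set_option autoImplicit false
open Finset
open scoped Classical

noncomputable section
namespace Crest.Agent.R312

/-- `k - j` modulo `l`. -/
def idx (l j k : ℕ) : ℕ := if j ≤ k then k - j else k + l - j

theorem idx_lt {l j k : ℕ} (hj : j < l) (hk : k < l) : idx l j k < l := by
  unfold idx; split_ifs <;> omega

theorem sum_idx {M : Type} [AddCommMonoid M] {l j : ℕ} (hj : j < l) (G : ℕ → M) :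
    ∑ k ∈ range l, G (idx l j k) = ∑ i ∈ range l, G i := by
  refine sum_nbij' (fun k => idx l j k) (fun i => if i + j < l then i + j else i + j - l) ?_ ?_ ?_ ?_ ?_
  · intro k hk
    exact mem_range.2 (idx_lt hj (mem_range.1 hk))
  · intro i hi
    have := mem_range.1 hi
    refine mem_range.2 ?_
    split_ifs <;> omega
  · intro k hk
    have := mem_range.1 hk
    simp only [idx]
    split_ifs <;> omega
  · intro i hi
    have := mem_range.1 hi
    simp only [idx]
    split_ifs <;> omega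
  · intro k _
    rfl

section fourier
variable {F : Type} [Field F] {l : ℕ} {ζ : F}

theorem pow_idx (hζ : ζ ^ l = 1) {j k : ℕ} (hj : j < l) (s : ℕ) :
    ζ ^ ((idx l j k + j) * s) = ζ ^ (k * s) := by
  unfold idx
  split_ifs with h
  · rw [Nat.sub_add_cancel h]
  · rw [show k + l - j + j = k + l by omega, add_mul, pow_add, pow_mul ζ l, hζ, one_pow, mul_one]

theorem sum_char (hζ : IsPrimitiveRoot ζ l) {s t n : ℕ} (hs : s < l) (ht : t < l) (hn : n < l) :
    ∑ j ∈ range l, (ζ⁻¹ ^ t * ζ ^ (n + s)) ^ j = if n = idx l s t then (l : F) else 0 := by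
  have h0 : ζ ≠ 0 := hζ.ne_zero (by omega)
  have e : ζ ^ (idx l s t + s) = ζ ^ t := by simpa using pow_idx hζ.pow_eq_one (k := t) hs 1
  split_ifs with h
  · rw [h, e, ← mul_pow, inv_mul_cancel₀ h0]
    simp
  · have h1 : ζ⁻¹ ^ t * ζ ^ (n + s) ≠ 1 := by
      intro h1
      apply h
      refine hζ.pow_inj hn (idx_lt hs ht) (mul_right_cancel₀ (pow_ne_zero s h0) ?_)
      rw [← pow_add, ← pow_add, e]
      rw [inv_pow, inv_mul_eq_one₀ (pow_ne_zero t h0)] at h1
      exact h1.symm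
    have h2 : (ζ⁻¹ ^ t * ζ ^ (n + s)) ^ l = 1 := by
      rw [mul_pow, ← pow_mul, ← pow_mul, mul_comm t, mul_comm (n + s), pow_mul, pow_mul, inv_pow,
        hζ.pow_eq_one]
      simp
    have := mul_geom_sum (ζ⁻¹ ^ t * ζ ^ (n + s)) l
    rw [h2, sub_self] at this
    exact (mul_eq_zero.1 this).resolve_left (sub_ne_zero.2 h1)

theorem det_fourier (hζ : IsPrimitiveRoot ζ l) (A : ℕ → ℕ → F) (Y R U : F) (hR : R ^ l * U = 1)
    (X : Matrix (Fin l) (Fin l) F)
    (hX : ∀ j k : Fin l, X j k = (if (j : ℕ) ≤ k then U else 1) *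
      (∑ n ∈ range l, ζ ^ (j * n) * A (idx l j k) n * Y ^ n) / U) :
    (l : F) ^ l * X.det = Matrix.det (Matrix.of fun t s : Fin l =>
      (l : F) * (Y ^ idx l s t * ∑ i ∈ range l, A i (idx l s t) * (R * ζ ^ (s : ℕ)) ^ i)) := by
  have hU : U ≠ 0 := right_ne_zero_of_mul_eq_one hR
  rcases Nat.eq_zero_or_pos l with rfl | hl
  · simp
  have hR0 : R ≠ 0 := fun h => by
    rw [h, zero_pow hl.ne', zero_mul] at hR
    exact zero_ne_one hR
  have h0 : ζ ≠ 0 := hζ.ne_zero hl.ne'
  set M : Matrix (Fin l) (Fin l) F := Matrix.of fun j k =>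
    (∑ n ∈ range l, ζ ^ (j * n) * A (idx l j k) n * Y ^ n) * R ^ idx l j k with hM
  have h1 : X * Matrix.diagonal (fun k : Fin l => R ^ (k : ℕ)) =
      Matrix.diagonal (fun k : Fin l => R ^ (k : ℕ)) * M := by
    ext j k
    rw [Matrix.mul_diagonal, Matrix.diagonal_mul, hX, hM, Matrix.of_apply]
    generalize (∑ n ∈ range l, ζ ^ (j * n) * A (idx l j k) n * Y ^ n) = S
    unfold idx
    split_ifs with h
    · have : R ^ (k : ℕ) = R ^ (j : ℕ) * R ^ ((k : ℕ) - j) := by
        rw [← pow_add, Nat.add_sub_cancel' h]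
      rw [this]
      field_simp
    · have : R ^ (j : ℕ) * R ^ ((k : ℕ) + l - j) = R ^ (k : ℕ) * R ^ l := by
        rw [← pow_add, ← pow_add]
        congr 1
        have := j.2
        omega
      have h' : R ^ l = U⁻¹ := eq_inv_of_mul_eq_one_left hR
      rw [mul_left_comm, this, h']
      field_simp
  have h2 : X.det = M.det := by
    have := congrArg Matrix.det h1
    rw [Matrix.det_mul, Matrix.det_mul, mul_comm] at this
    refine mul_left_cancel₀ ?_ this
    rw [Matrix.det_diagonal]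
    exact prod_ne_zero_iff.2 fun k _ => pow_ne_zero _ hR0
  set Z : Matrix (Fin l) (Fin l) F := Matrix.of fun k s => ζ ^ ((k : ℕ) * s) with hZ
  set Z' : Matrix (Fin l) (Fin l) F := Matrix.of fun t j => (ζ⁻¹ ^ (t : ℕ)) ^ (j : ℕ) with hZ'
  have h3 : Z' * Z = Matrix.diagonal fun _ => (l : F) := by
    ext t s
    rw [Matrix.mul_apply]
    simp only [hZ, hZ', Matrix.of_apply]
    have := sum_char hζ (s := s) (t := t) (n := 0) s.2 t.2 hl
    rw [zero_add, Finset.sum_range] at this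
    have e : ∀ j : Fin l, (ζ⁻¹ ^ (t : ℕ)) ^ (j : ℕ) * ζ ^ ((j : ℕ) * s) =
        (ζ⁻¹ ^ (t : ℕ) * ζ ^ (s : ℕ)) ^ (j : ℕ) := fun j => by
      rw [mul_pow, ← pow_mul ζ, mul_comm (s : ℕ)]
    rw [sum_congr rfl fun j _ => e j, this, Matrix.diagonal_apply]
    refine if_congr ?_ rfl rfl
    have := s.2
    have := t.2
    rw [Fin.ext_iff]
    unfold idx
    split_ifs <;> omega
  have h4 : Z'.det * Z.det = (l : F) ^ l := by
    rw [← Matrix.det_mul, h3, Matrix.det_diagonal]
    simp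
  rw [h2, ← h4, mul_assoc, mul_comm Z.det, ← Matrix.det_mul, ← Matrix.det_mul]
  congr 1
  ext t s
  rw [Matrix.mul_apply, Matrix.of_apply]
  have h5 : ∀ j : Fin l, (M * Z) j s = ∑ n ∈ range l, (ζ ^ (n + s)) ^ (j : ℕ) *
      (Y ^ n * ∑ i ∈ range l, A i n * (R * ζ ^ (s : ℕ)) ^ i) := by
    intro j
    rw [Matrix.mul_apply]
    simp only [hM, hZ, Matrix.of_apply]
    have := sum_idx j.2 fun i => (∑ n ∈ range l, ζ ^ (j * n) * A i n * Y ^ n) * R ^ i *
      ζ ^ ((i + j) * s)
    simp only [pow_idx hζ.pow_eq_one j.2] at this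
    rw [Finset.sum_range] at this
    rw [this]
    simp only [sum_mul, mul_sum]
    rw [sum_comm]
    refine sum_congr rfl fun n _ => sum_congr rfl fun i _ => ?_
    ring
  simp only [h5, hZ', Matrix.of_apply, mul_sum]
  rw [sum_comm]
  have h6 : ∀ n ∈ range l, ∑ j : Fin l, ∑ i ∈ range l, (ζ⁻¹ ^ (t : ℕ)) ^ (j : ℕ) *
      ((ζ ^ (n + s)) ^ (j : ℕ) * (Y ^ n * (A i n * (R * ζ ^ (s : ℕ)) ^ i))) =
      if n = idx l s t then ∑ i ∈ range l, (l : F) * (Y ^ n * (A i n * (R * ζ ^ (s : ℕ)) ^ i))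
      else 0 := by
    intro n hn
    have := sum_char hζ s.2 t.2 (mem_range.1 hn)
    rw [Finset.sum_range] at this
    simp only [← mul_assoc, ← mul_pow]
    simp only [mul_assoc, ← mul_sum]
    rw [← sum_mul, this]
    split_ifs <;> simp
  rw [sum_congr rfl h6, sum_ite_eq', if_pos (mem_range.2 (idx_lt s.2 t.2))]

end fourier

section laurent
variable {E : Type} [Field E]

/-- Order at least `n`. -/
def Og (n : ℤ) (z : LaurentSeries E) : Prop := ∀ k < n, z.coeff k = 0

theorem Og_iff {n : ℤ} {z : LaurentSeries E} : Og n z ↔ (n : WithTop ℤ) ≤ z.orderTop := by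
  rw [HahnSeries.le_orderTop_iff_forall]
  simp only [Og, WithTop.coe_lt_coe]

variable {n m : ℤ} {z w : LaurentSeries E}

theorem Og.mono (h : Og n z) (hm : m ≤ n) : Og m z := fun k hk => h k (hk.trans_le hm)

theorem Og.add (h : Og n z) (h' : Og n w) : Og n (z + w) := fun k hk => by
  rw [HahnSeries.coeff_add, h k hk, h' k hk, add_zero]

theorem Og.neg (h : Og n z) : Og n (-z) := fun k hk => by
  rw [HahnSeries.coeff_neg, h k hk, neg_zero]

theorem Og.sub (h : Og n z) (h' : Og n w) : Og n (z - w) := by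
  rw [sub_eq_add_neg]
  exact h.add h'.neg

theorem Og.mul (h : Og n z) (h' : Og m w) : Og (n + m) (z * w) := by
  rw [Og_iff] at *
  rw [HahnSeries.orderTop_mul, WithTop.coe_add]
  exact add_le_add h h'

theorem Og.C (a : E) : Og 0 (HahnSeries.C a : LaurentSeries E) := fun k hk => by
  rw [HahnSeries.C_apply, HahnSeries.coeff_single_of_ne hk.ne]

theorem Og.one : Og 0 (1 : LaurentSeries E) := by simpa using Og.C (1 : E)

theorem Og.sum {ι : Type} {s : Finset ι} {f : ι → LaurentSeries E} (h : ∀ i ∈ s, Og n (f i)) :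
    Og n (∑ i ∈ s, f i) :=
  sum_induction f (Og n) (fun _ _ => Og.add) (fun _ _ => rfl) h

theorem Og.prod {ι : Type} {s : Finset ι} {f : ι → LaurentSeries E} {n : ι → ℤ}
    (h : ∀ i ∈ s, Og (n i) (f i)) : Og (∑ i ∈ s, n i) (∏ i ∈ s, f i) := by
  induction s using Finset.induction_on with
  | empty => simpa using Og.one
  | insert a s ha ih =>
    rw [sum_insert ha, prod_insert ha]
    exact (h a (mem_insert_self _ _)).mul (ih fun i hi => h i (mem_insert_of_mem hi))

theorem Og.pow (h : Og n z) (k : ℕ) : Og (k * n) (z ^ k) := by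
  simpa using Og.prod (s := range k) (f := fun _ => z) (n := fun _ => n) fun _ _ => h

theorem Og.cancel (h : Og (n + m) (z * w)) (hw : w.coeff m ≠ 0) : Og n z := by
  rw [Og_iff] at *
  rw [HahnSeries.orderTop_mul, WithTop.coe_add] at h
  exact (WithTop.add_le_add_iff_right WithTop.coe_ne_top).1
    (h.trans (add_le_add_right (HahnSeries.orderTop_le_of_coeff_ne_zero hw) _))

theorem Og.det {r : ℕ} {A : Matrix (Fin r) (Fin r) (LaurentSeries E)} {α β : Fin r → ℤ}
    (h : ∀ i j, Og (α i - β j) (A i j)) : Og (∑ i, α i - ∑ j, β j) A.det := by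
  rw [Matrix.det_apply]
  refine Og.sum fun σ _ => ?_
  have h1 := Og.prod (s := univ) fun i _ => h (σ i) i
  rw [sum_sub_distrib, Equiv.sum_comp σ α] at h1
  rcases Int.units_eq_one_or (Equiv.Perm.sign σ) with e | e <;> rw [e]
  · simpa using h1
  · simpa using h1.neg

/-- Congruences modulo order `n`. -/
theorem Og.mul_sub_mul {z' w' : LaurentSeries E} (h : Og n (z - z')) (h' : Og n (w - w'))
    (hz : Og 0 z') (hw : Og 0 w) : Og n (z * w - z' * w') := by
  have e : z * w - z' * w' = (z - z') * w + z' * (w - w') := by ring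
  rw [e]
  exact Og.add (by simpa using h.mul hw) (by simpa using hz.mul h')

theorem Og.pow_sub_pow (h : Og n (z - w)) (hz : Og 0 z) (hw : Og 0 w) (k : ℕ) :
    Og n (z ^ k - w ^ k) := by
  induction k with
  | zero => exact fun _ _ => by simp
  | succ k ih =>
    rw [pow_succ, pow_succ]
    exact ih.mul_sub_mul h (by simpa using hw.pow k) hz

theorem Og.of_sub_C {a : E} (h : Og n (z - HahnSeries.C a)) (hn : 0 ≤ n) : Og 0 z := by
  have := (h.mono hn).add (Og.C a)
  rwa [sub_add_cancel] at this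

theorem Og.coeff_of_sub_C {a : E} (h : Og n (z - HahnSeries.C a)) (hn : 0 < n) : z.coeff 0 = a := by
  have := h 0 hn
  rw [HahnSeries.coeff_sub, HahnSeries.C_apply, HahnSeries.coeff_single_same] at this
  exact sub_eq_zero.1 this

/-- A root of `1 / U` which is constant up to order `n` if `U` is. -/
theorem exists_root_inv {l : ℕ} (hl : (l : E) ≠ 0) {U : LaurentSeries E} {g ρ : E}
    (hρ : ρ ^ l * g = 1) (hn : 0 < n) (hU : Og n (U - HahnSeries.C g)) :
    ∃ R : LaurentSeries E, R ^ l * U = 1 ∧ Og n (R - HahnSeries.C ρ) := by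
  have hl0 : l ≠ 0 := fun h => hl (by simp [h])
  have hg : g ≠ 0 := right_ne_zero_of_mul_eq_one hρ
  have hρ0 : ρ ≠ 0 := fun h => by
    rw [h, zero_pow hl0, zero_mul] at hρ
    exact zero_ne_one hρ
  have hU0 := hU.coeff_of_sub_C hn
  have hUne : U ≠ 0 := fun h => hg (by rw [← hU0, h]; rfl)
  have h1 : Og n (U⁻¹ - HahnSeries.C (ρ ^ l)) := by
    refine Og.cancel (m := 0) (w := U) ?_ (by rwa [hU0])
    have e : (U⁻¹ - HahnSeries.C (ρ ^ l)) * U = -(HahnSeries.C (ρ ^ l) * (U - HahnSeries.C g)) := by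
      rw [sub_mul, inv_mul_cancel₀ hUne, mul_sub, ← map_mul, hρ, map_one]
      ring
    rw [e, add_comm]
    exact ((Og.C _).mul hU).neg
  obtain ⟨R, hR, hR0, hR1⟩ := exists_root_lead hl (F := U⁻¹) (n := 0) hρ0
    ⟨by rw [mul_zero]; exact h1.of_sub_C hn.le, by simpa using h1.coeff_of_sub_C hn⟩
  refine ⟨R, by rw [hR, inv_mul_cancel₀ hUne], ?_⟩
  have h2 : Og 1 (R - HahnSeries.C ρ) := fun k hk => by
    rw [HahnSeries.coeff_sub]
    rcases (show k < 0 ∨ k = 0 by omega) with h | rfl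
    · rw [hR0 k h, Og.C ρ k h, sub_zero]
    · rw [hR1, HahnSeries.C_apply, HahnSeries.coeff_single_same, sub_self]
  have h3 : Og 1 (∑ i ∈ range l, R ^ i * HahnSeries.C ρ ^ (l - 1 - i) -
      HahnSeries.C ((l : E) * ρ ^ (l - 1))) := by
    have e : (HahnSeries.C ((l : E) * ρ ^ (l - 1)) : LaurentSeries E) =
        ∑ i ∈ range l, HahnSeries.C ρ ^ i * HahnSeries.C ρ ^ (l - 1 - i) := by
      rw [geom_sum₂_self, map_mul, map_natCast, map_pow]
    rw [e, ← sum_sub_distrib]
    refine Og.sum fun i _ => ?_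
    rw [← sub_mul]
    simpa using (h2.pow_sub_pow hR0 (Og.C ρ) i).mul ((Og.C ρ).pow (l - 1 - i))
  refine Og.cancel (m := 0) ?_ (w := ∑ i ∈ range l, R ^ i * HahnSeries.C ρ ^ (l - 1 - i)) ?_
  · rw [mul_comm, geom_sum₂_mul, hR, ← map_pow, add_zero]
    exact h1
  · rw [h3.coeff_of_sub_C one_pos]
    exact mul_ne_zero hl (pow_ne_zero _ hρ0)

end laurent
end Crest.Agent.R312
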