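import Crest.Agent.R312.AlgFam
import Crest.Agent.R312.AlgZDAux

/-!
# Row 312, algorithm half: the determinant of the zero divisor vanishes
-/

set_option autoImplicit false
open Finset Polynomial
open scoped Classical

noncomputable section
namespace Crest.Agent.R312
namespace Crv
variable {E : Type} [Field E] {c : Crv E} [IsAlgClosed E]

/-- Leibniz: valuations of determinants. -/
theorem Ge.det {n : ℕ} {P : c.Place} {A : Matrix (Fin n) (Fin n) c.L} {α β : Fin n → ℤ}
    (h : ∀ i j, c.Ge P (α i - β j) (A i j)) : c.Ge P (∑ i, α i - ∑ j, β j) A.det := by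
  change Og _ (c.emb P A.det)
  rw [RingHom.map_det]
  exact Og.det h

/-- The matrix of the `τ ^ j ξ`, `τ ^ l = 1 / u`. -/
def zX (u : c.L) (a : ℕ → c.L) : Matrix (Fin c.l) (Fin c.l) c.L := fun j k => c.kY u a j k / u

/-- General places: the entry `(j, k)` lies in `LL ((B0 + (k - j) e) Dinf - nD k D + nD j D)`
(`nD_add_index`, `sD_l`). -/
theorem zX_mem {D : c.Div} {u : c.L} {e : ℕ} {a : ℕ → c.L} (hu : u ≠ 0)
    (hd : c.div u = c.nD c.l D - ((c.l * e : ℕ) : ℤ) • c.Dinf)
    (ha : ∀ j < c.l, a j ∈ c.LL (((c.B0 + j * e : ℕ) : ℤ) • c.Dinf - c.nD j D)) (j k : Fin c.l) :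
    zX u a j k ∈ c.LL (((c.B0 : ℤ) + ((k : ℤ) - j) * e) • c.Dinf - c.nD k D + c.nD j D) := by
  have hj := j.2
  have hk := k.2
  unfold zX kY
  split_ifs with h
  · rw [mul_div_cancel_left₀ _ hu]
    have h1 := sg_mem_LL (ha (k - j) (by omega)) j
    have h2 := nD_add_index j (k - j) D
    rw [Nat.add_sub_cancel' h] at h2
    rw [map_sub, map_zsmul, sD_Dinf] at h1
    convert h1 using 2
    rw [h2]
    push_cast [Nat.cast_sub h]
    abel
  · have h1 := sg_mem_LL (ha (k + c.l - j) (by omega)) j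
    have h2 := nD_add_index j (k + c.l - j) D
    have h3 := nD_add_index c.l k D
    rw [show (j : ℕ) + (k + c.l - j) = c.l + k by omega, h3, sD_l] at h2
    rw [map_sub, map_zsmul, sD_Dinf] at h1
    rw [div_eq_mul_inv, mul_mem_LL_iff (inv_ne_zero hu), div_inv, hd]
    convert h1 using 2
    rw [eq_sub_of_add_eq' h2.symm]
    push_cast [Nat.cast_sub (show (j : ℕ) ≤ k + c.l by omega)]
    module

/-- At `inf 0` the entries of row `0` gain one order (`Ge.det`). -/
theorem det_zX_inf {D : c.Div} (hD : 0 ≤ D) (hinf : ∀ t, D (c.inf t) = 0) {u : c.L} {e : ℕ}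
    {a : ℕ → c.L} (hu : u ≠ 0) (hd : c.div u = c.nD c.l D - ((c.l * e : ℕ) : ℤ) • c.Dinf)
    (ha : ∀ j < c.l, a j ∈ c.LL (((c.B0 + j * e : ℕ) : ℤ) • c.Dinf - c.nD j D))
    (h2 : ∀ i < c.l, c.topv (c.B0 + i * e) 0 (a i) = 0) :
    c.Ge (c.inf 0) (-((c.l * c.B0 : ℕ) : ℤ) + 1) (zX u a).det := by
  have hnD : ∀ j, c.nD j D (c.inf 0) = 0 := fun j => by
    simp [nD, Finsupp.finsetSum_apply, sP_inf, hinf]
  have hI : c.Dinf (c.inf 0) = 1 := by rw [Dinf_apply]; rfl
  have key := Ge.det (P := c.inf 0) (A := zX u a)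
    (α := fun j => (j : ℤ) * e - c.B0 + if (j : ℕ) = 0 then 1 else 0) (β := fun k => (k : ℤ) * e)
    fun j k => by
      have h := zX_mem hu hd ha j k (c.inf 0)
      simp only [Finsupp.add_apply, Finsupp.sub_apply, Finsupp.smul_apply, hnD, hI] at h
      split_ifs with h0
      · have e1 : zX u a j k = a k := by
          simp [zX, kY, h0, mul_div_cancel_left₀ _ hu]
        have hS : a k ∈ c.S (c.B0 + k * e) := LL_le_S (nD_nonneg hD k) (ha k k.2)
        have h3 := (ge_S_inf (P := c.inf 0) rfl hS).succ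
          (by rw [co_inf_eq_topv 0 hS]; exact h2 k k.2)
        rw [e1]
        refine h3.mono (le_of_eq ?_)
        have : (j : ℤ) = 0 := by exact_mod_cast h0
        rw [this]
        push_cast
        ring
      · refine h.mono (le_of_eq ?_)
        simp only [smul_eq_mul]
        ring
  refine key.mono (le_of_eq ?_)
  have : ∑ j : Fin c.l, (if (j : ℕ) = 0 then (1 : ℤ) else 0) = 1 := by
    rw [← Finset.sum_range fun j => if j = 0 then (1 : ℤ) else 0, sum_ite_eq',
      if_pos (mem_range.2 c.l_pos)]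
  rw [sum_add_distrib, sum_sub_distrib, this]
  simp
  ring

/-- At the ramification point `P` above `α`.  Choose a polynomial `ρ' = ρ + κ (X - α)` with
`Ge P (2 l) (po ρ' ^ l * u - 1)` (`u = po g / po h`; one Newton step; or work with `co`).  Put
`R = po ρ'`, `b_s = ∑_j a_j (R ζ^s)^j ∈ S _`; its coordinates `pc (b_s) k` vanish at `α` for
`s + k + 1 < l`.  Modulo order `2 l`, `(X Z)_{j s} = σ^j(b_s) (R ζ^s)^j` for `Z_{k s} = (R ζ^s)^k`, and
multiplying on the left by `Z'_{t j} = (R ζ^t)^{-j}` gives `l * pc(b_s)_k(x) y^k` with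
`k ≡ t - s (mod l)`.  So the entry `(t, s)` of `Z' X Z` has order `≥ α_t - s`, `α_t = t + l` for
`t < l - 1`, `α_{l-1} = l - 1`.  `det Z` and `det Z'` are units at `P` (Vandermonde). -/
theorem det_zX_ram {D : c.Div} (hD : 0 ≤ D) {u : c.L} {e N : ℕ} {a : ℕ → c.L} (hu : u ∈ c.S N)
    (hσ : c.sg 1 u = u)
    (ha : ∀ j < c.l, a j ∈ c.LL (((c.B0 + j * e : ℕ) : ℤ) • c.Dinf - c.nD j D)) {α : E}
    (hα : c.f.eval α = 0) {ρ : E} (hρ : ρ ^ c.l * c.ev0 u α = 1)
    (h1 : ∀ s k, s + k + 1 < c.l →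
      ∑ j ∈ range c.l, (c.pc (a j) k).eval α * (ρ * c.ζ ^ s) ^ j = 0) :
    c.Ge (c.ram α hα) ((c.l * (c.l - 1) : ℕ) : ℤ) (zX u a).det := by
  set P := c.ram α hα with hP
  set em := c.emb P with hem
  have hl0 : (0 : ℤ) < c.l := by exact_mod_cast c.l_pos
  have hpo : ∀ g : E[X], Og c.l (em (c.po g) - HahnSeries.C (g.eval α)) := fun g => by
    have := ge_po_sub_ram α hα g
    rw [← c.emb_C P, ← map_sub]
    exact this
  have hup : u = c.po (c.pc u 0) := by
    refine (mkp_pc hu).symm.trans ?_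
    rw [mkp, Finset.sum_eq_single 0 ?_ (by simp [c.l_pos.ne'])]
    · simp
    · intro j hj hj0
      have h := pc_sg hu 1 j
      rw [hσ, one_mul] at h
      have h' : (1 - c.ζ ^ j) • c.pc u j = 0 := by rw [sub_smul, one_smul, ← h, sub_self]
      rw [(smul_eq_zero.1 h').resolve_left (sub_ne_zero.2
        (c.hζ.pow_ne_one_of_pos_of_lt hj0 (mem_range.1 hj)).symm)]
      simp
  obtain ⟨R, hR, hR'⟩ := exists_root_inv c.l_ne (U := em u) hρ hl0 (by
    conv => enter [2, 1]; rw [hup]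
    exact hpo _)
  have hS : ∀ j < c.l, a j ∈ c.S (c.B0 + j * e) := fun j hj => LL_le_S (nD_nonneg hD j) (ha j hj)
  have hζ : IsPrimitiveRoot (HahnSeries.C c.ζ : LaurentSeries E) c.l :=
    c.hζ.map_of_injective HahnSeries.C_injective
  have hsg : ∀ j, ∀ i < c.l, em (c.sg j (a i)) = ∑ n ∈ range c.l,
      HahnSeries.C c.ζ ^ (j * n) * em (c.po (c.pc (a i) n)) * em c.y ^ n := fun j i hi => by
    conv_lhs => rw [← mkp_pc (sg_mem_S (hS i hi) j), mkp, map_sum]
    refine sum_congr rfl fun n _ => ?_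
    rw [pc_sg (hS i hi), map_smul, Algebra.smul_def, map_mul, map_mul, c.emb_C, map_pow, map_pow]
  have hdet := det_fourier hζ (fun i n => em (c.po (c.pc (a i) n))) (em c.y) R (em u) hR
    ((zX u a).map em) fun j k => by
      rw [← hsg j _ (idx_lt j.2 k.2), Matrix.map_apply, zX, kY, map_div₀, idx]
      split_ifs <;> simp
  have hy : Og 1 (em c.y) := (ge_y_ram α hα).1
  have hB : ∀ s n, Og c.l (∑ i ∈ range c.l, em (c.po (c.pc (a i) n)) * (R * HahnSeries.C c.ζ ^ s) ^ i -
      HahnSeries.C (∑ i ∈ range c.l, (c.pc (a i) n).eval α * (ρ * c.ζ ^ s) ^ i)) := fun s n => by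
    rw [map_sum, ← sum_sub_distrib]
    refine Og.sum fun i _ => ?_
    have h0 : Og 0 (R * HahnSeries.C c.ζ ^ s) := by
      simpa using (hR'.of_sub_C hl0.le).mul ((Og.C c.ζ).pow s)
    have h2 : Og c.l (R * HahnSeries.C c.ζ ^ s - HahnSeries.C (ρ * c.ζ ^ s)) := by
      rw [map_mul, map_pow, ← sub_mul]
      simpa using hR'.mul ((Og.C c.ζ).pow s)
    rw [map_mul, map_pow]
    exact (hpo _).mul_sub_mul (h2.pow_sub_pow h0 (Og.C _) i) (Og.C _) (by simpa using h0.pow i)
  have key := Og.det (A := Matrix.of fun t s : Fin c.l => (c.l : LaurentSeries E) *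
      (em c.y ^ idx c.l s t * ∑ i ∈ range c.l, em (c.po (c.pc (a i) (idx c.l s t))) *
        (R * HahnSeries.C c.ζ ^ (s : ℕ)) ^ i))
    (α := fun t => (t : ℤ) + c.l - if (t : ℕ) = c.l - 1 then (c.l : ℤ) else 0) (β := fun s => (s : ℤ))
    fun t s => by
      have ht := t.2
      have hs := s.2
      have hc : Og 0 (c.l : LaurentSeries E) := by simpa using Og.C (c.l : E)
      rw [Matrix.of_apply]
      by_cases h : (s : ℕ) + idx c.l s t + 1 < c.l
      · have h3 := hB s (idx c.l s t)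
        rw [h1 _ _ h, map_zero, sub_zero] at h3
        refine (hc.mul ((hy.pow _).mul h3)).mono ?_
        revert h
        unfold idx
        split_ifs <;> omega
      · refine (hc.mul ((hy.pow _).mul ((hB s (idx c.l s t)).of_sub_C hl0.le))).mono ?_
        revert h
        unfold idx
        split_ifs <;> omega
  rw [← hdet, mul_comm] at key
  change Og _ (em (zX u a).det)
  rw [RingHom.map_det]
  refine Og.cancel (m := 0) (w := (c.l : LaurentSeries E) ^ c.l) (key.mono (le_of_eq ?_)) ?_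
  · have : ∑ t : Fin c.l, (if (t : ℕ) = c.l - 1 then (c.l : ℤ) else 0) = c.l := by
      rw [← Finset.sum_range fun j => if j = c.l - 1 then (c.l : ℤ) else 0, sum_ite_eq',
        if_pos (mem_range.2 (by have := c.l_pos; omega))]
    rw [sum_sub_distrib, sum_add_distrib, this]
    push_cast [Nat.cast_sub c.l_pos]
    simp
    ring
  · have : (c.l : LaurentSeries E) ^ c.l = HahnSeries.C ((c.l : E) ^ c.l) := by
      rw [map_pow, map_natCast]
    rw [this, HahnSeries.C_apply, HahnSeries.coeff_single_same]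
    exact pow_ne_zero _ c.l_ne

/-- The determinant lies in `LL` of a divisor of degree `-1`. -/
theorem det_zX {D : c.Div} (hD : 0 ≤ D) (hinf : ∀ t, D (c.inf t) = 0) {u : c.L} {e N : ℕ}
    {a : ℕ → c.L} (hu : u ≠ 0) (hu' : u ∈ c.S N) (hσ : c.sg 1 u = u)
    (hd : c.div u = c.nD c.l D - ((c.l * e : ℕ) : ℤ) • c.Dinf)
    (ha : ∀ j < c.l, a j ∈ c.LL (((c.B0 + j * e : ℕ) : ℤ) • c.Dinf - c.nD j D)) {ρ : E → E}
    (hρ : ∀ α, c.f.eval α = 0 → ρ α ^ c.l * c.ev0 u α = 1)
    (h1 : ∀ α, c.f.eval α = 0 → ∀ s k, s + k + 1 < c.l →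
      ∑ j ∈ range c.l, (c.pc (a j) k).eval α * (ρ α * c.ζ ^ s) ^ j = 0)
    (h2 : ∀ i < c.l, c.topv (c.B0 + i * e) 0 (a i) = 0) : (zX u a).det = 0 := by
  refine eq_zero_of_dg_neg (D := ((c.l * c.B0 : ℕ) : ℤ) • c.Dinf - c.pt (c.inf 0) -
    ((c.l * (c.l - 1) : ℕ) : ℤ) • (c.div c.y + (c.m : ℤ) • c.Dinf)) (fun P => ?_) ?_
  · have hgen : c.Ge P (-(((c.l * c.B0 : ℕ) : ℤ) * c.Dinf P)) (zX u a).det := by
      have key := Ge.det (P := P) (A := zX u a)
        (α := fun j => ((j : ℤ) * e - c.B0) * c.Dinf P - c.nD j D P)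
        (β := fun k => (k : ℤ) * e * c.Dinf P - c.nD k D P) fun j k => by
          refine (zX_mem hu hd ha j k P).mono (le_of_eq ?_)
          simp only [Finsupp.add_apply, Finsupp.sub_apply, Finsupp.smul_apply, smul_eq_mul]
          ring
      refine key.mono (le_of_eq ?_)
      rw [← sum_sub_distrib, sum_congr rfl (g := fun _ => -(c.B0 * c.Dinf P)) fun j _ => by ring]
      simp
      ring
    simp only [Finsupp.add_apply, Finsupp.sub_apply, Finsupp.smul_apply, smul_eq_mul, div_apply,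
      ord_y, pt_apply]
    by_cases h0 : c.inf 0 = P
    · subst h0
      refine (det_zX_inf hD hinf hu hd ha h2).mono (le_of_eq ?_)
      have e1 : c.Dinf (c.inf 0) = 1 := by rw [Dinf_apply]; rfl
      have e2 : c.yo (c.inf 0) = -c.m := rfl
      rw [e1, e2, if_pos rfl]
      ring
    · rw [if_neg h0]
      rcases hP : P.1.1 with _ | α
      · refine hgen.mono (le_of_eq ?_)
        have e1 : c.Dinf P = 1 := by rw [Dinf_apply, if_pos hP]
        have e2 : c.yo P = -c.m := by rw [yo, hP]; rfl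
        rw [e1, e2]
        ring
      · have e1 : c.Dinf P = 0 := by rw [Dinf_apply, hP]; rfl
        have e2 : c.yo P = if c.f.eval α = 0 then 1 else 0 := by rw [yo, hP]; rfl
        rw [e1] at hgen
        rw [e1, e2]
        split_ifs with hα
        · rw [eq_ram hP hα]
          refine (det_zX_ram hD hu' hσ ha hα (hρ α hα) (h1 α hα)).mono (le_of_eq ?_)
          ring
        · refine hgen.mono (le_of_eq ?_)
          ring
  · simp only [map_sub, map_add, map_zsmul, dg_Dinf, dg_pt, dg_div, smul_eq_mul, B0]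
    push_cast
    nlinarith

end Crv
end Crest.Agent.R312
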