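import Crest.Agent.R312.AlgRed

/-!
# Row 312, algorithm half: existence and computation of the zero divisor
-/

set_option autoImplicit false
open Finset Polynomial
open scoped Classical

noncomputable section
namespace Crest.Agent.R312
namespace Crv
variable {E : Type} [Field E] {c : Crv E} [IsAlgClosed E]

section aux
omit [IsAlgClosed E]

/-- More unknowns than homogeneous linear equations. -/
theorem zd2_exists_ne {V : Type} [AddCommGroup V] [Module E V] [Module.Finite E V] {I : Type}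
    [Fintype I] (F : I → V → E) (hadd : ∀ i v w, F i (v + w) = F i v + F i w)
    (hsm : ∀ i (t : E) v, F i (t • v) = t * F i v) (h : Fintype.card I < Module.finrank E V) :
    ∃ v : V, v ≠ 0 ∧ ∀ i, F i v = 0 := by
  let Φ : V →ₗ[E] (I → E) :=
    { toFun := fun v i => F i v
      map_add' := fun v w => funext fun i => hadd i v w
      map_smul' := fun t v => funext fun i => hsm i t v }
  have hk : LinearMap.ker Φ ≠ ⊥ := Φ.ker_ne_bot_of_finrank_lt (by simpa using h)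
  obtain ⟨v, hv, hv0⟩ := Submodule.exists_mem_ne_zero_of_ne_bot hk
  exact ⟨v, hv0, fun i => congrFun (LinearMap.mem_ker.1 hv) i⟩

theorem zd2_topv_add {N M : ℕ} {φ ψ : c.L} (h : φ ∈ c.S N) (h' : ψ ∈ c.S M) (K t : ℕ) :
    c.topv K t (φ + ψ) = c.topv K t φ + c.topv K t ψ := by
  unfold topv
  rw [← sum_add_distrib]
  refine sum_congr rfl fun j _ => ?_
  split_ifs
  · rw [pc_add h h', coeff_add, add_mul]
  · rw [add_zero]

theorem zd2_topv_smul {N : ℕ} {φ : c.L} (h : φ ∈ c.S N) (a : E) (K t : ℕ) :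
    c.topv K t (a • φ) = a * c.topv K t φ := by
  unfold topv
  rw [mul_sum]
  refine sum_congr rfl fun j _ => ?_
  split_ifs
  · rw [pc_smul h, coeff_smul, smul_eq_mul, mul_assoc]
  · rw [mul_zero]

theorem zd2_pc_lin {r N : ℕ} {W : ℕ → c.L} (h : c.In r N W) (z : ℕ → E) (j : ℕ) :
    c.pc (c.lin r W z) j = ∑ k ∈ range r, z k • c.pc (W k) j := by
  unfold lin
  rw [pc_sum (N := N) _ fun k hk => (c.S N).smul_mem _ (h k (mem_range.1 hk))]
  exact sum_congr rfl fun k hk => pc_smul (h k (mem_range.1 hk)) _ _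

theorem zd2_topv_lin {r N : ℕ} {W : ℕ → c.L} (h : c.In r N W) (z : ℕ → E) (K t : ℕ) :
    c.topv K t (c.lin r W z) = ∑ k ∈ range r, c.topv K t (W k) * z k := by
  unfold topv
  simp only [zd2_pc_lin h, sum_mul]
  rw [sum_comm]
  refine sum_congr rfl fun j _ => ?_
  split_ifs
  · rw [finsetSum_coeff, sum_mul]
    refine sum_congr rfl fun k _ => ?_
    rw [coeff_smul, smul_eq_mul]
    ring
  · simp

theorem zd2_itp_iff (s : Finset E) (F : E → E) :
    (∀ n < s.card, (itp s F).coeff n = 0) ↔ ∀ a ∈ s, F a = 0 := by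
  have hinj : Set.InjOn (id : E → E) s := fun _ _ _ _ h => h
  constructor
  · intro h a ha
    have h0 : itp s F = 0 := by
      ext n
      by_cases hn : n < s.card
      · simpa using h n hn
      · refine coeff_eq_zero_of_degree_lt ?_
        refine (Lagrange.degree_interpolate_lt F hinj).trans_le ?_
        exact_mod_cast not_lt.1 hn
    have h1 := Lagrange.eval_interpolate_at_node F hinj ha
    rw [show Lagrange.interpolate s id F = 0 from h0] at h1
    simpa using h1.symm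
  · intro h n _
    have h0 : itp s F = Lagrange.interpolate s id 0 :=
      Lagrange.interpolate_eq_of_values_eq_on _ _ h
    rw [h0, map_zero, coeff_zero]

theorem zd2_itp_sum (s : Finset E) {ι : Type} (t : Finset ι) (F : ι → E → E) (z : ι → E) (n : ℕ) :
    ∑ i ∈ t, (itp s (F i)).coeff n * z i = (itp s fun a => ∑ i ∈ t, F i a * z i).coeff n := by
  have h : (fun a => ∑ i ∈ t, F i a * z i) = ∑ i ∈ t, z i • F i := by
    funext a
    rw [Finset.sum_apply]
    exact sum_congr rfl fun i _ => by rw [Pi.smul_apply, smul_eq_mul, mul_comm]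
  unfold itp
  rw [h, map_sum, finsetSum_coeff]
  refine sum_congr rfl fun i _ => ?_
  rw [map_smul, coeff_smul, smul_eq_mul, mul_comm]

/-- The functions attached to a vector of unknowns. -/
def zd2A (W : ℕ → c.L) (e : ℕ) (z : ℕ → E) (j : ℕ) : c.L :=
  c.lin c.nC (fun k => c.zv W e (j * c.nC + k)) fun k => z (j * c.nC + k)

theorem zd2_div {n j k : ℕ} (hk : k < n) : (j * n + k) / n = j := by
  rw [add_comm, Nat.add_mul_div_right _ _ (by omega), Nat.div_eq_of_lt hk, zero_add]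

theorem zd2_mod {n j k : ℕ} (hk : k < n) : (j * n + k) % n = k := by
  rw [add_comm, Nat.add_mul_mod_self_right, Nat.mod_eq_of_lt hk]

theorem zd2_zv (W : ℕ → c.L) (e j : ℕ) {k : ℕ} (hk : k < c.nC) :
    c.zv W e (j * c.nC + k) = c.Cj W (c.sec W) j (c.B0 + j * e) k := by
  unfold zv
  rw [zd2_div hk, zd2_mod hk]

theorem zd2_in (W : ℕ → c.L) (e j : ℕ) :
    c.In c.nC (c.B0 + j * e) fun k => c.zv W e (j * c.nC + k) := fun k hk => by
  change c.zv W e (j * c.nC + k) ∈ _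
  rw [zd2_zv W e j hk]
  exact colon_mem _ _ _ _ _ _ _

theorem zd2_eq1 (ρ : E → E) (W : ℕ → c.L) (e : ℕ) (z : ℕ → E) {e₁ e₂ : ℕ} (h₂ : e₂ < c.l * c.m)
    (h₁ : e₁ / c.l + e₁ % c.l + 1 < c.l) :
    ∑ i ∈ range (c.l * c.nC), c.zM ρ W e e₁ e₂ i * z i =
      (itp c.rts fun a => ∑ j ∈ range c.l, (c.pc (zd2A W e z j) (e₁ % c.l)).eval a *
        (ρ a * c.ζ ^ (e₁ / c.l)) ^ j).coeff e₂ := by
  simp only [zM, if_pos h₂, if_pos h₁]
  rw [zd2_itp_sum]
  congr 2
  funext a
  rw [sum_range_mul]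
  refine sum_congr rfl fun j _ => ?_
  rw [zd2A, zd2_pc_lin (zd2_in W e j), eval_finsetSum, sum_mul]
  refine sum_congr rfl fun k hk => ?_
  rw [zd2_div (mem_range.1 hk), eval_smul, smul_eq_mul]
  ring

theorem zd2_eq2 (ρ : E → E) (W : ℕ → c.L) (e : ℕ) (z : ℕ → E) (e₁ : ℕ) :
    ∑ i ∈ range (c.l * c.nC), c.zM ρ W e e₁ (c.l * c.m) i * z i =
      if e₁ < c.l then c.topv (c.B0 + e₁ * e) 0 (zd2A W e z e₁) else 0 := by
  simp only [zM, lt_irrefl, if_false]
  rw [sum_range_mul]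
  have h : ∀ j ∈ range c.l, (∑ k ∈ range c.nC,
      (if (j * c.nC + k) / c.nC = e₁ then
        c.topv (c.B0 + (j * c.nC + k) / c.nC * e) 0 (c.zv W e (j * c.nC + k)) else 0) *
        z (j * c.nC + k)) = if j = e₁ then c.topv (c.B0 + j * e) 0 (zd2A W e z j) else 0 := by
    intro j _
    rw [zd2A, zd2_topv_lin (zd2_in W e j)]
    split_ifs with hj
    · refine sum_congr rfl fun k hk => ?_
      rw [zd2_div (mem_range.1 hk), if_pos hj]
    · refine sum_eq_zero fun k hk => ?_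
      rw [zd2_div (mem_range.1 hk), if_neg hj, zero_mul]
  rw [sum_congr rfl h, sum_ite_eq']
  simp only [mem_range]

theorem zd2A_span (W : ℕ → c.L) (e : ℕ) {n : ℕ} (z w : ℕ → E) (K : ℕ → ℕ → E) {j : ℕ}
    (h : ∀ k < c.nC, z (j * c.nC + k) = ∑ d ∈ range n, w d * K d (j * c.nC + k)) :
    zd2A W e z j = ∑ d ∈ range n, w d • zd2A W e (K d) j := by
  unfold zd2A lin
  simp only [smul_sum]
  rw [sum_comm]
  refine sum_congr rfl fun k hk => ?_
  rw [h k (mem_range.1 hk), sum_smul]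
  exact sum_congr rfl fun d _ => by rw [mul_smul]

end aux

theorem zd2_iff (ρ : E → E) (W : ℕ → c.L) (e : ℕ) (z : ℕ → E) :
    (∀ e₁ < c.l * c.l, ∀ e₂ < c.l * c.m + 1,
      ∑ i ∈ range (c.l * c.nC), c.zM ρ W e e₁ e₂ i * z i = 0) ↔
    (∀ α, c.f.eval α = 0 → ∀ s k, s + k + 1 < c.l →
        ∑ j ∈ range c.l, (c.pc (zd2A W e z j) k).eval α * (ρ α * c.ζ ^ s) ^ j = 0) ∧
      ∀ i < c.l, c.topv (c.B0 + i * e) 0 (zd2A W e z i) = 0 := by
  constructor
  · intro h
    refine ⟨fun α hα s k hsk => ?_, fun i hi => ?_⟩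
    · have hk : k < c.l := by omega
      have hlt : s * c.l + k < c.l * c.l := by
        have : (s + 1) * c.l ≤ c.l * c.l := Nat.mul_le_mul_right _ (by omega)
        nlinarith
      have key := (zd2_itp_iff c.rts fun a => ∑ j ∈ range c.l,
        (c.pc (zd2A W e z j) k).eval a * (ρ a * c.ζ ^ s) ^ j).1 (fun n hn => by
          rw [card_rts] at hn
          have h1 := zd2_eq1 ρ W e z (e₁ := s * c.l + k) hn (by rwa [zd2_div hk, zd2_mod hk])
          rw [zd2_div hk, zd2_mod hk] at h1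
          rw [← h1]
          exact h _ hlt _ (by omega))
      exact key α (mem_rts.2 hα)
    · have h1 := zd2_eq2 ρ W e z i
      rw [if_pos hi] at h1
      rw [← h1]
      exact h i (hi.trans_le (Nat.le_mul_self _)) _ (by omega)
  · rintro ⟨h1, h2⟩ e₁ _ e₂ he₂
    by_cases h₂ : e₂ < c.l * c.m
    · by_cases h₁ : e₁ / c.l + e₁ % c.l + 1 < c.l
      · rw [zd2_eq1 ρ W e z h₂ h₁]
        refine (zd2_itp_iff c.rts _).2 (fun a ha => h1 a (mem_rts.1 ha) _ _ h₁) _ ?_
        rwa [card_rts]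
      · simp [zM, h₂, h₁]
    · obtain rfl : e₂ = c.l * c.m := by omega
      rw [zd2_eq2]
      split_ifs with hi
      exacts [h2 _ hi, rfl]

theorem zd2_spans {W : ℕ → c.L} {Δ D : c.Div} (h : Prep W Δ D) (hB : Big E c.thr) {e : ℕ}
    (he : c.dg D = c.l * e) {j : ℕ} (hj : j < c.l) :
    c.Spans c.nC (fun k => c.zv W e (j * c.nC + k))
      (c.LL (((c.B0 + j * e : ℕ) : ℤ) • c.Dinf - c.nD j D)) := by
  have hsp := h.spans_Cj hB hj.le (c.B0 + j * e)
  have hl := c.l_pos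
  have he' : e ≤ c.Ns := by
    have h1 := h.dg_le
    rw [he] at h1
    have h2 : c.l * e ≤ c.l * c.Ns := by exact_mod_cast h1
    exact Nat.le_of_mul_le_mul_left h2 hl
  have hle : c.dimN (c.B0 + j * e) ≤ c.nC := by
    unfold nC dimN
    have : j * e ≤ c.l * c.Ns := Nat.mul_le_mul hj.le he'
    exact Nat.mul_le_mul_left _ (by omega)
  have hz : ∀ k, c.dimN (c.B0 + j * e) ≤ k → c.Cj W (c.sec W) j (c.B0 + j * e) k = 0 :=
    fun k hk => colon_eq_zero _ _ _ _ _ _ hk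
  refine ⟨fun k hk => ?_, fun φ hφ => ?_⟩
  · change c.zv W e (j * c.nC + k) ∈ _
    rw [zd2_zv W e j hk]
    by_cases hk' : k < c.dimN (c.B0 + j * e)
    · exact hsp.1 k hk'
    · rw [hz k (not_lt.1 hk')]
      exact Submodule.zero_mem _
  · obtain ⟨z, rfl⟩ := hsp.2 φ hφ
    refine ⟨z, ?_⟩
    unfold lin
    refine (sum_subset (range_subset_range.2 hle) fun k _ hk => ?_).trans
      (sum_congr rfl fun k hk => ?_)
    · rw [hz k (by simpa using hk), smul_zero]
    · beta_reduce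
      rw [zd2_zv W e j (mem_range.1 hk)]

/-- Dimension count: `∑_j ll(…) ≥ l (l (B0 + 1) - gg)` unknowns (`riemann`, `dg_nD`),
`l m * l (l-1)/2 + l` equations, `2 gg = l B0`. -/
theorem exists_zd {D : c.Div} (hD : 0 ≤ D) {e : ℕ} (he : c.dg D = c.l * e) (ρ : E → E) :
    ∃ a : ℕ → c.L, (∃ j < c.l, a j ≠ 0) ∧
      (∀ j < c.l, a j ∈ c.LL (((c.B0 + j * e : ℕ) : ℤ) • c.Dinf - c.nD j D)) ∧
      (∀ α, c.f.eval α = 0 → ∀ s k, s + k + 1 < c.l →
        ∑ j ∈ range c.l, (c.pc (a j) k).eval α * (ρ α * c.ζ ^ s) ^ j = 0) ∧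
      ∀ i < c.l, c.topv (c.B0 + i * e) 0 (a i) = 0 := by
  let U : Fin c.l → Submodule E c.L := fun j =>
    c.LL (((c.B0 + (j : ℕ) * e : ℕ) : ℤ) • c.Dinf - c.nD j D)
  have hU : ∀ (j : Fin c.l) (φ : U j), (φ : c.L) ∈ c.S (c.B0 + (j : ℕ) * e) := fun j φ =>
    LL_le_S (nD_nonneg hD j) φ.2
  let I : Type := (c.rts × (Σ s : Fin c.l, Fin (c.l - 1 - s))) ⊕ Fin c.l
  let F : I → (∀ j, U j) → E := Sum.elim
    (fun p v => ∑ j : Fin c.l, (c.pc (v j) p.2.2).eval p.1.1 *
      (ρ p.1.1 * c.ζ ^ (p.2.1 : ℕ)) ^ (j : ℕ))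
    (fun i v => c.topv (c.B0 + (i : ℕ) * e) 0 (v i))
  have hcard : Fintype.card I = c.l * c.gg + c.l := by
    have h1 : ∑ s : Fin c.l, (c.l - 1 - (s : ℕ)) = ∑ j ∈ range c.l, j := by
      rw [Fin.sum_univ_eq_sum_range (fun s => c.l - 1 - s), sum_range_reflect (fun j => j)]
    simp only [I, Fintype.card_sum, Fintype.card_prod, Fintype.card_coe, Fintype.card_sigma,
      Fintype.card_fin, card_rts, h1, gg, ← sum_mul]
    ring
  have hrank : c.l * c.gg + c.l < Module.finrank E (∀ j, U j) := by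
    rw [Module.finrank_pi_fintype]
    have h1 : ∀ j : Fin c.l, (c.l : ℤ) * (c.B0 + 1) - c.gg ≤ (Module.finrank E (U j) : ℤ) := by
      intro j
      have h2 := riemann (c.B0 + (j : ℕ) * e) (nD_nonneg hD j)
      rw [dg_nD, he] at h2
      refine le_trans (le_of_eq ?_) h2
      push_cast
      ring
    have h3 : (c.l : ℤ) * ((c.l : ℤ) * (c.B0 + 1) - c.gg) ≤
        ((∑ j, Module.finrank E (U j) : ℕ) : ℤ) := by
      rw [Nat.cast_sum]
      refine le_trans (le_of_eq ?_) (sum_le_sum fun j _ => h1 j)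
      rw [sum_const, card_univ, Fintype.card_fin, nsmul_eq_mul]
    have h4 : (2 : ℤ) * c.gg = c.l * c.B0 := by exact_mod_cast two_mul_gg
    have h5 : (2 : ℤ) ≤ c.l := by exact_mod_cast c.two_le_l
    have h6 : (c.l : ℤ) * ((c.l : ℤ) * (c.B0 + 1) - c.gg) = c.l * c.gg + c.l * c.l := by
      linear_combination (-(c.l : ℤ)) * h4
    have h7 : (c.l : ℤ) < c.l * c.l := by nlinarith
    have h8 : (c.l : ℤ) * c.gg + c.l < ((∑ j, Module.finrank E (U j) : ℕ) : ℤ) := by linarith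
    exact_mod_cast h8
  obtain ⟨v, hv0, hv⟩ := zd2_exists_ne F (by
      rintro (p | i) v w
      · simp only [F, Sum.elim_inl, ← sum_add_distrib]
        refine sum_congr rfl fun j _ => ?_
        rw [Pi.add_apply, Submodule.coe_add, pc_add (hU j _) (hU j _), eval_add, add_mul]
      · simp only [F, Sum.elim_inr]
        rw [Pi.add_apply, Submodule.coe_add, zd2_topv_add (hU i _) (hU i _)])
    (by
      rintro (p | i) t v
      · simp only [F, Sum.elim_inl, mul_sum]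
        refine sum_congr rfl fun j _ => ?_
        rw [Pi.smul_apply, Submodule.coe_smul, pc_smul (hU j _), eval_smul, smul_eq_mul, mul_assoc]
      · simp only [F, Sum.elim_inr]
        rw [Pi.smul_apply, Submodule.coe_smul, zd2_topv_smul (hU i _)])
    (hcard ▸ hrank)
  refine ⟨fun j => if h : j < c.l then (v ⟨j, h⟩ : c.L) else 0, ?_, fun j hj => ?_,
    fun α hα s k hsk => ?_, fun i hi => ?_⟩
  · obtain ⟨j, hj⟩ := Function.ne_iff.1 hv0
    refine ⟨j, j.2, ?_⟩
    beta_reduce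
    rw [dif_pos j.2]
    exact fun h0 => hj (Subtype.ext h0)
  · beta_reduce
    rw [dif_pos hj]
    exact (v ⟨j, hj⟩).2
  · have h1 := hv (Sum.inl (⟨α, mem_rts.2 hα⟩, ⟨⟨s, by omega⟩, ⟨k, by simp only; omega⟩⟩))
    simp only [F, Sum.elim_inl] at h1
    rw [← h1, ← Fin.sum_univ_eq_sum_range (fun j => (c.pc (if h : j < c.l then (v ⟨j, h⟩ : c.L)
      else 0) k).eval α * (ρ α * c.ζ ^ s) ^ j)]
    refine sum_congr rfl fun j _ => ?_
    rw [dif_pos j.2]
  · beta_reduce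
    rw [dif_pos hi]
    exact hv (Sum.inr ⟨i, hi⟩)

/-- The computed solution (`kerv2_sol`, `kerv2_span`, `Prep.spans_Cj`; a function on the roots
vanishes iff the `l m` coefficients of its interpolation polynomial vanish; `itp`, `pc`, `topv`
are linear). -/
theorem Prep.zd {W : ℕ → c.L} {Δ D : c.Div} (h : Prep W Δ D) (hB : Big E c.thr) {e : ℕ}
    (he : c.dg D = c.l * e) (ρ : E → E) :
    (∃ j < c.l, c.zd ρ W e j ≠ 0) ∧
      (∀ j < c.l, c.zd ρ W e j ∈ c.LL (((c.B0 + j * e : ℕ) : ℤ) • c.Dinf - c.nD j D)) ∧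
      (∀ α, c.f.eval α = 0 → ∀ s k, s + k + 1 < c.l →
        ∑ j ∈ range c.l, (c.pc (c.zd ρ W e j) k).eval α * (ρ α * c.ζ ^ s) ^ j = 0) ∧
      ∀ i < c.l, c.topv (c.B0 + i * e) 0 (c.zd ρ W e i) = 0 := by
  obtain ⟨a, ⟨j₀, hj₀, ha0⟩, ha1, ha2, ha3⟩ := exists_zd h.nonneg he ρ
  choose! w hw using fun j hj => (zd2_spans h hB he hj).2 (a j) (ha1 j hj)
  let z : ℕ → E := fun i => w (i / c.nC) (i % c.nC)
  have hA : ∀ j < c.l, zd2A W e z j = a j := by
    intro j hj
    rw [hw j hj]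
    unfold zd2A lin
    refine sum_congr rfl fun k hk => ?_
    simp only [z]
    rw [zd2_div (mem_range.1 hk), zd2_mod (mem_range.1 hk)]
  have hz := (zd2_iff ρ W e z).2 ⟨fun α hα s k hsk => by
    rw [← ha2 α hα s k hsk]
    exact sum_congr rfl fun j hj => by rw [hA j (mem_range.1 hj)], fun i hi => by
    rw [hA i hi]
    exact ha3 i hi⟩
  let K : ℕ → ℕ → E := kerv2 (c.l * c.nC) (c.l * c.l) (c.l * c.m + 1) (c.zM ρ W e)
  have hK : ∀ d j, c.zA ρ W e d j = zd2A W e (K d) j := fun _ _ => rfl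
  have hex : ∃ d < c.l * c.nC, ∃ j < c.l, c.zA ρ W e d j ≠ 0 := by
    by_contra hcon
    push Not at hcon
    apply ha0
    rw [← hA j₀ hj₀, zd2A_span W e (n := c.l * c.nC) z z K fun k hk => kerv2_span _ _ _ _ hz ?_]
    · refine sum_eq_zero fun d hd => ?_
      rw [← hK, hcon d (mem_range.1 hd) j₀ hj₀, smul_zero]
    · have : (j₀ + 1) * c.nC ≤ c.l * c.nC := Nat.mul_le_mul_right _ hj₀
      nlinarith
  obtain ⟨hd, hne⟩ := fst_spec hex
  have hsol := (zd2_iff ρ W e (K (fst (c.l * c.nC) fun d => ∃ j < c.l, c.zA ρ W e d j ≠ 0))).1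
    fun e₁ h₁ e₂ h₂ => kerv2_sol _ _ _ _ hd h₁ h₂
  refine ⟨hne, fun j hj => ?_, hsol.1, hsol.2⟩
  exact Submodule.sum_mem _ fun k hk =>
    Submodule.smul_mem _ _ ((zd2_spans h hB he hj).1 k (mem_range.1 hk))

end Crv
end Crest.Agent.R312
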