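import Crest.Agent.R312.Defs

/-!
# Row 312: archimedean toolkit, part A (algebra of `em`, `lg`, `nr`, `al`, `ez`, `eT`, `gz`)
-/

set_option autoImplicit false

noncomputable section

namespace Crest.Agent.R312

open NumberField
open scoped ComplexConjugate

theorem mem_fin {α : Type} {S : Set α} (h : S.Finite) {a : α} : a ∈ fin S ↔ a ∈ S := by
  simp [fin, h]

theorem of_mem_fin {α : Type} {S : Set α} {a : α} (h : a ∈ fin S) : a ∈ S := by
  unfold fin at h
  split_ifs at h with hS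
  · simpa using h
  · simp at h

section
variable {E : Type} [Field E] [NumberField E]

theorem eT_add (x y : E) : eT (x + y) = eT x * eT y := by
  rw [eT, eT, eT, ← Complex.exp_add, map_add]
  push_cast
  rw [mul_add]
@[simp] theorem eT_zero : eT (0 : E) = 1 := by simp [eT]
theorem eT_neg (x : E) : eT (-x) = conj (eT x) := by
  rw [eT, eT, ← Complex.exp_conj, map_neg]
  congr 1
  simp [map_ofNat]
theorem norm_eT (x : E) : ‖eT x‖ = 1 := by
  rw [eT, Complex.norm_exp]
  simp
theorem eT_of_isIntegral {x : E} (h : IsIntegral ℤ x) : eT x = 1 := by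
  obtain ⟨k, hk⟩ := IsIntegrallyClosed.isIntegral_iff.1 (Algebra.isIntegral_trace (L := ℚ) h)
  rw [eT, ← hk, mul_comm]
  simpa using Complex.exp_int_mul_two_pi_mul_I k
theorem ArchA_trace_int {x : E} (h : eT x = 1) : ∃ k : ℤ, (k : ℚ) = Algebra.trace ℚ E x := by
  obtain ⟨k, hk⟩ := Complex.exp_eq_one_iff.1 h
  refine ⟨k, ?_⟩
  rw [mul_comm] at hk
  have := mul_right_cancel₀ Complex.two_pi_I_ne_zero hk
  exact_mod_cast this.symm
/-- The dual lattice of `𝓞` is contained in `disc⁻¹ 𝓞` (`discr_mem_differentIdeal`). -/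
theorem isIntegral_discr_mul {y : E} (h : ∀ x : E, IsIntegral ℤ x → eT (y * x) = 1) :
    IsIntegral ℤ (((discr E).natAbs : E) * y) := by
  classical
  have hy : y ∈ Submodule.traceDual ℤ ℚ (1 : Submodule (𝓞 E) E) := by
    rw [Submodule.mem_traceDual]
    intro a ha
    obtain ⟨b, rfl⟩ := Submodule.mem_one.1 ha
    obtain ⟨k, hk⟩ := ArchA_trace_int (h _ b.isIntegral_coe)
    exact ⟨k, by simpa [Algebra.traceForm_apply] using hk⟩
  have h1 := isIntegral_discr_mul_of_mem_traceDual (1 : Submodule (𝓞 E) E)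
    (b := integralBasis E) (fun i => by
      rw [integralBasis_apply]
      exact RingOfIntegers.isIntegral_coe _) (a := 1) (Submodule.mem_one.2 ⟨1, map_one _⟩) hy
  rw [← coe_discr, Rat.smul_one_eq_cast, Rat.cast_intCast] at h1
  rcases Int.natAbs_eq (discr E) with e | e
  · rw [e, Int.cast_natCast] at h1
    exact h1
  · rw [e, Int.cast_neg, Int.cast_natCast, neg_mul] at h1
    simpa using h1.neg
theorem exists_nat_mul_isIntegral (x : E) : ∃ D : ℕ, D ≠ 0 ∧ IsIntegral ℤ ((D : E) * x) := by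
  have hx : IsAlgebraic ℤ x :=
    (IsFractionRing.isAlgebraic_iff ℤ ℚ E).2 (Algebra.IsAlgebraic.isAlgebraic x)
  obtain ⟨d, hd, h⟩ := hx.exists_integral_multiple
  refine ⟨d.natAbs, Int.natAbs_ne_zero.2 hd, ?_⟩
  rw [zsmul_eq_mul] at h
  rcases Int.natAbs_eq d with e | e
  · rw [e, Int.cast_natCast] at h
    exact h
  · rw [e, Int.cast_neg, Int.cast_natCast, neg_mul] at h
    simpa using h.neg
instance : Countable E :=
  (Module.finBasis ℚ E).equivFun.toEquiv.countable_iff.2 inferInstance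
end

variable {E : Type} [Field E] [NumberField E] [Om E]

theorem om_cube : (om : E) ^ 3 = 1 := by
  linear_combination (om - 1 : E) * Om.hom (E := E)
theorem om_ne_one : (om : E) ≠ 1 := by
  intro h
  have h1 := Om.hom (E := E)
  rw [h] at h1
  norm_num at h1
theorem isIntegral_om : IsIntegral ℤ (om : E) :=
  ⟨Polynomial.X ^ 2 + Polynomial.X + 1, by monicity!, by simpa using Om.hom (E := E)⟩
theorem ArchA_conj_omC : conj omC = -1 - omC := by
  apply Complex.ext <;> simp [omC]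
  norm_num
theorem ArchA_conj_omC_ne : conj omC ≠ omC := by
  intro h
  have h1 := congrArg Complex.im h
  have h2 : 0 < Real.sqrt 3 := by positivity
  simp only [omC, Complex.conj_im] at h1
  linarith
/-- Every embedding is a place or the conjugate of a place, and not both. -/
theorem Pl.cases (φ : E →+* ℂ) :
    (∃ σ : Pl E, φ = σ.1) ∨ ∃ σ : Pl E, φ = ComplexEmbedding.conjugate σ.1 := by
  have h := congrArg φ (Om.hom (E := E))
  rw [map_add, map_add, map_pow, map_one, map_zero] at h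
  have h1 : (φ om - omC) * (φ om - conj omC) = 0 := by
    rw [ArchA_conj_omC]
    linear_combination h - R17.omC_mul
  rcases mul_eq_zero.1 h1 with e | e
  · exact Or.inl ⟨⟨φ, sub_eq_zero.1 e⟩, rfl⟩
  · refine Or.inr ⟨⟨ComplexEmbedding.conjugate φ, ?_⟩, (star_star φ).symm⟩
    rw [ComplexEmbedding.conjugate_coe_eq, sub_eq_zero.1 e, Complex.conj_conj]
theorem Pl.ne_conjugate (σ τ : Pl E) : σ.1 ≠ ComplexEmbedding.conjugate τ.1 := by
  intro h
  have h1 := σ.2
  rw [h, ComplexEmbedding.conjugate_coe_eq, τ.2] at h1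
  exact ArchA_conj_omC_ne h1
theorem ArchA_bijective : Function.Bijective
    (Sum.elim (fun σ => σ.1) (fun σ => ComplexEmbedding.conjugate σ.1) :
      Pl E ⊕ Pl E → (E →+* ℂ)) := by
  constructor
  · rintro (σ | σ) (τ | τ) h
    · exact congrArg _ (Subtype.ext h)
    · exact absurd h (Pl.ne_conjugate σ τ)
    · exact absurd h.symm (Pl.ne_conjugate τ σ)
    · exact congrArg _ (Subtype.ext (star_injective h))
  · intro φ
    rcases Pl.cases φ with ⟨σ, h⟩ | ⟨σ, h⟩
    · exact ⟨Sum.inl σ, h.symm⟩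
    · exact ⟨Sum.inr σ, h.symm⟩
/-- Sums and products over all the embeddings. -/
theorem prod_embeddings {M : Type} [CommMonoid M] (f : (E →+* ℂ) → M) :
    ∏ φ, f φ = ∏ σ : Pl E, (f σ.1 * f (ComplexEmbedding.conjugate σ.1)) := by
  rw [← ArchA_bijective.prod_comp, Fintype.prod_sum_type, Finset.prod_mul_distrib]
  rfl
theorem two_mul_rk : 2 * rk E = Module.finrank ℚ E := by
  rw [← Embeddings.card E ℂ, ← Fintype.card_of_bijective ArchA_bijective, Fintype.card_sum, two_mul]
theorem rk_pos : 0 < rk E := by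
  have h1 := two_mul_rk (E := E)
  have h2 := Module.finrank_pos (R := ℚ) (M := E)
  omega
instance : Nonempty (Pl E) := Fintype.card_pos_iff.1 rk_pos
/-- The places are the infinite places. -/
theorem Pl.bijective_mk : Function.Bijective fun σ : Pl E => InfinitePlace.mk σ.1 := by
  constructor
  · intro σ τ h
    rcases InfinitePlace.mk_eq_iff.1 h with e | e
    · exact Subtype.ext e
    · exact absurd e.symm (Pl.ne_conjugate τ σ)
  · intro w
    rcases Pl.cases w.embedding with ⟨σ, h⟩ | ⟨σ, h⟩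
    · exact ⟨σ, by simp only [← h, InfinitePlace.mk_embedding]⟩
    · exact ⟨σ, by
        simp only [← InfinitePlace.mk_conjugate_eq σ.1, ← h, InfinitePlace.mk_embedding]⟩

theorem em_add (x y : E) : em (x + y) = em x + em y := funext fun σ => map_add σ.1 x y
theorem em_mul (x y : E) : em (x * y) = em x * em y := funext fun σ => map_mul σ.1 x y
theorem em_neg (x : E) : em (-x) = -em x := funext fun σ => map_neg σ.1 x
@[simp] theorem em_zero : em (0 : E) = 0 := funext fun σ => map_zero σ.1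
theorem em_injective : Function.Injective (em (E := E)) := fun _ _ h =>
  (Classical.arbitrary (Pl E)).1.injective (congrFun h _)
theorem Pl.ne_zero (σ : Pl E) {x : E} (h : x ≠ 0) : σ.1 x ≠ 0 := (map_ne_zero σ.1).2 h

theorem nr_nonneg (x : E) : 0 ≤ nr x := Finset.prod_nonneg fun _ _ => sq_nonneg _
theorem nr_pos {x : E} (h : x ≠ 0) : 0 < nr x :=
  Finset.prod_pos fun σ _ => pow_pos (norm_pos_iff.2 (σ.ne_zero h)) 2
@[simp] theorem nr_zero : nr (0 : E) = 0 :=
  Finset.prod_eq_zero (Finset.mem_univ (Classical.arbitrary (Pl E))) (by simp)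
@[simp] theorem nr_one : nr (1 : E) = 1 := by simp [nr]
@[simp] theorem nr_neg (x : E) : nr (-x) = nr x := by simp [nr]
theorem nr_mul (x y : E) : nr (x * y) = nr x * nr y := by
  simp only [nr, map_mul, norm_mul, mul_pow, Finset.prod_mul_distrib]
theorem nr_inv (x : E) : nr x⁻¹ = (nr x)⁻¹ := by
  simp only [nr, map_inv₀, norm_inv, inv_pow, Finset.prod_inv_distrib]
theorem nr_div (x y : E) : nr (x / y) = nr x / nr y := by
  rw [div_eq_mul_inv, nr_mul, nr_inv, div_eq_mul_inv]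
theorem nr_pow (x : E) (k : ℕ) : nr (x ^ k) = nr x ^ k := by
  induction k with
  | zero => simp
  | succ k ih => rw [pow_succ, nr_mul, ih, pow_succ]
theorem nr_natCast (n : ℕ) : nr (n : E) = (n : ℝ) ^ Module.finrank ℚ E := by
  rw [← two_mul_rk, pow_mul]
  simp [nr]
theorem nr_eq_abs_norm (x : E) : nr x = |((Algebra.norm ℚ x : ℚ) : ℝ)| := by
  have h := congrArg (‖·‖) (Algebra.norm_eq_prod_embeddings ℚ ℂ x)
  simp only [norm_prod] at h
  rw [← Fintype.prod_equiv (RingHom.equivRatAlgHom E ℂ) (fun f => ‖f x‖) (fun φ => ‖φ x‖)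
    (fun _ => by simp [RingHom.equivRatAlgHom_apply]), prod_embeddings, eq_ratCast,
    Complex.norm_ratCast] at h
  rw [h, nr]
  simp only [ComplexEmbedding.conjugate_coe_eq, Complex.norm_conj, sq]
theorem nr_eq_absNorm (x : 𝓞 E) : nr (x : E) = Ideal.absNorm (Ideal.span {x}) := by
  rw [nr_eq_abs_norm, Ideal.absNorm_span_singleton, ← Algebra.coe_norm_int, Nat.cast_natAbs,
    Rat.cast_intCast, Int.cast_abs]
theorem one_le_nr {x : E} (h : x ≠ 0) (hx : IsIntegral ℤ x) : 1 ≤ nr x := by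
  have h0 := nr_pos h
  have h1 : nr x = _ := nr_eq_absNorm (⟨x, hx⟩ : 𝓞 E)
  rw [h1] at h0 ⊢
  exact_mod_cast h0
theorem nr_unit (u : (𝓞 E)ˣ) : nr ((u : 𝓞 E) : E) = 1 := by
  rw [nr_eq_absNorm, Ideal.span_singleton_eq_top.2 u.isUnit, Ideal.absNorm_top, Nat.cast_one]

theorem exp_lg {x : E} (h : x ≠ 0) (σ : Pl E) : Real.exp (lg x σ) = ‖σ.1 x‖ ^ 2 :=
  Real.exp_log (pow_pos (norm_pos_iff.2 (σ.ne_zero h)) 2)
theorem lg_mul {x y : E} (hx : x ≠ 0) (hy : y ≠ 0) : lg (x * y) = lg x + lg y := by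
  funext σ
  simp only [lg, Pi.add_apply, map_mul, norm_mul, mul_pow]
  exact Real.log_mul (pow_ne_zero 2 (norm_ne_zero_iff.2 (σ.ne_zero hx)))
    (pow_ne_zero 2 (norm_ne_zero_iff.2 (σ.ne_zero hy)))
theorem lg_inv (x : E) : lg x⁻¹ = -lg x := by
  funext σ
  simp only [lg, Pi.neg_apply, map_inv₀, norm_inv, inv_pow, Real.log_inv]
theorem lg_div {x y : E} (hx : x ≠ 0) (hy : y ≠ 0) : lg (x / y) = lg x - lg y := by
  rw [div_eq_mul_inv, lg_mul hx (inv_ne_zero hy), lg_inv, sub_eq_add_neg]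
theorem lg_pow (x : E) (k : ℕ) : lg (x ^ k) = (k : ℝ) • lg x := by
  funext σ
  simp only [lg, Pi.smul_apply, map_pow, norm_pow, smul_eq_mul]
  rw [← pow_mul, mul_comm, pow_mul, Real.log_pow]
@[simp] theorem lg_one : lg (1 : E) = 0 := by
  funext σ
  simp [lg]
@[simp] theorem lg_neg (x : E) : lg (-x) = lg x := by
  funext σ
  simp only [lg, map_neg, norm_neg]
theorem sum_lg {x : E} (h : x ≠ 0) : ∑ σ, lg x σ = Real.log (nr x) := by
  rw [nr, Real.log_prod fun σ _ => pow_ne_zero 2 (norm_ne_zero_iff.2 (Pl.ne_zero σ h))]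
  rfl
theorem exp_sum_lg {x : E} (h : x ≠ 0) : Real.exp (∑ σ, lg x σ) = nr x := by
  rw [sum_lg h, Real.exp_log (nr_pos h)]

theorem al_mul (x y : E) : al (x * y) = al x * al y := by
  simp only [al, map_mul, norm_mul, Complex.ofReal_mul, mul_div_mul_comm, Finset.prod_mul_distrib]
@[simp] theorem al_one : al (1 : E) = 1 := by simp [al]
@[simp] theorem al_zero : al (0 : E) = 0 := by
  obtain ⟨σ⟩ : Nonempty (Pl E) := inferInstance
  exact Finset.prod_eq_zero (Finset.mem_univ σ) (by simp)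
theorem al_pow (x : E) (k : ℕ) : al (x ^ k) = al x ^ k := by
  induction k with
  | zero => simp
  | succ k ih => rw [pow_succ, al_mul, ih, pow_succ]
theorem norm_al {x : E} (h : x ≠ 0) : ‖al x‖ = 1 := by
  rw [al, norm_prod]
  refine Finset.prod_eq_one fun σ _ => ?_
  rw [norm_div, Complex.norm_real, norm_norm, div_self (norm_ne_zero_iff.2 (σ.ne_zero h))]
theorem norm_al_le (x : E) : ‖al x‖ ≤ 1 := by
  by_cases h : x = 0
  · simp [h]
  · exact (norm_al h).le
theorem al_inv (x : E) : al x⁻¹ = conj (al x) := by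
  by_cases h : x = 0
  · simp [h]
  · have h1 : al x⁻¹ * al x = 1 := by rw [← al_mul, inv_mul_cancel₀ h, al_one]
    rw [eq_inv_of_mul_eq_one_left h1, Complex.inv_eq_conj (norm_al h)]
theorem prod_em (x : E) : ∏ σ : Pl E, σ.1 x = al x * (Real.sqrt (nr x) : ℂ) := by
  by_cases h : x = 0
  · obtain ⟨σ⟩ : Nonempty (Pl E) := inferInstance
    rw [h, al_zero, zero_mul]
    exact Finset.prod_eq_zero (Finset.mem_univ σ) (map_zero _)
  · rw [nr, Finset.prod_pow, Real.sqrt_sq (Finset.prod_nonneg fun _ _ => norm_nonneg _), al,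
      Complex.ofReal_prod, ← Finset.prod_mul_distrib]
    refine Finset.prod_congr rfl fun σ _ => ?_
    rw [div_mul_cancel₀ _ (Complex.ofReal_ne_zero.2 (norm_ne_zero_iff.2 (σ.ne_zero h)))]

theorem trace_eq (x : E) : ((Algebra.trace ℚ E x : ℚ) : ℝ) = ∑ σ : Pl E, 2 * (σ.1 x).re := by
  have h1 := trace_eq_sum_embeddings ℂ (K := ℚ) (x := x)
  have h2 : ∑ φ : E →ₐ[ℚ] ℂ, φ x = ∑ φ : E →+* ℂ, φ x :=
    (Fintype.sum_equiv (RingHom.equivRatAlgHom E ℂ) _ _ fun φ => rfl).symm
  have h3 : ∑ φ : E →+* ℂ, φ x =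
      ∑ σ : Pl E, (σ.1 x + ComplexEmbedding.conjugate σ.1 x) :=
    prod_embeddings (M := Multiplicative ℂ) fun φ => Multiplicative.ofAdd (φ x)
  apply Complex.ofReal_injective
  rw [Complex.ofReal_ratCast, Complex.ofReal_sum, ← eq_ratCast (algebraMap ℚ ℂ), h1, h2, h3]
  refine Finset.sum_congr rfl fun σ _ => ?_
  rw [ComplexEmbedding.conjugate_coe_eq, Complex.add_conj]
theorem ez_em (x y : E) : ez (em x) (em y) = eT (x * y) := by
  rw [ez, eT, ← Complex.ofReal_ratCast, trace_eq]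
  simp only [em, map_mul]
theorem ez_comm (ν z : Pl E → ℂ) : ez ν z = ez z ν := by
  simp only [ez, mul_comm (ν _)]
theorem ez_add_right (ν z w : Pl E → ℂ) : ez ν (z + w) = ez ν z * ez ν w := by
  simp only [ez, Pi.add_apply, mul_add, Complex.add_re, Finset.sum_add_distrib, Complex.ofReal_add,
    Complex.exp_add]
theorem ez_add_left (ν μ z : Pl E → ℂ) : ez (ν + μ) z = ez ν z * ez μ z := by
  rw [ez_comm, ez_add_right, ez_comm z, ez_comm z]
theorem ez_mul (ν a z : Pl E → ℂ) : ez (ν * a) z = ez ν (a * z) := by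
  simp only [ez, Pi.mul_apply, mul_assoc]
theorem ez_neg_left (ν z : Pl E → ℂ) : ez (-ν) z = conj (ez ν z) := by
  rw [ez, ez, ← Complex.exp_conj]
  simp only [Pi.neg_apply, neg_mul, Complex.neg_re, mul_neg, Finset.sum_neg_distrib,
    Complex.ofReal_neg, map_mul, Complex.conj_ofReal, Complex.conj_I, map_ofNat]
@[simp] theorem ez_zero_left (z : Pl E → ℂ) : ez 0 z = 1 := by simp [ez]
@[simp] theorem ez_zero_right (z : Pl E → ℂ) : ez z 0 = 1 := by simp [ez]
theorem norm_ez (ν z : Pl E → ℂ) : ‖ez ν z‖ = 1 := by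
  rw [ez, mul_right_comm, ← Complex.ofReal_ofNat, ← Complex.ofReal_mul, ← Complex.ofReal_mul,
    Complex.norm_exp_ofReal_mul_I]
theorem ez_eq_prod (ν z : Pl E → ℂ) : ez ν z =
    ∏ σ, Complex.exp (2 * Real.pi * Complex.I * ((2 * (ν σ * z σ).re : ℝ) : ℂ)) := by
  rw [ez, Complex.ofReal_sum, Finset.mul_sum, Complex.exp_sum]
theorem continuous_ez : Continuous fun p : (Pl E → ℂ) × (Pl E → ℂ) => ez p.1 p.2 := by
  unfold ez
  fun_prop

theorem gz_pos (z : Pl E → ℂ) (α : Pl E → ℝ) : 0 < gz z α := Real.exp_pos _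
theorem gz_le_one (z : Pl E → ℂ) (α : Pl E → ℝ) : gz z α ≤ 1 := by
  refine Real.exp_le_one_iff.2 (mul_nonpos_of_nonpos_of_nonneg ?_
    (Finset.sum_nonneg fun σ _ => by positivity))
  linarith [Real.pi_pos]
@[simp] theorem gz_zero (α : Pl E → ℝ) : gz 0 α = 1 := by simp [gz]
theorem gz_em {x : E} (h : x ≠ 0) (α : Pl E → ℝ) :
    gz (em x) α = ∏ σ, Real.exp (-(2 * Real.pi) * Real.exp (lg x σ - α σ)) := by
  rw [gz, Finset.mul_sum, Real.exp_sum]
  refine Finset.prod_congr rfl fun σ _ => ?_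
  rw [sub_eq_add_neg, Real.exp_add, exp_lg h, em]
theorem gz_em_mul {c : E} (hc : c ≠ 0) (z : Pl E → ℂ) (α : Pl E → ℝ) :
    gz (em c * z) α = gz z (α - lg c) := by
  unfold gz
  congr 2
  refine Finset.sum_congr rfl fun σ _ => ?_
  rw [Pi.sub_apply, neg_sub, sub_eq_add_neg, Real.exp_add, exp_lg hc, Pi.mul_apply, norm_mul, em]
  ring
theorem continuous_gz : Continuous fun p : (Pl E → ℂ) × (Pl E → ℝ) => gz p.1 p.2 := by
  unfold gz
  fun_prop

end Crest.Agent.R312
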