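import Crest.Agent.R312.Arch

/-!
# Row 312: archimedean toolkit, part B (lattice points in boxes, units)
-/

set_option autoImplicit false

noncomputable section

namespace Crest.Agent.R312

open NumberField
open scoped ComplexConjugate

variable {E : Type} [Field E] [NumberField E] [Om E]

/-! ## part B1: lattice points -/

/-- pigeonhole on the cells of side `1/N` of the unit polydisc -/
theorem b1a_cell_card {ι X : Type} [Fintype ι] [DecidableEq ι] (S : Finset X) (z : X → ι → ℂ)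
    {N : ℕ} (hN : 0 < N) (hz : ∀ x ∈ S, ∀ i, ‖z x i‖ ≤ 1)
    (hinj : ∀ x ∈ S, ∀ y ∈ S, (∀ i, ‖z x i - z y i‖ ^ 2 ≤ 2 / (N : ℝ) ^ 2) → x = y) :
    (S.card : ℝ) ≤ (2 * (N : ℝ) + 1) ^ (2 * Fintype.card ι) := by
  classical
  have hN' : (0 : ℝ) < N := by exact_mod_cast hN
  have hmem : ∀ t : ℝ, |t| ≤ 1 → ⌊(N : ℝ) * t⌋ ∈ Finset.Icc (-(N : ℤ)) N := by
    intro t ht
    rw [abs_le] at ht
    rw [Finset.mem_Icc, Int.le_floor, Int.floor_le_iff]
    push_cast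
    constructor <;> nlinarith [ht.1, ht.2]
  have hcl : ∀ s t : ℝ, ⌊(N : ℝ) * s⌋ = ⌊(N : ℝ) * t⌋ → (s - t) ^ 2 ≤ 1 / (N : ℝ) ^ 2 := by
    intro s t h
    have h1 := Int.abs_sub_lt_one_of_floor_eq_floor h
    rw [le_div_iff₀ (by positivity), ← mul_pow, sq_le_one_iff_abs_le_one]
    rw [show (s - t) * (N : ℝ) = N * s - N * t by ring]
    exact h1.le
  have h1 : S.card ≤ (Fintype.piFinset fun _ : ι =>
      Finset.Icc (-(N : ℤ)) N ×ˢ Finset.Icc (-(N : ℤ)) N).card := by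
    refine Finset.card_le_card_of_injOn
      (fun x i => (⌊(N : ℝ) * (z x i).re⌋, ⌊(N : ℝ) * (z x i).im⌋)) ?_ ?_
    · intro x hx
      rw [Finset.mem_coe, Fintype.mem_piFinset]
      intro i
      exact Finset.mem_product.2 ⟨hmem _ ((Complex.abs_re_le_norm _).trans (hz x hx i)),
        hmem _ ((Complex.abs_im_le_norm _).trans (hz x hx i))⟩
    · intro x hx y hy hxy
      refine hinj x hx y hy fun i => ?_
      have h2 := congrFun hxy i
      have h3 := hcl _ _ (congrArg Prod.fst h2)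
      have h4 := hcl _ _ (congrArg Prod.snd h2)
      rw [Complex.sq_norm, Complex.normSq_apply, Complex.sub_re, Complex.sub_im]
      have h5 : 2 / (N : ℝ) ^ 2 = 1 / (N : ℝ) ^ 2 + 1 / (N : ℝ) ^ 2 := by ring
      nlinarith
  rw [Fintype.card_piFinset, Finset.prod_const, Finset.card_product, Int.card_Icc,
    Finset.card_univ] at h1
  have h2 : ((N : ℤ) + 1 - -(N : ℤ)).toNat = 2 * N + 1 := by omega
  rw [h2, ← pow_two, ← pow_mul] at h1
  exact_mod_cast h1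

/-- the choice of the mesh -/
theorem b1a_mesh {r : ℕ} (hr : 0 < r) {T : ℝ} (hT : 0 ≤ T) :
    ∃ N : ℕ, 0 < N ∧ 2 ^ r * T < (N : ℝ) ^ (2 * r) ∧
      (2 * (N : ℝ) + 1) ^ (2 * r) ≤ 50 ^ r * (1 + T) := by
  classical
  have hex : ∃ N : ℕ, 2 ^ r * T < (N : ℝ) ^ (2 * r) := by
    obtain ⟨N, hN⟩ := exists_nat_gt (2 ^ r * T)
    refine ⟨N + 1, ?_⟩
    have h1 : (1 : ℝ) ≤ ((N + 1 : ℕ) : ℝ) := by exact_mod_cast Nat.succ_pos N
    have h2 := le_self_pow₀ h1 (show 2 * r ≠ 0 by omega)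
    push_cast at h2 ⊢
    linarith
  have h0 := Nat.find_spec hex
  have h2r : (1 : ℝ) ≤ 2 ^ r := one_le_pow₀ one_le_two
  rcases hk : Nat.find hex with _ | M
  · rw [hk, Nat.cast_zero, zero_pow (by omega)] at h0
    nlinarith
  · have h1 := Nat.find_min hex (m := M) (by omega)
    rw [not_lt] at h1
    rw [hk] at h0
    refine ⟨M + 1, Nat.succ_pos M, h0, ?_⟩
    have h3 : (2 * ((M + 1 : ℕ) : ℝ) + 1) ^ (2 * r) ≤ 25 ^ r * (1 + (M : ℝ) ^ (2 * r)) := by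
      have h5 : (25 : ℝ) ^ r = 5 ^ (2 * r) := by rw [pow_mul]; norm_num
      have h6 : (0 : ℝ) ≤ 5 ^ (2 * r) := by positivity
      rw [h5]
      rcases M with _ | K
      · have : (2 * ((0 + 1 : ℕ) : ℝ) + 1) ^ (2 * r) ≤ 5 ^ (2 * r) := by
          apply pow_le_pow_left₀ <;> norm_num
        have h7 : (0 : ℝ) ≤ ((0 : ℕ) : ℝ) ^ (2 * r) := by positivity
        nlinarith
      · have : (2 * ((K + 1 + 1 : ℕ) : ℝ) + 1) ^ (2 * r) ≤ (5 * ((K + 1 : ℕ) : ℝ)) ^ (2 * r) := by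
          have hK : (0 : ℝ) ≤ K := Nat.cast_nonneg K
          apply pow_le_pow_left₀
          · positivity
          · push_cast
            linarith
        rw [mul_pow] at this
        nlinarith
    have h4 : (50 : ℝ) ^ r = 25 ^ r * 2 ^ r := by rw [← mul_pow]; norm_num
    have h5 : (0 : ℝ) ≤ 25 ^ r := by positivity
    rw [h4, mul_assoc]
    refine h3.trans (mul_le_mul_of_nonneg_left ?_ h5)
    linarith

/-- Points of a coset of `D⁻¹ 𝓞` in a polydisc around `w`.  Cut each disc in squares so small that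
the product of the squared diameters is `< nr D⁻¹`: two points in the same cell are equal
(`one_le_nr`).  When `nr D · exp(∑ α)` is small there is at most one point. -/
theorem card_box_le' : ∃ C : ℝ, 0 < C ∧ ∀ (D : E) (α : Pl E → ℝ) (w : Pl E → ℂ) (S : Finset E),
    D ≠ 0 → (∀ x ∈ S, ∀ y ∈ S, IsIntegral ℤ (D * (x - y))) →
    (∀ x ∈ S, ∀ σ, ‖σ.1 x - w σ‖ ^ 2 ≤ Real.exp (α σ)) →
    (S.card : ℝ) ≤ C * (1 + nr D * Real.exp (∑ σ, α σ)) := by
  refine ⟨50 ^ rk E, by positivity, fun D α w S hD hS hw => ?_⟩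
  have hT : 0 ≤ nr D * Real.exp (∑ σ, α σ) := mul_nonneg (nr_nonneg D) (Real.exp_pos _).le
  obtain ⟨N, hN, h1, h2⟩ := b1a_mesh (rk_pos (E := E)) hT
  have hN' : (0 : ℝ) < N := by exact_mod_cast hN
  have hsq : ∀ σ, Real.exp (α σ / 2) ^ 2 = Real.exp (α σ) := fun σ => by
    rw [← Real.exp_nat_mul]
    congr 1
    push_cast
    ring
  have h3 := b1a_cell_card S (fun x σ => (σ.1 x - w σ) / (Real.exp (α σ / 2) : ℂ)) hN ?_ ?_
  · exact h3.trans h2
  · intro x hx σ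
    have h4 := hw x hx σ
    rw [← hsq] at h4
    rw [norm_div, Complex.norm_real, Real.norm_eq_abs, abs_of_pos (Real.exp_pos _),
      div_le_one (Real.exp_pos _)]
    exact (pow_le_pow_iff_left₀ (norm_nonneg _) (Real.exp_pos _).le two_ne_zero).1 h4
  · intro x hx y hy hxy
    by_contra hne
    have h4 := one_le_nr (mul_ne_zero hD (sub_ne_zero.2 hne)) (hS x hx y hy)
    rw [nr_mul] at h4
    have h5 : nr (x - y) ≤ ∏ σ : Pl E, (2 / (N : ℝ) ^ 2 * Real.exp (α σ)) := by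
      refine Finset.prod_le_prod (fun σ _ => by positivity) fun σ _ => ?_
      have h6 := hxy σ
      rw [← sub_div, norm_div, Complex.norm_real, Real.norm_eq_abs, abs_of_pos (Real.exp_pos _),
        div_pow, hsq, div_le_iff₀ (Real.exp_pos _), sub_sub_sub_cancel_right, ← map_sub] at h6
      exact h6
    rw [Finset.prod_mul_distrib, Finset.prod_const, Finset.card_univ, ← Real.exp_sum, div_pow,
      ← pow_mul] at h5
    have h6 := mul_le_mul_of_nonneg_left h5 (nr_nonneg D)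
    have h7 : nr D * (2 ^ rk E / (N : ℝ) ^ (2 * rk E) * Real.exp (∑ σ, α σ)) < 1 := by
      rw [show nr D * (2 ^ rk E / (N : ℝ) ^ (2 * rk E) * Real.exp (∑ σ, α σ)) =
        2 ^ rk E * (nr D * Real.exp (∑ σ, α σ)) / (N : ℝ) ^ (2 * rk E) by ring,
        div_lt_one (by positivity)]
      exact h1
    exact absurd (h4.trans h6) (not_le.2 h7)

/-- Non-zero points of `D⁻¹ 𝓞` in a box. -/
theorem card_box_le : ∃ C : ℝ, 0 < C ∧ ∀ (D : E) (α : Pl E → ℝ) (S : Finset E), D ≠ 0 →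
    (∀ x ∈ S, x ≠ 0 ∧ IsIntegral ℤ (D * x) ∧ ∀ σ, lg x σ ≤ α σ) →
    (S.card : ℝ) ≤ C * nr D * Real.exp (∑ σ, α σ) := by
  obtain ⟨C, hC, h⟩ := card_box_le' (E := E)
  refine ⟨2 * C, by positivity, fun D α S hD hS => ?_⟩
  rcases S.eq_empty_or_nonempty with rfl | ⟨x, hx⟩
  · have := nr_nonneg D
    rw [Finset.card_empty, Nat.cast_zero]
    positivity
  · have h1 := h D α 0 S hD (fun x hx y hy => by
      rw [mul_sub]
      exact (hS x hx).2.1.sub (hS y hy).2.1) (fun x hx σ => by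
      rw [Pi.zero_apply, sub_zero, ← exp_lg (hS x hx).1]
      exact Real.exp_le_exp.2 ((hS x hx).2.2 σ))
    obtain ⟨h2, h3, h4⟩ := hS x hx
    have h5 := one_le_nr (mul_ne_zero hD h2) h3
    rw [nr_mul, ← exp_sum_lg h2] at h5
    have h6 : Real.exp (∑ σ, lg x σ) ≤ Real.exp (∑ σ, α σ) :=
      Real.exp_le_exp.2 (Finset.sum_le_sum fun σ _ => h4 σ)
    have h7 := h5.trans (mul_le_mul_of_nonneg_left h6 (nr_nonneg D))
    rw [mul_assoc (2 * C)]
    nlinarith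

theorem finite_box {D : E} (hD : D ≠ 0) (α : Pl E → ℝ) :
    {x : E | IsIntegral ℤ (D * x) ∧ ∀ σ, ‖σ.1 x‖ ^ 2 ≤ Real.exp (α σ)}.Finite := by
  obtain ⟨C, hC, h⟩ := card_box_le' (E := E)
  by_contra hinf
  obtain ⟨n, hn⟩ := exists_nat_gt (C * (1 + nr D * Real.exp (∑ σ, α σ)))
  obtain ⟨S, hS, hcard⟩ := Set.Infinite.exists_subset_card_eq hinf n
  have h1 := h D α 0 S hD (fun x hx y hy => by
    rw [mul_sub]
    exact (hS hx).1.sub (hS hy).1) (fun x hx σ => by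
    rw [Pi.zero_apply, sub_zero]
    exact (hS hx).2 σ)
  rw [hcard] at h1
  exact absurd h1 (not_le.2 hn)

/-- Grouping of a non-negative series along cells indexed by `ι → K`. -/
theorem box_group {X ι K : Type} [Fintype ι] [DecidableEq ι] (f : X → ℝ) (hf : ∀ x, 0 ≤ f x)
    (cell : X → ι → K) (h : K → ℝ) (h0 : ∀ k, 0 ≤ h k) (hs : Summable h) {M : ℝ} (hM : 0 ≤ M)
    (H : ∀ (S : Finset X) (n : ι → K), (∀ x ∈ S, cell x = n) → ∑ x ∈ S, f x ≤ M * ∏ i, h (n i)) :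
    Summable f ∧ ∑' x, f x ≤ M * (∑' k, h k) ^ Fintype.card ι := by
  classical
  have key : ∀ S : Finset X, ∑ x ∈ S, f x ≤ M * (∑' k, h k) ^ Fintype.card ι := fun S => by
    set t : ι → Finset K := fun i => S.image fun x => cell x i with ht
    have h1 : ∀ x ∈ S, cell x ∈ Fintype.piFinset t := fun x hx =>
      Fintype.mem_piFinset.2 fun i => Finset.mem_image_of_mem _ hx
    calc ∑ x ∈ S, f x = ∑ n ∈ Fintype.piFinset t, ∑ x ∈ S with cell x = n, f x :=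
          (Finset.sum_fiberwise_of_maps_to h1 f).symm
      _ ≤ ∑ n ∈ Fintype.piFinset t, M * ∏ i, h (n i) :=
          Finset.sum_le_sum fun n _ => H _ n fun x hx => (Finset.mem_filter.1 hx).2
      _ = M * ∏ i, ∑ k ∈ t i, h k := by rw [← Finset.mul_sum, Finset.prod_univ_sum]
      _ ≤ M * ∏ _i : ι, ∑' k, h k := by
          refine mul_le_mul_of_nonneg_left ?_ hM
          exact Finset.prod_le_prod (fun i _ => Finset.sum_nonneg fun k _ => h0 k)
            fun i _ => hs.sum_le_tsum _ fun k _ => h0 k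
      _ = M * (∑' k, h k) ^ Fintype.card ι := by rw [Finset.prod_const, Finset.card_univ]
  exact ⟨summable_of_sum_le hf key, Real.tsum_le_of_sum_le hf key⟩

theorem box_summable_int {δ : ℝ} (hδ : 0 < δ) :
    Summable fun k : ℤ => Real.exp (-δ * |(k : ℝ)|) := by
  have h : Summable fun n : ℕ => Real.exp (-δ * (n : ℝ)) := by
    have h1 : Real.exp (-δ) < 1 := Real.exp_lt_one_iff.2 (by linarith)
    refine (summable_geometric_of_lt_one (Real.exp_pos _).le h1).congr fun n => ?_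
    rw [← Real.exp_nat_mul, mul_comm]
  refine Summable.of_nat_of_neg ?_ ?_
  · simpa using h
  · simpa using h

theorem box_summable_nat : Summable fun k : ℕ => ((k : ℝ) + 1) * Real.exp (-(k : ℝ)) := by
  have h1 : Real.exp (-1) < 1 := Real.exp_lt_one_iff.2 (by norm_num)
  have h2 : ‖Real.exp (-1)‖ < 1 := by rwa [Real.norm_eq_abs, abs_of_pos (Real.exp_pos _)]
  have h3 := (hasSum_coe_mul_geometric_of_norm_lt_one h2).summable
  have h4 := summable_geometric_of_lt_one (Real.exp_pos _).le h1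
  refine (h3.add h4).congr fun n => ?_
  rw [← Real.exp_nat_mul]
  simp only [mul_neg, mul_one]
  ring

open Classical in
/-- **The basic lattice sum** (group the points by the unit cube of `ℝ^r` which contains
`η + lg x`; a cube with corner `n` contains `≤ C nr D exp(∑ n - ∑ η)` points and is empty unless
`∑ n ≥ ∑ η - log (nr D) - r`). -/
theorem tsum_lattice_le {δ a : ℝ} (hδ : 0 < δ) (ha : 1 ≤ a) : ∃ C : ℝ, 0 < C ∧
    ∀ (D : E) (η : Pl E → ℝ), D ≠ 0 →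
      (Summable fun x : E => if x ≠ 0 ∧ IsIntegral ℤ (D * x) then
        Real.exp (-a * ∑ σ, (η σ + lg x σ) - δ * ∑ σ, |η σ + lg x σ|) else 0) ∧
      ∑' x : E, (if x ≠ 0 ∧ IsIntegral ℤ (D * x) then
        Real.exp (-a * ∑ σ, (η σ + lg x σ) - δ * ∑ σ, |η σ + lg x σ|) else 0) ≤
        C * nr D ^ a * Real.exp (-a * ∑ σ, η σ) := by
  obtain ⟨C, hC, hcard⟩ := card_box_le (E := E)
  have hs := box_summable_int hδ
  have hT : 0 < ∑' k : ℤ, Real.exp (-δ * |(k : ℝ)|) :=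
    hs.tsum_pos (fun _ => (Real.exp_pos _).le) 0 (Real.exp_pos _)
  refine ⟨C * Real.exp ((1 + δ) * rk E) * (∑' k : ℤ, Real.exp (-δ * |(k : ℝ)|)) ^ rk E,
    by positivity, fun D η hD => ?_⟩
  have hD0 : 0 < nr D := nr_pos hD
  have main := box_group (ι := Pl E)
    (fun x : E => if x ≠ 0 ∧ IsIntegral ℤ (D * x) then
      Real.exp (-a * ∑ σ, (η σ + lg x σ) - δ * ∑ σ, |η σ + lg x σ|) else 0)
    (fun x => by split_ifs <;> positivity) (fun x σ => ⌈η σ + lg x σ⌉)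
    (fun k : ℤ => Real.exp (-δ * |(k : ℝ)|)) (fun _ => (Real.exp_pos _).le) hs
    (M := C * Real.exp ((1 + δ) * rk E) * (nr D ^ a * Real.exp (-a * ∑ σ, η σ)))
    (by positivity) ?_
  · refine ⟨main.1, main.2.trans (le_of_eq ?_)⟩
    ring
  intro S n hn
  rw [← Finset.sum_filter]
  set S' := S.filter fun x => x ≠ 0 ∧ IsIntegral ℤ (D * x) with hS'
  have hmem : ∀ x ∈ S', (x ≠ 0 ∧ IsIntegral ℤ (D * x)) ∧ ∀ σ, ⌈η σ + lg x σ⌉ = n σ :=
    fun x hx => ⟨(Finset.mem_filter.1 hx).2,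
      fun σ => congrFun (hn x (Finset.mem_filter.1 hx).1) σ⟩
  have hc := hcard D (fun σ => n σ - η σ) S' hD fun x hx =>
    ⟨(hmem x hx).1.1, (hmem x hx).1.2, fun σ => by
      have h1 := Int.le_ceil (η σ + lg x σ)
      rw [(hmem x hx).2 σ] at h1
      linarith⟩
  set L := Real.log (nr D) - ∑ σ, η σ with hL
  set B := Real.exp ((a - 1) * L + (1 + δ) * rk E - ∑ σ, (n σ : ℝ) - δ * ∑ σ, |(n σ : ℝ)|) with hB
  have hterm : ∀ x ∈ S',
      Real.exp (-a * ∑ σ, (η σ + lg x σ) - δ * ∑ σ, |η σ + lg x σ|) ≤ B := fun x hx => by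
    obtain ⟨⟨hx0, hxi⟩, hxn⟩ := hmem x hx
    have h1 : 1 ≤ nr D * nr x := by
      rw [← nr_mul]; exact one_le_nr (mul_ne_zero hD hx0) hxi
    have h2 : 0 ≤ Real.log (nr D) + ∑ σ, lg x σ := by
      rw [sum_lg hx0, ← Real.log_mul hD0.ne' (nr_pos hx0).ne']
      exact Real.log_nonneg h1
    have h3 : -L ≤ ∑ σ, (η σ + lg x σ) := by
      rw [Finset.sum_add_distrib, hL]; linarith
    have h4 : ∀ σ, (n σ : ℝ) - 1 ≤ η σ + lg x σ ∧ |(n σ : ℝ)| - 1 ≤ |η σ + lg x σ| := fun σ => by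
      have a1 := Int.le_ceil (η σ + lg x σ)
      have a2 := Int.ceil_lt_add_one (η σ + lg x σ)
      rw [hxn σ] at a1 a2
      refine ⟨by linarith, ?_⟩
      have a3 := le_abs_self (η σ + lg x σ)
      have a4 := neg_abs_le (η σ + lg x σ)
      have : |(n σ : ℝ)| ≤ |η σ + lg x σ| + 1 := abs_le.2 ⟨by linarith, by linarith⟩
      linarith
    have h5 : ∑ σ, (n σ : ℝ) - rk E ≤ ∑ σ, (η σ + lg x σ) := by
      have := Finset.sum_le_sum fun σ (_ : σ ∈ Finset.univ) => (h4 σ).1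
      rw [Finset.sum_sub_distrib] at this
      simpa using this
    have h6 : ∑ σ, |(n σ : ℝ)| - rk E ≤ ∑ σ, |η σ + lg x σ| := by
      have := Finset.sum_le_sum fun σ (_ : σ ∈ Finset.univ) => (h4 σ).2
      rw [Finset.sum_sub_distrib] at this
      simpa using this
    rw [hB]
    refine Real.exp_le_exp.2 ?_
    have h7 := mul_le_mul_of_nonneg_left h3 (sub_nonneg.2 ha)
    have h8 := mul_le_mul_of_nonneg_left h6 hδ.le
    nlinarith
  have hB0 : 0 ≤ B := (Real.exp_pos _).le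
  calc ∑ x ∈ S', Real.exp (-a * ∑ σ, (η σ + lg x σ) - δ * ∑ σ, |η σ + lg x σ|)
      ≤ S'.card • B := Finset.sum_le_card_nsmul _ _ _ hterm
    _ = (S'.card : ℝ) * B := nsmul_eq_mul _ _
    _ ≤ C * nr D * Real.exp (∑ σ, ((n σ : ℝ) - η σ)) * B := mul_le_mul_of_nonneg_right hc hB0
    _ = C * Real.exp ((1 + δ) * rk E) * (nr D ^ a * Real.exp (-a * ∑ σ, η σ)) *
          ∏ σ, Real.exp (-δ * |(n σ : ℝ)|) := by
        have e1 : nr D ^ a = Real.exp (a * Real.log (nr D)) := by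
          rw [Real.rpow_def_of_pos hD0, mul_comm]
        have e2 : nr D = Real.exp (Real.log (nr D)) := (Real.exp_log hD0).symm
        rw [e1, hB, ← Real.exp_sum, ← Finset.mul_sum, Finset.sum_sub_distrib, hL]
        generalize Real.log (nr D) = l at e2 ⊢
        rw [e2]
        simp only [mul_assoc, ← Real.exp_add]
        congr 2
        ring

open Classical in
/-- Shifted Gaussian sums. -/
theorem tsum_gz_le : ∃ C : ℝ, 0 < C ∧ ∀ (D : E) (α : Pl E → ℝ) (w : Pl E → ℂ), D ≠ 0 →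
    (Summable fun x : E => if IsIntegral ℤ (D * x) then gz (em x + w) α else 0) ∧
    ∑' x : E, (if IsIntegral ℤ (D * x) then gz (em x + w) α else 0) ≤
      C * (1 + nr D * Real.exp (∑ σ, α σ)) := by
  obtain ⟨C, hC, hcard⟩ := card_box_le' (E := E)
  have hs := box_summable_nat
  have hT : 0 < ∑' k : ℕ, ((k : ℝ) + 1) * Real.exp (-(k : ℝ)) :=
    hs.tsum_pos (fun _ => by positivity) 0 (by positivity)
  refine ⟨C * (∑' k : ℕ, ((k : ℝ) + 1) * Real.exp (-(k : ℝ))) ^ rk E,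
    by positivity, fun D α w hD => ?_⟩
  have hD0 : 0 < nr D := nr_pos hD
  have main := box_group (ι := Pl E)
    (fun x : E => if IsIntegral ℤ (D * x) then gz (em x + w) α else 0)
    (fun x => by
      split_ifs
      · exact (gz_pos _ _).le
      · exact le_rfl)
    (fun x σ => ⌊‖(em x + w) σ‖ ^ 2 * Real.exp (-α σ)⌋₊)
    (fun k : ℕ => ((k : ℝ) + 1) * Real.exp (-(k : ℝ))) (fun _ => by positivity) hs
    (M := C * (1 + nr D * Real.exp (∑ σ, α σ))) (by positivity) ?_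
  · refine ⟨main.1, main.2.trans (le_of_eq ?_)⟩
    ring
  intro S n hn
  rw [← Finset.sum_filter]
  set S' := S.filter fun x => IsIntegral ℤ (D * x) with hS'
  have hmem : ∀ x ∈ S', IsIntegral ℤ (D * x) ∧
      ∀ σ, ⌊‖(em x + w) σ‖ ^ 2 * Real.exp (-α σ)⌋₊ = n σ :=
    fun x hx => ⟨(Finset.mem_filter.1 hx).2,
      fun σ => congrFun (hn x (Finset.mem_filter.1 hx).1) σ⟩
  have hn1 : ∀ σ, (0 : ℝ) < (n σ : ℝ) + 1 := fun σ => by positivity
  have hc := hcard D (fun σ => α σ + Real.log ((n σ : ℝ) + 1)) (-w) S' hD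
    (fun x hx y hy => by rw [mul_sub]; exact (hmem x hx).1.sub (hmem y hy).1)
    fun x hx σ => by
      have h1 := Nat.lt_floor_add_one (‖(em x + w) σ‖ ^ 2 * Real.exp (-α σ))
      rw [(hmem x hx).2 σ, Real.exp_neg, ← div_eq_mul_inv, div_lt_iff₀ (Real.exp_pos _)] at h1
      have h2 : σ.1 x - (-w) σ = (em x + w) σ := by simp [em]
      rw [h2, Real.exp_add, Real.exp_log (hn1 σ), mul_comm]
      exact h1.le
  have hterm : ∀ x ∈ S', gz (em x + w) α ≤ ∏ σ, Real.exp (-(n σ : ℝ)) := fun x hx => by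
    rw [gz, ← Real.exp_sum, Finset.mul_sum]
    refine Real.exp_le_exp.2 (Finset.sum_le_sum fun σ _ => ?_)
    have h0 : 0 ≤ ‖(em x + w) σ‖ ^ 2 * Real.exp (-α σ) := by positivity
    have h1 := Nat.floor_le h0
    rw [(hmem x hx).2 σ] at h1
    have h2 := Real.pi_gt_three
    nlinarith
  have hP : 1 ≤ ∏ σ, ((n σ : ℝ) + 1) := by
    have := Finset.prod_le_prod (s := Finset.univ) (f := fun _ : Pl E => (1 : ℝ))
      (g := fun σ => (n σ : ℝ) + 1) (fun _ _ => zero_le_one) fun σ _ => by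
        have := Nat.cast_nonneg (α := ℝ) (n σ)
        linarith
    simpa using this
  have e1 : Real.exp (∑ σ, (α σ + Real.log ((n σ : ℝ) + 1))) =
      Real.exp (∑ σ, α σ) * ∏ σ, ((n σ : ℝ) + 1) := by
    rw [Finset.sum_add_distrib, Real.exp_add]
    congr 1
    rw [Real.exp_sum]
    exact Finset.prod_congr rfl fun σ _ => Real.exp_log (hn1 σ)
  rw [e1] at hc
  have hB0 : 0 ≤ ∏ σ, Real.exp (-(n σ : ℝ)) := Finset.prod_nonneg fun _ _ => (Real.exp_pos _).le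
  have hc' : (S'.card : ℝ) ≤ C * (1 + nr D * Real.exp (∑ σ, α σ)) * ∏ σ, ((n σ : ℝ) + 1) := by
    refine hc.trans ?_
    rw [mul_assoc C]
    refine mul_le_mul_of_nonneg_left ?_ hC.le
    nlinarith
  calc ∑ x ∈ S', gz (em x + w) α ≤ S'.card • ∏ σ, Real.exp (-(n σ : ℝ)) :=
        Finset.sum_le_card_nsmul _ _ _ hterm
    _ = (S'.card : ℝ) * ∏ σ, Real.exp (-(n σ : ℝ)) := nsmul_eq_mul _ _
    _ ≤ C * (1 + nr D * Real.exp (∑ σ, α σ)) * (∏ σ, ((n σ : ℝ) + 1)) *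
          ∏ σ, Real.exp (-(n σ : ℝ)) := mul_le_mul_of_nonneg_right hc' hB0
    _ = C * (1 + nr D * Real.exp (∑ σ, α σ)) * ∏ σ, (((n σ : ℝ) + 1) * Real.exp (-(n σ : ℝ))) := by
        rw [Finset.prod_mul_distrib, mul_assoc]

/-! ## part B2: units -/

theorem BoxU_ne (u : (𝓞 E)ˣ) : ((u : 𝓞 E) : E) ≠ 0 :=
  RingOfIntegers.coe_ne_zero_iff.2 u.ne_zero

theorem BoxU_inj : Function.Injective fun u : (𝓞 E)ˣ => ((u : 𝓞 E) : E) := fun _ _ h =>
  Units.ext (RingOfIntegers.ext h)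

theorem BoxU_int (u : (𝓞 E)ˣ) : IsIntegral ℤ (1 * ((u : 𝓞 E) : E)) := by
  rw [one_mul]
  exact (u : 𝓞 E).isIntegral_coe

theorem BoxU_sum (u : (𝓞 E)ˣ) : ∑ σ, lg ((u : 𝓞 E) : E) σ = 0 := by
  rw [sum_lg (BoxU_ne u), nr_unit, Real.log_one]

theorem BoxU_reps {N : ℕ} (hN : N ≠ 0) : ∃ T : Finset (𝓞 E)ˣ, ∀ u : (𝓞 E)ˣ, ∃ τ ∈ T,
    (N : 𝓞 E) ∣ ((u * τ⁻¹ : (𝓞 E)ˣ) : 𝓞 E) - 1 := by
  classical
  have hI : Ideal.span {(N : 𝓞 E)} ≠ ⊥ := by
    rw [Ne, Ideal.span_singleton_eq_bot]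
    exact Nat.cast_ne_zero.2 hN
  have : Finite (𝓞 E ⧸ Ideal.span {(N : 𝓞 E)}) := Ideal.finiteQuotientOfFreeOfNeBot _ hI
  let φ : (𝓞 E)ˣ → 𝓞 E ⧸ Ideal.span {(N : 𝓞 E)} := fun u => Ideal.Quotient.mk _ (u : 𝓞 E)
  refine ⟨(Set.toFinite (Set.range (Function.invFun φ))).toFinset, fun u =>
    ⟨Function.invFun φ (φ u), by simp, ?_⟩⟩
  set τ := Function.invFun φ (φ u) with hτ
  have h1 : φ τ = φ u := Function.invFun_eq ⟨u, rfl⟩
  have h2 : (N : 𝓞 E) ∣ (u : 𝓞 E) - τ := Ideal.mem_span_singleton.1 (Ideal.Quotient.eq.1 h1.symm)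
  have h3 : ((u * τ⁻¹ : (𝓞 E)ˣ) : 𝓞 E) - 1 = ((u : 𝓞 E) - τ) * (τ⁻¹ : (𝓞 E)ˣ) := by
    rw [sub_mul, Units.mul_inv, Units.val_mul]
  rw [h3]
  exact h2.mul_right _

open NumberField.Units NumberField.Units.dirichletUnitTheorem in
theorem BoxU_balanced : ∃ C : ℝ, ∀ η : Pl E → ℝ, ∃ u : (𝓞 E)ˣ,
    ∀ σ, |η σ + lg ((u : 𝓞 E) : E) σ - (∑ τ, η τ) / rk E| ≤ C := by
  classical
  let b := (basisUnitLattice E).ofZLatticeBasis ℝ (unitLattice E)
  let e : Pl E ≃ InfinitePlace E := Equiv.ofBijective _ Pl.bijective_mk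
  set C₀ := ∑ i, ‖b i‖ with hC₀
  have hC : 0 ≤ C₀ := Finset.sum_nonneg fun _ _ => norm_nonneg _
  refine ⟨(rk E + 1) * C₀, fun η => ?_⟩
  let t : logSpace E := fun w => (∑ τ, η τ) / rk E - η (e.symm w.1)
  have h1 : ((ZSpan.floor b t : logSpace E)) ∈ unitLattice E := by
    rw [← (basisUnitLattice E).ofZLatticeBasis_span ℝ]
    exact (ZSpan.floor b t).2
  obtain ⟨x, -, hx⟩ := Submodule.mem_map.1 h1
  refine ⟨x.toMul, ?_⟩
  set g : Pl E → ℝ := fun σ => η σ + lg ((x.toMul : 𝓞 E) : E) σ - (∑ τ, η τ) / rk E with hg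
  have h2 : ∀ σ, e σ ≠ w₀ → |g σ| ≤ C₀ := by
    intro σ hσ
    have h3 := (norm_le_pi_norm (ZSpan.fract b t) ⟨e σ, hσ⟩).trans (ZSpan.norm_fract_le b t)
    rw [ZSpan.fract_apply, ← hx, Real.norm_eq_abs, Pi.sub_apply] at h3
    have h4 : (InfinitePlace.mk σ.1).IsComplex := by
      rw [InfinitePlace.isComplex_mk_iff, ComplexEmbedding.isReal_iff]
      exact fun h => Pl.ne_conjugate σ σ h.symm
    have h5 : (logEmbedding E).toIntLinearMap x ⟨e σ, hσ⟩ = lg ((x.toMul : 𝓞 E) : E) σ := by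
      show ((InfinitePlace.mk σ.1).mult : ℝ) *
        Real.log (InfinitePlace.mk σ.1 ((x.toMul : 𝓞 E) : E)) = _
      rw [h4.mult_eq_two, InfinitePlace.apply, lg, Real.log_pow]
    rw [h5] at h3
    have h6 : t ⟨e σ, hσ⟩ = (∑ τ, η τ) / rk E - η σ := by simp [t]
    rw [h6, ← abs_neg] at h3
    refine le_of_eq_of_le ?_ h3
    congr 1
    simp only [hg]
    ring
  have hr : (0 : ℝ) < rk E := Nat.cast_pos.2 rk_pos
  have h3 : ∑ σ, g σ = 0 := by
    simp only [hg, Finset.sum_sub_distrib, Finset.sum_add_distrib, BoxU_sum, Finset.sum_const,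
      Finset.card_univ, nsmul_eq_mul]
    field_simp
    ring
  intro σ
  show |g σ| ≤ _
  by_cases hσ : e σ = w₀
  · have h4 : g σ = -∑ τ ∈ Finset.univ.erase σ, g τ := by
      rw [← Finset.add_sum_erase _ _ (Finset.mem_univ σ)] at h3
      linarith
    rw [h4, abs_neg]
    refine (Finset.abs_sum_le_sum_abs _ _).trans ?_
    refine (Finset.sum_le_card_nsmul _ _ C₀ fun τ hτ => h2 τ fun h => ?_).trans ?_
    · exact Finset.ne_of_mem_erase hτ (e.injective (h.trans hσ.symm))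
    · rw [nsmul_eq_mul]
      refine mul_le_mul_of_nonneg_right ?_ hC
      have : (Finset.univ.erase σ).card ≤ rk E + 1 :=
        (Finset.card_le_univ _).trans (Nat.le_succ _)
      exact_mod_cast this
  · nlinarith [h2 σ hσ]

/-- Units in a box (from `card_box_le'`-type packing: `lg` of the units is a discrete group with a
finite kernel). -/
theorem card_units_le (L : ℝ) : ∃ C : ℝ, ∀ (η : Pl E → ℝ) (S : Finset (𝓞 E)ˣ),
    (∀ u ∈ S, ∀ σ, |η σ + lg ((u : 𝓞 E) : E) σ| ≤ L) → (S.card : ℝ) ≤ C := by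
  classical
  obtain ⟨C, hC, h⟩ := card_box_le (E := E)
  refine ⟨C * Real.exp (rk E * (2 * L)), fun η S hS => ?_⟩
  rcases S.eq_empty_or_nonempty with rfl | ⟨u₀, hu₀⟩
  · simp only [Finset.card_empty, Nat.cast_zero]
    positivity
  have h1 := h 1 (fun σ => L - η σ) (S.image fun u : (𝓞 E)ˣ => ((u : 𝓞 E) : E)) one_ne_zero
    fun x hx => by
      obtain ⟨u, hu, rfl⟩ := Finset.mem_image.1 hx
      refine ⟨BoxU_ne u, BoxU_int u, fun σ => ?_⟩
      linarith [(abs_le.1 (hS u hu σ)).2]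
  rw [Finset.card_image_of_injective _ BoxU_inj, nr_one, mul_one] at h1
  refine h1.trans (mul_le_mul_of_nonneg_left (Real.exp_le_exp.2 ?_) hC.le)
  calc ∑ σ, (L - η σ) = ∑ σ, (L - η σ - lg ((u₀ : 𝓞 E) : E) σ) := by
        rw [Finset.sum_sub_distrib (f := fun σ => L - η σ), BoxU_sum, sub_zero]
    _ ≤ ∑ _σ : Pl E, 2 * L :=
        Finset.sum_le_sum fun σ _ => by linarith [(abs_le.1 (hS u₀ hu₀ σ)).1]
    _ = _ := by rw [Finset.sum_const, Finset.card_univ, nsmul_eq_mul]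

theorem tsum_units_le {δ : ℝ} (hδ : 0 < δ) : ∃ C : ℝ, 0 < C ∧ ∀ η : Pl E → ℝ,
    (Summable fun u : (𝓞 E)ˣ => Real.exp (-δ * ∑ σ, |η σ + lg ((u : 𝓞 E) : E) σ|)) ∧
    ∑' u : (𝓞 E)ˣ, Real.exp (-δ * ∑ σ, |η σ + lg ((u : 𝓞 E) : E) σ|) ≤ C := by
  classical
  obtain ⟨C, hC, h⟩ := tsum_lattice_le (E := E) hδ (le_refl 1)
  refine ⟨C, hC, fun η => ?_⟩
  obtain ⟨h1, h2⟩ := h 1 η one_ne_zero
  set f : E → ℝ := fun x => if x ≠ 0 ∧ IsIntegral ℤ (1 * x) then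
    Real.exp (-1 * ∑ σ, (η σ + lg x σ) - δ * ∑ σ, |η σ + lg x σ|) else 0 with hf
  have hf0 : ∀ x, 0 ≤ f x := fun x => by
    simp only [hf]
    split_ifs <;> positivity
  have h3 : ∀ u : (𝓞 E)ˣ, Real.exp (-δ * ∑ σ, |η σ + lg ((u : 𝓞 E) : E) σ|) =
      Real.exp (∑ σ, η σ) * (f ∘ fun u : (𝓞 E)ˣ => ((u : 𝓞 E) : E)) u := by
    intro u
    simp only [hf, Function.comp_apply]
    rw [if_pos ⟨BoxU_ne u, BoxU_int u⟩, ← Real.exp_add, Finset.sum_add_distrib, BoxU_sum]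
    congr 1
    ring
  simp only [h3]
  refine ⟨(h1.comp_injective BoxU_inj).mul_left _, ?_⟩
  rw [tsum_mul_left]
  have h4 := (tsum_comp_le_tsum_of_inj h1 hf0 BoxU_inj).trans h2
  rw [nr_one, Real.one_rpow, mul_one] at h4
  refine (mul_le_mul_of_nonneg_left h4 (Real.exp_pos _).le).trans_eq ?_
  rw [mul_left_comm, ← Real.exp_add]
  simp

/-- Dirichlet's unit theorem: every point can be balanced by a unit `≡ 1 (mod N)`
(`unitLattice_span_eq_top`; the `k`-th powers of the units are `≡ 1` for `k = #(𝓞/N)ˣ`). -/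
theorem exists_balanced {N : ℕ} (hN : N ≠ 0) : ∃ C : ℝ, ∀ η : Pl E → ℝ, ∃ u : (𝓞 E)ˣ,
    (N : 𝓞 E) ∣ (u : 𝓞 E) - 1 ∧
      ∀ σ, |η σ + lg ((u : 𝓞 E) : E) σ - (∑ τ, η τ) / rk E| ≤ C := by
  obtain ⟨T, hT⟩ := BoxU_reps (E := E) hN
  obtain ⟨C, hC⟩ := BoxU_balanced (E := E)
  refine ⟨C + ∑ τ ∈ T, ∑ σ, |lg ((τ : 𝓞 E) : E) σ|, fun η => ?_⟩
  obtain ⟨u, hu⟩ := hC η
  obtain ⟨τ, hτ, h1⟩ := hT u
  refine ⟨u * τ⁻¹, h1, fun σ => ?_⟩
  have h2 : lg ((u : 𝓞 E) : E) = lg (((u * τ⁻¹ : (𝓞 E)ˣ) : 𝓞 E) : E) + lg ((τ : 𝓞 E) : E) := by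
    rw [← lg_mul (BoxU_ne _) (BoxU_ne _)]
    congr 1
    rw [RingOfIntegers.coe_eq_algebraMap, RingOfIntegers.coe_eq_algebraMap,
      RingOfIntegers.coe_eq_algebraMap, ← map_mul, ← Units.val_mul, inv_mul_cancel_right]
  have h3 : |lg ((τ : 𝓞 E) : E) σ| ≤ ∑ τ ∈ T, ∑ σ, |lg ((τ : 𝓞 E) : E) σ| :=
    (Finset.single_le_sum (f := fun σ => |lg ((τ : 𝓞 E) : E) σ|) (fun _ _ => abs_nonneg _)
      (Finset.mem_univ σ)).trans (Finset.single_le_sum
      (f := fun τ : (𝓞 E)ˣ => ∑ σ, |lg ((τ : 𝓞 E) : E) σ|)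
      (fun _ _ => Finset.sum_nonneg fun _ _ => abs_nonneg _) hτ)
  have h4 := hu σ
  rw [h2, Pi.add_apply] at h4
  have h5 := abs_le.1 h4
  have h6 := abs_le.1 h3
  exact abs_le.2 ⟨by linarith [h5.1, h6.2], by linarith [h5.2, h6.1]⟩

/-- The units `≡ 1 (mod N)` have finite index. -/
theorem exists_unit_reps {N : ℕ} (hN : N ≠ 0) : ∃ T : Finset (𝓞 E)ˣ, ∀ u : (𝓞 E)ˣ, ∃ τ ∈ T,
    (N : 𝓞 E) ∣ ((u * τ⁻¹ : (𝓞 E)ˣ) : 𝓞 E) - 1 := BoxU_reps hN

end Crest.Agent.R312
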