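import Mathlib

/-!
# Row 312, cubic reciprocity: framed lattices and orbit sums

`Λ` is a ring with a primitive cube root of unity `w` in which `3` is a unit, so that `w` acts freely
on the non-zero elements of every `Λ`-module; a finite module has `≡ 1 (mod 3)` elements.
`S M F` is the sum of a `w`-invariant, `M`-periodic function `F` over the `w`-orbits of `V / M`.
DO NOT change a definition.
-/

set_option autoImplicit false

noncomputable section

namespace Crest.Agent.R312.CR

/-- Rings with a cube root of unity in which `3` is invertible. -/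
class W3 (Λ : Type) [CommRing Λ] where
  w : Λ
  hw : w ^ 2 + w + 1 = 0
  h3 : IsUnit (3 : Λ)

export W3 (w)

variable {Λ : Type} [CommRing Λ] [W3 Λ] {V : Type} [AddCommGroup V] [Module Λ V]

/-- A framed lattice: a submodule `L` and an index function on `V / L`. -/
@[ext] structure FL (Λ : Type) [CommRing Λ] [W3 Λ] (V : Type) [AddCommGroup V] [Module Λ V] where
  L : Submodule Λ V
  i : V → ZMod 3
  i_add : ∀ v l, l ∈ L → i (v + l) = i v
  i_mem : ∀ v, v ∈ L → i v = 0
  i_smul : ∀ v, v ∉ L → i ((w : Λ) • v) = i v + 1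

theorem w_cube : (w : Λ) ^ 3 = 1 := by
  linear_combination ((w : Λ) - 1) * W3.hw (Λ := Λ)
theorem isUnit_w : IsUnit (w : Λ) := by
  exact IsUnit.of_pow_eq_one w_cube (by norm_num)
theorem isUnit_w_sub_one : IsUnit ((w : Λ) - 1) := by
  have h : ((w : Λ) - 1) * (-(w + 2)) = 3 := by linear_combination -W3.hw (Λ := Λ)
  exact isUnit_of_mul_isUnit_left (h ▸ W3.h3)
theorem w_smul_mem_iff (L : Submodule Λ V) (v : V) : (w : Λ) • v ∈ L ↔ v ∈ L := by
  refine ⟨fun h => ?_, fun h => L.smul_mem _ h⟩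
  have := L.smul_mem ((w : Λ) ^ 2) h
  rwa [smul_smul, ← pow_succ, w_cube, one_smul] at this
theorem mem_of_w_smul_sub {L : Submodule Λ V} {v : V} (h : (w : Λ) • v - v ∈ L) : v ∈ L := by
  obtain ⟨u, hu⟩ := isUnit_w_sub_one (Λ := Λ)
  have := L.smul_mem ((u⁻¹ : Λˣ) : Λ) h
  rwa [show (w : Λ) • v - v = ((w : Λ) - 1) • v by rw [sub_smul, one_smul], ← hu, smul_smul,
    Units.inv_mul, one_smul] at this

theorem a1_www (q : V) : (w : Λ) • (w : Λ) • (w : Λ) • q = q := by
  rw [smul_smul, smul_smul, show (w : Λ) * w * w = w ^ 3 by ring, w_cube, one_smul]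

theorem a1_ne {q : V} (h : q ≠ 0) : (w : Λ) • q ≠ q := fun h' =>
  h ((Submodule.mem_bot Λ).1 (mem_of_w_smul_sub (L := ⊥) (by rw [h', sub_self]; exact zero_mem _)))

theorem a1_idx (Λ : Type) [CommRing Λ] [W3 Λ] (Q : Type) [AddCommGroup Q] [Module Λ Q] :
    ∃ i : Q → ZMod 3, i 0 = 0 ∧ ∀ q, q ≠ 0 → i ((w : Λ) • q) = i q + 1 := by
  classical
  let P : Q → Q → Prop := fun q x => q = x ∨ q = (w : Λ) • x ∨ q = (w : Λ) • (w : Λ) • x
  let r : Q → Q := fun q => Classical.epsilon (P q)
  have hr : ∀ q, P q (r q) := fun q => Classical.epsilon_spec ⟨q, Or.inl rfl⟩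
  have hP : ∀ q, P ((w : Λ) • q) = P q := fun q => by
    funext x
    apply propext
    constructor
    · rintro (h | h | h)
      · exact Or.inr (Or.inr (by rw [← h, a1_www]))
      · exact Or.inl (by rw [← a1_www (Λ := Λ) q, h, a1_www])
      · exact Or.inr (Or.inl (by rw [← a1_www (Λ := Λ) q, h, a1_www]))
    · rintro (h | h | h)
      · exact Or.inr (Or.inl (by rw [h]))
      · exact Or.inr (Or.inr (by rw [h]))
      · exact Or.inl (by rw [h, a1_www])
  have hw : ∀ q, r ((w : Λ) • q) = r q := fun q => by simp only [r, hP]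
  refine ⟨fun q => if q = r q then 0 else if q = (w : Λ) • r q then 1 else 2, ?_, fun q hq => ?_⟩
  · have h0 : r 0 = 0 := by
      rcases hr 0 with h | h | h
      · exact h.symm
      · rw [← a1_www (Λ := Λ) (r 0), ← h, smul_zero, smul_zero]
      · rw [← a1_www (Λ := Λ) (r 0), ← h, smul_zero]
    simp [h0]
  · simp only [hw]
    have h := hr q
    generalize r q = x at h
    have hx : x ≠ 0 := by
      rintro rfl
      simp only [P, smul_zero, or_self] at h
      exact hq h
    have h1 : (w : Λ) • x ≠ x := a1_ne hx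
    have hx1 : (w : Λ) • x ≠ 0 := fun h => hx (by rw [← a1_www (Λ := Λ) x, h, smul_zero, smul_zero])
    have h2 : (w : Λ) • (w : Λ) • x ≠ (w : Λ) • x := a1_ne hx1
    have h3 : (w : Λ) • (w : Λ) • x ≠ x := fun h => h1 (by
      have := congrArg (fun y => (w : Λ) • y) h
      simp only [a1_www] at this
      exact this.symm)
    rcases h with h | h | h <;> subst h
    · simp [h1]
    · simp only [if_neg h1, if_neg h2, if_neg h3, if_true]; rfl
    · simp only [a1_www, if_neg h2, if_neg h3, if_true]; rfl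

/-- Every submodule has a frame (choose a base point in each orbit of `V / L`). -/
theorem exists_FL (L : Submodule Λ V) : ∃ F : FL Λ V, F.L = L := by
  obtain ⟨i, h0, h1⟩ := a1_idx Λ (V ⧸ L)
  refine ⟨⟨L, fun v => i (Submodule.Quotient.mk v), fun v l hl => ?_, fun v hv => ?_,
    fun v hv => ?_⟩, rfl⟩
  · rw [Submodule.Quotient.mk_add, (Submodule.Quotient.mk_eq_zero L).2 hl, add_zero]
  · rw [(Submodule.Quotient.mk_eq_zero L).2 hv, h0]
  · rw [Submodule.Quotient.mk_smul]
    exact h1 _ fun h => hv ((Submodule.Quotient.mk_eq_zero L).1 h)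

/-- The chosen frame. -/
def fr (L : Submodule Λ V) : FL Λ V := (exists_FL L).choose

theorem fr_L (L : Submodule Λ V) : (fr L).L = L := (exists_FL L).choose_spec

/-- `M'` has finite index in `M` (more precisely `M ⊓ M'` has). -/
def FI (M' M : Submodule Λ V) : Prop := M'.toAddSubgroup.relIndex M.toAddSubgroup ≠ 0

/-- Commensurable submodules. -/
def Com (L L' : Submodule Λ V) : Prop := FI L L' ∧ FI L' L

omit [W3 Λ] in
theorem a1_relIndex (M' M : Submodule Λ V) : M'.toAddSubgroup.relIndex M.toAddSubgroup =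
    Nat.card (M.map M'.mkQ) := by
  have h : M'.toAddSubgroup = M'.mkQ.toAddMonoidHom.ker := by
    ext v; simp
  rw [h, AddSubgroup.relIndex_ker]
  rfl

theorem FI.refl (M : Submodule Λ V) : FI M M := by
  simp [FI]
theorem FI.of_le {M M' : Submodule Λ V} (h : M ≤ M') : FI M' M := by
  have : M'.toAddSubgroup.relIndex M.toAddSubgroup = 1 := AddSubgroup.relIndex_eq_one.2 h
  simp [FI, this]
theorem FI.trans {L M N : Submodule Λ V} (h : FI L M) (h' : FI M N) : FI L N := by
  exact AddSubgroup.relIndex_ne_zero_trans h h'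
theorem FI.inf {L L' M : Submodule Λ V} (h : FI L M) (h' : FI L' M) : FI (L ⊓ L') M := by
  unfold FI at *
  rw [show (L ⊓ L').toAddSubgroup = L.toAddSubgroup ⊓ L'.toAddSubgroup from
    AddSubgroup.ext fun _ => Iff.rfl]
  exact AddSubgroup.relIndex_inf_ne_zero h h'
theorem FI.sup {L M M' : Submodule Λ V} (h : FI L M) (h' : FI L M') : FI L (M ⊔ M') := by
  unfold FI at *
  rw [a1_relIndex, Nat.card_ne_zero] at *
  refine ⟨inferInstance, ?_⟩
  rw [Submodule.map_sup]
  have h1 : ((M.map L.mkQ : Submodule Λ _) : Set (V ⧸ L)).Finite := h.2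
  have h2 : ((M'.map L.mkQ : Submodule Λ _) : Set (V ⧸ L)).Finite := h'.2
  have h3 : ((M.map L.mkQ ⊔ M'.map L.mkQ : Submodule Λ _) : Set (V ⧸ L)).Finite := by
    refine (Set.Finite.image2 (· + ·) h1 h2).subset fun x hx => ?_
    obtain ⟨a, ha, b, hb, rfl⟩ := Submodule.mem_sup.1 hx
    exact ⟨a, ha, b, hb, rfl⟩
  exact h3
theorem FI_iff_finite {M' M : Submodule Λ V} :
    FI M' M ↔ ((Submodule.Quotient.mk (p := M')) '' (M : Set V)).Finite := by
  unfold FI
  rw [a1_relIndex, Nat.card_ne_zero]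
  exact ⟨fun h => h.2, fun h => ⟨inferInstance, h⟩⟩
theorem FI_top_iff {M : Submodule Λ V} : FI M ⊤ ↔ Finite (V ⧸ M) := by
  rw [FI_iff_finite, Submodule.top_coe, Set.image_univ,
    Set.range_eq_univ.2 (Submodule.Quotient.mk_surjective M), Set.finite_univ_iff]
theorem FI.map {V' : Type} [AddCommGroup V'] [Module Λ V'] (φ : V →ₗ[Λ] V') {M' M : Submodule Λ V}
    (h : FI M' M) : FI (M'.map φ) (M.map φ) := by
  rw [FI_iff_finite] at *
  refine (h.image (M'.mapQ (M'.map φ) φ (Submodule.le_comap_map _ _))).subset ?_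
  rintro _ ⟨_, ⟨v, hv, rfl⟩, rfl⟩
  exact ⟨_, ⟨v, hv, rfl⟩, rfl⟩
theorem FI.comap {V' : Type} [AddCommGroup V'] [Module Λ V'] (φ : V' →ₗ[Λ] V)
    {M' M : Submodule Λ V} (h : FI M' M) : FI (M'.comap φ) (M.comap φ) := by
  rw [FI_iff_finite] at *
  have hi : Function.Injective ((M'.comap φ).mapQ M' φ le_rfl) := by
    rw [← LinearMap.ker_eq_bot, Submodule.ker_mapQ]
    simp
  refine (h.preimage hi.injOn).subset ?_
  rintro _ ⟨v, hv, rfl⟩
  exact ⟨φ v, hv, rfl⟩
theorem Com.refl (L : Submodule Λ V) : Com L L := by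
  exact ⟨FI.refl L, FI.refl L⟩
theorem Com.symm {L L' : Submodule Λ V} (h : Com L L') : Com L' L := by
  exact ⟨h.2, h.1⟩
theorem Com.trans {L L' L'' : Submodule Λ V} (h : Com L L') (h' : Com L' L'') : Com L L'' := by
  exact ⟨h.1.trans h'.1, h'.2.trans h.2⟩
theorem a1_card (Λ : Type) [CommRing Λ] [W3 Λ] (Q : Type) [AddCommGroup Q] [Module Λ Q] [Finite Q] :
    (Nat.card Q : ZMod 3) = 1 := by
  classical
  obtain ⟨i, h0, h1⟩ := a1_idx Λ Q
  have := Fintype.ofFinite Q
  let e : Q ≃ Q := ⟨fun q => (w : Λ) • q, fun q => (w : Λ) • (w : Λ) • q, a1_www, a1_www⟩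
  have h2 : ∑ q, i (e q) = ∑ q, i q := Equiv.sum_comp e i
  have h3 : ∀ q, i (e q) = i q + (1 - if q = 0 then 1 else 0) := fun q => by
    by_cases h : q = 0
    · simp [e, h]
    · simpa [e, h] using h1 q h
  simp only [h3, Finset.sum_add_distrib, Finset.sum_sub_distrib, Finset.sum_const,
    Finset.card_univ, nsmul_eq_mul, mul_one, Finset.sum_ite_eq', Finset.mem_univ, if_true] at h2
  rw [Nat.card_eq_fintype_card]
  linear_combination h2
theorem relIndex_mod {M' M : Submodule Λ V} (h : FI M' M) :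
    (M'.toAddSubgroup.relIndex M.toAddSubgroup : ZMod 3) = 1 := by
  unfold FI at h
  rw [a1_relIndex] at *
  have := (Nat.card_ne_zero.1 h).2
  exact a1_card Λ _

open Classical in
/-- The orbit sum. -/
def S (M : Submodule Λ V) (F : V → ZMod 3) : ZMod 3 :=
  ∑ᶠ q : V ⧸ M, if (fr M).i (Quotient.out q) = 0 then F (Quotient.out q) else 0

/-- The functions which can be summed. -/
structure Ok (M : Submodule Λ V) (F : V → ZMod 3) : Prop where
  add : ∀ v l, l ∈ M → F (v + l) = F v
  mem : ∀ v, v ∈ M → F v = 0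
  smul : ∀ v, F ((w : Λ) • v) = F v
  fin : ∃ W : Submodule Λ V, FI M W ∧ ∀ v, F v ≠ 0 → v ∈ W

theorem ok_zero (M : Submodule Λ V) : Ok M fun _ => 0 := by
  exact ⟨fun _ _ _ => rfl, fun _ _ => rfl, fun _ => rfl, M, FI.refl M, fun _ h => (h rfl).elim⟩
theorem Ok.add' {M : Submodule Λ V} {F G : V → ZMod 3} (hF : Ok M F) (hG : Ok M G) :
    Ok M fun v => F v + G v := by
  obtain ⟨W, hW, h⟩ := hF.fin
  obtain ⟨W', hW', h'⟩ := hG.fin
  refine ⟨fun v l hl => by rw [hF.add v l hl, hG.add v l hl],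
    fun v hv => by rw [hF.mem v hv, hG.mem v hv, add_zero],
    fun v => by rw [hF.smul, hG.smul], W ⊔ W', hW.sup hW', fun v hv => ?_⟩
  by_cases h1 : F v = 0
  · exact Submodule.mem_sup_right (h' v fun h2 => hv (by rw [h1, h2, add_zero]))
  · exact Submodule.mem_sup_left (h v h1)
theorem Ok.neg {M : Submodule Λ V} {F : V → ZMod 3} (hF : Ok M F) : Ok M fun v => -F v := by
  obtain ⟨W, hW, h⟩ := hF.fin
  exact ⟨fun v l hl => by rw [hF.add v l hl], fun v hv => by rw [hF.mem v hv, neg_zero],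
    fun v => by rw [hF.smul], W, hW, fun v hv => h v (neg_ne_zero.1 hv)⟩
theorem Ok.sub {M : Submodule Λ V} {F G : V → ZMod 3} (hF : Ok M F) (hG : Ok M G) :
    Ok M fun v => F v - G v := by
  simpa only [sub_eq_add_neg] using hF.add' hG.neg
theorem Ok.mono {M M' : Submodule Λ V} {F : V → ZMod 3} (hF : Ok M F) (h : M' ≤ M) (h' : FI M' M) :
    Ok M' F := by
  obtain ⟨W, hW, h1⟩ := hF.fin
  exact ⟨fun v l hl => hF.add v l (h hl), fun v hv => hF.mem v (h hv), hF.smul, W, h'.trans hW, h1⟩
theorem Ok.comap {V' : Type} [AddCommGroup V'] [Module Λ V'] (φ : V' →ₗ[Λ] V) {M : Submodule Λ V}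
    {F : V → ZMod 3} (hF : Ok M F) : Ok (M.comap φ) fun v => F (φ v) := by
  obtain ⟨W, hW, h1⟩ := hF.fin
  exact ⟨fun v l hl => by rw [map_add, hF.add _ _ hl], fun v hv => hF.mem _ hv,
    fun v => by rw [map_smul, hF.smul], W.comap φ, hW.comap φ, fun v hv => h1 _ hv⟩
omit [W3 Λ] in
theorem a2_out {M : Submodule Λ V} (v : V) :
    ∃ l ∈ M, Quotient.out (Submodule.Quotient.mk v : V ⧸ M) = v + l :=
  ⟨Quotient.out (Submodule.Quotient.mk v : V ⧸ M) - v,
    (Submodule.Quotient.eq M).1 (Submodule.Quotient.mk_out _), by abel⟩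

omit [W3 Λ] in
theorem a2_out_smul {M : Submodule Λ V} (c : Λ) (q : V ⧸ M) :
    ∃ l ∈ M, Quotient.out (c • q) = c • Quotient.out q + l := by
  obtain ⟨l, hl, h⟩ := a2_out (M := M) (c • Quotient.out q)
  rw [Submodule.Quotient.mk_smul, Submodule.Quotient.mk_out] at h
  exact ⟨l, hl, h⟩

theorem Ok.out {M : Submodule Λ V} {F : V → ZMod 3} (hF : Ok M F) (v : V) :
    F (Quotient.out (Submodule.Quotient.mk v : V ⧸ M)) = F v := by
  obtain ⟨l, hl, h⟩ := a2_out (M := M) v
  rw [h, hF.add _ _ hl]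

theorem Ok.finite {M : Submodule Λ V} {F : V → ZMod 3} (hF : Ok M F) :
    (Function.support fun q : V ⧸ M => F (Quotient.out q)).Finite := by
  obtain ⟨W, hW, h⟩ := hF.fin
  exact (FI_iff_finite.1 hW).subset fun q hq => ⟨_, h _ hq, Submodule.Quotient.mk_out q⟩

theorem Ok.finite_ite {M : Submodule Λ V} {F : V → ZMod 3} (hF : Ok M F) (P : V ⧸ M → Prop)
    [DecidablePred P] :
    (Function.support fun q : V ⧸ M => if P q then F (Quotient.out q) else 0).Finite :=
  hF.finite.subset fun q hq h => hq (by simp only at h; simp [h])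

/-- Sums of invariant weights over full orbits. -/
theorem a2_orb {Q : Type} [AddCommGroup Q] [Module Λ Q] {H i : Q → ZMod 3}
    (hf : (Function.support H).Finite) (hH : ∀ q, H ((w : Λ) • q) = H q)
    (hi : ∀ q, H q ≠ 0 → i ((w : Λ) • q) = i q + 1) :
    ∑ᶠ q, H q = 0 ∧ ∑ᶠ q, H q * i q = 0 := by
  let e : Q ≃ Q := ⟨fun q => (w : Λ) • q, fun q => (w : Λ) • (w : Λ) • q, a1_www, a1_www⟩
  have hs : ∀ f : Q → ZMod 3, (Function.support fun q => H q * f q).Finite := fun f =>
    hf.subset fun q hq h => hq (by simp only [h, zero_mul])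
  have key : ∀ f : ZMod 3 → ZMod 3, ∑ᶠ q, H q * f (i q + 1) = ∑ᶠ q, H q * f (i q) := fun f => by
    rw [← finsum_comp_equiv e (f := fun q => H q * f (i q))]
    refine finsum_congr fun q => ?_
    by_cases h : H q = 0
    · simp only [e, Equiv.coe_fn_mk, hH, h, zero_mul]
    · simp only [e, Equiv.coe_fn_mk, hH, hi q h]
  have h0 : ∑ᶠ q, H q = 0 := by
    have := key id
    simp only [id, mul_add, mul_one] at this
    rw [finsum_add_distrib (hs _) hf] at this
    linear_combination this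
  refine ⟨h0, ?_⟩
  have := key fun x => -x ^ 2
  have h3 : (3 : ZMod 3) = 0 := rfl
  have e1 : ∀ q, H q * -(i q + 1) ^ 2 = H q * -i q ^ 2 + (H q * i q - H q) := fun q => by
    linear_combination (-H q * i q) * h3
  simp only [e1] at this
  rw [finsum_add_distrib (hs _) (hf.subset fun q hq h => hq (by simp only [h]; simp)),
    finsum_sub_distrib (hs _) hf, h0] at this
  linear_combination this

theorem S_zero (M : Submodule Λ V) : S M (fun _ => 0) = 0 := by
  simp [S]
theorem S_add {M : Submodule Λ V} {F G : V → ZMod 3} (hF : Ok M F) (hG : Ok M G) :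
    S M (fun v => F v + G v) = S M F + S M G := by
  classical
  unfold S
  rw [← finsum_add_distrib (hF.finite_ite _) (hG.finite_ite _)]
  refine finsum_congr fun q => ?_
  split_ifs <;> simp
theorem S_neg {M : Submodule Λ V} (F : V → ZMod 3) : S M (fun v => -F v) = -S M F := by
  unfold S
  rw [← finsum_neg_distrib]
  refine finsum_congr fun q => ?_
  split_ifs <;> simp
theorem S_sub {M : Submodule Λ V} {F G : V → ZMod 3} (hF : Ok M F) (hG : Ok M G) :
    S M (fun v => F v - G v) = S M F - S M G := by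
  simp only [sub_eq_add_neg]
  rw [S_add hF hG.neg, S_neg]
open Classical in
/-- Any index function on the support of `F` can be used to choose the representatives. -/
theorem S_eq {M : Submodule Λ V} {F : V → ZMod 3} (hF : Ok M F) {j : V → ZMod 3}
    (hj : ∀ v l, F v ≠ 0 → l ∈ M → j (v + l) = j v)
    (hj' : ∀ v, F v ≠ 0 → j ((w : Λ) • v) = j v + 1) :
    S M F = ∑ᶠ q : V ⧸ M, if j (Quotient.out q) = 0 then F (Quotient.out q) else 0 := by
  unfold S
  set G : V ⧸ M → ZMod 3 := fun q => F (Quotient.out q) with hG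
  set i : V ⧸ M → ZMod 3 := fun q => (fr M).i (Quotient.out q) with hi
  set j' : V ⧸ M → ZMod 3 := fun q => j (Quotient.out q) with hj''
  have hGw : ∀ q, G ((w : Λ) • q) = G q := fun q => by
    obtain ⟨l, hl, h⟩ := a2_out_smul (w : Λ) q
    simp only [hG]
    rw [h, hF.add _ _ hl, hF.smul]
  have hiw : ∀ q, G q ≠ 0 → i ((w : Λ) • q) = i q + 1 := fun q hq => by
    obtain ⟨l, hl, h⟩ := a2_out_smul (w : Λ) q
    simp only [hi]
    rw [h, (fr M).i_add _ _ ((fr_L M).symm ▸ hl), (fr M).i_smul]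
    rw [fr_L]
    exact fun h' => hq (hF.mem _ h')
  have hjw : ∀ q, G q ≠ 0 → j' ((w : Λ) • q) = j' q + 1 := fun q hq => by
    obtain ⟨l, hl, h⟩ := a2_out_smul (w : Λ) q
    simp only [hj'']
    rw [h, hj _ _ (by rw [hF.smul]; exact hq) hl, hj' _ hq]
  have hf : (Function.support G).Finite := hF.finite
  have hs : ∀ f : V ⧸ M → ZMod 3, (Function.support fun q => G q * f q).Finite := fun f =>
    hf.subset fun q hq h => hq (by simp only [h, zero_mul])
  have hd : ∀ f : ZMod 3 → ZMod 3, ∀ q, G ((w : Λ) • q) * f (j' ((w : Λ) • q) - i ((w : Λ) • q)) =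
      G q * f (j' q - i q) := fun f q => by
    by_cases h : G q = 0
    · rw [hGw, h, zero_mul, zero_mul]
    · rw [hGw, hiw q h, hjw q h, add_sub_add_right_eq_sub]
  have h1 := (a2_orb (hs fun q => j' q - i q) (hd id) fun q hq => hiw q (left_ne_zero_of_mul hq)).2
  have h2 := (a2_orb (hs fun q => (j' q - i q) ^ 2) (hd (· ^ 2))
    fun q hq => hiw q (left_ne_zero_of_mul hq)).1
  have e : ∀ x y : ZMod 3, ∀ g : ZMod 3, (if x = 0 then g else 0) = (if y = 0 then g else 0) +
      (g * (y - x) ^ 2 - g * (y - x) * x) := by decide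
  calc ∑ᶠ q, (if i q = 0 then G q else 0) = ∑ᶠ q, ((if j' q = 0 then G q else 0) +
        (G q * (j' q - i q) ^ 2 - G q * (j' q - i q) * i q)) := finsum_congr fun q => e _ _ _
    _ = _ := by
      rw [finsum_add_distrib (hF.finite_ite _) (hf.subset fun q hq h => hq (by simp only [h]; simp)),
        finsum_sub_distrib (hs _) (hf.subset fun q hq h => hq (by simp only [h]; simp)), h1, h2]
      simp [hG, hj'']
theorem a2_fiber {A B : Type} [AddCommGroup A] [AddCommGroup B] (π : A →+ B)
    (hπ : Function.Surjective π) [Finite π.ker] {G : B → ZMod 3}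
    (hG : (Function.support G).Finite) :
    ∑ᶠ a, G (π a) = (Nat.card π.ker : ZMod 3) * ∑ᶠ b, G b := by
  choose σ hσ using hπ
  have := Fintype.ofFinite π.ker
  let e : B × π.ker ≃ A :=
    { toFun := fun x => σ x.1 + x.2
      invFun := fun a => (π a, ⟨a - σ (π a), by simp [AddMonoidHom.mem_ker, hσ]⟩)
      left_inv := fun x => by
        have h : π (σ x.1 + x.2) = x.1 := by rw [map_add, hσ, x.2.2, add_zero]
        ext
        · exact h
        · simp only [h]; simp
      right_inv := fun a => by simp }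
  have he : ∀ x : B × π.ker, π (e x) = x.1 := fun x => by
    show π (σ x.1 + x.2) = x.1
    rw [map_add, hσ, x.2.2, add_zero]
  rw [← finsum_comp_equiv e]
  simp only [he]
  rw [finsum_curry _ ((hG.prod Set.finite_univ).subset fun x hx => ⟨hx, trivial⟩),
    mul_finsum' _ _ hG]
  refine finsum_congr fun b => ?_
  rw [finsum_eq_sum_of_fintype, Nat.card_eq_fintype_card]
  simp only [Finset.sum_const, Finset.card_univ, nsmul_eq_mul]

/-- The sum does not depend on the period module (`S_eq` with the frame of `M`, `relIndex_mod`). -/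
theorem S_mono {M M' : Submodule Λ V} {F : V → ZMod 3} (hF : Ok M F) (h : M' ≤ M) (h' : FI M' M) :
    S M' F = S M F := by
  classical
  have hj : ∀ v l, l ∈ M → (fr M).i (v + l) = (fr M).i v := fun v l hl =>
    (fr M).i_add _ _ ((fr_L M).symm ▸ hl)
  rw [S_eq (hF.mono h h') (j := (fr M).i) (fun v l _ hl => hj v l (h hl)) fun v hv =>
    (fr M).i_smul _ (by rw [fr_L]; exact fun h' => hv (hF.mem _ h'))]
  let π := M'.mapQ M LinearMap.id h
  have hker : Nat.card π.toAddMonoidHom.ker = M'.toAddSubgroup.relIndex M.toAddSubgroup := by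
    rw [a1_relIndex]
    have : LinearMap.ker π = M.map M'.mkQ := by
      rw [Submodule.ker_mapQ, Submodule.comap_id]
    rw [← this]
    rfl
  have : Finite π.toAddMonoidHom.ker := Nat.finite_of_card_ne_zero (hker ▸ h')
  have hs : Function.Surjective π.toAddMonoidHom := fun q =>
    ⟨Submodule.Quotient.mk (Quotient.out q), Submodule.Quotient.mk_out q⟩
  have := a2_fiber π.toAddMonoidHom hs (hF.finite_ite fun q => (fr M).i (Quotient.out q) = 0)
  rw [hker, relIndex_mod h', one_mul] at this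
  unfold S
  rw [← this]
  refine finsum_congr fun q => ?_
  have hq : π.toAddMonoidHom q = Submodule.Quotient.mk (Quotient.out q) := by
    conv_lhs => rw [← Submodule.Quotient.mk_out q]
    rfl
  obtain ⟨l, hl, h1⟩ := a2_out (M := M) (Quotient.out q)
  rw [hq, h1, hj _ _ hl, hF.add _ _ hl]
/-- Transport along a linear map whose range (modulo `M`) contains the support. -/
theorem S_comap {V' : Type} [AddCommGroup V'] [Module Λ V'] (φ : V' →ₗ[Λ] V) {M : Submodule Λ V}
    {F : V → ZMod 3} (hF : Ok M F) (h : ∀ v, F v ≠ 0 → ∃ v', v - φ v' ∈ M) :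
    S (M.comap φ) (fun v => F (φ v)) = S M F := by
  classical
  have hj : ∀ v l, l ∈ M → (fr M).i (v + l) = (fr M).i v := fun v l hl =>
    (fr M).i_add _ _ ((fr_L M).symm ▸ hl)
  rw [S_eq (hF.comap φ) (j := fun v => (fr M).i (φ v))
    (fun v l _ hl => by rw [map_add, hj _ _ hl]) fun v hv => by
      rw [map_smul]
      exact (fr M).i_smul _ (by rw [fr_L]; exact fun h' => hv (hF.mem _ h'))]
  let π := (M.comap φ).mapQ M φ le_rfl
  have hi : Function.Injective π := by
    rw [← LinearMap.ker_eq_bot, Submodule.ker_mapQ]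
    simp
  unfold S
  set G : V ⧸ M → ZMod 3 := fun q => if (fr M).i (Quotient.out q) = 0 then F (Quotient.out q) else 0
    with hG
  have hsub : Function.support G ⊆ Set.range π := fun q hq => by
    obtain ⟨v', hv'⟩ := h (Quotient.out q) fun h0 => hq (by simp [hG, h0])
    refine ⟨Submodule.Quotient.mk v', ?_⟩
    rw [← Submodule.Quotient.mk_out q]
    exact ((Submodule.Quotient.eq M).2 hv').symm
  rw [← finsum_mem_univ G, ← finsum_mem_inter_support G Set.univ, Set.univ_inter,
    ← Set.inter_eq_right.2 hsub, finsum_mem_inter_support, finsum_mem_range hi]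
  refine finsum_congr fun q => ?_
  have hq : π q = Submodule.Quotient.mk (φ (Quotient.out q)) := by
    conv_lhs => rw [← Submodule.Quotient.mk_out q]
    rfl
  obtain ⟨l, hl, h1⟩ := a2_out (M := M) (φ (Quotient.out q))
  simp only [hG]
  rw [hq, h1, hj _ _ hl, hF.add _ _ hl]

/-- A weight `s` (periodic, invariant, zero on `M`, finite support) with an index function `j` on
its support. -/
structure Wj (M : Submodule Λ V) (s j : V → ZMod 3) : Prop where
  ok : Ok M s
  add : ∀ v l, s v ≠ 0 → l ∈ M → j (v + l) = j v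
  smul : ∀ v, s v ≠ 0 → j ((w : Λ) • v) = j v + 1

theorem ok_prod {V' : Type} [AddCommGroup V'] [Module Λ V'] {M : Submodule Λ V}
    {M' : Submodule Λ V'} {s j : V → ZMod 3} {s' j' : V' → ZMod 3} (h : Wj M s j) (h' : Wj M' s' j') :
    Ok (M.prod M') fun v => s v.1 * s' v.2 * (j' v.2 - j v.1) := by
  obtain ⟨W, hW, h1⟩ := h.ok.fin
  obtain ⟨W', hW', h1'⟩ := h'.ok.fin
  refine ⟨fun v l hl => ?_, fun v hv => by rw [h.ok.mem _ hv.1, zero_mul, zero_mul], fun v => ?_,
    W.prod W', ?_, fun v hv => ⟨h1 _ (left_ne_zero_of_mul (left_ne_zero_of_mul hv)),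
      h1' _ (right_ne_zero_of_mul (left_ne_zero_of_mul hv))⟩⟩
  · rw [Prod.fst_add, Prod.snd_add, h.ok.add _ _ hl.1, h'.ok.add _ _ hl.2]
    by_cases e1 : s v.1 = 0
    · simp [e1]
    by_cases e2 : s' v.2 = 0
    · simp [e2]
    rw [h.add _ _ e1 hl.1, h'.add _ _ e2 hl.2]
  · rw [Prod.smul_fst, Prod.smul_snd, h.ok.smul, h'.ok.smul]
    by_cases e1 : s v.1 = 0
    · simp [e1]
    by_cases e2 : s' v.2 = 0
    · simp [e2]
    rw [h.smul _ e1, h'.smul _ e2, add_sub_add_right_eq_sub]
  · have e1 : M.prod M' = M.comap (LinearMap.fst Λ V V') ⊓ M'.comap (LinearMap.snd Λ V V') := rfl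
    have e2 : W.prod W' ≤ W.comap (LinearMap.fst Λ V V') := fun _ hx => hx.1
    have e3 : W.prod W' ≤ W'.comap (LinearMap.snd Λ V V') := fun _ hx => hx.2
    rw [e1]
    exact ((hW.comap _).trans (FI.of_le e2)).inf ((hW'.comap _).trans (FI.of_le e3))
/-- **Product lemma**: choose the representatives by `j v.1 = 0`; the sum over `v.2` is a sum over
full orbits of `s' · (0 + 1 + 2) = 0`. -/
theorem S_prod {V' : Type} [AddCommGroup V'] [Module Λ V'] {M : Submodule Λ V}
    {M' : Submodule Λ V'} {s j : V → ZMod 3} {s' j' : V' → ZMod 3} (h : Wj M s j) (h' : Wj M' s' j') :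
    S (M.prod M') (fun v => s v.1 * s' v.2 * (j' v.2 - j v.1)) = 0 := by
  classical
  have hne : ∀ v : V × V', s v.1 * s' v.2 * (j' v.2 - j v.1) ≠ 0 → s v.1 ≠ 0 := fun v hv =>
    left_ne_zero_of_mul (left_ne_zero_of_mul hv)
  rw [S_eq (ok_prod h h') (j := fun v => j v.1) (fun v l hv hl => h.add _ _ (hne v hv) hl.1)
    fun v hv => h.smul _ (hne v hv)]
  let f : (V × V') →ₗ[Λ] (V ⧸ M) × (V' ⧸ M') := M.mkQ.prodMap M'.mkQ
  have hk : LinearMap.ker f = M.prod M' := by
    rw [LinearMap.ker_prodMap, Submodule.ker_mkQ, Submodule.ker_mkQ]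
  have hs : Function.Surjective f := fun x =>
    ⟨(Quotient.out x.1, Quotient.out x.2), Prod.ext (Submodule.Quotient.mk_out _)
      (Submodule.Quotient.mk_out _)⟩
  let e := (Submodule.quotEquivOfEq _ _ hk.symm).trans (f.quotKerEquivOfSurjective hs)
  let G : (V ⧸ M) × (V' ⧸ M') → ZMod 3 := fun x =>
    (if j (Quotient.out x.1) = 0 then s (Quotient.out x.1) else 0) *
      (s' (Quotient.out x.2) * j' (Quotient.out x.2))
  have hG : ∀ q : (V × V') ⧸ M.prod M', (if j (Quotient.out q).1 = 0 then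
      s (Quotient.out q).1 * s' (Quotient.out q).2 * (j' (Quotient.out q).2 - j (Quotient.out q).1)
      else 0) = G (e q) := fun q => by
    have hq : e q = (Submodule.Quotient.mk (Quotient.out q).1,
        Submodule.Quotient.mk (Quotient.out q).2) := by
      conv_lhs => rw [← Submodule.Quotient.mk_out q]
      rfl
    obtain ⟨l, hl, h1⟩ := a2_out (M := M) (Quotient.out q).1
    obtain ⟨l', hl', h1'⟩ := a2_out (M := M') (Quotient.out q).2
    simp only [G, hq]
    rw [h1, h1', h.ok.add _ _ hl, h'.ok.add _ _ hl']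
    by_cases e1 : s (Quotient.out q).1 = 0
    · simp [e1]
    by_cases e2 : s' (Quotient.out q).2 = 0
    · simp [e2]
    rw [h.add _ _ e1 hl, h'.add _ _ e2 hl']
    split_ifs with e3
    · rw [e3]; ring
    · rw [zero_mul]
  simp only [hG]
  refine (finsum_comp_equiv e.toEquiv (f := G)).trans ?_
  rw [finsum_curry _ ((h.ok.finite.prod h'.ok.finite).subset fun x hx =>
      ⟨fun h0 => hx (by simp only at h0; simp [G, h0]),
        fun h0 => hx (by simp only at h0; simp [G, h0])⟩)]
  have h0 := (a2_orb (Λ := Λ) (Q := V' ⧸ M') (i := fun q => j' (Quotient.out q)) h'.ok.finite (fun q => by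
    obtain ⟨l, hl, h1⟩ := a2_out_smul (w : Λ) q
    rw [h1, h'.ok.add _ _ hl, h'.ok.smul]) fun q hq => by
    obtain ⟨l, hl, h1⟩ := a2_out_smul (w : Λ) q
    rw [h1, h'.add _ _ (by rw [h'.ok.smul]; exact hq) hl, h'.smul _ hq]).2
  refine finsum_eq_zero_of_forall_eq_zero fun a => ?_
  simp only [G]
  rw [← mul_finsum' _ _ (h'.ok.finite.subset fun q hq h => hq (by simp only at h; simp [h])), h0,
    mul_zero]

end Crest.Agent.R312.CR
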