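import Crest.Agent.R312.CRa

/-!
# Row 312, cubic reciprocity: the cocycle `dd` and the commutator pairing `cp`
-/

set_option autoImplicit false

noncomputable section

namespace Crest.Agent.R312.CR

variable {Λ : Type} [CommRing Λ] [W3 Λ] {V : Type} [AddCommGroup V] [Module Λ V]

open Classical in
/-- Indicator function. -/
def ic (L : Submodule Λ V) (v : V) : ZMod 3 := if v ∈ L then 1 else 0

/-- The antisymmetric edge function. -/
def ed (A B : FL Λ V) (v : V) : ZMod 3 := ic B.L v * A.i v - ic A.L v * B.i v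

/-- The cocycle. -/
def dd (A B C : FL Λ V) : ZMod 3 :=
  S (A.L ⊓ B.L ⊓ C.L) fun v => ed A B v + ed B C v + ed C A v

/-- Transport of a framed lattice. -/
def FL.map {V' : Type} [AddCommGroup V'] [Module Λ V'] (φ : V ≃ₗ[Λ] V') (A : FL Λ V) : FL Λ V' where
  L := A.L.comap (φ.symm : V' →ₗ[Λ] V)
  i v := A.i (φ.symm v)
  i_add v l hl := by rw [map_add]; exact A.i_add _ _ hl
  i_mem v hv := A.i_mem _ hv
  i_smul v hv := by rw [map_smul]; exact A.i_smul _ hv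

/-- The commutator pairing. -/
def cp (A : FL Λ V) (a b : V ≃ₗ[Λ] V) : ZMod 3 :=
  dd A (A.map a) (A.map (a * b)) - dd A (A.map b) (A.map (b * a))

/-- `a` moves `L` to a commensurable lattice. -/
def Gd (L : Submodule Λ V) (a : V ≃ₗ[Λ] V) : Prop := Com L (L.comap (a.symm : V →ₗ[Λ] V))

/-! ## part A -/

theorem FL.map_one (A : FL Λ V) : A.map (1 : V ≃ₗ[Λ] V) = A := by
  rfl
theorem FL.map_mul (A : FL Λ V) (a b : V ≃ₗ[Λ] V) : A.map (a * b) = (A.map b).map a := by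
  rfl
theorem Com.mapE {V' : Type} [AddCommGroup V'] [Module Λ V'] (φ : V ≃ₗ[Λ] V') {A B : FL Λ V}
    (h : Com A.L B.L) : Com (A.map φ).L (B.map φ).L := by
  exact ⟨h.1.comap _, h.2.comap _⟩
theorem Gd.one (L : Submodule Λ V) : Gd L 1 := by
  exact Com.refl L
theorem Gd.mul {L : Submodule Λ V} {a b : V ≃ₗ[Λ] V} (ha : Gd L a) (hb : Gd L b) : Gd L (a * b) := by
  exact ha.trans ⟨hb.1.comap (a.symm : V →ₗ[Λ] V), hb.2.comap (a.symm : V →ₗ[Λ] V)⟩
theorem Gd.inv {L : Submodule Λ V} {a : V ≃ₗ[Λ] V} (ha : Gd L a) : Gd L a⁻¹ := by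
  have e : (L.comap (a.symm : V →ₗ[Λ] V)).comap (a : V →ₗ[Λ] V) = L := by ext v; simp
  have h1 := ha.1.comap (a : V →ₗ[Λ] V)
  have h2 := ha.2.comap (a : V →ₗ[Λ] V)
  rw [e] at h1 h2
  exact ⟨h2, h1⟩
theorem Gd.of_com {L L' : Submodule Λ V} {a : V ≃ₗ[Λ] V} (ha : Gd L a) (h : Com L L') : Gd L' a := by
  exact (h.symm.trans ha).trans ⟨h.1.comap _, h.2.comap _⟩
theorem ed_swap (A B : FL Λ V) (v : V) : ed B A v = -ed A B v := by
  simp only [ed]; ring
omit [W3 Λ] in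
theorem ic_of_mem {L : Submodule Λ V} {v : V} (h : v ∈ L) : ic L v = 1 := if_pos h
omit [W3 Λ] in
theorem ic_of_not_mem {L : Submodule Λ V} {v : V} (h : v ∉ L) : ic L v = 0 := if_neg h
theorem ic_smul (L : Submodule Λ V) (v : V) : ic L ((w : Λ) • v) = ic L v := by
  unfold ic
  rw [w_smul_mem_iff]
omit [W3 Λ] in
theorem ic_add {L : Submodule Λ V} (v : V) {l : V} (hl : l ∈ L) : ic L (v + l) = ic L v := by
  unfold ic
  rw [L.add_mem_iff_left hl]
theorem FL.i_smul' (A : FL Λ V) (v : V) : A.i ((w : Λ) • v) = A.i v + (1 - ic A.L v) := by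
  by_cases h : v ∈ A.L
  · rw [A.i_mem _ h, A.i_mem _ (A.L.smul_mem _ h), ic_of_mem h]; simp
  · rw [A.i_smul _ h, ic_of_not_mem h, sub_zero]
theorem ed_add (A B : FL Λ V) (v : V) {l : V} (h : l ∈ A.L) (h' : l ∈ B.L) :
    ed A B (v + l) = ed A B v := by
  simp only [ed, ic_add v h, ic_add v h', A.i_add v l h, B.i_add v l h']
theorem ed_mem (A B : FL Λ V) {v : V} (h : v ∈ A.L) (h' : v ∈ B.L) : ed A B v = 0 := by
  simp [ed, A.i_mem v h, B.i_mem v h']
theorem ed_not_mem (A B : FL Λ V) {v : V} (h : v ∉ A.L) (h' : v ∉ B.L) : ed A B v = 0 := by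
  simp [ed, ic_of_not_mem h, ic_of_not_mem h']
theorem ed_self (A : FL Λ V) (v : V) : ed A A v = 0 := sub_self _
theorem ed_smul (A B : FL Λ V) (v : V) :
    ed A B ((w : Λ) • v) = ed A B v + (ic B.L v - ic A.L v) := by
  simp only [ed, ic_smul, FL.i_smul']; ring
theorem ok_dd {A B C : FL Λ V} (h : Com A.L B.L) (h' : Com A.L C.L) :
    Ok (A.L ⊓ B.L ⊓ C.L) fun v => ed A B v + ed B C v + ed C A v := by
  refine ⟨fun v l hl => ?_, fun v hv => ?_, fun v => ?_, A.L ⊔ B.L ⊔ C.L, ?_, fun v hv => ?_⟩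
  · rw [ed_add _ _ _ hl.1.1 hl.1.2, ed_add _ _ _ hl.1.2 hl.2, ed_add _ _ _ hl.2 hl.1.1]
  · rw [ed_mem _ _ hv.1.1 hv.1.2, ed_mem _ _ hv.1.2 hv.2, ed_mem _ _ hv.2 hv.1.1]; simp
  · simp only [ed_smul]; ring
  · have e : FI (A.L ⊓ B.L ⊓ C.L) A.L := ((FI.refl _).inf h.2).inf h'.2
    exact (e.sup (e.trans h.1)).sup (e.trans h'.1)
  · by_contra hn
    have h1 : v ∉ A.L := fun h => hn (Submodule.mem_sup_left (Submodule.mem_sup_left h))
    have h2 : v ∉ B.L := fun h => hn (Submodule.mem_sup_left (Submodule.mem_sup_right h))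
    have h3 : v ∉ C.L := fun h => hn (Submodule.mem_sup_right h)
    exact hv (by rw [ed_not_mem _ _ h1 h2, ed_not_mem _ _ h2 h3, ed_not_mem _ _ h3 h1]; simp)
theorem dd_swap (A B C : FL Λ V) : dd B A C = -dd A B C := by
  unfold dd
  rw [inf_comm B.L A.L, ← S_neg]
  congr 1
  funext v
  rw [ed_swap A B, ed_swap C A, ed_swap B C]; ring
theorem dd_rot (A B C : FL Λ V) : dd B C A = dd A B C := by
  unfold dd
  rw [inf_comm (B.L ⊓ C.L) A.L, ← inf_assoc]
  congr 1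
  funext v
  ring
theorem dd_self (A C : FL Λ V) : dd A A C = 0 := by
  unfold dd
  rw [← S_zero (A.L ⊓ A.L ⊓ C.L)]
  congr 1
  funext v
  rw [ed_self, ed_swap A C]; ring
theorem dd_eq {A B C : FL Λ V} (h : Com A.L B.L) (h' : Com A.L C.L) {M : Submodule Λ V}
    (hM : M ≤ A.L ⊓ B.L ⊓ C.L) (hM' : FI M A.L) :
    Ok M (fun v => ed A B v + ed B C v + ed C A v) ∧
      dd A B C = S M fun v => ed A B v + ed B C v + ed C A v := by
  have e : FI M (A.L ⊓ B.L ⊓ C.L) := hM'.trans (FI.of_le (inf_le_left.trans inf_le_left))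
  exact ⟨(ok_dd h h').mono hM e, (S_mono (ok_dd h h') hM e).symm⟩
theorem dd_cocycle {A B C D : FL Λ V} (h : Com A.L B.L) (h' : Com A.L C.L) (h'' : Com A.L D.L) :
    dd A B C - dd A B D + dd A C D - dd B C D = 0 := by
  have e : FI (A.L ⊓ B.L ⊓ C.L ⊓ D.L) A.L := (((FI.refl _).inf h.2).inf h'.2).inf h''.2
  obtain ⟨o1, e1⟩ := dd_eq h h' inf_le_left e
  obtain ⟨o2, e2⟩ := dd_eq h h'' (M := A.L ⊓ B.L ⊓ C.L ⊓ D.L) (fun _ hv => ⟨hv.1.1, hv.2⟩) e
  obtain ⟨o3, e3⟩ := dd_eq h' h'' (M := A.L ⊓ B.L ⊓ C.L ⊓ D.L)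
    (fun _ hv => ⟨⟨hv.1.1.1, hv.1.2⟩, hv.2⟩) e
  obtain ⟨o4, e4⟩ := dd_eq (h.symm.trans h') (h.symm.trans h'') (M := A.L ⊓ B.L ⊓ C.L ⊓ D.L)
    (fun _ hv => ⟨⟨hv.1.1.2, hv.1.2⟩, hv.2⟩) (e.trans h.1)
  rw [e1, e2, e3, e4, ← S_sub o1 o2, ← S_add (o1.sub o2) o3, ← S_sub ((o1.sub o2).add' o3) o4,
    ← S_zero (A.L ⊓ B.L ⊓ C.L ⊓ D.L)]
  congr 1
  funext v
  rw [ed_swap A C, ed_swap A D, ed_swap B D]; ring
theorem dd_map {V' : Type} [AddCommGroup V'] [Module Λ V'] (φ : V ≃ₗ[Λ] V') {A B C : FL Λ V}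
    (h : Com A.L B.L) (h' : Com A.L C.L) : dd (A.map φ) (B.map φ) (C.map φ) = dd A B C := by
  exact S_comap (φ.symm : V' →ₗ[Λ] V) (ok_dd h h') fun v _ => ⟨φ v, by simp⟩
theorem cp_swap (A : FL Λ V) (a b : V ≃ₗ[Λ] V) : cp A b a = -cp A a b := by
  simp only [cp]; ring
theorem cp_self (A : FL Λ V) (a : V ≃ₗ[Λ] V) : cp A a a = 0 := by
  exact sub_self _
theorem Gd.com {A : FL Λ V} {a : V ≃ₗ[Λ] V} (ha : Gd A.L a) : Com A.L (A.map a).L := ha
/-- `κ(a, b) = dd A (a A) (a b A)` is a 2-cocycle. -/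
theorem kappa_cocycle {A : FL Λ V} {a b c : V ≃ₗ[Λ] V} (ha : Gd A.L a) (hb : Gd A.L b)
    (hc : Gd A.L c) :
    dd A (A.map a) (A.map (a * b)) + dd A (A.map (a * b)) (A.map (a * b * c)) =
      dd A (A.map b) (A.map (b * c)) + dd A (A.map a) (A.map (a * (b * c))) := by
  have h1 := dd_cocycle ha.com (ha.mul hb).com ((ha.mul hb).mul hc).com
  have h2 := dd_map a hb.com (hb.mul hc).com
  rw [← FL.map_mul, ← FL.map_mul, ← mul_assoc] at h2
  rw [← mul_assoc]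
  linear_combination h1 + h2
/-- Use the cocycle relation for `(a, b, c)`, `(b, a, c)`, `(b, c, a)`. -/
theorem cp_mul_right {A : FL Λ V} {a b c : V ≃ₗ[Λ] V} (ha : Gd A.L a) (hb : Gd A.L b)
    (hc : Gd A.L c) (hab : a * b = b * a) (hac : a * c = c * a) :
    cp A a (b * c) = cp A a b + cp A a c := by
  have h1 := kappa_cocycle ha hb hc
  have h2 := kappa_cocycle hb ha hc
  have h3 := kappa_cocycle hb hc ha
  simp only [cp]
  rw [← hab, hac] at h2
  rw [← hab, ← hac]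
  rw [hac]
  linear_combination h2 - h1 - h3
/-- The two cocycles differ by the coboundary of `g ↦ dd A (g A) (g B) + dd A (g B) B`. -/
theorem cp_indep {A B : FL Λ V} (h : Com A.L B.L) {a b : V ≃ₗ[Λ] V} (ha : Gd A.L a)
    (hb : Gd A.L b) (hab : a * b = b * a) : cp A a b = cp B a b := by
  have key : ∀ {a b : V ≃ₗ[Λ] V}, Gd A.L a → Gd A.L b →
      dd A (A.map a) (A.map (a * b)) - dd B (B.map a) (B.map (a * b)) =
        (dd A (A.map a) (B.map a) + dd A (B.map a) B) + (dd A (A.map b) (B.map b) + dd A (B.map b) B) -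
          (dd A (A.map (a * b)) (B.map (a * b)) + dd A (B.map (a * b)) B) := by
    intro a b ha hb
    have c1 : Com A.L (B.map a).L := ha.com.trans (h.mapE a)
    have c2 : Com A.L (B.map b).L := hb.com.trans (h.mapE b)
    have c3 : Com A.L (B.map (a * b)).L := (ha.mul hb).com.trans (h.mapE _)
    have m1 := dd_map a hb.com c2
    have m2 := dd_map a c2 h
    simp only [← FL.map_mul] at m1 m2
    have k1 := dd_cocycle ha.com (ha.mul hb).com c3
    have k2 := dd_cocycle ha.com c3 c1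
    have k3 := dd_cocycle c3 c1 h
    have s4 := dd_swap (B.map (a * b)) (B.map a) B
    have s5 := dd_rot B (B.map a) (B.map (a * b))
    linear_combination k1 + k2 - k3 + m1 + m2 + s5 - s4
  have h1 := key ha hb
  have h2 := key hb ha
  simp only [cp]
  rw [← hab] at h2 ⊢
  linear_combination h1 - h2
theorem cp_map {V' : Type} [AddCommGroup V'] [Module Λ V'] (φ : V ≃ₗ[Λ] V') {A : FL Λ V}
    {a b : V ≃ₗ[Λ] V} {a' b' : V' ≃ₗ[Λ] V'} (ha : Gd A.L a) (hb : Gd A.L b)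
    (h : ∀ v, a' (φ v) = φ (a v)) (h' : ∀ v, b' (φ v) = φ (b v)) :
    cp (A.map φ) a' b' = cp A a b := by
  have key : ∀ {a : V ≃ₗ[Λ] V} {a' : V' ≃ₗ[Λ] V'}, (∀ v, a' (φ v) = φ (a v)) →
      (A.map φ).map a' = (A.map a).map φ := by
    intro a a' h
    have e : ∀ v, φ.symm (a'.symm v) = a.symm (φ.symm v) := fun v => by
      rw [LinearEquiv.symm_apply_eq, LinearEquiv.symm_apply_eq, h]; simp
    ext v
    · show φ.symm (a'.symm v) ∈ A.L ↔ a.symm (φ.symm v) ∈ A.L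
      rw [e]
    · show A.i (φ.symm (a'.symm v)) = A.i (a.symm (φ.symm v))
      rw [e]
  simp only [cp]
  rw [key h, key h', key (a := a * b) (a' := a' * b') fun v => by simp [h, h'],
    key (a := b * a) (a' := b' * a') fun v => by simp [h, h'], dd_map φ ha.com (ha.mul hb).com,
    dd_map φ hb.com (hb.mul ha).com]
/-- The pairing as a sum around the square. -/
theorem cp_eq {A : FL Λ V} {a b : V ≃ₗ[Λ] V} (ha : Gd A.L a) (hb : Gd A.L b) (hab : a * b = b * a) :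
    Ok (A.L ⊓ (A.map a).L ⊓ (A.map b).L ⊓ (A.map (a * b)).L) (fun v => ed A (A.map a) v +
      ed (A.map a) (A.map (a * b)) v + ed (A.map (a * b)) (A.map b) v + ed (A.map b) A v) ∧
    cp A a b = S (A.L ⊓ (A.map a).L ⊓ (A.map b).L ⊓ (A.map (a * b)).L) fun v => ed A (A.map a) v +
      ed (A.map a) (A.map (a * b)) v + ed (A.map (a * b)) (A.map b) v + ed (A.map b) A v := by
  have e : FI (A.L ⊓ (A.map a).L ⊓ (A.map b).L ⊓ (A.map (a * b)).L) A.L :=
    (((FI.refl _).inf ha.com.2).inf hb.com.2).inf (ha.mul hb).com.2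
  obtain ⟨o1, e1⟩ := dd_eq ha.com (ha.mul hb).com
    (M := A.L ⊓ (A.map a).L ⊓ (A.map b).L ⊓ (A.map (a * b)).L) (fun _ hv => ⟨hv.1.1, hv.2⟩) e
  obtain ⟨o2, e2⟩ := dd_eq hb.com (ha.mul hb).com
    (M := A.L ⊓ (A.map a).L ⊓ (A.map b).L ⊓ (A.map (a * b)).L) (fun _ hv => ⟨⟨hv.1.1.1, hv.1.2⟩, hv.2⟩) e
  have f : (fun v => ed A (A.map a) v + ed (A.map a) (A.map (a * b)) v +
      ed (A.map (a * b)) (A.map b) v + ed (A.map b) A v) = fun v =>
      (ed A (A.map a) v + ed (A.map a) (A.map (a * b)) v + ed (A.map (a * b)) A v) -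
      (ed A (A.map b) v + ed (A.map b) (A.map (a * b)) v + ed (A.map (a * b)) A v) := by
    funext v
    rw [ed_swap A (A.map b), ed_swap (A.map b) (A.map (a * b))]; ring
  rw [f]
  refine ⟨o1.sub o2, ?_⟩
  rw [S_sub o1 o2, ← e1, ← e2, cp, ← hab]

/-! ## part B: direct sums -/

open Classical in
/-- The direct sum of two framed lattices. -/
def FL.prod {V' : Type} [AddCommGroup V'] [Module Λ V'] (A : FL Λ V) (B : FL Λ V') :
    FL Λ (V × V') where
  L := A.L.prod B.L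
  i v := A.i v.1 + ic A.L v.1 * B.i v.2
  i_add v l hl := by
    rw [Prod.fst_add, Prod.snd_add, A.i_add _ _ hl.1, B.i_add _ _ hl.2, ic_add _ hl.1]
  i_mem v hv := by rw [A.i_mem _ hv.1, B.i_mem _ hv.2]; simp
  i_smul v hv := by
    rw [Prod.smul_fst, Prod.smul_snd, A.i_smul', B.i_smul', ic_smul]
    by_cases h : v.1 ∈ A.L
    · rw [ic_of_mem h, ic_of_not_mem fun h' => hv ⟨h, h'⟩]; ring
    · rw [ic_of_not_mem h]; ring

omit [W3 Λ] in
theorem FI.prod {V' : Type} [AddCommGroup V'] [Module Λ V'] {M W : Submodule Λ V}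
    {M' W' : Submodule Λ V'} [W3 Λ] (hW : FI M W) (hW' : FI M' W') : FI (M.prod M') (W.prod W') := by
  have e1 : M.prod M' = M.comap (LinearMap.fst Λ V V') ⊓ M'.comap (LinearMap.snd Λ V V') := rfl
  have e2 : W.prod W' ≤ W.comap (LinearMap.fst Λ V V') := fun _ hx => hx.1
  have e3 : W.prod W' ≤ W'.comap (LinearMap.snd Λ V V') := fun _ hx => hx.2
  rw [e1]
  exact ((hW.comap _).trans (FI.of_le e2)).inf ((hW'.comap _).trans (FI.of_le e3))

theorem FL.prod_map {V' : Type} [AddCommGroup V'] [Module Λ V'] (A : FL Λ V) (B : FL Λ V')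
    (a : V ≃ₗ[Λ] V) (b : V' ≃ₗ[Λ] V') :
    (A.prod B).map (a.prodCongr b) = (A.map a).prod (B.map b) := rfl

omit [W3 Λ] in
theorem ic_prod {V' : Type} [AddCommGroup V'] [Module Λ V'] (L : Submodule Λ V)
    (L' : Submodule Λ V') (v : V × V') : ic (L.prod L') v = ic L v.1 * ic L' v.2 := by
  simp only [ic, Submodule.mem_prod]
  by_cases h : v.1 ∈ L <;> by_cases h' : v.2 ∈ L' <;> simp [h, h']

theorem ed_prod {V' : Type} [AddCommGroup V'] [Module Λ V'] (A A' : FL Λ V) (B B' : FL Λ V')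
    (v : V × V') : ed (A.prod B) (A'.prod B') v =
      ic A'.L v.1 * ic B'.L v.2 * (A.i v.1 + ic A.L v.1 * B.i v.2) -
        ic A.L v.1 * ic B.L v.2 * (A'.i v.1 + ic A'.L v.1 * B'.i v.2) := by
  rw [← ic_prod, ← ic_prod]; rfl

theorem ed_prod_left {V' : Type} [AddCommGroup V'] [Module Λ V'] (A A' : FL Λ V) (B : FL Λ V')
    (v : V × V') : ed (A.prod B) (A'.prod B) v = ic B.L v.2 * ed A A' v.1 := by
  rw [ed_prod, ed]; ring

omit [W3 Λ] in
theorem prodCongr_mul {V' : Type} [AddCommGroup V'] [Module Λ V'] (a a' : V ≃ₗ[Λ] V)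
    (b b' : V' ≃ₗ[Λ] V') : a.prodCongr b * a'.prodCongr b' = (a * a').prodCongr (b * b') := rfl

theorem Gd.prod {V' : Type} [AddCommGroup V'] [Module Λ V'] {L : Submodule Λ V}
    {L' : Submodule Λ V'} {a : V ≃ₗ[Λ] V} {b : V' ≃ₗ[Λ] V'} (ha : Gd L a) (hb : Gd L' b) :
    Gd (L.prod L') (a.prodCongr b) := by
  have e : (L.prod L').comap ((a.prodCongr b).symm : V × V' →ₗ[Λ] V × V') =
      (L.comap (a.symm : V →ₗ[Λ] V)).prod (L'.comap (b.symm : V' →ₗ[Λ] V')) := by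
    ext v; rfl
  unfold Gd
  rw [e]
  exact ⟨FI.prod ha.1 hb.1, FI.prod ha.2 hb.2⟩
/-- The function on the square is `ic B.L v.2` times the function for `V`
(`S_comap` along `inl`). -/
theorem cp_prod_left {V' : Type} [AddCommGroup V'] [Module Λ V'] {A : FL Λ V} (B : FL Λ V')
    {a b : V ≃ₗ[Λ] V} (ha : Gd A.L a) (hb : Gd A.L b) (hab : a * b = b * a) :
    cp (A.prod B) (a.prodCongr 1) (b.prodCongr 1) = cp A a b := by
  have hab' : a.prodCongr (1 : V' ≃ₗ[Λ] V') * b.prodCongr 1 = b.prodCongr 1 * a.prodCongr 1 := by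
    rw [prodCongr_mul, prodCongr_mul, hab]
  obtain ⟨o1, e1⟩ := cp_eq (A := A.prod B) (ha.prod (Gd.one B.L)) (hb.prod (Gd.one B.L)) hab'
  rw [e1, (cp_eq ha hb hab).2, ← S_comap (LinearMap.inl Λ V V') o1]
  · simp only [prodCongr_mul, FL.prod_map, mul_one, FL.map_one, ed_prod_left, LinearMap.inl_apply,
      ic_of_mem B.L.zero_mem, one_mul]
    congr 1
    ext v
    simp [FL.prod]
  · intro v hv
    simp only [prodCongr_mul, FL.prod_map, mul_one, FL.map_one, ed_prod_left] at hv ⊢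
    have h2 : v.2 ∈ B.L := by
      by_contra h
      exact hv (by simp [ic_of_not_mem h])
    refine ⟨v.1, ?_⟩
    simp [FL.prod, h2]
open Classical in
theorem wj_pair {A A' : FL Λ V} (h : Com A.L A'.L) :
    Wj (A.L ⊓ A'.L) (fun v => ic A'.L v - ic A.L v) fun v => if v ∈ A'.L then A.i v else A'.i v := by
  refine ⟨⟨fun v l hl => by rw [ic_add _ hl.1, ic_add _ hl.2], fun v hv => by
    rw [ic_of_mem hv.1, ic_of_mem hv.2, sub_self], fun v => by rw [ic_smul, ic_smul], A.L ⊔ A'.L,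
    (((FI.refl _).inf h.2).sup (h.1.inf (FI.refl _))), fun v hv => ?_⟩, fun v l _ hl => ?_,
    fun v hv => ?_⟩
  · by_contra hn
    exact hv (by rw [ic_of_not_mem fun h => hn (Submodule.mem_sup_left h),
      ic_of_not_mem fun h => hn (Submodule.mem_sup_right h), sub_self])
  · simp only [A'.L.add_mem_iff_left hl.2, A.i_add _ _ hl.1, A'.i_add _ _ hl.2]
  · simp only [w_smul_mem_iff]
    split_ifs with h1
    · exact A.i_smul _ fun h2 => hv (by rw [ic_of_mem h1, ic_of_mem h2, sub_self])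
    · exact A'.i_smul _ h1

/-- The function on the square is `s₁ s₂ (j₂ - j₁)` with `s₁ = ic (a A) - ic A`,
`ed A (a A) = s₁ j₁`, and the same for `B`, `b` (`S_prod`). -/
theorem cp_prod_cross {V' : Type} [AddCommGroup V'] [Module Λ V'] {A : FL Λ V} {B : FL Λ V'}
    {a : V ≃ₗ[Λ] V} {b : V' ≃ₗ[Λ] V'} (ha : Gd A.L a) (hb : Gd B.L b) :
    cp (A.prod B) (a.prodCongr 1) ((1 : V ≃ₗ[Λ] V).prodCongr b) = 0 := by
  classical
  have hab' : a.prodCongr (1 : V' ≃ₗ[Λ] V') * (1 : V ≃ₗ[Λ] V).prodCongr b =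
      (1 : V ≃ₗ[Λ] V).prodCongr b * a.prodCongr 1 := by
    rw [prodCongr_mul, prodCongr_mul, mul_one, one_mul, mul_one, one_mul]
  rw [(cp_eq (A := A.prod B) (ha.prod (Gd.one B.L)) ((Gd.one A.L).prod hb) hab').2]
  have h0 := S_prod (wj_pair ha.com) (wj_pair hb.com)
  simp only [prodCongr_mul, FL.prod_map, mul_one, one_mul, FL.map_one]
  generalize A.map a = A' at *
  generalize B.map b = B' at *
  rw [← h0]
  congr 1
  · ext v
    simp only [FL.prod, Submodule.mem_inf, Submodule.mem_prod]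
    tauto
  · funext v
    simp only [ed_prod]
    by_cases h1 : v.1 ∈ A.L <;> by_cases h2 : v.1 ∈ A'.L <;> by_cases h3 : v.2 ∈ B.L <;>
      by_cases h4 : v.2 ∈ B'.L <;>
      simp [ic_of_mem, ic_of_not_mem, FL.i_mem, h1, h2, h3, h4] <;> ring

/-! ## part C: the pairing when `a L ≤ L`, `b L ≤ L` -/

/-- The function on the square, for arbitrary frames `α` on `a L` and `β` on `b L`. -/
def psi (L : Submodule Λ V) (a b : V ≃ₗ[Λ] V) (α β : FL Λ V) (v : V) : ZMod 3 :=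
  ic L v * (β.i v - α.i v) + ic β.L v * α.i (b.symm v) - ic α.L v * β.i (a.symm v)

theorem psi_aux {L : Submodule Λ V} {α α₀ : FL Λ V} (h : α.L = α₀.L) (ha : α.L ≤ L) (ha' : FI α.L L)
    (b : V ≃ₗ[Λ] V) {N : Submodule Λ V} (hN : N = α.L.comap (b.symm : V →ₗ[Λ] V)) (hN' : N ≤ α.L)
    (hN'' : FI N α.L) :
    Ok N (fun v => ic L (b.symm v) * (α.i (b.symm v) - α₀.i (b.symm v)) - ic L v * (α.i v - α₀.i v)) ∧
    S N (fun v => ic L (b.symm v) * (α.i (b.symm v) - α₀.i (b.symm v)) -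
      ic L v * (α.i v - α₀.i v)) = 0 := by
  have o : Ok α.L fun v => ic L v * (α.i v - α₀.i v) :=
    ⟨fun v l hl => by rw [ic_add _ (ha hl), α.i_add _ _ hl, α₀.i_add _ _ (h ▸ hl)],
      fun v hv => by rw [α.i_mem _ hv, α₀.i_mem _ (h ▸ hv), sub_self, mul_zero],
      fun v => by rw [ic_smul, α.i_smul', α₀.i_smul', h]; ring, L, ha', fun v hv => by
        by_contra hn
        exact hv (by rw [ic_of_not_mem hn, zero_mul])⟩
  have o1 := o.comap (b.symm : V →ₗ[Λ] V)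
  have e1 := S_comap (b.symm : V →ₗ[Λ] V) o fun v _ => ⟨b v, by simp⟩
  rw [← hN] at o1 e1
  refine ⟨o1.sub (o.mono hN' hN''), ?_⟩
  have := S_sub o1 (o.mono hN' hN'')
  rw [e1, S_mono o hN' hN'', sub_self] at this
  exact this

/-- For `α = A.map a`, `β = A.map b` this is `cp_eq`; a change `δ` of `α.i` contributes
`-S (ic L · δ) + S (ic (b L) · δ ∘ b⁻¹) = 0` (`S_mono`, `S_comap`). -/
theorem cp_eq_psi {A : FL Λ V} {a b : V ≃ₗ[Λ] V} (hab : a * b = b * a) {α β : FL Λ V}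
    (hα : α.L = (A.map a).L) (hβ : β.L = (A.map b).L) (ha : α.L ≤ A.L) (hb : β.L ≤ A.L)
    (ha' : FI α.L A.L) (hb' : FI β.L A.L) :
    Ok (A.map (a * b)).L (psi A.L a b α β) ∧
      cp A a b = S (A.map (a * b)).L (psi A.L a b α β) := by
  have ga : Gd A.L a := (⟨FI.of_le (hα ▸ ha), hα ▸ ha'⟩ : Com A.L (A.map a).L)
  have gb : Gd A.L b := (⟨FI.of_le (hβ ▸ hb), hβ ▸ hb'⟩ : Com A.L (A.map b).L)
  have n1 : (A.map (a * b)).L = β.L.comap (a.symm : V →ₗ[Λ] V) := by rw [hβ]; rfl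
  have n2 : (A.map (a * b)).L = α.L.comap (b.symm : V →ₗ[Λ] V) := by rw [hα, hab]; rfl
  have l1 : (A.map (a * b)).L ≤ α.L := by
    rw [n1, hα]; exact fun v hv => hb hv
  have l2 : (A.map (a * b)).L ≤ β.L := by
    rw [n2, hβ]; exact fun v hv => ha hv
  have f : FI (A.map (a * b)).L A.L := (ga.mul gb).com.2
  obtain ⟨o0, e0⟩ := cp_eq ga gb hab
  have e : A.L ⊓ (A.map a).L ⊓ (A.map b).L ⊓ (A.map (a * b)).L = (A.map (a * b)).L :=
    inf_eq_right.2 (le_inf (le_inf (l1.trans ha) (hα ▸ l1)) (hβ ▸ l2))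
  rw [e] at o0 e0
  obtain ⟨o1, e1⟩ := psi_aux hα ha ha' b n2 l1 (f.trans (FI.of_le ha))
  obtain ⟨o2, e2⟩ := psi_aux hβ hb hb' a n1 l2 (f.trans (FI.of_le hb))
  have key : psi A.L a b α β = fun v => (ed A (A.map a) v + ed (A.map a) (A.map (a * b)) v +
      ed (A.map (a * b)) (A.map b) v + ed (A.map b) A v) +
      (ic A.L (b.symm v) * (α.i (b.symm v) - (A.map a).i (b.symm v)) -
        ic A.L v * (α.i v - (A.map a).i v)) -
      (ic A.L (a.symm v) * (β.i (a.symm v) - (A.map b).i (a.symm v)) -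
        ic A.L v * (β.i v - (A.map b).i v)) := by
    funext v
    have z : ∀ (X Y : FL Λ V), X.L ≤ Y.L → ic X.L v * Y.i v = 0 := fun X Y h => by
      by_cases hv : v ∈ X.L
      · rw [Y.i_mem _ (h hv), mul_zero]
      · rw [ic_of_not_mem hv, zero_mul]
    have z1 := z (A.map a) A (hα ▸ ha)
    have z2 := z (A.map b) A (hβ ▸ hb)
    have z3 := z (A.map (a * b)) (A.map a) (hα ▸ l1)
    have z4 := z (A.map (a * b)) (A.map b) (hβ ▸ l2)
    have i1 : (A.map (a * b)).i v = (A.map b).i (a.symm v) := rfl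
    have i2 : (A.map (a * b)).i v = (A.map a).i (b.symm v) := by rw [hab]; rfl
    have c1 : ic A.L (a.symm v) = ic (A.map a).L v := rfl
    have c2 : ic A.L (b.symm v) = ic (A.map b).L v := rfl
    simp only [psi, ed, hα, hβ, c1, c2]
    linear_combination -z1 + z2 - z3 + z4 + ic (A.map a).L v * i1 - ic (A.map b).L v * i2
  rw [key]
  refine ⟨(o0.add' o1).sub o2, ?_⟩
  rw [S_sub (o0.add' o1) o2, S_add o0 o1, e1, e2, ← e0, add_zero, sub_zero]

end Crest.Agent.R312.CR
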