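import Crest.Agent.R312.CRb

/-!
# Row 312, cubic reciprocity: commutative algebras, the coprime formula, Gauss' lemma and the
three-term relation
-/

set_option autoImplicit false

noncomputable section

namespace Crest.Agent.R312.CR

/-- Multiplication by a unit. -/
def mE (Λ : Type) [CommRing Λ] {B : Type} [CommRing B] [Algebra Λ B] (u : Bˣ) : B ≃ₗ[Λ] B where
  toFun x := (u : B) * x
  invFun x := ((u⁻¹ : Bˣ) : B) * x
  map_add' x y := mul_add _ _ _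
  map_smul' c x := by simp
  left_inv x := by simp
  right_inv x := by simp

/-- An ideal as a `Λ`-submodule. -/
def idl (Λ : Type) [CommRing Λ] {A : Type} [CommRing A] [Algebra Λ A] (s : Set A) :
    Submodule Λ A := (Ideal.span s).restrictScalars Λ

variable {Λ : Type} [CommRing Λ] [W3 Λ] {A B : Type} [CommRing A] [Algebra Λ A] [CommRing B]
  [Algebra Λ B]

open Classical in
/-- The commutator pairing of two multiplications. -/
def cu (L : Submodule Λ B) (a b : B) : ZMod 3 :=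
  if h : IsUnit a ∧ IsUnit b then cp (fr L) (mE Λ h.1.unit) (mE Λ h.2.unit) else 0

/-- The (Zolotarev type) index of `a` modulo `b`. -/
def zol (Λ : Type) [CommRing Λ] [W3 Λ] {A : Type} [CommRing A] [Algebra Λ A] (b a : A) : ZMod 3 :=
  S (idl Λ {b}) fun v => (fr (idl Λ {b})).i (a * v) - (fr (idl Λ {b})).i v

/-- A solution `y` of `v ≡ G y (mod F)`. -/
def qt (F G v : A) : A := Classical.epsilon fun y => F ∣ v - G * y

/-- The function `psi` pulled back to `A` (`γ` is a frame for `(F, G)`, `δ` for `(F, H)`). -/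
def Ps (F G H : A) (γ δ : FL Λ A) (v : A) : ZMod 3 :=
  δ.i v - γ.i v + ic δ.L v * γ.i (qt F H v) - ic γ.L v * δ.i (qt F G v)

/-- The part of the three-term function which is killed by the product lemma (`q` is a frame for
`(G, H)`, `r` for `(H, F)`; `v = F a + G b`, `a = qt G F v`, `b = qt F G v`). -/
def Pq (F G : A) (q r : FL Λ A) (v : A) : ZMod 3 :=
  ic (idl Λ {F, G}) v * ((1 - ic q.L (qt G F v)) * (1 - ic r.L (qt F G v)) *
    (r.i (qt F G v) - q.i (qt G F v)))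

/-- `G` is regular modulo `F`. -/
def Rg (F G : A) : Prop := ∀ x, F ∣ G * x → F ∣ x

/-! ## part A -/

omit [W3 Λ] in
@[simp] theorem mE_apply (u : Bˣ) (x : B) : mE Λ u x = u * x := rfl
omit [W3 Λ] in
@[simp] theorem mE_symm_apply (u : Bˣ) (x : B) : (mE Λ u).symm x = ((u⁻¹ : Bˣ) : B) * x := rfl
omit [W3 Λ] in
theorem mE_mul (u v : Bˣ) : mE Λ (u * v) = mE Λ u * mE Λ v :=
  LinearEquiv.ext fun x => mul_assoc (u : B) v x
omit [W3 Λ] in
theorem mE_comm (u v : Bˣ) : mE Λ u * mE Λ v = mE Λ v * mE Λ u := by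
  rw [← mE_mul, ← mE_mul, mul_comm]
omit [W3 Λ] in
theorem mem_idl_one {b v : A} : v ∈ idl Λ {b} ↔ b ∣ v := Ideal.mem_span_singleton
omit [W3 Λ] in
theorem mem_idl_two {F G v : A} : v ∈ idl Λ {F, G} ↔ ∃ y, F ∣ v - G * y :=
  Ideal.mem_span_pair.trans ⟨fun ⟨a, b, h⟩ => ⟨b, a, by rw [← h]; ring⟩,
    fun ⟨b, a, h⟩ => ⟨a, b, by linear_combination -h⟩⟩
omit [W3 Λ] in
theorem mem_idl_three {F G H v : A} :
    v ∈ idl Λ {F, G, H} ↔ ∃ x y z, v = F * x + G * y + H * z := by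
  refine Ideal.mem_span_insert.trans ⟨fun ⟨a, z, hz, h⟩ => ?_, fun ⟨x, y, z, h⟩ =>
    ⟨x, y * G + z * H, Ideal.mem_span_pair.2 ⟨y, z, rfl⟩, by rw [h]; ring⟩⟩
  obtain ⟨b, c, rfl⟩ := Ideal.mem_span_pair.1 hz
  exact ⟨a, b, c, by rw [h]; ring⟩
omit [W3 Λ] in
theorem idl_comm (F G : A) : idl Λ {F, G} = idl Λ {G, F} := by rw [Set.pair_comm]
omit [W3 Λ] in
theorem qt_spec {F G v : A} (h : v ∈ idl Λ {F, G}) : F ∣ v - G * qt F G v :=
  Classical.epsilon_spec (mem_idl_two.1 h)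
theorem FI_idl_iff {s : Set A} : FI (idl Λ s) ⊤ ↔ Finite (A ⧸ Ideal.span s) :=
  FI_top_iff
theorem cu_swap (L : Submodule Λ B) (a b : B) : cu L b a = -cu L a b := by
  unfold cu
  by_cases h : IsUnit a ∧ IsUnit b
  · rw [dif_pos h, dif_pos h.symm, cp_swap]
  · rw [dif_neg h, dif_neg fun h' => h h'.symm, neg_zero]
theorem cu_self (L : Submodule Λ B) (a : B) : cu L a a = 0 := by
  unfold cu
  split_ifs
  · exact cp_self _ _
  · rfl
theorem cu_units (L : Submodule Λ B) (a b : Bˣ) :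
    cu L (a : B) (b : B) = cp (fr L) (mE Λ a) (mE Λ b) := by
  rw [cu, dif_pos ⟨a.isUnit, b.isUnit⟩, IsUnit.unit_of_val_units, IsUnit.unit_of_val_units]
/-- A frame can be pushed forward: on the range of `φ` use `γ`, outside use the frame of the
range. -/
theorem exists_FL_push {V V' : Type} [AddCommGroup V] [Module Λ V] [AddCommGroup V'] [Module Λ V']
    (φ : V' →ₗ[Λ] V) (γ : FL Λ V') (h : LinearMap.ker φ ≤ γ.L) :
    ∃ α : FL Λ V, α.L = γ.L.map φ ∧ ∀ x, α.i (φ x) = γ.i x := by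
  classical
  obtain ⟨i, h1, h2⟩ : ∃ i : V → ZMod 3, (∀ x, i (φ x) = γ.i x) ∧
      ∀ v, v ∉ LinearMap.range φ → i v = (fr (LinearMap.range φ)).i v := by
    refine ⟨fun v => if h : ∃ x, φ x = v then γ.i h.choose else (fr (LinearMap.range φ)).i v,
      fun x => ?_, fun v hv => dif_neg hv⟩
    have h3 : ∃ y, φ y = φ x := ⟨x, rfl⟩
    refine (dif_pos h3).trans ?_
    rw [← γ.i_add x (h3.choose - x) (h (by
      rw [LinearMap.mem_ker, map_sub, h3.choose_spec, sub_self])), add_sub_cancel]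
  refine ⟨⟨γ.L.map φ, i, ?_, ?_, fun v hv => ?_⟩, rfl, h1⟩
  · rintro v _ ⟨y, hy, rfl⟩
    by_cases hv : v ∈ LinearMap.range φ
    · obtain ⟨x, rfl⟩ := hv
      rw [← map_add, h1, h1, γ.i_add x y hy]
    · rw [h2 v hv, h2 _ fun h => hv ((add_mem_cancel_right (LinearMap.mem_range_self φ y)).1 h),
        FL.i_add _ _ _ (by rw [fr_L]; exact ⟨y, rfl⟩)]
  · rintro _ ⟨y, hy, rfl⟩
    rw [h1, γ.i_mem y hy]
  · by_cases hv' : v ∈ LinearMap.range φ
    · obtain ⟨x, rfl⟩ := hv'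
      rw [← map_smul, h1, h1, γ.i_smul x fun h => hv ⟨x, h, rfl⟩]
    · rw [h2 v hv', h2 _ fun h => hv' ((w_smul_mem_iff _ _).1 h),
        FL.i_smul _ _ (by rwa [fr_L])]
omit [W3 Λ] in
theorem rg_of_unit (φ : A →ₐ[Λ] B) {F G : A} (hk : ∀ x, φ x = 0 ↔ F ∣ x) (hG : IsUnit (φ G)) :
    Rg F G := fun x h => by
  rwa [← hk, map_mul, hG.mul_right_eq_zero, hk] at h
theorem cA_map (φ : A →ₐ[Λ] B) {F G : A} (hk : ∀ x, φ x = 0 ↔ F ∣ x) {u : Bˣ} (hu : φ G = u) :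
    (idl Λ {F, G}).map φ.toLinearMap =
      ((fr (LinearMap.range φ.toLinearMap)).map (mE Λ u)).L := by
  ext v
  change _ ↔ ((u⁻¹ : Bˣ) : B) * v ∈ (fr (LinearMap.range φ.toLinearMap)).L
  rw [fr_L]
  constructor
  · rintro ⟨x, hx, rfl⟩
    obtain ⟨y, hy⟩ := mem_idl_two.1 hx
    rw [← hk, map_sub, map_mul, hu, sub_eq_zero] at hy
    exact ⟨y, by simp [hy]⟩
  · rintro ⟨y, hy⟩
    refine ⟨G * y, mem_idl_two.2 ⟨y, by simp⟩, ?_⟩
    rw [AlgHom.toLinearMap_apply] at hy ⊢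
    rw [map_mul, hu, hy, Units.mul_inv_cancel_left]
omit [W3 Λ] in
theorem cA_ker (φ : A →ₐ[Λ] B) {F : A} (hk : ∀ x, φ x = 0 ↔ F ∣ x) (G : A) :
    LinearMap.ker φ.toLinearMap ≤ idl Λ {F, G} := fun x hx =>
  mem_idl_two.2 ⟨0, by simpa using (hk x).1 hx⟩
theorem cA_term (φ : A →ₐ[Λ] B) {F H : A} (hk : ∀ x, φ x = 0 ↔ F ∣ x) {u : Bˣ} (hu : φ H = u)
    {α : FL Λ B} {γ : FL Λ A} (h : ∀ x, α.i (φ.toLinearMap x) = γ.i x) (v : A) :
    ic ((idl Λ {F, H}).map φ.toLinearMap) (φ.toLinearMap v) *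
      α.i ((mE Λ u).symm (φ.toLinearMap v)) = ic (idl Λ {F, H}) v * γ.i (qt F H v) := by
  unfold ic
  by_cases hv : v ∈ idl Λ {F, H}
  · have h1 := qt_spec hv
    rw [← hk, map_sub, map_mul, hu, sub_eq_zero] at h1
    rw [if_pos hv, if_pos (Submodule.mem_map_of_mem hv), ← h]
    simp [h1]
  · rw [if_neg hv, if_neg fun h => hv (by
      rwa [← Submodule.mem_comap, Submodule.comap_map_eq_self (cA_ker φ hk H)] at h), zero_mul,
      zero_mul]
/-- `cp_eq_psi` (with the frames pushed forward by `exists_FL_push`) and `S_comap` along `φ`: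
`φ⁻¹ (φ G φ H L) = (F, G H)`. -/
theorem cu_eq_Ps (φ : A →ₐ[Λ] B) {F G H : A} (hk : ∀ x, φ x = 0 ↔ F ∣ x) (hG : IsUnit (φ G))
    (hH : IsUnit (φ H)) {γ δ : FL Λ A} (hγ : γ.L = idl Λ {F, G}) (hδ : δ.L = idl Λ {F, H})
    (hγ' : FI γ.L ⊤) (hδ' : FI δ.L ⊤) :
    Ok (idl Λ {F, G * H}) (Ps F G H γ δ) ∧
      cu (LinearMap.range φ.toLinearMap) (φ G) (φ H) = S (idl Λ {F, G * H}) (Ps F G H γ δ) := by
  obtain ⟨a, ha⟩ := hG
  obtain ⟨b, hb⟩ := hH
  obtain ⟨α, hα, hα'⟩ := exists_FL_push φ.toLinearMap γ (hγ ▸ cA_ker φ hk G)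
  obtain ⟨β, hβ, hβ'⟩ := exists_FL_push φ.toLinearMap δ (hδ ▸ cA_ker φ hk H)
  have l1 : ∀ L : Submodule Λ A, L.map φ.toLinearMap ≤ (fr (LinearMap.range φ.toLinearMap)).L :=
    fun L => by rw [fr_L]; exact LinearMap.map_le_range
  have l2 : ∀ L : Submodule Λ A, FI L ⊤ →
      FI (L.map φ.toLinearMap) (fr (LinearMap.range φ.toLinearMap)).L :=
    fun L h => by rw [fr_L, ← Submodule.map_top]; exact h.map _
  obtain ⟨h1, h2⟩ := cp_eq_psi (A := fr (LinearMap.range φ.toLinearMap)) (mE_comm a b)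
    (α := α) (β := β) (by rw [hα, hγ, cA_map φ hk ha.symm]) (by rw [hβ, hδ, cA_map φ hk hb.symm])
    (hα ▸ l1 _) (hβ ▸ l1 _) (hα ▸ l2 _ hγ') (hβ ▸ l2 _ hδ')
  rw [← mE_mul, ← cA_map φ hk (G := G * H) (by rw [map_mul, Units.val_mul, ha, hb])] at h1 h2
  have h3 := h1.comap φ.toLinearMap
  have h4 := S_comap φ.toLinearMap h1 fun v hv => by
    obtain ⟨x, rfl⟩ : v ∈ LinearMap.range φ.toLinearMap := by_contra fun h => hv (by
      rw [← fr_L (LinearMap.range _)] at h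
      simp only [psi, ic, if_neg h, if_neg fun h' : v ∈ α.L => h (l1 _ (hα ▸ h')),
        if_neg fun h' : v ∈ β.L => h (l1 _ (hβ ▸ h')), zero_mul, add_zero, sub_zero])
    exact ⟨x, by rw [sub_self]; exact zero_mem _⟩
  have e : (fun v => psi (fr (LinearMap.range φ.toLinearMap)).L (mE Λ a) (mE Λ b) α β
      (φ.toLinearMap v)) = Ps F G H γ δ := funext fun v => by
    rw [psi, Ps, hα, hβ, hγ, hδ, cA_term φ hk hb.symm hα', cA_term φ hk ha.symm hβ', hα', hβ', ic,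
      if_pos (by rw [fr_L]; exact ⟨v, rfl⟩), one_mul]
  rw [Submodule.comap_map_eq_self (cA_ker φ hk _), e] at h3 h4
  exact ⟨h3, by rw [← ha, ← hb, cu_units, h2, h4]⟩

/-! ## part B: the coprime formula and Gauss' lemma -/

theorem zol_unit {b : A} (hb : IsUnit b) (a : A) : zol Λ b a = 0 := by
  have h : ∀ v, (fr (idl Λ {b})).i v = 0 := fun v =>
    FL.i_mem _ _ (by rw [fr_L, mem_idl_one]; exact hb.dvd)
  simp only [zol, h, sub_self, S_zero]
theorem ok_zol {a b : A} (h : IsCoprime a b) (hb : Finite (A ⧸ Ideal.span {b})) {β : FL Λ A}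
    (hβ : β.L = idl Λ {b}) : Ok (idl Λ {b}) fun v => β.i (a * v) - β.i v := by
  have h1 : ∀ v, a * v ∈ β.L ↔ v ∈ β.L := fun v => by
    rw [hβ, mem_idl_one, mem_idl_one]
    exact ⟨h.symm.dvd_of_dvd_mul_left, fun h => h.mul_left _⟩
  rw [← hβ]
  refine ⟨fun v l hl => by rw [mul_add, β.i_add _ _ hl, β.i_add _ _ ((h1 l).2 hl)],
    fun v hv => by rw [β.i_mem _ hv, β.i_mem _ ((h1 v).2 hv), sub_self], fun v => ?_,
    ⊤, hβ ▸ FI_idl_iff.2 hb, fun _ _ => trivial⟩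
  rw [mul_smul_comm]
  by_cases hv : v ∈ β.L
  · rw [β.i_mem _ hv, β.i_mem _ ((h1 v).2 hv), β.i_mem _ (β.L.smul_mem _ hv),
      β.i_mem _ (β.L.smul_mem _ ((h1 v).2 hv))]
  · rw [β.i_smul _ hv, β.i_smul _ fun h => hv ((h1 v).1 h), add_sub_add_right_eq_sub]
theorem cB_pull {V V' : Type} [AddCommGroup V] [Module Λ V] [AddCommGroup V'] [Module Λ V']
    (π : V' →ₗ[Λ] V) (hπ : Function.Surjective π) {M : Submodule Λ V} {M' : Submodule Λ V'}
    {F : V → ZMod 3} (hF : Ok M F) (h : M' ≤ M.comap π) (h' : FI M' ⊤) :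
    Ok M' (fun v => F (π v)) ∧ S M' (fun v => F (π v)) = S M F :=
  have h1 := h'.trans (FI.of_le (M := M.comap π) le_top)
  ⟨(hF.comap π).mono h h1, (S_mono (hF.comap π) h h1).trans (S_comap π hF fun v _ =>
    (hπ v).imp fun x hx => by rw [hx, sub_self]; exact zero_mem _)⟩
theorem cB_wj {V : Type} [AddCommGroup V] [Module Λ V] (α : FL Λ V) (h : FI α.L ⊤) :
    Wj α.L (fun v => 1 - ic α.L v) α.i := by
  refine ⟨⟨fun v l hl => ?_, fun v hv => ?_, fun v => ?_, ⊤, h, fun _ _ => trivial⟩,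
    fun v l _ hl => α.i_add v l hl, fun v hv => α.i_smul v fun h => hv ?_⟩
  · unfold ic
    rw [propext (add_mem_cancel_right hl)]
  · rw [ic, if_pos hv, sub_self]
  · unfold ic
    rw [propext (w_smul_mem_iff _ _)]
  · rw [ic, if_pos h, sub_self]
theorem cB_term {a b : A} (h : IsCoprime a b) (hb : Rg 0 b) {α β : FL Λ A} (hα : α.L = idl Λ {a})
    (hβ : β.L = idl Λ {b}) (x y : A) : β.i (b * x + a * y) = β.i (a * y) ∧
      ic β.L (b * x + a * y) * α.i (qt 0 b (b * x + a * y)) = ic β.L y * α.i x := by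
  refine ⟨by rw [add_comm, β.i_add _ _ (by rw [hβ, mem_idl_one]; exact dvd_mul_right _ _)], ?_⟩
  rw [hβ]
  unfold ic
  by_cases hy : b ∣ y
  · obtain ⟨y, rfl⟩ := hy
    have h1 := qt_spec (Λ := Λ) (mem_idl_two.2 ⟨x + a * y, zero_dvd_iff.2 (by ring)⟩ :
      b * x + a * (b * y) ∈ idl Λ {0, b})
    have h2 := hb (x + a * y - qt 0 b (b * x + a * (b * y))) (h1.trans (dvd_of_eq (by ring)))
    rw [← sub_eq_zero.1 (zero_dvd_iff.1 h2), if_pos (mem_idl_one.2 ⟨x + a * y, by ring⟩),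
      if_pos (mem_idl_one.2 (dvd_mul_right _ _)),
      α.i_add _ _ (by rw [hα, mem_idl_one]; exact dvd_mul_right _ _)]
  · rw [if_neg fun h' => hy (mem_idl_one.1 h'), if_neg fun h' => hy (h.symm.dvd_of_dvd_mul_left
      ((dvd_add_right (dvd_mul_right b x)).1 (mem_idl_one.1 h'))), zero_mul, zero_mul]
/-- `cu_eq_Ps` with `F = 0`; pull back along `(x, y) ↦ b x + a y` (`S_comap`, the preimage of
`(a b)` is `(a) × (b)`): with the frames `α` of `(a)`, `β` of `(b)` the function is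
`[β (a y) - β y] - [α (b x) - α x] + (1 - ic (a) x) (1 - ic (b) y) (β y - α x)`; use `S_prod` for
the last term, `S_mono` (from `⊤ × (b)` to `(a) × (b)`) and `S_comap` along `snd` for the first. -/
theorem cu_coprime (φ : A →ₐ[Λ] B) (hφ : Function.Injective φ) {a b : A} (h : IsCoprime a b)
    (ha : IsUnit (φ a)) (hb : IsUnit (φ b)) (ha' : Finite (A ⧸ Ideal.span {a}))
    (hb' : Finite (A ⧸ Ideal.span {b})) :
    cu (LinearMap.range φ.toLinearMap) (φ a) (φ b) = zol Λ b a - zol Λ a b := by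
  have hk : ∀ x, φ x = 0 ↔ 0 ∣ x := fun x => by rw [zero_dvd_iff, map_eq_zero_iff φ hφ]
  have e0 : ∀ c : A, idl Λ {0, c} = idl Λ {c} := fun c => by rw [idl, idl, Ideal.span_insert_zero]
  have hα := fr_L (idl Λ {a})
  have hβ := fr_L (idl Λ {b})
  have fa := FI_idl_iff (Λ := Λ).2 ha'
  have fb := FI_idl_iff (Λ := Λ).2 hb'
  obtain ⟨h1, h2⟩ := cu_eq_Ps φ hk ha hb (hα.trans (e0 a).symm) (hβ.trans (e0 b).symm)
    (hα.symm ▸ fa) (hβ.symm ▸ fb)
  have hM : FI ((idl Λ {a}).prod (idl Λ {b})) ⊤ := by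
    rw [LinearMap.prod_eq_inf_comap]
    exact (fa.comap (LinearMap.fst Λ A A)).inf (fb.comap (LinearMap.snd Λ A A))
  obtain ⟨-, h3⟩ := cB_pull ((LinearMap.mulLeft Λ b).coprod (LinearMap.mulLeft Λ a)) (fun v => by
    obtain ⟨s, t, e⟩ := h
    exact ⟨(t * v, s * v), by simp; linear_combination v * e⟩) h1 (by
      rintro ⟨x, y⟩ ⟨hx, hy⟩
      obtain ⟨x, rfl⟩ := mem_idl_one.1 hx
      obtain ⟨y, rfl⟩ := mem_idl_one.1 hy
      exact (mem_idl_two (Λ := Λ)).2 ⟨x + y, zero_dvd_iff.2 (by simp; ring)⟩) hM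
  obtain ⟨o1, s1⟩ := cB_pull (LinearMap.snd Λ A A) Prod.snd_surjective (ok_zol h hb' hβ)
    (fun _ h => (Submodule.mem_prod.1 h).2) hM
  obtain ⟨o2, s2⟩ := cB_pull (LinearMap.fst Λ A A) Prod.fst_surjective (ok_zol h.symm ha' hα)
    (fun _ h => (Submodule.mem_prod.1 h).1) hM
  have w1 := cB_wj _ (hα.symm ▸ fa)
  have w2 := cB_wj _ (hβ.symm ▸ fb)
  have o3 := ok_prod w1 w2
  have s3 := S_prod w1 w2
  rw [hα, hβ] at o3 s3
  rw [h2, ← h3, zol, zol, ← s1, ← s2, ← S_sub o1 o2, ← add_zero (S _ fun v => _ - _), ← s3,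
    ← S_add (o1.sub o2) o3]
  refine congrArg _ (funext fun ⟨x, y⟩ => ?_)
  obtain ⟨a1, a2⟩ := cB_term h (rg_of_unit φ hk hb) hα hβ x y
  obtain ⟨a3, a4⟩ := cB_term h.symm (rg_of_unit φ hk ha) hβ hα y x
  rw [add_comm] at a3 a4
  have a5 : ∀ (γ : FL Λ A) (v : A), ic γ.L v * γ.i v = 0 := fun γ v => by
    unfold ic
    split_ifs with h
    · rw [γ.i_mem v h, mul_zero]
    · rw [zero_mul]
  have a6 := a5 (fr (idl Λ {a})) x
  have a7 := a5 (fr (idl Λ {b})) y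
  simp only [Ps, LinearMap.coprod_apply, LinearMap.mulLeft_apply, LinearMap.snd_apply,
    LinearMap.fst_apply, a1, a2, a3, a4]
  rw [hα] at a6
  rw [hβ] at a7
  rw [hα, hβ]
  linear_combination (1 - ic (idl Λ {a}) x) * a7 - (1 - ic (idl Λ {b}) y) * a6
open Classical in
theorem cB_gauss {K : Type} [Field K] [Fintype K] {ω a : K} (hω : ω ^ 3 = 1) (h1 : ω ≠ 1)
    (ha : a ≠ 0) {j : K → ZMod 3} (hj : ∀ q, q ≠ 0 → j (ω * q) = j q + 1) {k : ℕ}
    (h : a ^ ((Fintype.card K - 1) / 3) = ω ^ k) :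
    ∑ q ∈ Finset.univ.filter (fun q => q ≠ 0 ∧ j q = 0), j (a * q) = k := by
  set T := Finset.univ.filter (fun q => q ≠ 0 ∧ j q = 0) with hT
  let e := AddChar.zmodChar 3 hω
  have h0 : ω ≠ 0 := fun h => by simp [h] at hω
  have e0 : ∀ m, e m ≠ 0 := fun m => pow_ne_zero _ h0
  have e1 : ∀ m q, q ≠ 0 → j (e m * q) = j q + m := fun m q hq => by
    have : ∀ n : ℕ, j (ω ^ n * q) = j q + n := fun n => by
      induction n with
      | zero => simp
      | succ n ih =>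
        rw [pow_succ', mul_assoc, hj _ (mul_ne_zero (pow_ne_zero _ h0) hq), ih, Nat.cast_succ,
          add_assoc]
    exact (this _).trans (by rw [ZMod.natCast_zmod_val])
  have e2 : ∀ m q, e m * (e (-m) * q) = q := fun m q => by
    rw [← mul_assoc, ← e.map_add_eq_mul, add_neg_cancel, e.map_zero_eq_one, one_mul]
  have e3 : ∀ m, e m = 1 → m = 0 := fun m hm => by
    have := Fact.mk Nat.prime_three
    have h2 := orderOf_dvd_of_pow_eq_one hm
    rw [orderOf_eq_prime hω h1] at h2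
    exact (ZMod.val_eq_zero m).1 (Nat.eq_zero_of_dvd_of_lt h2 m.val_lt)
  have m1 : ∀ q, q ≠ 0 → e (-j q) * q ∈ T := fun q hq => by
    simp [hT, e0, hq, e1]
  have m2 : ∀ q ∈ T, q ≠ 0 ∧ j q = 0 := fun q hq => (Finset.mem_filter.1 hq).2
  have hc : ((Finset.univ : Finset (ZMod 3)) ×ˢ T).card = (Finset.univ.erase (0 : K)).card := by
    refine Finset.card_nbij' (fun x => e x.1 * x.2) (fun q => (j q, e (-j q) * q))
      (fun x hx => ?_) (fun q hq => ?_) (fun x hx => ?_) fun q _ => e2 _ _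
    · simpa [e0] using (m2 _ (Finset.mem_product.1 hx).2).1
    · exact Finset.mem_product.2 ⟨Finset.mem_univ _, m1 q (Finset.ne_of_mem_erase hq)⟩
    · obtain ⟨a1, a2⟩ := m2 _ (Finset.mem_product.1 hx).2
      have := e2 (-x.1) x.2
      rw [neg_neg] at this
      simp only [e1 _ _ a1, a2, zero_add, this]
  rw [Finset.card_product, Finset.card_univ, ZMod.card, Finset.card_erase_of_mem
    (Finset.mem_univ _), Finset.card_univ] at hc
  have li : ∀ c : K, c ≠ 0 → ∀ q ∈ T, e (-j (c⁻¹ * (e (-j (c * q)) * (c * q)))) *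
      (c⁻¹ * (e (-j (c * q)) * (c * q))) = q := fun c hc q hq => by
    rw [mul_left_comm c⁻¹, inv_mul_cancel_left₀ hc, e1 _ _ (m2 q hq).1, (m2 q hq).2, zero_add,
      neg_neg, e2]
  have hp : ∏ q ∈ T, e (-j (a * q)) * (a * q) = ∏ q ∈ T, q :=
    Finset.prod_nbij' (fun q => e (-j (a * q)) * (a * q)) (fun q => e (-j (a⁻¹ * q)) * (a⁻¹ * q))
      (fun q hq => m1 _ (mul_ne_zero ha (m2 q hq).1))
      (fun q hq => m1 _ (mul_ne_zero (inv_ne_zero ha) (m2 q hq).1)) (li a ha)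
      (fun q hq => by simpa only [inv_inv] using li a⁻¹ (inv_ne_zero ha) q hq) fun _ _ => rfl
  have hs : ∀ U : Finset K, ∏ q ∈ U, e (-j (a * q)) = e (-∑ q ∈ U, j (a * q)) := fun U => by
    induction U using Finset.induction_on with
    | empty => simp
    | insert q U hq ih =>
      rw [Finset.prod_insert hq, Finset.sum_insert hq, ih, neg_add, e.map_add_eq_mul]
  rw [Finset.prod_mul_distrib, Finset.prod_mul_distrib, Finset.prod_const, hs, ← mul_assoc,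
    mul_left_eq_self₀, or_iff_left (Finset.prod_ne_zero_iff.2 fun q hq => (m2 q hq).1),
    show T.card = (Fintype.card K - 1) / 3 by omega, h, ← AddChar.zmodChar_apply' hω,
    ← e.map_add_eq_mul] at hp
  exact neg_add_eq_zero.1 (e3 _ hp)
/-- **Gauss' lemma**: multiply the congruences `a x ≡ w ^ i(a x) x'` over the representatives
`x ≢ 0`, `i x = 0` (there are `(N - 1) / 3` of them, and `x ↦ x'` permutes them); `w` has order `3`
modulo `p`. -/
theorem zol_prime {p a : A} (hp : Prime p) (hfin : Finite (A ⧸ Ideal.span {p})) (ha : ¬ p ∣ a)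
    {k : ℕ} (h : p ∣ a ^ ((Nat.card (A ⧸ Ideal.span {p}) - 1) / 3) - algebraMap Λ A w ^ k) :
    zol Λ p a = k := by
  classical
  have := (Ideal.span_singleton_prime hp.ne_zero).2 hp
  have := Fintype.ofFinite (A ⧸ Ideal.span {p})
  let := Fintype.fieldOfDomain (A ⧸ Ideal.span {p})
  have hm : ∀ v, Ideal.Quotient.mk (Ideal.span {p}) v = 0 ↔ v ∈ (fr (idl Λ {p})).L := fun v => by
    rw [fr_L]
    exact Ideal.Quotient.eq_zero_iff_mem
  have hi : ∀ v v', Ideal.Quotient.mk (Ideal.span {p}) v = Ideal.Quotient.mk _ v' →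
      (fr (idl Λ {p})).i v = (fr (idl Λ {p})).i v' := fun v v' h => by
    rw [← FL.i_add _ v' (v - v') ((hm _).1 (by rw [map_sub, h, sub_self])), add_sub_cancel]
  have h1 := cB_gauss (ω := Ideal.Quotient.mk (Ideal.span {p}) (algebraMap Λ A w))
    (a := Ideal.Quotient.mk _ a) (k := k)
    (j := fun q => (fr (idl Λ {p})).i (Quotient.out q))
    (by rw [← map_pow, ← map_pow, w_cube, map_one, map_one])
    (fun h => ((isUnit_w_sub_one.map (algebraMap Λ A)).map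
      (Ideal.Quotient.mk (Ideal.span {p}))).ne_zero (by
        rw [map_sub, map_sub, h, map_one, map_one, sub_self]))
    (fun h => ha (Ideal.mem_span_singleton.1 (Ideal.Quotient.eq_zero_iff_mem.1 h)))
    (fun q hq => (hi _ ((w : Λ) • Quotient.out q) (by
      rw [Ideal.Quotient.mk_out, Algebra.smul_def, map_mul, Ideal.Quotient.mk_out])).trans
      (FL.i_smul _ _ fun h => hq (by rw [← hm, Ideal.Quotient.mk_out] at h; exact h)))
    (by
      rw [← map_pow, ← map_pow, Ideal.Quotient.eq, Ideal.mem_span_singleton,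
        ← Nat.card_eq_fintype_card]
      exact h)
  rw [← h1, Finset.sum_filter, ← finsum_eq_sum_of_fintype]
  change ∑ᶠ q : A ⧸ Ideal.span {p}, (if (fr (idl Λ {p})).i (Quotient.out q) = 0 then
    (fr (idl Λ {p})).i (a * Quotient.out q) - (fr (idl Λ {p})).i (Quotient.out q) else 0) = _
  refine finsum_congr fun q => ?_
  have h2 : (fr (idl Λ {p})).i (Quotient.out (Ideal.Quotient.mk _ a * q)) =
      (fr (idl Λ {p})).i (a * Quotient.out q) := hi _ _ (by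
    rw [Ideal.Quotient.mk_out, map_mul, Ideal.Quotient.mk_out])
  by_cases h3 : (fr (idl Λ {p})).i (Quotient.out q) = 0
  · rw [if_pos h3, h3, sub_zero]
    split_ifs with h4
    · exact h2.symm
    · obtain rfl : q = 0 := by_contra fun h => h4 ⟨h, rfl⟩
      exact FL.i_mem _ _ ((hm _).1 (by rw [map_mul, Ideal.Quotient.mk_out, mul_zero]))
  · exact (if_neg h3).trans (if_neg fun h => h3 h.2).symm

/-! ## part C: the three-term relation -/

theorem cC_prod {V V' : Type} [AddCommGroup V] [Module Λ V] [AddCommGroup V'] [Module Λ V']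
    {L : Submodule Λ V} {L' : Submodule Λ V'} (h : FI L ⊤) (h' : FI L' ⊤) : FI (L.prod L') ⊤ := by
  rw [LinearMap.prod_eq_inf_comap]
  exact (h.comap (LinearMap.fst Λ V V')).inf (h'.comap (LinearMap.snd Λ V V'))
omit [W3 Λ] in
theorem cC_range (F G : A) :
    LinearMap.range ((LinearMap.mulLeft Λ F).coprod (LinearMap.mulLeft Λ G)) = idl Λ {F, G} :=
  Submodule.ext fun _ => ⟨fun ⟨x, hx⟩ => mem_idl_two.2 ⟨x.2, x.1, by rw [← hx]; simp⟩, fun h =>
    let ⟨y, x, e⟩ := mem_idl_two.1 h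
    ⟨(x, y), by simp [← e]⟩⟩
omit [W3 Λ] in
theorem cC_map (F G H : A) : ((idl Λ {G, H}).prod (idl Λ {H, F})).map
    ((LinearMap.mulLeft Λ F).coprod (LinearMap.mulLeft Λ G)) = idl Λ {F * G, G * H, H * F} := by
  ext v
  rw [mem_idl_three]
  constructor
  · rintro ⟨⟨a, b⟩, ⟨ha, hb⟩, rfl⟩
    obtain ⟨y, x, e⟩ := mem_idl_two.1 ha
    obtain ⟨t, z, e'⟩ := mem_idl_two.1 hb
    exact ⟨x + t, z, y, by simp at e e' ⊢; linear_combination F * e + G * e'⟩
  · rintro ⟨x, z, y, rfl⟩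
    exact ⟨(G * x + H * y, H * z), ⟨mem_idl_two.2 ⟨y, x, by ring⟩, mem_idl_two.2 ⟨0, z, by ring⟩⟩,
      by simp; ring⟩
omit [W3 Λ] in
theorem cC_rot (x y z : A) : idl Λ {y, z, x} = idl Λ {x, y, z} := by
  rw [Set.insert_comm x y, Set.pair_comm x z]
theorem cC_push {V V' : Type} [AddCommGroup V] [Module Λ V] [AddCommGroup V'] [Module Λ V']
    (φ : V' →ₗ[Λ] V) {M : Submodule Λ V'} {f : V → ZMod 3} (h : Ok M fun x => f (φ x))
    (h0 : ∀ v, v ∉ LinearMap.range φ → f v = 0) (hM : FI M ⊤) (hM' : FI (M.map φ) ⊤) :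
    Ok (M.map φ) f ∧ S (M.map φ) f = S M fun x => f (φ x) := by
  have ok : Ok (M.map φ) f := by
    refine ⟨?_, ?_, fun v => ?_, ⊤, hM', fun _ _ => trivial⟩
    · rintro v _ ⟨y, hy, rfl⟩
      by_cases hv : v ∈ LinearMap.range φ
      · obtain ⟨x, rfl⟩ := hv
        rw [← map_add]
        exact h.add x y hy
      · rw [h0 v hv, h0 _ fun h => hv ((add_mem_cancel_right (LinearMap.mem_range_self φ y)).1 h)]
    · rintro _ ⟨y, hy, rfl⟩
      exact h.mem y hy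
    · by_cases hv : v ∈ LinearMap.range φ
      · obtain ⟨x, rfl⟩ := hv
        rw [← map_smul]
        exact h.smul x
      · rw [h0 v hv, h0 _ fun h => hv ((w_smul_mem_iff _ _).1 h)]
  refine ⟨ok, ((S_mono (ok.comap φ) (Submodule.le_comap_map φ M)
    (hM.trans (FI.of_le le_top))).trans (S_comap φ ok fun v hv => ?_)).symm⟩
  obtain ⟨x, rfl⟩ : v ∈ LinearMap.range φ := by_contra fun h => hv (h0 v h)
  exact ⟨x, by rw [sub_self]; exact zero_mem _⟩
theorem cC_qt {F G K : A} (hGF : Rg G F) (hK : G ∣ K) {q : FL Λ A} (hq : ∀ x, G ∣ x → x ∈ q.L)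
    {a b : A} (h : F * a + G * b ∈ idl Λ {K, F}) :
    q.i (qt K F (F * a + G * b)) = q.i a ∧ ic q.L (qt K F (F * a + G * b)) = ic q.L a := by
  have h1 := hq _ (hGF (qt K F (F * a + G * b) - a) ((dvd_sub (dvd_mul_right G b)
    (hK.trans (qt_spec h))).trans (dvd_of_eq (by ring))))
  rw [← add_sub_cancel a (qt K F (F * a + G * b))]
  refine ⟨q.i_add _ _ h1, ?_⟩
  unfold ic
  rw [propext (add_mem_cancel_right h1)]
theorem cC_Pq {F G H : A} (hFG : Rg F G) (hGF : Rg G F) {q r : FL Λ A} (hq : q.L = idl Λ {G, H})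
    (hr : r.L = idl Λ {H, F}) (a b : A) : ic (idl Λ {F, G}) (F * a + G * b) = 1 ∧
      (q.i (qt G F (F * a + G * b)) = q.i a ∧ ic q.L (qt G F (F * a + G * b)) = ic q.L a) ∧
      r.i (qt F G (F * a + G * b)) = r.i b ∧ ic r.L (qt F G (F * a + G * b)) = ic r.L b := by
  refine ⟨if_pos (mem_idl_two.2 ⟨b, a, by ring⟩), cC_qt hGF dvd_rfl
    (fun x hx => hq ▸ mem_idl_two.2 ⟨0, by simpa using hx⟩) (mem_idl_two.2 ⟨a, b, by ring⟩), ?_⟩
  rw [add_comm]
  exact cC_qt hFG dvd_rfl (fun x hx => by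
    rw [hr, idl_comm]; exact mem_idl_two.2 ⟨0, by simpa using hx⟩) (mem_idl_two.2 ⟨b, a, by ring⟩)
theorem cC_term {F G H : A} (hFG : Rg F G) (hGF : Rg G F) {q : FL Λ A}
    (hq : ∀ x, G ∣ x → x ∈ q.L) (a b : A) :
    ic (idl Λ {G * H, F}) (F * a + G * b) * q.i (qt (G * H) F (F * a + G * b)) =
      ic (idl Λ {H, F}) b * q.i a := by
  unfold ic
  by_cases h : F * a + G * b ∈ idl Λ {G * H, F}
  · rw [if_pos h, (cC_qt hGF (dvd_mul_right G H) hq h).1, if_pos]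
    obtain ⟨y, z, e⟩ := mem_idl_two.1 h
    rw [idl_comm]
    exact mem_idl_two.2 ⟨z, hFG _ ⟨y - a, by linear_combination e⟩⟩
  · rw [if_neg h, if_neg fun hb => h ?_, zero_mul, zero_mul]
    obtain ⟨t, z, e⟩ := mem_idl_two.1 hb
    exact mem_idl_two.2 ⟨a + G * t, z, by linear_combination G * e⟩
theorem FI_three {F G H : A} (h₁ : FI (idl Λ {F, G}) ⊤) (h₂ : FI (idl Λ {G, H}) ⊤)
    (h₃ : FI (idl Λ {H, F}) ⊤) : FI (idl Λ {F * G, G * H, H * F}) ⊤ := by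
  have h := (cC_prod h₂ h₃).map ((LinearMap.mulLeft Λ F).coprod (LinearMap.mulLeft Λ G))
  rw [cC_map, Submodule.map_top, cC_range] at h
  exact h.trans h₁
/-- Pull back along `θ (a, b) = F a + G b`; `θ⁻¹ (F G, G H, H F) = (G, H) × (H, F)`; `S_prod`. -/
theorem S_Pq {F G H : A} (hFG : Rg F G) (hGF : Rg G F) {q r : FL Λ A} (hq : q.L = idl Λ {G, H})
    (hr : r.L = idl Λ {H, F}) (hq' : FI q.L ⊤) (hr' : FI r.L ⊤) (h : FI (idl Λ {F, G}) ⊤) :
    Ok (idl Λ {F * G, G * H, H * F}) (Pq F G q r) ∧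
      S (idl Λ {F * G, G * H, H * F}) (Pq F G q r) = 0 := by
  have e : (fun x : A × A => Pq F G q r
      (((LinearMap.mulLeft Λ F).coprod (LinearMap.mulLeft Λ G)) x)) =
      fun x => (1 - ic q.L x.1) * (1 - ic r.L x.2) * (r.i x.2 - q.i x.1) := funext fun x => by
    obtain ⟨a1, ⟨a2, a3⟩, a4, a5⟩ := cC_Pq hFG hGF hq hr x.1 x.2
    simp only [Pq, LinearMap.coprod_apply, LinearMap.mulLeft_apply, a1, a2, a3, a4, a5, one_mul]
  have h1 := cC_push ((LinearMap.mulLeft Λ F).coprod (LinearMap.mulLeft Λ G)) (f := Pq F G q r)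
    (e ▸ ok_prod (cB_wj q hq') (cB_wj r hr'))
    (fun v hv => by rw [Pq, ic, if_neg (by rwa [cC_range] at hv), zero_mul]) (cC_prod hq' hr')
    (by rw [hq, hr, cC_map]; exact FI_three h (hq ▸ hq') (hr ▸ hr'))
  rw [e, S_prod (cB_wj q hq') (cB_wj r hr'), hq, hr, cC_map] at h1
  exact h1
open Classical in
/-- For `v = F a + G b`: `q a - r b = -(1 - x)(1 - y)(r b - q a) + y q a - x r b` with
`x = ic q.L a`, `y = ic r.L b`, and `b ∈ (H, F) ↔ v ∈ (F, G H)`; in this case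
`a ≡ qt (G H) F v (mod (G, H))`. -/
theorem Pq_split {F G H : A} (hFG : Rg F G) (hGF : Rg G F) {q r : FL Λ A}
    (hq : q.L = idl Λ {G, H}) (hr : r.L = idl Λ {H, F}) (v : A) :
    ic (idl Λ {F, G}) v * (q.i (qt G F v) - r.i (qt F G v)) = -Pq F G q r v +
      ic (idl Λ {G * H, F}) v * q.i (qt (G * H) F v) -
      ic (idl Λ {H * F, G}) v * r.i (qt (H * F) G v) := by
  by_cases hv : v ∈ idl Λ {F, G}
  · obtain ⟨b, a, e⟩ := mem_idl_two.1 hv
    obtain rfl : v = F * a + G * b := by linear_combination e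
    obtain ⟨a1, ⟨a2, a3⟩, a4, a5⟩ := cC_Pq hFG hGF hq hr a b
    have a6 := cC_term (H := H) hFG hGF (q := q)
      (fun x hx => hq ▸ mem_idl_two.2 ⟨0, by simpa using hx⟩) a b
    have a7 := cC_term (H := H) hGF hFG (q := r) (fun x hx => by
      rw [hr, idl_comm]; exact mem_idl_two.2 ⟨0, by simpa using hx⟩) b a
    rw [add_comm, mul_comm F H, idl_comm H G, ← hq] at a7
    have a8 : ∀ (γ : FL Λ A) (v : A), ic γ.L v * γ.i v = 0 := fun γ v => by
      unfold ic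
      split_ifs with h
      · rw [γ.i_mem v h, mul_zero]
      · rw [zero_mul]
    rw [Pq, a1, a2, a3, a4, a5, a6, a7, ← hr]
    linear_combination (1 - ic r.L b) * a8 q a - (1 - ic q.L a) * a8 r b
  · have h1 : v ∉ idl Λ {G * H, F} := fun h =>
      let ⟨y, z, e⟩ := mem_idl_two.1 h
      hv (mem_idl_two.2 ⟨H * z, y, by linear_combination e⟩)
    have h2 : v ∉ idl Λ {H * F, G} := fun h =>
      let ⟨y, z, e⟩ := mem_idl_two.1 h
      hv (mem_idl_two.2 ⟨y, H * z, by linear_combination e⟩)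
    simp only [Pq, ic, if_neg hv, if_neg h1, if_neg h2, zero_mul, neg_zero, add_zero, sub_zero]
/-- The pointwise identity (`p`, `q`, `r` are frames for `(F, G)`, `(G, H)`, `(H, F)`). -/
theorem Ps_sum {F G H : A} (hFG : Rg F G) (hGF : Rg G F) (hGH : Rg G H) (hHG : Rg H G)
    (hHF : Rg H F) (hFH : Rg F H) {p q r : FL Λ A} (hp : p.L = idl Λ {F, G})
    (hq : q.L = idl Λ {G, H}) (hr : r.L = idl Λ {H, F}) (v : A) :
    Ps F G H p r v + Ps G H F q p v + Ps H F G r q v =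
      -(Pq F G q r v + Pq G H r p v + Pq H F p q v) := by
  have h1 := Pq_split hFG hGF hq hr v
  have h2 := Pq_split hGH hHG hr hp v
  have h3 := Pq_split hHF hFH hp hq v
  simp only [Ps, hp, hq, hr]
  linear_combination h1 + h2 + h3
/-- **The three-term relation.** -/
theorem three_term {B₁ B₂ B₃ : Type} [CommRing B₁] [Algebra Λ B₁] [CommRing B₂] [Algebra Λ B₂]
    [CommRing B₃] [Algebra Λ B₃] (φ₁ : A →ₐ[Λ] B₁) (φ₂ : A →ₐ[Λ] B₂) (φ₃ : A →ₐ[Λ] B₃) {F G H : A}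
    (k₁ : ∀ x, φ₁ x = 0 ↔ F ∣ x) (k₂ : ∀ x, φ₂ x = 0 ↔ G ∣ x) (k₃ : ∀ x, φ₃ x = 0 ↔ H ∣ x)
    (u₁ : IsUnit (φ₁ G)) (u₁' : IsUnit (φ₁ H)) (u₂ : IsUnit (φ₂ H)) (u₂' : IsUnit (φ₂ F))
    (u₃ : IsUnit (φ₃ F)) (u₃' : IsUnit (φ₃ G)) (h₁ : Finite (A ⧸ Ideal.span {F, G}))
    (h₂ : Finite (A ⧸ Ideal.span {G, H})) (h₃ : Finite (A ⧸ Ideal.span {H, F})) :
    cu (LinearMap.range φ₁.toLinearMap) (φ₁ G) (φ₁ H) +
      cu (LinearMap.range φ₂.toLinearMap) (φ₂ H) (φ₂ F) +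
      cu (LinearMap.range φ₃.toLinearMap) (φ₃ F) (φ₃ G) = 0 := by
  have hp := fr_L (idl Λ {F, G})
  have hq := fr_L (idl Λ {G, H})
  have hr := fr_L (idl Λ {H, F})
  have f₁ := FI_idl_iff (Λ := Λ).2 h₁
  have f₂ := FI_idl_iff (Λ := Λ).2 h₂
  have f₃ := FI_idl_iff (Λ := Λ).2 h₃
  have g₁ : FI (fr (idl Λ {F, G})).L ⊤ := hp.symm ▸ f₁
  have g₂ : FI (fr (idl Λ {G, H})).L ⊤ := hq.symm ▸ f₂
  have g₃ : FI (fr (idl Λ {H, F})).L ⊤ := hr.symm ▸ f₃
  obtain ⟨o₁, s₁⟩ := cu_eq_Ps φ₁ k₁ u₁ u₁' hp (hr.trans (idl_comm _ _)) g₁ g₃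
  obtain ⟨o₂, s₂⟩ := cu_eq_Ps φ₂ k₂ u₂ u₂' hq (hp.trans (idl_comm _ _)) g₂ g₁
  obtain ⟨o₃, s₃⟩ := cu_eq_Ps φ₃ k₃ u₃ u₃' hr (hq.trans (idl_comm _ _)) g₃ g₂
  have hM := FI_three f₁ f₂ f₃
  have le : ∀ X Y Z : A, idl Λ {X * Y, Y * Z, Z * X} ≤ idl Λ {X, Y * Z} := fun X Y Z v hv =>
    let ⟨x, y, z, e⟩ := mem_idl_three.1 hv
    mem_idl_two.2 ⟨y, Y * x + Z * z, by linear_combination e⟩
  have l₁ := le F G H
  have l₂ := le G H F
  have l₃ := le H F G
  have r₁ := rg_of_unit φ₁ k₁ u₁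
  have r₂ := rg_of_unit φ₂ k₂ u₂'
  have r₃ := rg_of_unit φ₂ k₂ u₂
  have r₄ := rg_of_unit φ₃ k₃ u₃'
  have r₅ := rg_of_unit φ₃ k₃ u₃
  have r₆ := rg_of_unit φ₁ k₁ u₁'
  obtain ⟨a₁, b₁⟩ := S_Pq r₁ r₂ hq hr g₂ g₃ f₁
  obtain ⟨a₂, b₂⟩ := S_Pq r₃ r₄ hr hp g₃ g₁ f₂
  obtain ⟨a₃, b₃⟩ := S_Pq r₅ r₆ hp hq g₁ g₂ f₃
  rw [cC_rot] at l₂ a₂ b₂
  rw [← cC_rot] at l₃ a₃ b₃
  have t : ∀ N, FI (idl Λ {F * G, G * H, H * F}) N := fun N => hM.trans (FI.of_le le_top)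
  rw [s₁, s₂, s₃, ← S_mono o₁ l₁ (t _), ← S_mono o₂ l₂ (t _), ← S_mono o₃ l₃ (t _),
    ← S_add (o₁.mono l₁ (t _)) (o₂.mono l₂ (t _)),
    ← S_add ((o₁.mono l₁ (t _)).add' (o₂.mono l₂ (t _))) (o₃.mono l₃ (t _)),
    funext (Ps_sum r₁ r₂ r₃ r₄ r₅ r₆ hp hq hr), S_neg, S_add (a₁.add' a₂) a₃, S_add a₁ a₂,
    b₁, b₂, b₃, add_zero, add_zero, neg_zero]

end Crest.Agent.R312.CR
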