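import Crest.Agent.R312.Symbol

/-!
# Row 312: formal properties of the cubic Hilbert pairing `rho`
-/

set_option autoImplicit false

noncomputable section

namespace Crest.Agent.R312

open NumberField
open scoped ComplexConjugate

variable {E : Type} [Field E] [NumberField E] [Fr E]

private theorem rho_frac (x : E) : ∃ n d : R E, d ≠ 0 ∧ (n : E) = (d : E) * x := by
  obtain ⟨b, hb, h⟩ := exists_nat_mul_mem_RR x
  have hb0 : b ≠ 0 := by
    rintro rfl
    have := six_le_mm (E := E)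
    rw [Nat.coprime_zero_left] at hb
    omega
  exact ⟨⟨_, h⟩, (b : R E), Nat.cast_ne_zero.2 hb0, by simp⟩

private theorem rho_coe_ne {a : R E} : (a : E) ≠ 0 ↔ a ≠ 0 := by simp

theorem cl_spec {x : E} (hx : x ≠ 0) : cl x ≠ 0 ∧ ∃ y : E, y ≠ 0 ∧ (cl x : E) = x * y ^ 3 := by
  obtain ⟨n, d, hd, h⟩ := rho_frac x
  have h1 : ∃ y : E, y ≠ 0 ∧ (cl x : E) = x * y ^ 3 :=
    Classical.epsilon_spec (p := fun a : R E => ∃ y : E, y ≠ 0 ∧ (a : E) = x * y ^ 3)
      ⟨n * d ^ 2, d, rho_coe_ne.2 hd, by push_cast; rw [h]; ring⟩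
  refine ⟨?_, h1⟩
  obtain ⟨y, hy, e⟩ := h1
  exact rho_coe_ne.1 (e ▸ mul_ne_zero hx (pow_ne_zero _ hy))

private theorem rho_up_of {p a : R E} (hp : Prime p) (ha : a ≠ 0) (h : ¬ p ∣ a) :
    vp p a = 0 ∧ up p a = a := by
  have h0 := (vp_eq_zero_iff hp ha).2 h
  have h1 := (up_spec hp ha).1
  rw [h0, pow_zero, one_mul] at h1
  exact ⟨h0, h1.symm⟩

private theorem rho_up_mul {p a b : R E} (hp : Prime p) (ha : a ≠ 0) (hb : b ≠ 0) :
    up p (a * b) = up p a * up p b := by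
  have h1 := (up_spec hp ha).1
  have h2 := (up_spec hp hb).1
  have h3 := (up_spec hp (mul_ne_zero ha hb)).1
  rw [vp_mul hp ha hb] at h3
  refine mul_left_cancel₀ (pow_ne_zero (vp p a + vp p b) hp.ne_zero) ?_
  rw [← h3]
  linear_combination b * h1 + (p ^ vp p a * up p a) * h2

/-- The sum may be taken over any larger set of normalised primes. -/
theorem rho0_eq_sum {a b : R E} (ha : a ≠ 0) (hb : b ≠ 0) {s : Finset (R E)}
    (hs : ∀ p ∈ s, Nm p ∧ Prime p) (h : pf (a * b) ⊆ s) : rho0 a b =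
      ∑ p ∈ s, ((vp p b : ZMod 3) * ind p (up p a) - (vp p a : ZMod 3) * ind p (up p b)) := by
  refine Finset.sum_subset h fun p hp hn => ?_
  obtain ⟨h1, h2⟩ := hs p hp
  have h3 : ¬ p ∣ a * b := fun hd => hn ((mem_pf (mul_ne_zero ha hb)).2 ⟨h1, h2, hd⟩)
  rw [(vp_eq_zero_iff h2 ha).2 fun hd => h3 (hd.mul_right _),
    (vp_eq_zero_iff h2 hb).2 fun hd => h3 (hd.mul_left _)]
  simp
theorem rho0_swap (a b : R E) : rho0 a b = -rho0 b a := by
  unfold rho0
  rw [mul_comm b a, ← Finset.sum_neg_distrib]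
  exact Finset.sum_congr rfl fun p _ => by ring
theorem rho0_mul_left {a a' b : R E} (ha : a ≠ 0) (ha' : a' ≠ 0) (hb : b ≠ 0) :
    rho0 (a * a') b = rho0 a b + rho0 a' b := by
  have hs : ∀ p ∈ pf (a * a' * b), Nm p ∧ Prime p := fun p hp =>
    ⟨(of_mem_pf hp).1, (of_mem_pf hp).2.1⟩
  have h0 := mul_ne_zero (mul_ne_zero ha ha') hb
  rw [rho0_eq_sum ha hb hs (pf_subset_of_dvd ⟨a', by ring⟩ h0),
    rho0_eq_sum ha' hb hs (pf_subset_of_dvd ⟨a, by ring⟩ h0), ← Finset.sum_add_distrib]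
  refine Finset.sum_congr rfl fun p hp => ?_
  have hp' := (hs p hp).2
  rw [rho_up_mul hp' ha ha', ind_mul hp' (up_spec hp' ha).2 (up_spec hp' ha').2, vp_mul hp' ha ha']
  push_cast
  ring

private theorem rho_three (r : ZMod 3) : r + r + r = 0 := by
  revert r; decide

private theorem rho0_cube {a d b : R E} (ha : a ≠ 0) (hd : d ≠ 0) (hb : b ≠ 0) :
    rho0 (a * d ^ 3) b = rho0 a b := by
  rw [show a * d ^ 3 = a * (d * d * d) by ring,
    rho0_mul_left ha (mul_ne_zero (mul_ne_zero hd hd) hd) hb,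
    rho0_mul_left (mul_ne_zero hd hd) hd hb, rho0_mul_left hd hd hb, rho_three, add_zero]

private theorem rho0_congr {a a' b : R E} (ha : a ≠ 0) (hb : b ≠ 0) {y : E} (hy : y ≠ 0)
    (h : (a' : E) = a * y ^ 3) : rho0 a' b = rho0 a b := by
  obtain ⟨n, d, hd, e⟩ := rho_frac y
  have hn : n ≠ 0 := rho_coe_ne.1 (e ▸ mul_ne_zero (rho_coe_ne.2 hd) hy)
  have ha' : a' ≠ 0 := rho_coe_ne.1 (h ▸ mul_ne_zero (rho_coe_ne.2 ha) (pow_ne_zero _ hy))
  have e' : a' * d ^ 3 = a * n ^ 3 := Subtype.ext (by push_cast; rw [h, e]; ring)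
  rw [← rho0_cube ha' hd hb, e', rho0_cube ha hn hb]

/-- `rho` may be computed with any integral representative of the class modulo cubes -/
private theorem rho_eq {x y z : E} (hx : x ≠ 0) (hy : y ≠ 0) (hz : z ≠ 0) {a : R E}
    (h : (a : E) = x * z ^ 3) : rho x y = rho0 a (cl y) := by
  obtain ⟨h1, w, hw, e⟩ := cl_spec hx
  refine (rho0_congr h1 (cl_spec hy).1 (div_ne_zero hz hw) ?_).symm
  rw [h, e]
  field_simp

theorem rho_coe {a b : R E} (ha : a ≠ 0) (hb : b ≠ 0) : rho (a : E) (b : E) = rho0 a b := by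
  rw [rho_eq (rho_coe_ne.2 ha) (rho_coe_ne.2 hb) one_ne_zero (a := a) (by simp), rho0_swap,
    rho0_swap a b]
  obtain ⟨-, w, hw, e⟩ := cl_spec (rho_coe_ne.2 hb)
  rw [rho0_congr hb ha hw e]
theorem rho_swap (x y : E) : rho x y = -rho y x := rho0_swap _ _
theorem rho_self (x : E) : rho x x = 0 := by
  have h : ∀ r : ZMod 3, r = -r → r = 0 := by decide
  exact h _ (rho_swap x x)
theorem rho_mul_left {x x' y : E} (hx : x ≠ 0) (hx' : x' ≠ 0) (hy : y ≠ 0) :
    rho (x * x') y = rho x y + rho x' y := by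
  obtain ⟨h1, w, hw, e⟩ := cl_spec hx
  obtain ⟨h1', w', hw', e'⟩ := cl_spec hx'
  rw [rho_eq (mul_ne_zero hx hx') hy (mul_ne_zero hw hw') (a := cl x * cl x')
    (by push_cast; rw [e, e']; ring), rho0_mul_left h1 h1' (cl_spec hy).1]
  rfl
theorem rho_mul_right {x y y' : E} (hx : x ≠ 0) (hy : y ≠ 0) (hy' : y' ≠ 0) :
    rho x (y * y') = rho x y + rho x y' := by
  rw [rho_swap, rho_mul_left hy hy' hx, rho_swap x y, rho_swap x y', neg_add]
theorem rho_one_left {y : E} (hy : y ≠ 0) : rho 1 y = 0 := by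
  have := rho_mul_left (one_ne_zero (α := E)) one_ne_zero hy
  rw [mul_one] at this
  exact left_eq_add.1 this
theorem rho_one_right {x : E} (hx : x ≠ 0) : rho x 1 = 0 := by
  rw [rho_swap, rho_one_left hx, neg_zero]
theorem rho_pow_left {x y : E} (hx : x ≠ 0) (hy : y ≠ 0) (k : ℕ) :
    rho (x ^ k) y = k * rho x y := by
  induction k with
  | zero => simp [rho_one_left hy]
  | succ k ih =>
    rw [pow_succ, rho_mul_left (pow_ne_zero _ hx) hx hy, ih]
    push_cast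
    ring
theorem rho_pow_right {x y : E} (hx : x ≠ 0) (hy : y ≠ 0) (k : ℕ) :
    rho x (y ^ k) = k * rho x y := by
  rw [rho_swap, rho_pow_left hy hx, rho_swap x y, mul_neg]
theorem rho_inv_left {x y : E} (hx : x ≠ 0) (hy : y ≠ 0) : rho x⁻¹ y = -rho x y := by
  have := rho_mul_left (inv_ne_zero hx) hx hy
  rw [inv_mul_cancel₀ hx, rho_one_left hy] at this
  exact eq_neg_of_add_eq_zero_left this.symm
theorem rho_inv_right {x y : E} (hx : x ≠ 0) (hy : y ≠ 0) : rho x y⁻¹ = -rho x y := by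
  rw [rho_swap, rho_inv_left hy hx, rho_swap x y]
theorem rho_div_left {x x' y : E} (hx : x ≠ 0) (hx' : x' ≠ 0) (hy : y ≠ 0) :
    rho (x / x') y = rho x y - rho x' y := by
  rw [div_eq_mul_inv, rho_mul_left hx (inv_ne_zero hx') hy, rho_inv_left hx' hy, sub_eq_add_neg]
theorem rho_div_right {x y y' : E} (hx : x ≠ 0) (hy : y ≠ 0) (hy' : y' ≠ 0) :
    rho x (y / y') = rho x y - rho x y' := by
  rw [div_eq_mul_inv, rho_mul_right hx hy (inv_ne_zero hy'), rho_inv_right hx hy', sub_eq_add_neg]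
theorem rho_cube_left {x y : E} (hx : x ≠ 0) (hy : y ≠ 0) : rho (x ^ 3) y = 0 := by
  rw [rho_pow_left hx hy, show ((3 : ℕ) : ZMod 3) = 0 from rfl, zero_mul]
theorem rho_cube_right {x y : E} (hx : x ≠ 0) (hy : y ≠ 0) : rho x (y ^ 3) = 0 := by
  rw [rho_swap, rho_cube_left hy hx, neg_zero]
theorem rho_neg_left {x y : E} (hx : x ≠ 0) (hy : y ≠ 0) : rho (-x) y = rho x y := by
  have h1 : (-1 : E) ≠ 0 := neg_ne_zero.2 one_ne_zero
  rw [show -x = x * (-1) ^ 3 by ring, rho_mul_left hx (pow_ne_zero _ h1) hy, rho_cube_left h1 hy,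
    add_zero]
theorem rho_neg_right {x y : E} (hx : x ≠ 0) (hy : y ≠ 0) : rho x (-y) = rho x y := by
  rw [rho_swap, rho_neg_left hy hx, ← rho_swap]

private theorem rho0_add {a b : R E} (ha : a ≠ 0) (hb : b ≠ 0) (hc : a + b ≠ 0)
    (h : IsRelPrime a b) : rho0 a b = rho0 a (a + b) + rho0 (a + b) b := by
  have hs : ∀ p ∈ pf (a * b * (a + b)), Nm p ∧ Prime p := fun p hp =>
    ⟨(of_mem_pf hp).1, (of_mem_pf hp).2.1⟩
  have h0 := mul_ne_zero (mul_ne_zero ha hb) hc
  rw [rho0_eq_sum ha hb hs (pf_subset_of_dvd ⟨a + b, by ring⟩ h0),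
    rho0_eq_sum ha hc hs (pf_subset_of_dvd ⟨b, by ring⟩ h0),
    rho0_eq_sum hc hb hs (pf_subset_of_dvd ⟨a, by ring⟩ h0), ← Finset.sum_add_distrib]
  refine Finset.sum_congr rfl fun p hp => ?_
  have hp' := (hs p hp).2
  have hab : p ∣ a → p ∣ b → False := fun h1 h2 => hp'.not_isUnit (h h1 h2)
  by_cases h1 : p ∣ a
  · have h2 : ¬ p ∣ b := hab h1
    have h3 : ¬ p ∣ a + b := fun h3 => h2 ((dvd_add_right h1).1 h3)
    obtain ⟨e1, e2⟩ := rho_up_of hp' hb h2
    obtain ⟨e3, e4⟩ := rho_up_of hp' hc h3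
    rw [e1, e2, e3, e4, ind_congr (p := p) (a := a + b) (b := b) (by simpa using h1)]
    simp
  · obtain ⟨e1, e2⟩ := rho_up_of hp' ha h1
    by_cases h2 : p ∣ b
    · have h3 : ¬ p ∣ a + b := fun h3 => h1 ((dvd_add_left h2).1 h3)
      obtain ⟨e3, e4⟩ := rho_up_of hp' hc h3
      rw [e1, e2, e3, e4, ind_congr (p := p) (a := a + b) (b := a) (by simpa using h2)]
      simp
    · obtain ⟨e3, e4⟩ := rho_up_of hp' hb h2
      rw [e1, e2, e3, e4]
      by_cases h3 : p ∣ a + b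
      · have h4 : ¬ p ∣ (-1 : R E) := fun h4 => hp'.not_dvd_one (dvd_neg.1 h4)
        rw [ind_congr (p := p) (a := a) (b := -1 * b) (by simpa using h3), ind_mul hp' h4 h2,
          ind_neg_one hp']
        simp
      · rw [(rho_up_of hp' hc h3).1]
        simp

/-- For `a + b = c` in `R`: `rho a b = rho a c + rho c b`; divide by `gcd (a, b)`, then `a, b, c`
are pairwise coprime and each prime divides at most one of them. -/
theorem rho_add {x y : E} (hx : x ≠ 0) (hy : y ≠ 0) (h : x + y ≠ 0) :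
    rho x y = rho x (x + y) + rho (x + y) y := by
  obtain ⟨n, d, hd, e⟩ := rho_frac x
  obtain ⟨n', d', hd', e'⟩ := rho_frac y
  have hd0 := rho_coe_ne.2 hd
  have hd0' := rho_coe_ne.2 hd'
  have hn : n ≠ 0 := rho_coe_ne.1 (e ▸ mul_ne_zero hd0 hx)
  obtain ⟨a, b, c, hab, e1, e2⟩ :=
    UniqueFactorizationMonoid.exists_reduced_factors (n * d') (mul_ne_zero hn hd') (n' * d)
  have e1' := congrArg (fun t : R E => (t : E)) e1
  have e2' := congrArg (fun t : R E => (t : E)) e2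
  push_cast at e1' e2'
  obtain ⟨g, hgx, hgy⟩ : ∃ g : E, x = g * a ∧ y = g * b := by
    refine ⟨c / (d * d'), ?_, ?_⟩
    · rw [div_mul_eq_mul_div, e1', e]; field_simp
    · rw [div_mul_eq_mul_div, e2', e']; field_simp
  have hs : x + y = g * ((a + b : R E) : E) := by rw [hgx, hgy]; push_cast; ring
  rw [hs] at h ⊢
  rw [hgx] at hx ⊢
  rw [hgy] at hy ⊢
  have hg := left_ne_zero_of_mul hx
  have ha := right_ne_zero_of_mul hx
  have hb := right_ne_zero_of_mul hy
  have hc := right_ne_zero_of_mul h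
  have key := rho0_add (rho_coe_ne.1 ha) (rho_coe_ne.1 hb) (rho_coe_ne.1 hc) hab
  rw [← rho_coe (rho_coe_ne.1 ha) (rho_coe_ne.1 hb), ← rho_coe (rho_coe_ne.1 ha) (rho_coe_ne.1 hc),
    ← rho_coe (rho_coe_ne.1 hc) (rho_coe_ne.1 hb)] at key
  rw [rho_mul_left hg ha hy, rho_mul_left hg ha h, rho_mul_left hg hc hy, rho_mul_right hg hg hb,
    rho_mul_right ha hg hb, rho_mul_right hg hg hc, rho_mul_right ha hg hc, rho_mul_right hc hg hb,
    rho_self, key, rho_swap ((a + b : R E) : E) g]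
  ring
/-- The Steinberg relation. -/
theorem rho_steinberg {x : E} (hx : x ≠ 0) (hx' : x ≠ 1) : rho x (1 - x) = 0 := by
  have h1 : 1 - x ≠ 0 := sub_ne_zero.2 hx'.symm
  have h2 : x + (1 - x) = 1 := by ring
  rw [rho_add hx h1 (h2.trans_ne one_ne_zero), h2, rho_one_right hx, rho_one_left h1, add_zero]
/-- The formal reciprocity law. -/
theorem cub_recip {a b : R E} (ha : a ≠ 0) (hb : b ≠ 0) :
    cub b a = chi (rho (a : E) (b : E)) * cub a b := by
  classical
  by_cases h : IsCoprime a b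
  · rw [cub_eq_chi ha h, cub_eq_chi hb h.symm, ← chi_add, rho_coe ha hb]
    congr 1
    unfold rho0
    rw [pf_mul ha hb, Finset.sum_union (by convert disjoint_pf h)]
    have h1 : ∑ p ∈ pf a, ((vp p b : ZMod 3) * ind p (up p a) - (vp p a : ZMod 3) * ind p (up p b)) =
        -∑ p ∈ pf a, (vp p a : ZMod 3) * ind p b := by
      rw [← Finset.sum_neg_distrib]
      refine Finset.sum_congr rfl fun p hp => ?_
      obtain ⟨e1, e2⟩ := rho_up_of (of_mem_pf hp).2.1 hb ((isCoprime_iff_pf ha b).1 h p hp)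
      rw [e1, e2]
      simp
    have h2 : ∑ p ∈ pf b, ((vp p b : ZMod 3) * ind p (up p a) - (vp p a : ZMod 3) * ind p (up p b)) =
        ∑ p ∈ pf b, (vp p b : ZMod 3) * ind p a := by
      refine Finset.sum_congr rfl fun p hp => ?_
      obtain ⟨e1, e2⟩ := rho_up_of (of_mem_pf hp).2.1 ha ((isCoprime_iff_pf hb a).1 h.symm p hp)
      rw [e1, e2]
      simp
    rw [h1, h2]
    ring
  · rw [(cub_eq_zero_iff ha).2 h, (cub_eq_zero_iff hb).2 fun h' => h h'.symm, mul_zero]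
theorem cub_unit_right {u n : R E} (hu : IsUnit u) (hn : n ≠ 0) :
    cub n u = chi (rho (u : E) (n : E)) := by
  rw [cub_recip hu.ne_zero hn, cub_unit_left hu, mul_one]
theorem rho_unit_unit {u v : R E} (hu : IsUnit u) (hv : IsUnit v) : rho (u : E) (v : E) = 0 := by
  rw [rho_coe hu.ne_zero hv.ne_zero, rho0, pf_unit (hu.mul hv), Finset.sum_empty]

end Crest.Agent.R312
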