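import Crest.Agent.R312.CRc
import Crest.Agent.R312.Rho

/-!
# Row 312, cubic reciprocity: the pairing on finite dimensional spaces and algebras over `K`

`K` is a number field with a frame, `Λ = R K`.  Any two lattices are commensurable, hence the
commutator pairing does not depend on the lattice.
-/

set_option autoImplicit false

noncomputable section

namespace Crest.Agent.R312.CR

open NumberField

variable {K : Type} [Field K] [NumberField K] [Fr K]

instance : W3 (R K) := ⟨omR, omR_sq_add, isUnit_three⟩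

section Space

variable {V : Type} [AddCommGroup V] [Module K V]

/-- Lattices. -/
def IsLatt (L : Submodule (R K) V) : Prop := L.FG ∧ Submodule.span K (L : Set V) = ⊤

/-- A chosen lattice. -/
def L0 (K : Type) [Field K] [NumberField K] [Fr K] (V : Type) [AddCommGroup V] [Module K V] :
    Submodule (R K) V := Classical.epsilon IsLatt

/-- The pairing of two automorphisms. -/
def cV (a b : V ≃ₗ[K] V) : ZMod 3 :=
  cp (fr (L0 K V)) (a.restrictScalars (R K)) (b.restrictScalars (R K))

/-- The homothety. -/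
def sc (V : Type) [AddCommGroup V] [Module K V] (c : Kˣ) : V ≃ₗ[K] V := LinearEquiv.smulOfUnit c

/-! ## part A -/

theorem isLatt_L0 [Module.Finite K V] : IsLatt (L0 K V) := by
  obtain ⟨s, hs⟩ := Module.Finite.fg_top (R := K) (M := V)
  refine Classical.epsilon_spec (p := IsLatt) ⟨Submodule.span (R K) (s : Set V), ⟨s, rfl⟩, ?_⟩
  rw [Submodule.span_span_of_tower, hs]
theorem dA_fi {L L' : Submodule (R K) V} (h : L.FG) (h' : Submodule.span K (L' : Set V) = ⊤) :
    FI L' L := by
  refine Submodule.fg_induction (motive := fun N _ => FI L' N) (fun x => ?_)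
    (fun _ _ _ _ h1 h2 => h1.sup h2) L h
  obtain ⟨c, hc⟩ := multiple_mem_span_of_mem_localization_span (nonZeroDivisors (R K)) K
    (L' : Set V) x (h' ▸ Submodule.mem_top)
  rw [Submodule.span_eq] at hc
  have h1 : FI (Ideal.span {(c : R K)} : Submodule (R K) (R K)) ⊤ :=
    FI_top_iff.2 (finite_quot (nonZeroDivisors.coe_ne_zero c))
  have h2 := h1.map (LinearMap.toSpanSingleton (R K) V x)
  rw [Submodule.map_top, LinearMap.range_toSpanSingleton] at h2
  refine (FI.of_le ?_).trans h2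
  rintro _ ⟨y, hy, rfl⟩
  obtain ⟨z, rfl⟩ := Ideal.mem_span_singleton'.1 hy
  rw [LinearMap.toSpanSingleton_apply, mul_smul]
  exact L'.smul_mem _ hc
/-- `c L ≤ L'` for some `c ≠ 0` in `R K`, and `L / c L` is finite (`finite_quot`). -/
theorem IsLatt.com {L L' : Submodule (R K) V} (h : IsLatt L) (h' : IsLatt L') : Com L L' := by
  exact ⟨dA_fi h'.1 h.2, dA_fi h.1 h'.2⟩
theorem IsLatt.comap {V' : Type} [AddCommGroup V'] [Module K V'] (φ : V' ≃ₗ[K] V)
    {L : Submodule (R K) V} (h : IsLatt L) :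
    IsLatt (L.comap ((φ.restrictScalars (R K) : V' ≃ₗ[R K] V) : V' →ₗ[R K] V)) := by
  rw [Submodule.comap_equiv_eq_map_symm]
  refine ⟨h.1.map _, ?_⟩
  have : ((L.map ((φ.restrictScalars (R K) : V' ≃ₗ[R K] V).symm : V →ₗ[R K] V') :
      Submodule (R K) V') : Set V') = (φ.symm : V →ₗ[K] V') '' L := rfl
  rw [this, Submodule.span_image, h.2, Submodule.map_top, LinearEquiv.range]
theorem IsLatt.gd {L : Submodule (R K) V} (h : IsLatt L) (a : V ≃ₗ[K] V) :
    Gd L (a.restrictScalars (R K)) := by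
  exact h.com (h.comap a.symm)
theorem IsLatt.prod {V' : Type} [AddCommGroup V'] [Module K V'] {L : Submodule (R K) V}
    {L' : Submodule (R K) V'} (h : IsLatt L) (h' : IsLatt L') : IsLatt (L.prod L') := by
  refine ⟨h.1.prod h'.1, ?_⟩
  rw [Submodule.prod_coe, Submodule.span_prod_eq K L.zero_mem L'.zero_mem, h.2, h'.2,
    Submodule.prod_top]
theorem IsLatt.finite {L : Submodule (R K) V} (h : IsLatt L) : Module.Finite K V := by
  obtain ⟨⟨s, rfl⟩, h⟩ := h
  rw [Submodule.span_span_of_tower] at h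
  exact ⟨⟨s, h⟩⟩
theorem isLatt_fr [Module.Finite K V] : IsLatt (fr (L0 K V)).L := (fr_L (L0 K V)).symm ▸ isLatt_L0
theorem rs_mul (a b : V ≃ₗ[K] V) :
    (a * b).restrictScalars (R K) = a.restrictScalars (R K) * b.restrictScalars (R K) := rfl
theorem cV_eq {A : FL (R K) V} (h : IsLatt A.L) {a b : V ≃ₗ[K] V} (hab : a * b = b * a) :
    cV a b = cp A (a.restrictScalars (R K)) (b.restrictScalars (R K)) := by
  have := h.finite
  exact cp_indep (isLatt_fr.com h) (isLatt_fr.gd a) (isLatt_fr.gd b) (by rw [← rs_mul, hab, rs_mul])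
theorem cV_swap (a b : V ≃ₗ[K] V) : cV b a = -cV a b := by
  exact cp_swap _ _ _
theorem cV_mul_right [Module.Finite K V] {a b c : V ≃ₗ[K] V} (hab : a * b = b * a)
    (hac : a * c = c * a) : cV a (b * c) = cV a b + cV a c := by
  unfold cV
  rw [rs_mul]
  exact cp_mul_right (isLatt_fr.gd a) (isLatt_fr.gd b) (isLatt_fr.gd c)
    (by rw [← rs_mul, hab, rs_mul]) (by rw [← rs_mul, hac, rs_mul])
theorem cV_one_right [Module.Finite K V] (a : V ≃ₗ[K] V) : cV a 1 = 0 := by
  have := cV_mul_right (a := a) (b := 1) (c := 1) (by simp) (by simp)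
  rw [mul_one] at this
  linear_combination -this
theorem cV_map [Module.Finite K V] {V' : Type} [AddCommGroup V'] [Module K V'] (φ : V ≃ₗ[K] V')
    {a b : V ≃ₗ[K] V} {a' b' : V' ≃ₗ[K] V'} (hab : a * b = b * a) (h : ∀ v, a' (φ v) = φ (a v))
    (h' : ∀ v, b' (φ v) = φ (b v)) : cV a' b' = cV a b := by
  have hab' : a' * b' = b' * a' := by
    ext v
    obtain ⟨v, rfl⟩ := φ.surjective v
    simp only [LinearEquiv.mul_apply, h, h']
    rw [← LinearEquiv.mul_apply, hab, LinearEquiv.mul_apply]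
  rw [cV_eq (A := (fr (L0 K V)).map (φ.restrictScalars (R K))) (isLatt_fr.comap φ.symm) hab']
  exact cp_map _ (isLatt_fr.gd a) (isLatt_fr.gd b) h h'

/-! ## part B: the pairing with a homothety -/

omit [NumberField K] [Fr K] in
@[simp] theorem sc_apply (c : Kˣ) (v : V) : sc V c v = (c : K) • v := rfl
omit [NumberField K] [Fr K] in
theorem sc_comm (c : Kˣ) (g : V ≃ₗ[K] V) : sc V c * g = g * sc V c := by
  ext v; simp
omit [NumberField K] [Fr K] in
theorem sc_mul (c d : Kˣ) : sc V (c * d) = sc V c * sc V d := by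
  ext v
  simp only [sc_apply, LinearEquiv.mul_apply, Units.val_mul, mul_smul]
omit [NumberField K] [Fr K] in
theorem sc_one : sc V (1 : Kˣ) = 1 := by
  ext v; simp
theorem cV_sc_mul [Module.Finite K V] (c : Kˣ) (g h : V ≃ₗ[K] V) :
    cV (sc V c) (g * h) = cV (sc V c) g + cV (sc V c) h :=
  cV_mul_right (sc_comm _ _) (sc_comm _ _)

/-- `c = (c, 1)(1, c)`; `cp_prod_left`, `cp_prod_cross`. -/
theorem cV_sc_prod [Module.Finite K V] {V' : Type} [AddCommGroup V'] [Module K V']
    [Module.Finite K V'] (c : Kˣ) (g : V ≃ₗ[K] V) :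
    cV (sc (V × V') c) (g.prodCongr 1) = cV (sc V c) g := by
  have e : sc (V × V') c = (sc V c).prodCongr 1 * (1 : V ≃ₗ[K] V).prodCongr (sc V' c) := by
    ext v <;> simp
  have l : IsLatt ((fr (L0 K V)).prod (fr (L0 K V'))).L := isLatt_fr.prod isLatt_fr
  have c1 : g.prodCongr (1 : V' ≃ₗ[K] V') * (sc V c).prodCongr 1 =
      (sc V c).prodCongr 1 * g.prodCongr 1 := by ext v <;> simp
  have c2 : g.prodCongr (1 : V' ≃ₗ[K] V') * (1 : V ≃ₗ[K] V).prodCongr (sc V' c) =
      (1 : V ≃ₗ[K] V).prodCongr (sc V' c) * g.prodCongr 1 := by ext v <;> simp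
  rw [cV_swap, e, cV_mul_right c1 c2, cV_eq l c1, cV_eq l c2, cV_swap g]
  have h1 := cp_prod_left (fr (L0 K V')) (isLatt_fr.gd g) (isLatt_fr.gd (sc V c))
    (by rw [← rs_mul, ← sc_comm, rs_mul])
  have h2 := cp_prod_cross (isLatt_fr.gd g) (isLatt_fr.gd (sc V' c))
  congr 1
  exact (congrArg₂ (· + ·) h1 h2).trans (add_zero _)
theorem dB_diag {n : ℕ} (c : Kˣ) (D : Fin n → Kˣ) :
    cV (sc (Fin n → K) c) (LinearEquiv.piCongrRight fun i => sc K (D i)) =
      cV (sc K c) (sc K (∏ i, D i)) := by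
  classical
  refine Pi.mulSingle_induction (fun D : Fin n → Kˣ =>
    cV (sc (Fin n → K) c) (LinearEquiv.piCongrRight fun i => sc K (D i)) =
      cV (sc K c) (sc K (∏ i, D i))) D ?_ (fun D D' h h' => ?_) fun i d => ?_
  · have : (LinearEquiv.piCongrRight fun i : Fin n => sc K ((1 : Fin n → Kˣ) i)) = 1 := by
      ext v i; simp
    rw [this, cV_one_right]
    simp only [Pi.one_apply, Finset.prod_const_one, sc_one, cV_one_right]
  · have : (LinearEquiv.piCongrRight fun i : Fin n => sc K ((D * D') i)) =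
        (LinearEquiv.piCongrRight fun i => sc K (D i)) *
          LinearEquiv.piCongrRight fun i => sc K (D' i) := by
      ext v i; simp [mul_assoc]
    rw [this, cV_sc_mul, h, h', ← cV_sc_mul, ← sc_mul, ← Finset.prod_mul_distrib]
    rfl
  · let φ : (Fin n → K) ≃ₗ[K] K × ({j // j ≠ i} → K) :=
      { Equiv.funSplitAt i K with map_add' := fun _ _ => rfl, map_smul' := fun _ _ => rfl }
    rw [Finset.prod_pi_mulSingle' , if_pos (Finset.mem_univ _),
      ← cV_sc_prod (V' := {j // j ≠ i} → K) c (sc K d)]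
    refine (cV_map φ (sc_comm _ _) (fun v => by simp) fun v => ?_).symm
    ext j
    · simp [φ]
    · simp [φ, Pi.mulSingle_eq_of_ne j.2]

theorem dB_mat {n : ℕ} (c : Kˣ) (M : Matrix (Fin n) (Fin n) K) (hM : M.det ≠ 0) :
    ∀ g : (Fin n → K) ≃ₗ[K] (Fin n → K), (g : (Fin n → K) →ₗ[K] (Fin n → K)) = Matrix.toLin' M →
      cV (sc (Fin n → K) c) g = cV (sc K c) (sc K (LinearEquiv.det g)) := by
  have ex : ∀ A : Matrix (Fin n) (Fin n) K, A.det ≠ 0 → ∃ g : (Fin n → K) ≃ₗ[K] (Fin n → K),
      (g : (Fin n → K) →ₗ[K] (Fin n → K)) = Matrix.toLin' A := fun A hA =>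
    ⟨A.toLinearEquiv' (A.invertibleOfIsUnitDet hA.isUnit), rfl⟩
  refine Matrix.diagonal_transvection_induction_of_det_ne_zero (fun M => ∀ g :
    (Fin n → K) ≃ₗ[K] (Fin n → K), (g : (Fin n → K) →ₗ[K] (Fin n → K)) = Matrix.toLin' M →
      cV (sc (Fin n → K) c) g = cV (sc K c) (sc K (LinearEquiv.det g))) M hM (fun D hD g hg => ?_)
      (fun t g hg => ?_) fun A B hA hB h h' g hg => ?_
  · rw [Matrix.det_diagonal, Finset.prod_ne_zero_iff] at hD
    have e1 : g = LinearEquiv.piCongrRight fun i => sc K (Units.mk0 (D i) (hD i (by simp))) := by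
      ext v i
      have := congrFun (LinearMap.congr_fun hg v) i
      simpa [Matrix.mulVec_diagonal] using this
    have e2 : LinearEquiv.det g = ∏ i, Units.mk0 (D i) (hD i (by simp)) := by
      ext
      rw [LinearEquiv.coe_det, hg, LinearMap.det_toLin', Matrix.det_diagonal]
      simp
    rw [e2, e1, dB_diag]
  · obtain ⟨h, hh⟩ := ex (Matrix.transvection t.i t.j (t.c / 3))
      (by rw [Matrix.det_transvection_of_ne _ _ t.hij]; exact one_ne_zero)
    have e1 : g = h * (h * h) := by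
      apply LinearEquiv.toLinearMap_injective
      rw [hg, LinearEquiv.coe_toLinearMap_mul, LinearEquiv.coe_toLinearMap_mul, hh,
        Module.End.mul_eq_comp, Module.End.mul_eq_comp, ← Matrix.toLin'_mul, ← Matrix.toLin'_mul,
        Matrix.transvection_mul_transvection_same _ _ t.hij,
        Matrix.transvection_mul_transvection_same _ _ t.hij]
      congr 1
      rw [show t.c / 3 + (t.c / 3 + t.c / 3) = t.c by ring]
      rfl
    have e2 : LinearEquiv.det g = 1 := by
      ext
      rw [LinearEquiv.coe_det, hg, LinearMap.det_toLin', Matrix.TransvectionStruct.det]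
      rfl
    rw [e2, sc_one, cV_one_right, e1, cV_sc_mul, cV_sc_mul]
    have h3 : (3 : ZMod 3) = 0 := rfl
    linear_combination cV (sc (Fin n → K) c) h * h3
  · obtain ⟨a, ha⟩ := ex A hA
    obtain ⟨b, hb⟩ := ex B hB
    have e1 : g = a * b := by
      apply LinearEquiv.toLinearMap_injective
      rw [hg, LinearEquiv.coe_toLinearMap_mul, ha, hb, Module.End.mul_eq_comp, ← Matrix.toLin'_mul]
    rw [e1, cV_sc_mul, h a ha, h' b hb, map_mul, sc_mul, cV_sc_mul]

/-- `g ↦ cV (sc c) g` is a homomorphism `GL(V) → ℤ/3`; transport to `Fin n → K`; transvections are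
cubes; a diagonal matrix is a product of matrices with one entry `≠ 1`, for which `cV_map` and
`cV_sc_prod` apply (`Matrix.diagonal_transvection_induction_of_det_ne_zero`). -/
theorem cV_sc [Module.Finite K V] (c : Kˣ) (g : V ≃ₗ[K] V) :
    cV (sc V c) g = cV (sc K c) (sc K (LinearEquiv.det g)) := by
  let φ := (Module.finBasis K V).equivFun
  let g' := (φ.symm.trans g).trans φ
  rw [← cV_map φ (a' := sc _ c) (b' := g') (sc_comm c g) (fun v => by simp) fun v => by simp [g'],
    dB_mat c (LinearMap.toMatrix' (g' : _ →ₗ[K] _)) ?_ g' (by rw [Matrix.toLin'_toMatrix']),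
    LinearEquiv.det_conj]
  rw [LinearMap.det_toMatrix', ← LinearEquiv.coe_det]
  exact Units.ne_zero _

end Space

section Alg

variable {B : Type} [CommRing B] [Algebra K B]

/-- The pairing on a commutative algebra (zero unless both arguments are units). -/
def cB (K : Type) [Field K] [NumberField K] [Fr K] {B : Type} [CommRing B] [Algebra K B]
    (a b : B) : ZMod 3 := cu (L0 K B) a b

/-! ## part C -/

theorem cB_units (a b : Bˣ) : cB K (a : B) (b : B) = cV (mE K a) (mE K b) := by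
  exact cu_units _ a b
theorem cu_of_not {Λ : Type} [CommRing Λ] [W3 Λ] {B : Type} [CommRing B] [Algebra Λ B]
    (L : Submodule Λ B) {a b : B} (h : ¬ (IsUnit a ∧ IsUnit b)) : cu L a b = 0 := dif_neg h
theorem cB_eq_cu {L : Submodule (R K) B} (h : IsLatt L) (a b : B) : cB K a b = cu L a b := by
  by_cases hu : IsUnit a ∧ IsUnit b
  · obtain ⟨⟨a, rfl⟩, ⟨b, rfl⟩⟩ := hu
    rw [cB_units, cu_units, cV_eq (A := fr L) ((fr_L L).symm ▸ h) (mE_comm a b)]
    rfl
  · rw [cB, cu_of_not _ hu, cu_of_not _ hu]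
theorem cB_swap (a b : B) : cB K b a = -cB K a b := by
  exact cu_swap _ _ _
theorem cB_self (a : B) : cB K a a = 0 := by
  exact cu_self _ _
theorem cB_subsingleton [Subsingleton B] (a b : B) : cB K a b = 0 := by
  rw [Subsingleton.elim b a, cB_self]
theorem cB_mul_right [Module.Finite K B] {a b c : B} (ha : IsUnit a) (hb : IsUnit b)
    (hc : IsUnit c) : cB K a (b * c) = cB K a b + cB K a c := by
  obtain ⟨a, rfl⟩ := ha
  obtain ⟨b, rfl⟩ := hb
  obtain ⟨c, rfl⟩ := hc
  have e : ∀ u v : Bˣ, mE K (u * v) = mE K u * mE K v := fun u v => by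
    ext x; simp [mul_assoc]
  have e' : ∀ u v : Bˣ, mE K u * mE K v = mE K v * mE K u := fun u v => by
    rw [← e, mul_comm, e]
  rw [← Units.val_mul, cB_units, cB_units, cB_units, e, cV_mul_right (e' _ _) (e' _ _)]
theorem cB_mul_left [Module.Finite K B] {a b c : B} (ha : IsUnit a) (hb : IsUnit b)
    (hc : IsUnit c) : cB K (a * b) c = cB K a c + cB K b c := by
  rw [cB_swap c, cB_mul_right hc ha hb, cB_swap c a, cB_swap c b]; ring
theorem cB_one_right [Module.Finite K B] (a : B) : cB K a 1 = 0 := by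
  by_cases ha : IsUnit a
  · have := cB_mul_right (K := K) ha isUnit_one isUnit_one
    rw [mul_one] at this
    linear_combination -this
  · exact cu_of_not _ fun h => ha h.1
theorem cB_cube_mul_left [Module.Finite K B] {t : B} (ht : IsUnit t) (a b : B) :
    cB K (t ^ 3 * a) b = cB K a b := by
  by_cases hu : IsUnit a ∧ IsUnit b
  · rw [cB_mul_left (ht.pow 3) hu.1 hu.2, show t ^ 3 = t * (t * t) by ring,
      cB_mul_left ht (ht.mul ht) hu.2, cB_mul_left ht ht hu.2]
    have h3 : (3 : ZMod 3) = 0 := rfl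
    linear_combination cB K t b * h3
  · rw [cB, cB, cu_of_not _ hu, cu_of_not _ fun h => hu ⟨isUnit_of_mul_isUnit_right h.1, h.2⟩]
theorem cB_cube_mul_right [Module.Finite K B] {t : B} (ht : IsUnit t) (a b : B) :
    cB K a (t ^ 3 * b) = cB K a b := by
  rw [cB_swap, cB_cube_mul_left ht, ← cB_swap]
theorem cB_map [Module.Finite K B] {B' : Type} [CommRing B'] [Algebra K B'] (φ : B ≃ₐ[K] B')
    (a b : B) : cB K (φ a) (φ b) = cB K a b := by
  by_cases hu : IsUnit a ∧ IsUnit b
  · obtain ⟨⟨a, rfl⟩, ⟨b, rfl⟩⟩ := hu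
    have e : ∀ u : Bˣ, φ u = (Units.map (φ : B →* B') u : B'ˣ) := fun _ => rfl
    rw [e, e, cB_units, cB_units]
    refine cV_map φ.toLinearEquiv ?_ (fun v => by simp) fun v => by simp
    ext x; simp [mul_left_comm]
  · rw [cB, cB, cu_of_not _ hu, cu_of_not _ fun h => hu ⟨by simpa using h.1, by simpa using h.2⟩]
omit [NumberField K] [Fr K] in
theorem isUnit_iff_norm [Module.Finite K B] {b : B} : IsUnit b ↔ Algebra.norm K b ≠ 0 := by
  rw [Algebra.norm_apply, ← isUnit_iff_ne_zero, ← LinearMap.isUnit_iff_isUnit_det,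
    Algebra.lmul_isUnit_iff]
/-- The projection formula. -/
theorem cB_scalar [Module.Finite K B] {c : K} (hc : c ≠ 0) {b : B} (hb : IsUnit b) :
    cB K (algebraMap K B c) b = cB K c (Algebra.norm K b) := by
  obtain ⟨b, rfl⟩ := hb
  obtain ⟨c, rfl⟩ := hc.isUnit
  have e1 : algebraMap K B c = (Units.map (algebraMap K B : K →* B) c : Bˣ) := rfl
  have e2 : Algebra.norm K (b : B) = (LinearEquiv.det (mE K b) : Kˣ) := by
    rw [LinearEquiv.coe_det, Algebra.norm_apply]; rfl
  have e3 : mE K (Units.map (algebraMap K B : K →* B) c) = sc B c := by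
    ext x; simp [Algebra.smul_def]
  have e4 : ∀ d : Kˣ, mE K d = sc K d := fun d => by ext; simp
  rw [e1, e2, cB_units, cB_units, e3, e4 c, e4 (LinearEquiv.det _), cV_sc]

end Alg

/-! ## part D: comparison with `rho` -/

/-- Compatible frames. -/
structure Ov (K E : Type) [Field K] [NumberField K] [Fr K] [Field E] [NumberField E] [Fr E]
    [Algebra K E] : Prop where
  hm : mm E = mm K
  hom : algebraMap K E om = om

theorem Ov.refl : Ov K K := ⟨rfl, rfl⟩

variable {E : Type} [Field E] [NumberField E] [Fr E] [Algebra K E]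

omit [NumberField K] [Fr K] [NumberField E] [Fr E] in
theorem dD_int {x : K} (hx : IsIntegral ℤ x) : IsIntegral ℤ (algebraMap K E x) :=
  hx.map (algebraMap K E).toIntAlgHom
theorem Ov.mem_RR (h : Ov K E) {x : K} (hx : x ∈ RR K) : algebraMap K E x ∈ RR E := by
  obtain ⟨k, hk⟩ := hx
  refine ⟨k, ?_⟩
  have := dD_int (E := E) hk
  rwa [map_mul, map_pow, map_natCast, ← h.hm] at this
theorem Ov.mem_OS (h : Ov K E) {x : K} (hx : x ∈ OS K) : algebraMap K E x ∈ OS E := by
  obtain ⟨k, hk, hk'⟩ := hx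
  refine ⟨k, h.hm ▸ hk, ?_⟩
  have := dD_int (E := E) hk'
  rwa [map_mul, map_natCast] at this

/-- `R E` as an algebra over `R K`. -/
@[reducible] def Ov.alg (h : Ov K E) : Algebra (R K) (R E) :=
  (((algebraMap K E).comp (RR K).subtype).codRestrict (RR E) fun x => h.mem_RR x.2).toAlgebra

/-- The inclusion. -/
def Ov.inc (h : Ov K E) : letI := h.alg; R E →ₐ[R K] E :=
  letI := h.alg
  { (RR E).subtype with commutes' := fun _ => rfl }

/-- `R E` is spanned by an integral basis of `𝓞 E`. -/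
theorem Ov.isLatt (h : Ov K E) :
    letI := h.alg; IsLatt (K := K) (LinearMap.range h.inc.toLinearMap) := by
  letI := h.alg
  classical
  have mem : ∀ x : E, x ∈ LinearMap.range h.inc.toLinearMap ↔ x ∈ RR E := fun x =>
    ⟨fun ⟨y, hy⟩ => hy ▸ y.2, fun hx => ⟨⟨x, hx⟩, rfl⟩⟩
  constructor
  · obtain ⟨s, hs⟩ := Module.Finite.fg_top (R := ℤ) (M := 𝓞 E)
    refine ⟨s.image (algebraMap (𝓞 E) E), le_antisymm (Submodule.span_le.2 fun x hx => ?_)
      fun x hx => ?_⟩
    · obtain ⟨y, -, rfl⟩ := Finset.mem_image.1 hx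
      exact (mem _).2 (mem_RR_of_isIntegral y.isIntegral_coe)
    · obtain ⟨k, hk⟩ := (mem x).1 hx
      have key : ∀ y : 𝓞 E, y ∈ Submodule.span ℤ (s : Set (𝓞 E)) → (y : E) ∈
          Submodule.span (R K) ((s.image (algebraMap (𝓞 E) E) : Finset E) : Set E) := fun y hy => by
        induction hy using Submodule.span_induction with
        | mem y hy => exact Submodule.subset_span (Finset.mem_coe.2 (Finset.mem_image_of_mem _ hy))
        | zero => exact zero_mem _
        | add y z _ _ h1 h2 => exact add_mem h1 h2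
        | smul n y _ h1 =>
          have : ((n • y : 𝓞 E) : E) = n • (y : E) := map_zsmul (algebraMap (𝓞 E) E) n y
          rw [this]
          exact zsmul_mem h1 n
      have h1 := Submodule.smul_mem _ ((⟨_, mm_inv_mem⟩ : R K) ^ k)
        (key ⟨_, hk⟩ (hs ▸ Submodule.mem_top))
      convert h1 using 1
      show x = ((mm K : K)⁻¹ ^ k) • ((mm E : E) ^ k * x)
      rw [Algebra.smul_def, map_pow, map_inv₀, map_natCast, ← h.hm, inv_pow,
        inv_mul_cancel_left₀ (pow_ne_zero _ mm_ne_zero)]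
  · rw [eq_top_iff]
    intro x _
    obtain ⟨b, hb, hb'⟩ := exists_nat_mul_mem_RR x
    have hb0 : b ≠ 0 := by
      rintro rfl
      have := six_le_mm (E := E)
      rw [Nat.coprime_zero_left] at hb
      omega
    have h1 := Submodule.smul_mem _ ((b : K)⁻¹) (Submodule.subset_span (R := K) ((mem _).2 hb'))
    rwa [Algebra.smul_def, map_inv₀, map_natCast,
      inv_mul_cancel_left₀ (Nat.cast_ne_zero.2 hb0)] at h1
theorem Ov.zol_eq (h : Ov K E) {p a : R E} (hp : Prime p) (ha : ¬ p ∣ a) :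
    letI := h.alg; zol (R K) p a = ind p a := by
  letI := h.alg
  have e : algebraMap (R K) (R E) w = omR := Subtype.ext h.hom
  rw [zol_prime (Λ := R K) hp (finite_quot hp.ne_zero) ha (k := (ind p a).val)
    (e ▸ ind_spec hp ha), ZMod.natCast_zmod_val]
theorem Ov.cB_cop (h : Ov K E) {a b : R E} (ha : IsUnit a ∨ Prime a) (hb : IsUnit b ∨ Prime b)
    (hab : IsCoprime a b) : cB K (a : E) (b : E) = rho (a : E) (b : E) := by
  letI := h.alg
  have key : ∀ {a b : R E}, IsUnit a ∨ Prime a → IsCoprime a b → cub a b = chi (zol (R K) a b) := by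
    rintro a b (ha | ha) hab
    · rw [cub_unit_left ha, zol_unit ha, chi_zero]
    · have := ha.coprime_iff_not_dvd.1 hab
      rw [cub_prime ha, h.zol_eq ha this, cub1_eq_chi ha this]
  have ne : ∀ {a : R E}, IsUnit a ∨ Prime a → a ≠ 0 := fun ha =>
    ha.elim IsUnit.ne_zero Prime.ne_zero
  have ne' : ∀ {a : R E}, a ≠ 0 → IsUnit (h.inc a) := fun ha =>
    Ne.isUnit fun h' => ha (Subtype.ext h')
  have h1 := cu_coprime h.inc Subtype.val_injective hab (ne' (ne ha)) (ne' (ne hb))
    (finite_quot (ne ha)) (finite_quot (ne hb))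
  have h2 := cub_recip (ne ha) (ne hb)
  rw [key ha hab, key hb hab.symm, ← chi_add] at h2
  rw [cB_eq_cu h.isLatt]
  refine h1.trans ?_
  rw [chi_injective h2]; ring

theorem Ov.cB_R (h : Ov K E) {a b : R E} (ha : a ≠ 0) (hb : b ≠ 0) :
    cB K (a : E) (b : E) = rho (a : E) (b : E) := by
  have ne : ∀ {a : R E}, a ≠ 0 → (a : E) ≠ 0 := fun ha h' => ha (Subtype.ext h')
  have h1 : ∀ {a b : R E}, IsUnit a ∨ Prime a → IsUnit b ∨ Prime b →
      cB K (a : E) (b : E) = rho (a : E) (b : E) := by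
    intro a b ha hb
    by_cases hab : IsCoprime a b
    · exact h.cB_cop ha hb hab
    have ha' : Prime a := ha.resolve_left fun h => hab ((isCoprime_one_left.mul_left
      isCoprime_one_left).of_isCoprime_of_dvd_left (by simpa using h.dvd))
    have hb' : Prime b := hb.resolve_left fun h => hab
      (isCoprime_one_right.of_isCoprime_of_dvd_right h.dvd)
    obtain ⟨u, rfl⟩ := ha'.associated_of_dvd hb' (by
      by_contra h'; exact hab (ha'.coprime_iff_not_dvd.2 h'))
    push_cast
    rw [cB_mul_right (ne ha'.ne_zero).isUnit (ne ha'.ne_zero).isUnit (ne u.ne_zero).isUnit,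
      rho_mul_right (ne ha'.ne_zero) (ne ha'.ne_zero) (ne u.ne_zero), cB_self, rho_self,
      h.cB_cop ha (Or.inl u.isUnit) (isCoprime_one_right.of_isCoprime_of_dvd_right u.isUnit.dvd)]
  have h2 : ∀ {a : R E}, IsUnit a ∨ Prime a → cB K (a : E) (b : E) = rho (a : E) (b : E) := by
    intro a ha
    have ha0 : a ≠ 0 := ha.elim IsUnit.ne_zero Prime.ne_zero
    refine ne_zero_induction (P := fun b => cB K (a : E) (b : E) = rho (a : E) (b : E))
      (fun u hu => h1 ha (Or.inl hu)) (fun p n hp _ hn ih => ?_) hb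
    push_cast
    rw [cB_mul_right (ne ha0).isUnit (ne hp.ne_zero).isUnit (ne hn).isUnit,
      rho_mul_right (ne ha0) (ne hp.ne_zero) (ne hn), ih, h1 ha (Or.inr hp)]
  refine ne_zero_induction (P := fun a => cB K (a : E) (b : E) = rho (a : E) (b : E))
    (fun u hu => h2 (Or.inl hu)) (fun p n hp _ hn ih => ?_) ha
  push_cast
  rw [cB_mul_left (ne hp.ne_zero).isUnit (ne hn).isUnit (ne hb).isUnit,
    rho_mul_left (ne hp.ne_zero) (ne hn) (ne hb), ih, h2 (Or.inr hp)]

/-- Both sides are bimultiplicative and alternating; it suffices to treat two elements of `R E`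
which are units or primes: `cu_coprime`, `zol_unit`, `Ov.zol_eq` on the left, `rho_unit_unit`,
`cub_recip`, `cub_eq_chi`, `chi_injective` on the right. -/
theorem Ov.cB_eq_rho (h : Ov K E) {a b : E} (ha : a ≠ 0) (hb : b ≠ 0) : cB K a b = rho a b := by
  have key : ∀ {x : E}, x ≠ 0 → ∃ (c : R E) (y : E), c ≠ 0 ∧ y ≠ 0 ∧ x = y ^ 3 * c := by
    intro x hx
    obtain ⟨h1, y, hy, h2⟩ := cl_spec hx
    exact ⟨cl x, y⁻¹, h1, inv_ne_zero hy, by rw [h2]; field_simp⟩
  obtain ⟨c, y, hc, hy, rfl⟩ := key ha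
  obtain ⟨d, z, hd, hz, rfl⟩ := key hb
  have ne : ∀ {a : R E}, a ≠ 0 → (a : E) ≠ 0 := fun ha h' => ha (Subtype.ext h')
  rw [cB_cube_mul_left hy.isUnit, cB_cube_mul_right hz.isUnit, h.cB_R hc hd,
    rho_mul_left (pow_ne_zero _ hy) (ne hc) hb, rho_cube_left hy hb,
    rho_mul_right (ne hc) (pow_ne_zero _ hz) (ne hd), rho_cube_right (ne hc) hz, zero_add, zero_add]

end Crest.Agent.R312.CR
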