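import Crest.Agent.R312.Gauss
import Crest.Agent.R17.Gauss

/-!
# Row 312: the cube of the cubic Gauss sum (Stickelberger)

`R17.O = ℤ[ω]` is mapped to `R` by `kO`.  The relative norm `Nk x = ∏ σ x` of an `S`-integer lies in
`ℤ[ω][1/m]`.
-/

set_option autoImplicit false

noncomputable section

namespace Crest.Agent.R312

open NumberField
open scoped ComplexConjugate

variable {E : Type} [Field E] [NumberField E] [Fr E]

/-- The homomorphism `ℤ[ω] → R`. -/
def kO : R17.O →+* R E where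
  toFun z := (z.re : R E) + (z.im : R E) * omR
  map_one' := by simp [QuadraticAlgebra.re_one, QuadraticAlgebra.im_one]
  map_mul' z w := by
    simp only [QuadraticAlgebra.re_mul, QuadraticAlgebra.im_mul]
    push_cast
    linear_combination (-(z.im : R E) * w.im) * omR_sq_add (E := E)
  map_zero' := by simp
  map_add' z w := by
    simp only [QuadraticAlgebra.re_add, QuadraticAlgebra.im_add]; push_cast; ring

theorem gcA_coe_kO (z : R17.O) : ((kO z : R E) : E) = (z.re : E) + (z.im : E) * om := by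
  show (((z.re : R E) + (z.im : R E) * omR : R E) : E) = _
  push_cast
  rfl

theorem Pl.kO (σ : Pl E) (z : R17.O) : σ.1 ((kO z : R E) : E) = R17.ι z := by
  rw [gcA_coe_kO, map_add, map_mul, map_intCast, map_intCast, σ.2]
  rfl
theorem isIntegral_kO (z : R17.O) : IsIntegral ℤ ((kO z : R E) : E) := by
  rw [gcA_coe_kO]
  exact (isIntegral_algebraMap (x := z.re)).add ((isIntegral_algebraMap (x := z.im)).mul isIntegral_om)

/-- The relative norm. -/
def Nk (x : E) : ℂ := ∏ σ : Pl E, σ.1 x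

/-- An integral element of `ℚ(ω)` is in `ℤ[ω]`. -/
theorem gcA_of_frac (s : FractionRing R17.O)
    (hs : IsIntegral ℤ (IsFractionRing.lift (K := FractionRing R17.O) R17.ι_injective s)) :
    ∃ z : R17.O, IsFractionRing.lift (K := FractionRing R17.O) R17.ι_injective s = R17.ι z := by
  obtain ⟨p, hp, e⟩ := hs
  have h1 : IsIntegral R17.O s := ⟨p.map (Int.castRingHom _), hp.map _,
    (IsFractionRing.lift (K := FractionRing R17.O) R17.ι_injective).injective (by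
      rw [Polynomial.hom_eval₂, Polynomial.eval₂_map, map_zero, ← e]
      congr 1
      exact RingHom.ext_int _ _)⟩
  obtain ⟨z, rfl⟩ := IsIntegrallyClosed.algebraMap_eq_of_integral h1
  exact ⟨z, IsFractionRing.lift_algebraMap _ _⟩

theorem gcA_of_mul {t : ℂ} (ht : IsIntegral ℤ t) {b w : R17.O} (hb : b ≠ 0)
    (h : R17.ι w = R17.ι b * t) : ∃ z : R17.O, t = R17.ι z := by
  have hb' : R17.ι b ≠ 0 := (map_ne_zero_iff _ R17.ι_injective).2 hb
  have e : IsFractionRing.lift (K := FractionRing R17.O) R17.ι_injective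
      (algebraMap _ _ w / algebraMap _ _ b) = t := by
    rw [map_div₀, IsFractionRing.lift_algebraMap, IsFractionRing.lift_algebraMap, h,
      mul_div_cancel_left₀ _ hb']
  rw [← e] at ht ⊢
  exact gcA_of_frac _ ht

theorem gcA_Nk_frac (x : E) : ∃ s : FractionRing R17.O,
    Nk x = IsFractionRing.lift (K := FractionRing R17.O) R17.ι_injective s := by
  obtain ⟨σ₀⟩ : Nonempty (Pl E) := inferInstance
  set K := FractionRing R17.O
  let κ : R17.O →+* E := (RR E).subtype.comp kO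
  have hκ : ∀ (σ : Pl E) z, σ.1 (κ z) = R17.ι z := fun σ z => σ.kO z
  have hinj : Function.Injective κ := fun z w h =>
    R17.ι_injective (by rw [← hκ σ₀, ← hκ σ₀, h])
  let _ : Algebra K E := (IsFractionRing.lift (K := K) hinj).toAlgebra
  let _ : Algebra K ℂ := (IsFractionRing.lift (K := K) R17.ι_injective).toAlgebra
  have hE : ∀ z, algebraMap K E (algebraMap R17.O K z) = κ z :=
    fun z => IsFractionRing.lift_algebraMap _ _
  have hC : ∀ z, algebraMap K ℂ (algebraMap R17.O K z) = R17.ι z :=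
    fun z => IsFractionRing.lift_algebraMap _ _
  have : CharZero K := (algebraMap K ℂ).charZero
  have : IsScalarTower ℚ K E := IsScalarTower.of_algebraMap_eq' (Subsingleton.elim _ _)
  have : FiniteDimensional K E := Module.Finite.of_restrictScalars_finite ℚ K E
  have hom : κ R17.om = om := by
    show ((kO R17.om : R E) : E) = om
    rw [gcA_coe_kO]; simp [R17.om]
  let e : (E →ₐ[K] ℂ) ≃ Pl E :=
    { toFun := fun σ => ⟨σ.toRingHom, by
        rw [← hom, ← hE, ← R17.ι_om, ← hC]; exact σ.commutes _⟩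
      invFun := fun σ =>
        { σ.1 with
          commutes' := fun r => by
            have : σ.1.comp (algebraMap K E) = algebraMap K ℂ :=
              IsFractionRing.ringHom_ext (A := R17.O) fun z => by
                rw [RingHom.comp_apply, hE, hC, hκ]
            exact DFunLike.congr_fun this r }
      left_inv := fun σ => rfl
      right_inv := fun σ => rfl }
  refine ⟨Algebra.norm K x, ?_⟩
  have := Algebra.norm_eq_prod_embeddings K ℂ x
  rw [Nk, ← e.prod_comp]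
  exact this.symm

theorem gcA_int_emb (σ : Pl E) {x : E} (hx : IsIntegral ℤ x) : IsIntegral ℤ (σ.1 x) :=
  map_isIntegral_int σ.1 hx

/-- The relative norm of an algebraic integer is in `ℤ[ω]` and is a multiple of `x`
(`K = ℚ⟮om⟯`, `Algebra.norm_eq_prod_embeddings K`; an integral element of `ℚ(ω)` is in `ℤ[ω]`:
trace and norm are integers.  Or: `Nk x` and its conjugate are permuted by every automorphism of
`ℂ`...). -/
theorem exists_Nk {x : E} (hx : IsIntegral ℤ x) : ∃ z : R17.O, Nk x = R17.ι z ∧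
    ∃ y : E, IsIntegral ℤ y ∧ ((kO z : R E) : E) = x * y := by
  obtain ⟨σ₀⟩ : Nonempty (Pl E) := inferInstance
  obtain ⟨s, hs⟩ := gcA_Nk_frac x
  have hint : IsIntegral ℤ (Nk x) := IsIntegral.prod _ fun σ _ => gcA_int_emb σ hx
  rw [hs] at hint
  obtain ⟨z, hz⟩ := gcA_of_frac s hint
  rw [← hs] at hz
  refine ⟨z, hz, ?_⟩
  have e : σ₀.1 x * ∏ σ ∈ Finset.univ.erase σ₀, σ.1 x = R17.ι z := by
    rw [← hz, Nk, Finset.mul_prod_erase _ (fun σ : Pl E => σ.1 x) (Finset.mem_univ σ₀)]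
  by_cases h0 : x = 0
  · refine ⟨0, isIntegral_zero, σ₀.1.injective ?_⟩
    rw [σ₀.kO, ← e, h0]; simp
  · refine ⟨(kO z : R E) / x, ?_, by field_simp⟩
    refine (isIntegral_algHom_iff σ₀.1.toIntAlgHom σ₀.1.injective).1 ?_
    have : σ₀.1.toIntAlgHom ((kO z : R E) / x) = ∏ σ ∈ Finset.univ.erase σ₀, σ.1 x := by
      show σ₀.1 _ = _
      rw [map_div₀, σ₀.kO, ← e, mul_div_cancel_left₀ _ ((map_ne_zero _).2 h0)]
    rw [this]
    exact IsIntegral.prod _ fun σ _ => gcA_int_emb σ hx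

theorem gcA_prod_add {ι : Type} (s : Finset ι) (f : ι → ℂ) (hf : ∀ i, IsIntegral ℤ (f i))
    (a b : ℤ) : ∃ t : ℂ, IsIntegral ℤ t ∧ ∏ i ∈ s, ((a : ℂ) + b * f i) = (a : ℂ) ^ s.card + b * t := by
  classical
  have ha : IsIntegral ℤ (a : ℂ) := isIntegral_algebraMap (x := a)
  have hb : IsIntegral ℤ (b : ℂ) := isIntegral_algebraMap (x := b)
  induction s using Finset.induction_on with
  | empty => exact ⟨0, isIntegral_zero, by simp⟩
  | insert i s hi ih =>
    obtain ⟨t, ht, e⟩ := ih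
    refine ⟨a * t + f i * (a ^ s.card + b * t),
      (ha.mul ht).add ((hf i).mul ((ha.pow _).add (hb.mul ht))), ?_⟩
    rw [Finset.prod_insert hi, e, Finset.card_insert_of_notMem hi]
    ring

theorem Nk_one_add {x : E} (hx : IsIntegral ℤ x) (a b : ℤ) :
    ∃ z : R17.O, Nk ((a : E) + b * x) = (a : ℂ) ^ rk E + b * R17.ι z := by
  obtain ⟨t, ht, e⟩ := gcA_prod_add Finset.univ (fun σ : Pl E => σ.1 x) (gcA_int_emb · hx) a b
  have e' : Nk ((a : E) + b * x) = (a : ℂ) ^ rk E + b * t := by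
    rw [rk, ← Finset.card_univ, ← e, Nk]
    simp
  by_cases hb : b = 0
  · exact ⟨0, by rw [e', hb]; simp⟩
  obtain ⟨w, hw, -⟩ := exists_Nk (x := (a : E) + b * x)
    ((isIntegral_algebraMap (x := a)).add ((isIntegral_algebraMap (x := b)).mul hx))
  obtain ⟨z, hz⟩ := gcA_of_mul ht (b := (b : R17.O)) (w := w - (a : R17.O) ^ rk E)
    (by exact_mod_cast hb) (by rw [map_sub, ← hw, e']; simp)
  exact ⟨z, by rw [e', hz]⟩
/-- The units in `V j` have relative norm `1` (a unit of `ℤ[ω]` which is `≡ 1 mod 3`). -/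
theorem al_V {j : ℕ} (hj : 1 ≤ j) {u : E} (hu : V j u) : al u = 1 := by
  have h1 := hu.nr_eq hj
  obtain ⟨v, hv, c, hc⟩ := (V_iff hj).1 hu
  obtain ⟨d, hd⟩ : 3 ∣ mm E ^ j :=
    ((show 3 ∣ 6 by norm_num).trans Fr.six_dvd).trans (dvd_pow_self _ (by omega))
  have e : u = ((1 : ℤ) : E) + (3 : ℤ) * (((d : 𝓞 E) * c : 𝓞 E) : E) := by
    have := congrArg (algebraMap (𝓞 E) E) hc
    rw [hd] at this
    rw [← hv]
    simp only [map_sub, map_one, map_mul, map_natCast] at this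
    push_cast at this ⊢
    linear_combination this
  obtain ⟨z, hz⟩ := Nk_one_add ((d : 𝓞 E) * c).isIntegral_coe 1 3
  rw [← e] at hz
  have h2 : Nk u = al u := by rw [Nk, prod_em, h1]; simp
  have h3 : Nk u = R17.ι (1 + 3 * z) := by rw [hz, map_add, map_mul, map_one, map_ofNat]; simp
  have h4 : ‖Nk u‖ ^ 2 = 1 := by rw [← h1, Nk, nr, norm_prod, Finset.prod_pow]
  rw [h3, R17.norm_ι_sq] at h4
  have h5 : (1 + 3 * z : R17.O) = 1 :=
    R17.Primary.eq_one_of_isUnit ⟨z, by ring⟩ (R17.isUnit_iff_nm.2 (by exact_mod_cast h4))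
  rw [← h2, h3, h5, map_one]

/-- Lucas: no carries in `k + k` in base `ℓ`. -/
theorem gcA_choose {ℓ : ℕ} (hl : ℓ.Prime) (h3 : ℓ % 3 = 1) (f : ℕ) :
    ∃ k, ℓ ^ f = 3 * k + 1 ∧ ¬ ℓ ∣ (2 * k).choose k := by
  have := Fact.mk hl
  obtain ⟨d, hd⟩ : ∃ d, ℓ = 3 * d + 1 := ⟨ℓ / 3, by omega⟩
  induction f with
  | zero => exact ⟨0, by simp, by simpa using hl.ne_one⟩
  | succ f ih =>
    obtain ⟨k, hk, h⟩ := ih
    refine ⟨d + ℓ * k, by rw [pow_succ, hk]; linear_combination hd, fun h' => ?_⟩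
    have h0 : 0 < ℓ := hl.pos
    have e := Choose.choose_modEq_choose_mod_mul_choose_div_nat (p := ℓ) (n := 2 * (d + ℓ * k))
      (k := d + ℓ * k)
    rw [show 2 * (d + ℓ * k) = 2 * d + ℓ * (2 * k) by ring, Nat.add_mul_mod_self_left,
      Nat.add_mul_mod_self_left, Nat.add_mul_div_left _ _ h0, Nat.add_mul_div_left _ _ h0,
      Nat.mod_eq_of_lt (show 2 * d < ℓ by omega), Nat.mod_eq_of_lt (show d < ℓ by omega),
      Nat.div_eq_of_lt (show 2 * d < ℓ by omega), Nat.div_eq_of_lt (show d < ℓ by omega),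
      zero_add, zero_add, ← show 2 * (d + ℓ * k) = 2 * d + ℓ * (2 * k) by ring] at e
    rcases hl.dvd_mul.1 ((e.dvd_iff dvd_rfl).1 h') with h1 | h1
    · have h2 : ℓ ∣ (2 * d).factorial := by
        rw [← Nat.choose_mul_factorial_mul_factorial (show d ≤ 2 * d by omega), mul_assoc]
        exact h1.mul_right _
      have := hl.dvd_factorial.1 h2
      omega
    · exact h h1

theorem gcA_sum_pow {F : Type} [Field F] [Fintype F] {n : ℕ} (hn : n ≠ 0) :
    ∑ x : F, x ^ n = if Fintype.card F - 1 ∣ n then -1 else 0 := by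
  classical
  rw [← FiniteField.sum_pow_units F n]
  let φ : Fˣ ↪ F := ⟨fun x ↦ x, Units.val_injective⟩
  have : Finset.univ.map φ = Finset.univ \ {0} := by
    ext x
    simpa only [Finset.mem_map, Finset.mem_univ, Function.Embedding.coeFn_mk, true_and,
      Finset.mem_sdiff, Finset.mem_singleton, φ] using! isUnit_iff_ne_zero
  rw [← Finset.sum_sdiff ({0} : Finset F).subset_univ, Finset.sum_singleton, zero_pow hn, add_zero]
  simp [φ, ← this, Finset.univ.sum_map φ]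

theorem gcA_sum_poly {F : Type} [Field F] [Fintype F] {k : ℕ} (hk : k ≠ 0)
    (h : Fintype.card F = 3 * k + 1) :
    ∑ x : F, x ^ (2 * k) * (1 - x) ^ (2 * k) = -(-1) ^ k * ((2 * k).choose k : F) := by
  have e : ∀ x : F, x ^ (2 * k) * (1 - x) ^ (2 * k) = ∑ i ∈ Finset.range (2 * k + 1),
      (-1) ^ i * ((2 * k).choose i : F) * x ^ (2 * k + i) := fun x => by
    rw [sub_eq_neg_add, add_pow, Finset.mul_sum]
    refine Finset.sum_congr rfl fun i _ => ?_
    rw [neg_pow]; ring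
  simp only [e]
  rw [Finset.sum_comm, Finset.sum_eq_single k]
  · rw [← Finset.mul_sum, gcA_sum_pow (by omega), h, if_pos ⟨1, by omega⟩]; ring
  · intro i hi hik
    rw [← Finset.mul_sum, gcA_sum_pow (by omega), h, if_neg, mul_zero]
    rintro ⟨c, hc⟩
    rw [Finset.mem_range] at hi
    rw [Nat.add_sub_cancel] at hc
    rcases c with _ | _ | c
    · omega
    · omega
    · have : 3 * k * 2 ≤ 3 * k * (c + 1 + 1) := Nat.mul_le_mul_left _ (by omega)
      omega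
  · intro hk'
    exact absurd (Finset.mem_range.2 (by omega)) hk'

theorem gcA_cj (z : R17.O) : R17.cj z = star z := by
  ext <;> simp [R17.cj, sub_eq_add_neg]

/-- The Jacobi sum lies in `ℤ[ω]`, is `≡ -1 (mod 3)`, has norm `N p` (as in `R17.gc_prime_cube`),
and `p` does not divide its conjugate when `N p` is a power of a prime `ℓ ≡ 1 (mod 3)`:
`conj J ≡ ∑ x^{2k} (1 - x)^{2k} ≡ ± C(2k, k) (mod p)`, `k = (q - 1)/3`, and Lucas' theorem
(`Choose.lucas`, or Kummer's theorem: no carries in `k + k` in base `ℓ`). -/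
theorem exists_jac {p : R E} (hp : Prime p) : ∃ J : R17.O, jac p = R17.ι J ∧ R17.Primary (-J) ∧
    R17.nm J = nN p ∧ ∀ ℓ : ℕ, ℓ.Prime → ℓ ∣ nN p → ℓ % 3 = 1 → ¬ p ∣ kO (R17.cj J) := by
  obtain ⟨χ, h3, hχ⟩ := exists_mulChar_cub hp
  have := finite_quot hp.ne_zero
  let _ := Fintype.ofFinite (R E ⧸ Ideal.span {p})
  have := PrincipalIdealRing.isMaximal_of_irreducible hp.irreducible
  let _ := Ideal.Quotient.field (Ideal.span {p})
  have hq := gB_card (p := p)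
  obtain ⟨hq6, hq7⟩ := nN_prime_mod hp
  have hJ : jac p = jacobiSum χ χ := by
    rw [jacobiSum, ← sum_res_eq_quot hp.ne_zero, jac]
    refine Finset.sum_congr rfl fun x _ => ?_
    rw [← hχ, ← hχ, map_sub, map_one]
  have hom : (kO R17.om : R E) = omR := Subtype.ext (by rw [gcA_coe_kO]; simp [R17.om, omR])
  have hcj : star R17.om = R17.om ^ 2 := by
    rw [← gcA_cj, sq]; ext <;> simp [R17.cj, R17.om]
  have hc : ∀ x, ∃ c : R17.O, R17.ι c = χ x ∧
      Ideal.Quotient.mk _ (kO (star c) : R E) = x ^ (2 * ((nN p - 1) / 3)) := fun x => by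
    obtain ⟨a, rfl⟩ := Ideal.Quotient.mk_surjective x
    by_cases ha : p ∣ a
    · rw [Ideal.Quotient.eq_zero_iff_mem.2 (Ideal.mem_span_singleton.2 ha)]
      exact ⟨0, by rw [map_zero, χ.map_zero],
        by rw [star_zero, map_zero, map_zero, zero_pow (by omega)]⟩
    · obtain ⟨k, -, hk⟩ := R17.Gauss_omC.eq_pow_of_pow_eq_one
        (cub_pow_three (hp.coprime_iff_not_dvd.2 ha))
      refine ⟨R17.om ^ k, by rw [map_pow, R17.ι_om, hk, hχ], ?_⟩
      have e : Ideal.Quotient.mk (Ideal.span {p}) a ^ ((nN p - 1) / 3) =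
          Ideal.Quotient.mk _ (omR ^ k) := by
        rw [← map_pow, Ideal.Quotient.eq, Ideal.mem_span_singleton,
          ← cub1_eq_pow_iff hp, ← cub_prime hp, hk]
      rw [pow_mul', e, star_pow, hcj, ← pow_mul, map_pow, hom, pow_mul', map_pow]
  choose c hc hc' using hc
  set J := ∑ x, c x * c (1 - x) with hJd
  have h1 : R17.ι J = jacobiSum χ χ := by simp only [hJd, map_sum, map_mul, hc, jacobiSum]
  refine ⟨J, hJ.trans h1.symm, ?_, ?_, fun ℓ hl hd hl3 h => ?_⟩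
  · obtain ⟨z, hz, e⟩ := exists_jacobiSum_eq_neg_one_add (χ := χ) (ψ := χ) (n := 3) (by omega)
      (h3 ▸ pow_orderOf_eq_one χ) (h3 ▸ pow_orderOf_eq_one χ) (by omega) R17.Gauss_omC
    obtain ⟨w, rfl⟩ : z ∈ R17.ι.toIntAlgHom.range :=
      Algebra.adjoin_le (Set.singleton_subset_iff.2
        (R17.ι.toIntAlgHom.mem_range.2 ⟨R17.om, R17.ι_om⟩)) hz
    have : J = -1 + w * (R17.om - 1) ^ 2 := R17.ι_injective (by simpa [h1, R17.ι_om] using e)
    exact ⟨w * R17.om, by linear_combination -this - w * R17.om_sq_add⟩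
  · have e := congrArg norm (gc_cube hp)
    have h0 : (0 : ℝ) < nN p := by exact_mod_cast (by omega : 0 < nN p)
    rw [norm_pow, norm_gc hp.squarefree, nf_eq_nN hp.ne_zero, norm_mul, hJ, ← h1, R17.norm_ι,
      Complex.norm_natCast, pow_succ, Real.sq_sqrt h0.le, mul_right_inj' h0.ne',
      Real.sqrt_inj h0.le (Nat.cast_nonneg _)] at e
    exact_mod_cast e.symm
  · rw [← Ideal.mem_span_singleton, ← Ideal.Quotient.eq_zero_iff_mem, gcA_cj] at h
    simp only [hJd, star_sum, star_mul', map_sum, map_mul, hc'] at h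
    rw [gcA_sum_poly (by omega) (by omega)] at h
    obtain ⟨r, hr, n, hr', hn⟩ := FiniteField.card' (R E ⧸ Ideal.span {p})
    rw [hq] at hn
    obtain rfl : ℓ = r := (Nat.prime_dvd_prime_iff_eq hl hr').1 (hl.dvd_of_dvd_pow (hn ▸ hd))
    obtain ⟨k, hk, hk'⟩ := gcA_choose hl hl3 n
    rw [show (nN p - 1) / 3 = k by omega] at h
    refine hk' ((CharP.cast_eq_zero_iff (R E ⧸ Ideal.span {p}) ℓ _).1 ?_)
    simpa using h

theorem gc2_nm_cj (z : R17.O) : R17.nm (R17.cj z) = R17.nm z := by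
  apply Int.natCast_inj.mp
  rw [R17.nm_cast, R17.nm_cast]
  simp only [R17.cj]
  ring

theorem gc2_cj_mul (z w : R17.O) : R17.cj (z * w) = R17.cj z * R17.cj w :=
  R17.ι_injective (by rw [map_mul, R17.ι_cj, R17.ι_cj, R17.ι_cj, map_mul, map_mul])

theorem gc2_cj_cj (z : R17.O) : R17.cj (R17.cj z) = z :=
  R17.ι_injective (by rw [R17.ι_cj, R17.ι_cj, Complex.conj_conj])

theorem gc2_dvd_nm (z : R17.O) : z ∣ (R17.nm z : R17.O) := ⟨_, (R17.mul_cj z).symm⟩

theorem gc2_nm_mod (z : R17.O) : R17.nm z % 3 ≠ 2 := by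
  have h := R17.nm_cast z
  intro h2
  have h3 : (z.re ^ 2 - z.re * z.im + z.im ^ 2) % 3 = 2 := by rw [← h]; omega
  obtain ⟨a, ha⟩ : ∃ a, z.re + z.im = 3 * a ∨ z.re + z.im = 3 * a + 1 ∨
      z.re + z.im = 3 * a + 2 := ⟨(z.re + z.im) / 3, by omega⟩
  have e : z.re ^ 2 - z.re * z.im + z.im ^ 2 = (z.re + z.im) ^ 2 - 3 * (z.re * z.im) := by ring
  rw [e] at h3
  rcases ha with ha | ha | ha <;> rw [ha] at h3
  · have : (3 * a) ^ 2 - 3 * (z.re * z.im) = 3 * (3 * a ^ 2 - z.re * z.im) := by ring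
    omega
  · have : (3 * a + 1) ^ 2 - 3 * (z.re * z.im) = 3 * (3 * a ^ 2 + 2 * a - z.re * z.im) + 1 := by
      ring
    omega
  · have : (3 * a + 2) ^ 2 - 3 * (z.re * z.im) =
        3 * (3 * a ^ 2 + 4 * a + 1 - z.re * z.im) + 1 := by ring
    omega

theorem gc2_Nk_mul (x y : E) : Nk (x * y) = Nk x * Nk y := by
  simp only [Nk, map_mul, Finset.prod_mul_distrib]

theorem gc2_Nk_nat (n : ℕ) : Nk (n : E) = (n : ℂ) ^ rk E := by
  simp [Nk]

theorem gc2_Nk_pow (x : E) (k : ℕ) : Nk (x ^ k) = Nk x ^ k := by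
  simp only [Nk, map_pow, Finset.prod_pow]

theorem gc2_norm_Nk (x : E) : ‖Nk x‖ ^ 2 = nr x := by
  simp only [Nk, nr, norm_prod, Finset.prod_pow]

/-- `absS x` is a quotient of two divisors of a power of `m`. -/
theorem gc2_absS (x : E) :
    ∃ A B l : ℕ, A ∣ mm E ^ l ∧ B ∣ mm E ^ l ∧ absS x * A = B := by
  refine Finset.prod_induction _
    (fun t : ℝ => ∃ A B l : ℕ, A ∣ mm E ^ l ∧ B ∣ mm E ^ l ∧ t * A = B) ?_ ⟨1, 1, 0, by simp⟩ ?_
  · rintro s t ⟨A, B, l, hA, hB, h⟩ ⟨A', B', l', hA', hB', h'⟩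
    refine ⟨A * A', B * B', l + l', ?_, ?_, ?_⟩
    · rw [pow_add]; exact mul_dvd_mul hA hA'
    · rw [pow_add]; exact mul_dvd_mul hB hB'
    · push_cast
      rw [← h, ← h']
      ring
  · intro p hp
    have hp0 : (p : ℝ) ≠ 0 := Nat.cast_ne_zero.2 (Nat.prime_of_mem_primeFactors hp).ne_zero
    have hd := Nat.dvd_of_mem_primeFactors hp
    obtain ⟨v, hv | hv⟩ := (padicValRat p (Algebra.norm ℚ x)).eq_nat_or_neg
    · refine ⟨p ^ v, 1, v, pow_dvd_pow_of_dvd hd v, one_dvd _, ?_⟩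
      rw [hv, zpow_neg, zpow_natCast]
      push_cast
      exact inv_mul_cancel₀ (pow_ne_zero _ hp0)
    · refine ⟨1, p ^ v, v, one_dvd _, pow_dvd_pow_of_dvd hd v, ?_⟩
      rw [hv, neg_neg, zpow_natCast]
      simp

/-- The relative norm of an `S`-integer. -/
theorem gc2_exists (x : R E) : ∃ (k : ℕ) (z : R17.O),
    (mm E : ℂ) ^ k * Nk (x : E) = R17.ι z ∧ x ∣ kO z := by
  obtain ⟨a, ha⟩ := x.2
  obtain ⟨z, hz, y, hy, hzy⟩ := exists_Nk ha
  refine ⟨rk E * a, z, ?_, ⟨(mm E : R E) ^ a * ⟨y, mem_RR_of_isIntegral hy⟩, Subtype.ext ?_⟩⟩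
  · rw [← hz, gc2_Nk_mul, gc2_Nk_pow, gc2_Nk_nat, pow_mul]
  · rw [hzy]
    push_cast
    ring

theorem gc2_nm {x : R E} (hx : x ≠ 0) {k : ℕ} {z : R17.O}
    (h : (mm E : ℂ) ^ k * Nk (x : E) = R17.ι z) :
    ∃ t l : ℕ, R17.nm z = nN x * t ∧ t ∣ mm E ^ l := by
  obtain ⟨A, B, l, hA, hB, hAB⟩ := gc2_absS (x : E)
  have h1 : (R17.nm z : ℝ) = (mm E : ℝ) ^ (2 * k) * nr (x : E) := by
    have := R17.norm_ι_sq z
    rw [← h, norm_mul, mul_pow, gc2_norm_Nk, norm_pow, Complex.norm_natCast, ← pow_mul,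
      mul_comm k 2] at this
    exact this.symm
  have h2 : (nN x : ℝ) = nr (x : E) * absS (x : E) := (nf_eq_nN hx).symm
  have h3 : R17.nm z * B = nN x * (mm E ^ (2 * k) * A) := by
    apply Nat.cast_injective (R := ℝ)
    push_cast
    rw [h1, h2, ← hAB]
    ring
  have hc : (nN x).Coprime B :=
    ((nN_coprime hx).pow_right l).coprime_dvd_right hB
  obtain ⟨t, ht⟩ : nN x ∣ R17.nm z := hc.dvd_of_dvd_mul_right ⟨_, h3⟩
  refine ⟨t, 2 * k + l, ht, ?_⟩
  have h0 : nN x ≠ 0 := by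
    have := one_le_nf hx
    rw [nf_eq_nN hx] at this
    exact_mod_cast (zero_lt_one.trans_le this).ne'
  rw [ht, mul_assoc] at h3
  have h4 := Nat.eq_of_mul_eq_mul_left (Nat.pos_of_ne_zero h0) h3
  rw [pow_add]
  exact (Dvd.intro _ h4).trans (mul_dvd_mul_left _ hA)

theorem gc2_dvd_pow {s : R17.O} {t l : ℕ} (h : R17.nm s = t) (ht : t ∣ mm E ^ l) :
    s ∣ (mm E : R17.O) ^ l := by
  refine (gc2_dvd_nm s).trans ?_
  rw [h, ← Nat.cast_pow]
  exact Nat.cast_dvd_cast ht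

theorem gc2_Nk_kO (z : R17.O) : Nk ((kO z : R E) : E) = R17.ι z ^ rk E := by
  simp only [Nk, Pl.kO, Finset.prod_const, Finset.card_univ]

/-- The prime of `ℤ[ω]` below `p`. -/
theorem gc2_below {p : R E} (hp : Prime p) :
    ∃ π : R17.O, Prime π ∧ ∀ z : R17.O, π ∣ z ↔ p ∣ kO z := by
  have hP : (Ideal.span {p}).IsPrime := (Ideal.span_singleton_prime hp.ne_zero).2 hp
  have hI : ((Ideal.span {p}).comap (kO (E := E))).IsPrime := Ideal.IsPrime.comap _
  obtain ⟨π, hπ⟩ := (IsPrincipalIdealRing.principal ((Ideal.span {p}).comap (kO (E := E)))).1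
  have h : ∀ z : R17.O, π ∣ z ↔ p ∣ kO z := fun z => by
    rw [← Ideal.mem_span_singleton, ← Ideal.mem_span_singleton, ← Ideal.mem_comap, hπ]
  have h0 : π ≠ 0 := by
    rintro rfl
    have := (h (nN p : R17.O)).2 (by rw [map_natCast]; exact dvd_nN p)
    have h1 : (nN p : R17.O) = 0 := zero_dvd_iff.1 this
    have h2 := congrArg R17.nm h1
    rw [R17.nm_natCast, R17.nm_zero] at h2
    have := (nN_prime_mod hp).2
    have := pow_eq_zero_iff (two_ne_zero) |>.1 h2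
    omega
  refine ⟨π, (Ideal.span_singleton_prime h0).1 ?_, h⟩
  rw [hπ] at hI
  exact hI

theorem gc2_nN_pow {p : R E} (hp : Prime p) : ∃ ℓ f : ℕ, ℓ.Prime ∧ 0 < f ∧ nN p = ℓ ^ f := by
  have := finite_quot hp.ne_zero
  have := Fintype.ofFinite (R E ⧸ Ideal.span {p})
  have hmax : (Ideal.span {p}).IsMaximal :=
    PrincipalIdealRing.isMaximal_of_irreducible hp.irreducible
  let := Ideal.Quotient.field (Ideal.span {p})
  have hq : nN p = Fintype.card (R E ⧸ Ideal.span {p}) := Nat.card_eq_fintype_card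
  obtain ⟨ℓ, -, f, hℓ, hf⟩ := FiniteField.card' (R E ⧸ Ideal.span {p})
  exact ⟨ℓ, f, hℓ, f.pos, hq.trans hf⟩

/-- The Jacobi sum is associated with a power of the prime below `p`. -/
theorem gc2_jac_assoc {p : R E} (hp : Prime p) {π J : R17.O} (hπ : Prime π)
    (h : ∀ z : R17.O, π ∣ z ↔ p ∣ kO z) (hJ : R17.nm J = nN p)
    (hc : ∀ ℓ : ℕ, ℓ.Prime → ℓ ∣ nN p → ℓ % 3 = 1 → ¬ p ∣ kO (R17.cj J)) :
    ∃ b : ℕ, Associated J (π ^ b) := by
  obtain ⟨ℓ, f, hℓ, hf, hq⟩ := gc2_nN_pow hp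
  have hℓq : ℓ ∣ nN p := hq ▸ dvd_pow_self ℓ hf.ne'
  have hJℓ : J ∣ (ℓ : R17.O) ^ f := by
    have := gc2_dvd_nm J
    rwa [hJ, hq, Nat.cast_pow] at this
  have hπℓ : π ∣ (ℓ : R17.O) := by
    refine hπ.dvd_of_dvd_pow (n := f) ?_
    rw [h, ← Nat.cast_pow, ← hq, map_natCast]
    exact dvd_nN p
  have hn : R17.nm π ∣ ℓ ^ 2 := by
    have := R17.nm_dvd_of_dvd hπℓ
    rwa [R17.nm_natCast] at this
  have key : J ∣ π ^ f := by
    obtain ⟨i, hi, he⟩ := (Nat.dvd_prime_pow hℓ).1 hn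
    interval_cases i
    · exact absurd (R17.isUnit_iff_nm.2 (by simpa using he)) hπ.not_isUnit
    · rw [pow_one] at he
      have hcp : Prime (R17.cj π) := R17.BasicA.prime_of_nm (by rw [gc2_nm_cj, he]; exact hℓ)
      have h3 : ℓ % 3 = 1 := by
        have h1 := gc2_nm_mod π
        rw [he] at h1
        have h2 : ¬ 3 ∣ ℓ := fun h3 => by
          have := ((nN_coprime hp.ne_zero).coprime_dvd_left (h3.trans hℓq)).coprime_dvd_right
            (dvd_trans (by norm_num : 3 ∣ 6) Fr.six_dvd)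
          simp at this
        omega
      have hnd : ¬ R17.cj π ∣ J := by
        rintro ⟨c, hc'⟩
        refine hc ℓ hℓ hℓq h3 ((h _).1 ?_)
        rw [hc', gc2_cj_mul, gc2_cj_cj]
        exact dvd_mul_right _ _
      have hco : IsCoprime J (R17.cj π ^ f) :=
        (hcp.coprime_iff_not_dvd.2 hnd).symm.pow_right
      rw [← he, ← R17.mul_cj, mul_pow] at hJℓ
      exact hco.dvd_of_dvd_mul_right hJℓ
    · obtain ⟨c, hc'⟩ := hπℓ
      have h1 := congrArg R17.nm hc'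
      rw [R17.nm_natCast, R17.nm_mul, he] at h1
      have h2 : R17.nm c = 1 :=
        Nat.eq_of_mul_eq_mul_left (pow_pos hℓ.pos 2) (by rw [← h1, mul_one])
      have hu := R17.isUnit_iff_nm.2 h2
      rw [hc', mul_pow] at hJℓ
      exact (hu.pow f).dvd_mul_right.1 hJℓ
  obtain ⟨b, -, hb⟩ := (dvd_prime_pow hπ f).1 key
  exact ⟨b, hb⟩

theorem gc2_jac_dvd {p : R E} (hp : Prime p) {J z : R17.O} {k : ℕ} (hJ : R17.nm J = nN p)
    (hc : ∀ ℓ : ℕ, ℓ.Prime → ℓ ∣ nN p → ℓ % 3 = 1 → ¬ p ∣ kO (R17.cj J))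
    (hz : (mm E : ℂ) ^ k * Nk (p : E) = R17.ι z) : J ∣ z := by
  obtain ⟨π, hπ, h⟩ := gc2_below hp
  obtain ⟨b, hb⟩ := gc2_jac_assoc hp hπ h hJ hc
  obtain ⟨t, l, ht, htl⟩ := gc2_nm hp.ne_zero hz
  have hm : mm E ≠ 0 := Fr.m_ne
  have hq := (nN_prime_mod hp).2
  have hz0 : z ≠ 0 := by
    rintro rfl
    rw [R17.nm_zero] at ht
    have : t = 0 := by
      rcases mul_eq_zero.1 ht.symm with h | h <;> omega
    rw [this, zero_dvd_iff] at htl
    exact pow_ne_zero _ hm htl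
  -- `z ∣ m^K π^r`
  obtain ⟨c, hc'⟩ := (h π).1 dvd_rfl
  obtain ⟨k', z', hz', -⟩ := gc2_exists c
  have h1 : z * z' = (mm E : R17.O) ^ (k + k') * π ^ rk E := by
    apply R17.ι_injective
    rw [map_mul, ← hz, ← hz', map_mul, map_pow, map_pow, map_natCast, ← gc2_Nk_kO, hc']
    push_cast
    rw [gc2_Nk_mul]
    ring
  obtain ⟨a, s, hs, hzs⟩ := WfDvdMonoid.max_power_factor hz0 hπ.irreducible
  have hsd : s ∣ (mm E : R17.O) ^ (k + k') := by
    have hco : IsCoprime s (π ^ rk E) := (hπ.coprime_iff_not_dvd.2 hs).symm.pow_right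
    refine hco.dvd_of_dvd_mul_right ?_
    rw [← h1, hzs]
    exact (dvd_mul_left s _).mul_right _
  have hns : R17.nm s ∣ mm E ^ (2 * (k + k')) := by
    have := R17.nm_dvd_of_dvd hsd
    rwa [R17.nm_pow, R17.nm_natCast, ← pow_mul] at this
  have hqb : nN p = R17.nm π ^ b := by
    obtain ⟨u, hu⟩ := hb
    have := congrArg R17.nm hu
    rwa [R17.nm_mul, R17.isUnit_iff_nm.1 u.isUnit, mul_one, hJ, R17.nm_pow] at this
  have hco : (R17.nm π ^ b).Coprime (R17.nm s) :=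
    hqb ▸ ((nN_coprime hp.ne_zero).pow_right _).coprime_dvd_right hns
  have h2 : R17.nm π ^ b ∣ R17.nm π ^ a := by
    refine hco.dvd_of_dvd_mul_right ⟨t, ?_⟩
    rw [← hqb, ← ht, hzs, R17.nm_mul, R17.nm_pow]
  have h3 : 1 < R17.nm π := by
    have h4 : R17.nm π ≠ 0 := fun h0 => hπ.ne_zero (R17.nm_eq_zero.1 h0)
    have h5 : R17.nm π ≠ 1 := fun h0 => hπ.not_isUnit (R17.isUnit_iff_nm.2 h0)
    omega
  have h4 : b ≤ a := (Nat.pow_dvd_pow_iff_le_right h3).1 h2
  rw [hzs]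
  exact hb.dvd.trans ((pow_dvd_pow π h4).mul_right s)

theorem gc2_Nk_prime {p : R E} (hp : Prime p) : ∃ (J s : R17.O) (k l : ℕ), jac p = R17.ι J ∧
    R17.Primary (-J) ∧ R17.nm J = nN p ∧ s ∣ (mm E : R17.O) ^ l ∧
    (mm E : ℂ) ^ k * Nk (p : E) = R17.ι (J * s) := by
  obtain ⟨J, hJ, hP, hn, hc⟩ := exists_jac hp
  obtain ⟨k, z, hz, -⟩ := gc2_exists p
  obtain ⟨s, rfl⟩ := gc2_jac_dvd hp hn hc hz
  obtain ⟨t, l, ht, htl⟩ := gc2_nm hp.ne_zero hz
  refine ⟨J, s, k, l, hJ, hP, hn, gc2_dvd_pow ?_ htl, hz⟩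
  rw [R17.nm_mul, hn] at ht
  have hq := (nN_prime_mod hp).2
  exact Nat.eq_of_mul_eq_mul_left (by omega) ht

/-- `Nk p` and `J` generate the same ideal of `ℤ[ω][1/m]`: let `π` be the prime of `ℤ[ω]` below
`p`; `π = p c` gives `Nk p ∣ π^r`, and `J ∣ ℓ^f` is prime to `conj π` if `ℓ` splits; compare the
norms. -/
theorem Nk_prime {p : R E} (hp : Prime p) : ∃ (J s : R17.O) (k l : ℕ), jac p = R17.ι J ∧
    R17.Primary (-J) ∧ s ∣ (mm E : R17.O) ^ l ∧ (mm E : ℂ) ^ k * Nk (p : E) = R17.ι (J * s) := by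
  obtain ⟨J, s, k, l, h1, h2, -, h3, h4⟩ := gc2_Nk_prime hp
  exact ⟨J, s, k, l, h1, h2, h3, h4⟩

theorem gc2_gam_prime {p : R E} (hp : Prime p) {J : R17.O} (hJ : jac p = R17.ι J)
    (hn : R17.nm J = nN p) : gam 2 p ^ 3 = R17.arg J := by
  have hq : (0 : ℝ) < nN p := by
    have := (nN_prime_mod hp).2
    exact_mod_cast (by omega : 0 < nN p)
  have hs : ((Real.sqrt (nN p) : ℝ) : ℂ) ≠ 0 := by exact_mod_cast (Real.sqrt_pos.2 hq).ne'
  have h2 : ((Real.sqrt (nN p) : ℝ) : ℂ) ^ 2 = (nN p : ℂ) := by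
    rw [← Complex.ofReal_pow, Real.sq_sqrt hq.le, Complex.ofReal_natCast]
  rw [gam_eq, gs_two, div_pow, gc_cube hp, hJ, R17.arg, R17.norm_ι, nf_eq_nN hp.ne_zero]
  simp only [R17.nr, hn]
  rw [← h2]
  field_simp

theorem gc2_arg_neg (z : R17.O) : R17.arg (-z) = -R17.arg z := by
  rw [R17.arg, R17.arg, map_neg, norm_neg, neg_div]

theorem gc2_arg_one : R17.arg 1 = 1 := by simp [R17.arg]

theorem gc2_coprime {z : R17.O} {b : ℕ} (h : z ∣ (b : R17.O)) (hb : b.Coprime (mm E)) :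
    IsCoprime z (mm E : R17.O) :=
  (Nat.Coprime.cast (R := R17.O) hb).of_isCoprime_of_dvd_left h

/-- For squarefree `n`: `μ(n) γ₂(n)³ = π / |π|` with `π` primary, `Nk n = π · (S-unit)`. -/
theorem Nk_sqfree {n : R E} (hn : Squarefree n) : ∃ (P s : R17.O) (k l : ℕ), R17.Primary P ∧
    IsCoprime P (mm E : R17.O) ∧ mu n * gam 2 n ^ 3 = R17.arg P ∧ s ∣ (mm E : R17.O) ^ l ∧
    (mm E : ℂ) ^ k * Nk (n : E) = R17.ι (P * s) := by
  refine squarefree_induction (P := fun n => ∃ (P s : R17.O) (k l : ℕ), R17.Primary P ∧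
    IsCoprime P (mm E : R17.O) ∧ mu n * gam 2 n ^ 3 = R17.arg P ∧ s ∣ (mm E : R17.O) ^ l ∧
    (mm E : ℂ) ^ k * Nk (n : E) = R17.ι (P * s)) (fun u hu => ?_) (fun p n hp hn hpn ih => ?_) hn
  · obtain ⟨k, z, hz, -⟩ := gc2_exists u
    obtain ⟨t, l, ht, htl⟩ := gc2_nm hu.ne_zero hz
    have h1 : nN u = 1 := by
      have := nf_eq_one_iff.2 hu
      rw [nf_eq_nN hu.ne_zero] at this
      exact_mod_cast this
    rw [h1, one_mul] at ht
    refine ⟨1, z, k, l, R17.primary_one, isCoprime_one_left, ?_, gc2_dvd_pow ht htl, ?_⟩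
    · rw [mu_unit hu, gam_unit 2 hu, gc2_arg_one, one_pow, one_mul]
    · rw [one_mul, hz]
  · obtain ⟨P, s, k, l, hP, hc, hg, hs, hN⟩ := ih
    obtain ⟨J, s', k', l', hJ, hJP, hJn, hs', hN'⟩ := gc2_Nk_prime hp
    have hco := hp.coprime_iff_not_dvd.2 hpn
    refine ⟨-J * P, -s' * s, k' + k, l' + l, hJP.mul hP, IsCoprime.mul_left ?_ hc, ?_, ?_, ?_⟩
    · refine gc2_coprime (b := nN p) ?_ (nN_coprime hp.ne_zero)
      rw [neg_dvd, ← hJn]
      exact gc2_dvd_nm J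
    · rw [mu_mul hco, gam_two_cube_mul hp.ne_zero hn.ne_zero hco, mu_prime hp, R17.arg_mul,
        gc2_arg_neg, ← hg, gc2_gam_prime hp hJ hJn]
      ring
    · rw [pow_add]
      exact mul_dvd_mul (neg_dvd.2 hs') hs
    · rw [show -J * P * (-s' * s) = (J * s') * (P * s) by ring, map_mul, ← hN, ← hN']
      push_cast
      rw [gc2_Nk_mul]
      ring

theorem gc2_al {x : E} (hx : x ≠ 0) {k : ℕ} {z : R17.O}
    (h : (mm E : ℂ) ^ k * Nk x = R17.ι z) : al x = R17.arg z := by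
  have hm : (mm E : ℂ) ≠ 0 := Nat.cast_ne_zero.2 Fr.m_ne
  have hs : ((Real.sqrt (nr x) : ℝ) : ℂ) ≠ 0 := by
    exact_mod_cast (Real.sqrt_pos.2 (nr_pos hx)).ne'
  rw [R17.arg, ← h, Nk, prod_em, norm_mul, norm_mul, norm_al hx, norm_pow, Complex.norm_natCast,
    Complex.norm_real, Real.norm_of_nonneg (Real.sqrt_nonneg _)]
  push_cast
  field_simp

theorem gc2_arg_nat {n : ℕ} (hn : n ≠ 0) (k : ℕ) : R17.arg ((n : R17.O) ^ k) = 1 := by
  have hm : (n : ℂ) ≠ 0 := Nat.cast_ne_zero.2 hn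
  rw [R17.arg, map_pow, map_natCast, norm_pow, Complex.norm_natCast]
  push_cast
  exact div_self (pow_ne_zero _ hm)

/-- Two `S`-units whose quotient is a quotient of elements prime to `m` which are congruent
modulo `3` are equal. -/
theorem gc2_unit {m A B σ τ : R17.O} {l l' : ℕ} (hm : m ≠ 0) (h3 : (3 : R17.O) ∣ m)
    (hA : IsCoprime A m) (hB : IsCoprime B m) (hAB : (3 : R17.O) ∣ A - B) (hσ : σ ∣ m ^ l)
    (hτ : τ ∣ m ^ l') (h : A * σ = B * τ) : σ = τ := by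
  have h1 : σ ∣ τ :=
    ((hB.pow_right (n := l)).of_isCoprime_of_dvd_right hσ).symm.dvd_of_dvd_mul_left ⟨A, by
      rw [← h, mul_comm]⟩
  have h2 : τ ∣ σ :=
    ((hA.pow_right (n := l')).of_isCoprime_of_dvd_right hτ).symm.dvd_of_dvd_mul_left ⟨B, by
      rw [h, mul_comm]⟩
  obtain ⟨u, rfl⟩ := associated_of_dvd_dvd h1 h2
  have hσ0 : σ ≠ 0 := ne_zero_of_dvd_ne_zero (pow_ne_zero _ hm) hσ
  have h4 : A = B * u := mul_right_cancel₀ hσ0 (by rw [h]; ring)
  have h5 : R17.Primary (u : R17.O) := by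
    refine (hB.of_isCoprime_of_dvd_right h3).symm.dvd_of_dvd_mul_left ?_
    rwa [mul_sub, ← h4, mul_one]
  rw [h5.eq_one_of_isUnit u.isUnit, mul_one]

/-- If `n' / n ∈ U 1` then `Nk (n' / n) = a / b` with `a ≡ b (mod m)`, `b` an integer prime to `m`;
the quotient of the two `S`-units is then a unit of `ℤ[ω]` which is `≡ 1 (mod 3)`. -/
theorem mu_gam_cube {j : ℕ} (hj : 1 ≤ j) {n n' : R E} (hn : Squarefree n) (hn' : Squarefree n')
    (h : Ty j (n : E) (n' : E)) :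
    mu n' * gam 2 n' ^ 3 * conj (al (n' : E)) = mu n * gam 2 n ^ 3 * conj (al (n : E)) := by
  obtain ⟨P, s, k, l, hP, hc, hg, hs, hN⟩ := Nk_sqfree hn
  obtain ⟨P', s', k', l', hP', hc', hg', hs', hN'⟩ := Nk_sqfree hn'
  obtain ⟨h0, h0'⟩ := h.ne_zero hj
  obtain ⟨y, ⟨b, hb, hby⟩, hy⟩ := h
  obtain ⟨w, hw⟩ := Nk_one_add hby (b : ℤ) ((mm E : ℤ) ^ j)
  have hm : mm E ≠ 0 := Fr.m_ne
  have hmO : (mm E : R17.O) ≠ 0 := fun h => hm (by
    have := congrArg R17.nm h
    rw [R17.nm_natCast, R17.nm_zero] at this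
    exact (pow_eq_zero_iff two_ne_zero).1 this)
  have h3 : (3 : R17.O) ∣ (mm E : R17.O) := by
    exact_mod_cast Nat.cast_dvd_cast (α := R17.O) (dvd_trans (by norm_num : 3 ∣ 6) Fr.six_dvd)
  have hmj : (mm E : R17.O) ∣ (mm E : R17.O) ^ j := dvd_pow_self _ (by omega)
  have e1 : (b : E) * n' = n * (((b : ℤ) : E) + (((mm E : ℤ) ^ j : ℤ) : E) * ((b : E) * y)) := by
    rw [div_eq_iff h0] at hy
    rw [hy]
    push_cast
    ring
  have e2 := congrArg Nk e1
  rw [gc2_Nk_mul, gc2_Nk_mul, hw, gc2_Nk_nat] at e2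
  have hbm : IsCoprime ((b : R17.O) ^ rk E) (mm E : R17.O) := (gc2_coprime dvd_rfl hb).pow_left
  have key : (mm E : R17.O) ^ k * s' = (mm E : R17.O) ^ k' * s := by
    refine gc2_unit (A := (b : R17.O) ^ rk E * P')
      (B := P * ((b : R17.O) ^ rk E + (mm E : R17.O) ^ j * w)) (l := k + l') (l' := k' + l)
      hmO h3 (hbm.mul_left hc') (hc.mul_left ?_) ?_ ?_ ?_ ?_
    · obtain ⟨c, hc⟩ := hmj
      rw [hc, mul_assoc]
      exact hbm.add_mul_left_left _
    · obtain ⟨c, hc⟩ := h3.trans hmj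
      obtain ⟨a, ha⟩ := hP
      obtain ⟨a', ha'⟩ := hP'
      exact ⟨(b : R17.O) ^ rk E * (a' - a) - P * c * w, by
        rw [hc]; linear_combination (b : R17.O) ^ rk E * ha' - (b : R17.O) ^ rk E * ha⟩
    · rw [pow_add]; exact mul_dvd_mul_left _ hs'
    · rw [pow_add]; exact mul_dvd_mul_left _ hs
    · apply R17.ι_injective
      rw [map_mul] at hN hN'
      simp only [map_mul, map_add, map_pow, map_natCast]
      push_cast at e2
      linear_combination (mm E : ℂ) ^ k * (mm E : ℂ) ^ k' * e2 -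
        (b : ℂ) ^ rk E * (mm E : ℂ) ^ k * hN' +
        (mm E : ℂ) ^ k' * ((b : ℂ) ^ rk E + (mm E : ℂ) ^ j * R17.ι w) * hN
  have harg : R17.arg s' = R17.arg s := by
    have := congrArg R17.arg key
    rwa [R17.arg_mul, R17.arg_mul, gc2_arg_nat hm, gc2_arg_nat hm, one_mul, one_mul] at this
  rw [hg, hg', gc2_al h0 hN, gc2_al h0' hN', R17.arg_mul, R17.arg_mul, map_mul, map_mul, harg]
  linear_combination conj (R17.arg s) * gB_conj_mul (R17.norm_arg hP'.ne_zero) -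
    conj (R17.arg s) * gB_conj_mul (R17.norm_arg hP.ne_zero)

end Crest.Agent.R312
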