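import Crest.Agent.R312.CRd
import Crest.Agent.R312.GaussCube
import Crest.Agent.R17.Recip

/-!
# Row 312, cubic reciprocity: the base field `ℚ(ω)`, convergence at `S`
-/

set_option autoImplicit false

noncomputable section

namespace Crest.Agent.R312.CR

open NumberField Filter

/-! ## part A: the base field -/

/-- `K = ℚ⟮om⟯ ⊆ E` with the same `m`
(`IsPrimitiveRoot.intermediateField_adjoin_isCyclotomicExtension`, `NumberField.discr_dvd_discr`,
`IsCyclotomicExtension.Rat.three_pid`, `IsCyclotomicExtension.Rat.isIntegralClosure_adjoin_singleton_of_prime`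
or `IsPrimitiveRoot.integralPowerBasis`; every element of `ℤ[om]` is `x + y om`). -/
theorem exists_base (E : Type) [Field E] [NumberField E] [Fr E] :
    ∃ (K : Type) (_ : Field K) (_ : NumberField K) (_ : Fr K) (_ : Algebra K E), Ov K E ∧
      ∀ x : K, IsIntegral ℤ x → ∃ z : R17.O, ((kO z : R K) : K) = x := by
  have := Fact.mk Nat.prime_three
  have hζ : IsPrimitiveRoot (om : E) 3 := ⟨om_cube, fun l hl => by
    rw [← orderOf_eq_prime (om_cube (E := E)) om_ne_one]; exact orderOf_dvd_of_pow_eq_one hl⟩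
  have : IsCyclotomicExtension {3} ℚ (IntermediateField.adjoin ℚ {(om : E)}) :=
    hζ.intermediateField_adjoin_isCyclotomicExtension ℚ
  have hζ' : IsPrimitiveRoot (IntermediateField.AdjoinSimple.gen ℚ (om : E)) 3 :=
    IsPrimitiveRoot.coe_submonoidClass_iff.mp hζ
  have := IsCyclotomicExtension.Rat.three_pid (IntermediateField.adjoin ℚ {(om : E)})
  let fr : Fr (IntermediateField.adjoin ℚ {(om : E)}) :=
    { om := IntermediateField.AdjoinSimple.gen ℚ om
      hom := Subtype.ext Om.hom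
      m := mm E
      m_ne := Fr.m_ne
      six_dvd := Fr.six_dvd
      discr_dvd := (Int.natAbs_dvd_natAbs.2 (discr_dvd_discr _ E)).trans Fr.discr_dvd
      pid := fun I => ⟨_, Submodule.IsPrincipal.generator_mem I, 0, fun y hy => by
        simpa using (Submodule.IsPrincipal.mem_iff_generator_dvd I).1 hy⟩ }
  refine ⟨IntermediateField.adjoin ℚ {(om : E)}, inferInstance, inferInstance, fr, inferInstance,
    ⟨rfl, rfl⟩, fun x hx => ?_⟩
  obtain ⟨y, rfl⟩ :=
    (IsCyclotomicExtension.Rat.isIntegralClosure_adjoin_singleton_of_prime hζ').isIntegral_iff.1 hx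
  exact Algebra.adjoin_le (S := ((RR _).subtype.comp kO).toIntAlgHom.range)
    (Set.singleton_subset_iff.2 ⟨R17.om, (gcA_coe_kO _).trans (by simp [R17.om]; rfl)⟩) y.2

variable {K : Type} [Field K] [NumberField K] [Fr K]

theorem kO_injective : Function.Injective (kO : R17.O → R K) := fun z w h => by
  obtain ⟨σ⟩ : Nonempty (Pl K) := inferInstance
  exact R17.ι_injective (by rw [← σ.kO, ← σ.kO, h])

/-- The ring of integers of `K` is `ℤ[ω]`. -/
def Base (K : Type) [Field K] [NumberField K] [Fr K] : Prop :=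
  ∀ x : K, IsIntegral ℤ x → ∃ z : R17.O, ((kO z : R K) : K) = x

theorem Base.exists_pow (h : Base K) (x : R K) :
    ∃ (k : ℕ) (z : R17.O), (mm K : R K) ^ k * x = kO z := by
  obtain ⟨k, hk⟩ := x.2
  obtain ⟨z, hz⟩ := h _ hk
  exact ⟨k, z, Subtype.ext (by rw [hz]; push_cast; rfl)⟩
theorem Base.dvd_iff (h : Base K) {n : R17.O} (hn : IsCoprime n (mm K : R17.O)) (x : R17.O) :
    (kO n : R K) ∣ kO x ↔ n ∣ x := by
  refine ⟨fun ⟨y, hy⟩ => ?_, map_dvd kO⟩
  obtain ⟨k, z, hz⟩ := h.exists_pow y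
  refine (hn.pow_right (n := k)).dvd_of_dvd_mul_left ⟨z, kO_injective (K := K) ?_⟩
  rw [map_mul, map_mul, map_pow, map_natCast, hy, ← hz, mul_left_comm]
theorem Base.eA_nN (h : Base K) {n : R17.O} (hn : IsCoprime n (mm K : R17.O)) :
    nN (kO n : R K) = R17.nm n := by
  rw [← R17.card_quot_aux]
  refine (Nat.card_congr (Equiv.ofBijective (Ideal.quotientMap (I := Ideal.span {n})
    (Ideal.span {(kO n : R K)}) kO fun x hx => Ideal.mem_span_singleton.2
      (map_dvd kO (Ideal.mem_span_singleton.1 hx))) ⟨Ideal.quotientMap_injective' fun x hx =>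
    Ideal.mem_span_singleton.2 ((h.dvd_iff hn x).1 (Ideal.mem_span_singleton.1 hx)),
      fun q => ?_⟩)).symm
  obtain ⟨x, rfl⟩ := Ideal.Quotient.mk_surjective q
  obtain ⟨k, z, hz⟩ := h.exists_pow x
  obtain ⟨u, v, e⟩ := hn.pow_right (n := k)
  have e' := congrArg (kO : R17.O → R K) e
  rw [map_add, map_mul, map_mul, map_pow, map_natCast, map_one] at e'
  refine ⟨Ideal.Quotient.mk _ (v * z), ?_⟩
  rw [Ideal.quotientMap_mk, mk_eq_mk_iff, map_mul, ← hz]
  exact ⟨-kO u * x, by linear_combination x * e'⟩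
theorem Base.prime (h : Base K) {p : R17.O} (hp : Prime p) (hm : ¬ p ∣ (mm K : R17.O)) :
    Prime (kO p : R K) ∧ nN (kO p : R K) = R17.nm p := by
  have hc := hp.coprime_iff_not_dvd.2 hm
  refine ⟨⟨(map_ne_zero_iff _ kO_injective).2 hp.ne_zero, fun hu => hp.not_dvd_one
    ((h.dvd_iff hc 1).1 hu.dvd), fun a b hab => ?_⟩, h.eA_nN hc⟩
  obtain ⟨k, z, hz⟩ := h.exists_pow a
  obtain ⟨l, w, hw⟩ := h.exists_pow b
  refine (hp.dvd_or_dvd ((h.dvd_iff hc (z * w)).1 ?_)).imp (fun h1 => ?_) fun h1 => ?_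
  · rw [map_mul, ← hz, ← hw, mul_mul_mul_comm]
    exact hab.mul_left _
  · exact (isUnit_mm.pow k).dvd_mul_left.1 (hz ▸ map_dvd kO h1)
  · exact (isUnit_mm.pow l).dvd_mul_left.1 (hw ▸ map_dvd kO h1)
theorem Base.cub_eq (h : Base K) {n : R17.O} (hn : R17.Primary n)
    (hm : IsCoprime n (mm K : R17.O)) (a : R17.O) : cub (kO n : R K) (kO a) = R17.cub n a := by
  refine R17.Primary.induction (P := fun n => IsCoprime n (mm K : R17.O) →
    cub (kO n : R K) (kO a) = R17.cub n a) (fun _ => by simp) (fun p n hp hp' hn ih hm => ?_) hn hm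
  have hc := hm.of_mul_left_left
  obtain ⟨h1, h2⟩ := h.prime hp (hp.coprime_iff_not_dvd.1 hc)
  have h3 : (kO R17.om : R K) = omR := by simp [kO, R17.om]
  rw [map_mul, cub_mul_left h1.ne_zero ((map_ne_zero_iff _ kO_injective).2 hn.ne_zero),
    R17.cub_mul_left hp.ne_zero hn.ne_zero, ih hm.of_mul_left_right, cub_prime h1,
    R17.cub_prime hp hp', cub1, R17.cub1, h2]
  refine congrArg (· * _) (Finset.sum_congr rfl fun k _ => ?_)
  rw [propext (h.dvd_iff hc _).symm, map_sub, map_pow, map_pow, h3]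

/-! ## part B: cubic reciprocity in the base field -/

private theorem eB_ne {z : R17.O} (hz : z ≠ 0) : (kO z : R K) ≠ 0 :=
  fun h => hz (kO_injective (K := K) (h.trans (map_zero _).symm))
private theorem eB_ne' {z : R17.O} (hz : z ≠ 0) : ((kO z : R K) : K) ≠ 0 :=
  fun h => eB_ne hz (Subtype.ext h)
private theorem eB_mul (z w : R17.O) :
    ((kO (z * w) : R K) : K) = ((kO z : R K) : K) * ((kO w : R K) : K) := by
  rw [map_mul]; rfl
private theorem eB_one : ((kO 1 : R K) : K) = 1 := by rw [map_one]; rfl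
private theorem eB_three : (3 : R17.O) ∣ (mm K : R17.O) := by
  exact_mod_cast (Nat.cast_dvd_cast (α := R17.O)
    ((by norm_num : 3 ∣ 6).trans (Fr.six_dvd (E := K))))
private theorem eB_chi_zero : chi 0 = 1 := by simp [chi]

/-- Reduce to primes (`R17.Primary.induction`, `rho_mul_left`, `rho_mul_right`); for two different
primary primes use `cub_recip` and `R17.cub_recip`. -/
theorem Base.rho_primary (h : Base K) {a b : R17.O} (ha : R17.Primary a) (hb : R17.Primary b)
    (ha' : IsCoprime a (mm K : R17.O)) (hb' : IsCoprime b (mm K : R17.O)) :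
    rho ((kO a : R K) : K) ((kO b : R K) : K) = 0 := by
  have key : ∀ {a b : R17.O}, R17.Primary a → R17.Primary b → IsCoprime a (mm K : R17.O) →
      IsCoprime b (mm K : R17.O) → IsCoprime a b →
      rho ((kO a : R K) : K) ((kO b : R K) : K) = 0 := by
    intro a b ha hb ha' hb' hab
    have h1 := cub_recip (eB_ne (K := K) ha.ne_zero) (eB_ne (K := K) hb.ne_zero)
    rw [h.cub_eq ha ha', h.cub_eq hb hb', R17.cub_recip hb ha] at h1
    have h2 : R17.cub a b ≠ 0 := fun e => (R17.cub_eq_zero_iff ha).1 e hab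
    refine chi_injective ?_
    rw [eB_chi_zero]
    exact (mul_right_cancel₀ h2 (h1.symm.trans (one_mul _).symm))
  revert ha'
  refine R17.Primary.induction
    (P := fun a => IsCoprime a (mm K : R17.O) → rho ((kO a : R K) : K) ((kO b : R K) : K) = 0)
    (fun _ => ?_) (fun p n hp hp' hn ih hc => ?_) ha
  · rw [eB_one, rho_one_left (eB_ne' hb.ne_zero)]
  rw [eB_mul, rho_mul_left (eB_ne' hp.ne_zero) (eB_ne' hn.ne_zero) (eB_ne' hb.ne_zero),
    ih hc.of_mul_left_right, add_zero]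
  have hpc := hc.of_mul_left_left
  clear ih hc
  revert hb'
  refine R17.Primary.induction
    (P := fun b => IsCoprime b (mm K : R17.O) → rho ((kO p : R K) : K) ((kO b : R K) : K) = 0)
    (fun _ => ?_) (fun q n hq hq' hn ih hc => ?_) hb
  · rw [eB_one, rho_one_right (eB_ne' hp.ne_zero)]
  rw [eB_mul, rho_mul_right (eB_ne' hp.ne_zero) (eB_ne' hq.ne_zero) (eB_ne' hn.ne_zero),
    ih hc.of_mul_left_right, add_zero]
  by_cases e : p = q
  · rw [e, rho_self]
  · exact key hp' hq' hpc hc.of_mul_left_left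
      ((hp.irreducible.coprime_iff_not_dvd).2 fun hd => e (R17.BasicB.eq_of_dvd hp hq hp' hq' hd))
/-- `cub_unit_right` and `R17.cub_periodic`. -/
theorem Base.rho_unit (h : Base K) {s a b : R17.O} (hs : s ∣ (mm K : R17.O)) (ha : R17.Primary a)
    (hb : R17.Primary b) (ha' : IsCoprime a (mm K : R17.O)) (hb' : IsCoprime b (mm K : R17.O))
    (hab : (mm K : R17.O) ^ 3 ∣ a - b) :
    rho ((kO s : R K) : K) ((kO a : R K) : K) = rho ((kO s : R K) : K) ((kO b : R K) : K) := by
  have hu : IsUnit (kO s : R K) := by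
    refine isUnit_of_dvd_unit (map_dvd (kO (E := K)) hs) ?_
    rw [map_natCast]; exact isUnit_mm
  have hs0 : s ≠ 0 := fun e => hu.ne_zero (by rw [e, map_zero])
  refine chi_injective ?_
  rw [← cub_unit_right hu (eB_ne ha.ne_zero), ← cub_unit_right hu (eB_ne hb.ne_zero),
    h.cub_eq ha ha', h.cub_eq hb hb']
  refine R17.cub_periodic hs0 ha hb (Dvd.dvd.trans ?_ hab)
  rw [show (9 : R17.O) * s = 3 * 3 * s by norm_num, pow_three']
  exact mul_dvd_mul (mul_dvd_mul eB_three eB_three) hs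
/-- `u = (c² + m³ c z) / c²` with `c` an integer prime to `m`. -/
theorem Base.exists_frac (h : Base K) {u : K} (hu : U 3 u) : ∃ a b : R17.O, R17.Primary a ∧
    R17.Primary b ∧ IsCoprime a (mm K : R17.O) ∧ IsCoprime b (mm K : R17.O) ∧
    (mm K : R17.O) ^ 3 ∣ a - b ∧ u = ((kO a : R K) : K) / ((kO b : R K) : K) := by
  obtain ⟨y, ⟨c, hc, hy⟩, rfl⟩ := hu
  obtain ⟨z, hz⟩ := h _ hy
  have h3 : c.Coprime 3 := hc.coprime_dvd_right ((by norm_num : 3 ∣ 6).trans (Fr.six_dvd (E := K)))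
  have hb : R17.Primary ((c : R17.O) ^ 2) := by
    have h1 : (3 : ℤ) ∣ (c : ℤ) ^ 2 - 1 := by
      have h2 : c % 3 = 1 ∨ c % 3 = 2 := by
        have : ¬ 3 ∣ c := (Nat.Prime.coprime_iff_not_dvd Nat.prime_three).1 h3.symm
        omega
      obtain ⟨k, hk⟩ : ∃ k, c = 3 * k + c % 3 := ⟨c / 3, by omega⟩
      rcases h2 with h2 | h2 <;> rw [hk, h2] <;> push_cast
      · exact ⟨3 * k ^ 2 + 2 * k, by ring⟩
      · exact ⟨3 * k ^ 2 + 4 * k + 1, by ring⟩
    have := map_dvd (Int.castRingHom R17.O) h1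
    simpa [R17.Primary] using this
  have hb' : IsCoprime ((c : R17.O) ^ 2) (mm K : R17.O) :=
    (Nat.Coprime.cast (R := R17.O) hc).pow_left
  have hc0 : (c : K) ≠ 0 := by
    intro e
    have e' : c = 0 := by exact_mod_cast e
    have := six_le_mm (E := K)
    rw [e', Nat.coprime_zero_left] at hc
    omega
  refine ⟨(c : R17.O) ^ 2 + (mm K : R17.O) ^ 3 * (c * z), (c : R17.O) ^ 2, ?_, hb, ?_, hb',
    ⟨c * z, by ring⟩, ?_⟩
  · have : (3 : R17.O) ∣ (mm K : R17.O) ^ 3 * (c * z) :=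
      (eB_three.trans (dvd_pow_self _ three_ne_zero)).mul_right _
    have h2 := dvd_add hb this
    unfold R17.Primary
    convert h2 using 1
    ring
  · rw [show (c : R17.O) ^ 2 + (mm K : R17.O) ^ 3 * (c * z) =
      (c : R17.O) ^ 2 + (mm K : R17.O) * ((mm K : R17.O) ^ 2 * (c * z)) by ring]
    exact hb'.add_mul_left_left _
  · simp only [map_add, map_mul, map_pow, map_natCast]
    push_cast
    rw [hz]
    field_simp
/-- `x` is a quotient of two elements of `ℤ[ω]`, which are products of units, of primes dividing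
`m` and of primary primes not dividing `m` (induction on primes in the Euclidean domain `R17.O`). -/
theorem Base.level (h : Base K) {x u : K} (hx : x ≠ 0) (hu : U 3 u) : rho x u = 0 := by
  have hu0 : u ≠ 0 := hu.ne_zero (by norm_num)
  obtain ⟨a, b, ha, hb, ha', hb', hab, e⟩ := Base.exists_frac h hu
  have hm0 : (mm K : R17.O) ≠ 0 := Nat.cast_ne_zero.2 Fr.m_ne
  have h1 : ∀ s : R17.O, s ∣ (mm K : R17.O) → rho ((kO s : R K) : K) u = 0 := fun s hs => by
    rw [e, rho_div_right (eB_ne' (ne_zero_of_dvd_ne_zero hm0 hs)) (eB_ne' ha.ne_zero)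
      (eB_ne' hb.ne_zero), Base.rho_unit h hs ha hb ha' hb' hab, sub_self]
  have h2 : ∀ z : R17.O, z ≠ 0 → rho ((kO z : R K) : K) u = 0 := by
    intro z
    induction z using UniqueFactorizationMonoid.induction_on_prime with
    | h₁ => exact fun h => (h rfl).elim
    | h₂ s hs => exact fun _ => h1 s hs.dvd
    | h₃ n p hn hp ih =>
      intro _
      rw [eB_mul, rho_mul_left (eB_ne' hp.ne_zero) (eB_ne' hn) hu0, ih hn, add_zero]
      by_cases hpm : p ∣ (mm K : R17.O)
      · exact h1 p hpm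
      have hl : ¬ R17.lam ∣ p := fun hl => by
        have h3 : R17.lam ∣ 3 := ⟨-R17.lam, by linear_combination R17.lam_sq⟩
        exact hpm ((((R17.prime_lam.dvd_prime_iff_associated hp).1 hl).symm.dvd.trans h3).trans
          eB_three)
      obtain ⟨v, hv, hvp⟩ := R17.exists_unit_primary hl
      have hc : IsCoprime (v * p) (mm K : R17.O) :=
        (isCoprime_mul_unit_left_left hv _ _).2 ((hp.irreducible.coprime_iff_not_dvd).2 hpm)
      have h3 : rho ((kO (v * p) : R K) : K) u = 0 := by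
        rw [e, rho_div_right (eB_ne' hvp.ne_zero) (eB_ne' ha.ne_zero) (eB_ne' hb.ne_zero),
          Base.rho_primary h hvp ha hc ha', Base.rho_primary h hvp hb hc hb', sub_self]
      rwa [eB_mul, rho_mul_left (eB_ne' hv.ne_zero) (eB_ne' hp.ne_zero) hu0, h1 v hv.dvd,
        zero_add] at h3
  obtain ⟨c, hc, hcx⟩ := exists_nat_mul_mem_RR x
  obtain ⟨k, z, hz⟩ := h.exists_pow ⟨_, hcx⟩
  have hc0 : c ≠ 0 := by
    intro e'
    have := six_le_mm (E := K)
    rw [e', Nat.coprime_zero_left] at hc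
    omega
  have hd : (mm K : R17.O) ^ k * c ≠ 0 := mul_ne_zero (pow_ne_zero _ hm0) (Nat.cast_ne_zero.2 hc0)
  have hz' : ((kO z : R K) : K) = ((kO ((mm K : R17.O) ^ k * c) : R K) : K) * x := by
    rw [← hz]
    simp only [map_mul, map_pow, map_natCast]
    push_cast
    ring
  have hz0 : z ≠ 0 := fun e' => by
    rw [e', map_zero] at hz'
    exact mul_ne_zero (eB_ne' hd) hx hz'.symm
  have h3 := h2 z hz0
  rwa [hz', rho_mul_left (eB_ne' hd) hx hu0, h2 _ hd, zero_add] at h3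

/-! ## part C: convergence at `S` -/

/-- Convergence at the primes dividing `m`. -/
def Cv (a : ℕ → K) (a₀ : K) : Prop := ∀ j : ℕ, ∀ᶠ i in atTop, (a i - a₀) / (mm K : K) ^ j ∈ OS K

private theorem eC_mm : (mm K : K) ∈ OS K := natCast_mem _ _

theorem Cv.const (a : K) : Cv (fun _ => a) a := fun j =>
  Eventually.of_forall fun _ => by rw [sub_self, zero_div]; exact zero_mem _
theorem Cv.congr' {a b : ℕ → K} {a₀ : K} (h : Cv a a₀) (h' : ∀ᶠ i in atTop, a i = b i) :
    Cv b a₀ := fun j => by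
  filter_upwards [h j, h'] with i h1 h2
  rwa [← h2]
theorem Cv.add {a b : ℕ → K} {a₀ b₀ : K} (h : Cv a a₀) (h' : Cv b b₀) :
    Cv (fun i => a i + b i) (a₀ + b₀) := fun j => by
  filter_upwards [h j, h' j] with i h1 h2
  convert add_mem h1 h2 using 1
  ring
theorem Cv.neg {a : ℕ → K} {a₀ : K} (h : Cv a a₀) : Cv (fun i => -a i) (-a₀) := fun j => by
  filter_upwards [h j] with i h1
  convert neg_mem h1 using 1
  ring
theorem Cv.sub {a b : ℕ → K} {a₀ b₀ : K} (h : Cv a a₀) (h' : Cv b b₀) :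
    Cv (fun i => a i - b i) (a₀ - b₀) := fun j => by
  filter_upwards [h j, h' j] with i h1 h2
  convert sub_mem h1 h2 using 1
  ring
theorem Cv.mul {a b : ℕ → K} {a₀ b₀ : K} (h : Cv a a₀) (h' : Cv b b₀) :
    Cv (fun i => a i * b i) (a₀ * b₀) := fun j => by
  obtain ⟨k, hk⟩ := exists_pow_mul_mem_OS a₀
  obtain ⟨l, hl⟩ := exists_pow_mul_mem_OS b₀
  have hm := mm_ne_zero (E := K)
  filter_upwards [h j, h' 0, h (j + l), h' (j + k)] with i h1 h2 h3 h4
  convert add_mem (mul_mem h1 h2) (add_mem (mul_mem hl h3) (mul_mem hk h4)) using 1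
  field_simp
  ring
theorem Cv.sum {ι : Type} (s : Finset ι) {a : ι → ℕ → K} {a₀ : ι → K}
    (h : ∀ k ∈ s, Cv (a k) (a₀ k)) : Cv (fun i => ∑ k ∈ s, a k i) (∑ k ∈ s, a₀ k) := by
  classical
  induction s using Finset.induction_on with
  | empty => simpa using Cv.const (0 : K)
  | insert k s hk ih =>
    simp only [Finset.sum_insert hk]
    exact Cv.add (h k (Finset.mem_insert_self _ _)) (ih fun l hl => h l (Finset.mem_insert_of_mem hl))
theorem Cv.prod {ι : Type} (s : Finset ι) {a : ι → ℕ → K} {a₀ : ι → K}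
    (h : ∀ k ∈ s, Cv (a k) (a₀ k)) : Cv (fun i => ∏ k ∈ s, a k i) (∏ k ∈ s, a₀ k) := by
  classical
  induction s using Finset.induction_on with
  | empty => simpa using Cv.const (1 : K)
  | insert k s hk ih =>
    simp only [Finset.prod_insert hk]
    exact Cv.mul (h k (Finset.mem_insert_self _ _)) (ih fun l hl => h l (Finset.mem_insert_of_mem hl))
theorem Cv.det {n : ℕ} {M : ℕ → Matrix (Fin n) (Fin n) K} {M₀ : Matrix (Fin n) (Fin n) K}
    (h : ∀ k l, Cv (fun i => M i k l) (M₀ k l)) : Cv (fun i => (M i).det) M₀.det := by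
  simp only [Matrix.det_apply']
  exact Cv.sum _ fun σ _ => Cv.mul (Cv.const _) (Cv.prod _ fun k _ => h _ _)
theorem Cv.ty {a : ℕ → K} {a₀ : K} (h : Cv a a₀) (h₀ : a₀ ≠ 0) (j : ℕ) :
    ∀ᶠ i in atTop, Ty j a₀ (a i) := by
  obtain ⟨k, hk⟩ := exists_pow_mul_mem_OS a₀⁻¹
  have hm := mm_ne_zero (E := K)
  filter_upwards [h (j + k)] with i h1
  refine U_iff.2 ?_
  convert mul_mem hk h1 using 1
  field_simp
  ring
theorem Cv.ne {a : ℕ → K} {a₀ : K} (h : Cv a a₀) (h₀ : a₀ ≠ 0) : ∀ᶠ i in atTop, a i ≠ 0 := by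
  filter_upwards [Cv.ty h h₀ 1] with i h1
  exact (h1.ne_zero le_rfl).2
theorem Cv.inv {a : ℕ → K} {a₀ : K} (h : Cv a a₀) (h₀ : a₀ ≠ 0) :
    Cv (fun i => (a i)⁻¹) a₀⁻¹ := fun j => by
  obtain ⟨k, hk⟩ := exists_pow_mul_mem_OS a₀⁻¹
  have hm := mm_ne_zero (E := K)
  filter_upwards [Cv.ty h h₀ (j + k + 1)] with i h1
  have h2 := U_iff.1 (h1.inv (by omega))
  have h3 := (h1.ne_zero (by omega)).2
  convert mul_mem eC_mm (mul_mem hk h2) using 1
  field_simp
  ring
theorem Cv.eq_zero {a : ℕ → K} {a₀ : K} (h : Cv a a₀) (h' : ∀ᶠ i in atTop, a i = 0) : a₀ = 0 := by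
  by_contra h₀
  obtain ⟨i, h1, h2⟩ := ((Cv.ne h h₀).and h').exists
  exact h1 h2
theorem cv_of_U {u : ℕ → K} (h : ∀ i, U i (u i)) : Cv u 1 := fun j => by
  filter_upwards [eventually_ge_atTop j] with i hi
  exact U_iff.1 ((h i).mono hi)

/-- Local constancy of `rho`. -/
def LC (K : Type) [Field K] [NumberField K] [Fr K] : Prop :=
  ∀ (a b : ℕ → K) (a₀ b₀ : K), a₀ ≠ 0 → b₀ ≠ 0 → Cv a a₀ → Cv b b₀ →
    ∀ᶠ i in atTop, rho (a i) (b i) = rho a₀ b₀

theorem lc_of_level {j : ℕ} (h : ∀ x u : K, x ≠ 0 → U j u → rho x u = 0) : LC K := by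
  intro a b a₀ b₀ ha hb h1 h2
  filter_upwards [Cv.ty h1 ha (j + 1), Cv.ty h2 hb (j + 1)] with i h3 h4
  have hu : a i / a₀ ≠ 0 := U.ne_zero (by omega) h3
  have hv : b i / b₀ ≠ 0 := U.ne_zero (by omega) h4
  have hbi := (h4.ne_zero (by omega)).2
  rw [← mul_div_cancel₀ (a i) ha, rho_mul_left ha hu hbi, rho_swap (a i / a₀),
    h _ _ hbi (U.mono (Nat.le_succ j) h3), neg_zero, add_zero, ← mul_div_cancel₀ (b i) hb,
    rho_mul_right ha hb hv, h _ _ ha (U.mono (Nat.le_succ j) h4), add_zero]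
/-- By contradiction: there is `j₀` with `rho x u = 0` for `x, u ∈ U j₀`, and for each `x ≠ 0`
there is `j` with `rho x u = 0` for `u ∈ U j`; `Kˣ / (U j₀ · cubes)` is finite (`exists_classes`,
`exists_unit_pow_reps`). -/
theorem LC.level (h : LC K) : ∃ j : ℕ, 1 ≤ j ∧ ∀ x u : K, x ≠ 0 → U j u → rho x u = 0 := by
  have h1 : ∀ x : K, x ≠ 0 → ∀ᶠ j in atTop, ∀ u, U j u → rho x u = 0 := by
    intro x hx
    have : ∃ j, ∀ u, U j u → rho x u = 0 := by
      by_contra hc
      push Not at hc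
      choose u hu hu' using hc
      obtain ⟨i, hi⟩ := (h _ _ _ _ hx one_ne_zero (Cv.const x) (cv_of_U hu)).exists
      exact hu' i (hi.trans (rho_one_right hx))
    obtain ⟨j, hj⟩ := this
    filter_upwards [eventually_ge_atTop j] with i hi u hu
    exact hj u (hu.mono hi)
  obtain ⟨j₀, hj₀, h2⟩ : ∃ j, 1 ≤ j ∧ ∀ v u : K, U j v → U j u → rho v u = 0 := by
    have : ∃ j, ∀ v u : K, U j v → U j u → rho v u = 0 := by
      by_contra hc
      push Not at hc
      choose v u hv hu hu' using hc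
      obtain ⟨i, hi⟩ := (h _ _ _ _ one_ne_zero one_ne_zero (cv_of_U hv) (cv_of_U hu)).exists
      exact hu' i (hi.trans (rho_self _))
    obtain ⟨j, hj⟩ := this
    exact ⟨j + 1, by omega, fun v u hv hu => hj v u (hv.mono (by omega)) (hu.mono (by omega))⟩
  obtain ⟨T, hT, hT'⟩ := exists_classes (E := K) hj₀
  obtain ⟨S, hS, hS'⟩ := exists_unit_pow_reps (E := K) three_ne_zero
  have hne : ∀ {s : R K}, IsUnit s → (s : K) ≠ 0 := fun hs => (isUnit_iff.1 hs).1
  obtain ⟨j, hj, hjT, hjS⟩ := ((eventually_ge_atTop j₀).and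
    (((eventually_all_finset T).2 fun τ hτ => h1 τ (hT τ hτ)).and
      ((eventually_all_finset S).2 fun s hs => h1 (s : K) (hne (hS s hs))))).exists
  refine ⟨j, hj₀.trans hj, fun x u hx hu => ?_⟩
  obtain ⟨τ, ⟨hτ, w, hw, hty⟩, -⟩ := hT' x hx
  obtain ⟨s, ⟨hs, t, ht, e⟩, -⟩ := hS' w hw
  have hu0 := hu.ne_zero (hj₀.trans hj)
  have hτ0 := hT τ hτ
  have h3 : rho ((w : K) * x) u = 0 := by
    rw [← mul_div_cancel₀ ((w : K) * x) hτ0, rho_mul_left hτ0 (U.ne_zero hj₀ hty) hu0,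
      hjT τ hτ u hu, h2 _ _ hty (hu.mono hj), add_zero]
  have h4 : rho (w : K) u = 0 := by
    rw [e]
    push_cast
    rw [rho_mul_left (hne (hS s hs)) (pow_ne_zero _ (hne ht)) hu0, hjS s hs u hu,
      rho_cube_left (hne ht) hu0, add_zero]
  rwa [rho_mul_left (hne hw) hx hu0, h4, zero_add] at h3
/-- A `K`-linear form maps `OS E` into `m^{-c} OS K` (integral basis, `exists_pow_mul_mem_OS`). -/
theorem Ov.cv_lin {E : Type} [Field E] [NumberField E] [Fr E] [Algebra K E] (h : Ov K E)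
    (ℓ : E →ₗ[K] K) {a : ℕ → E} {a₀ : E} (ha : Cv a a₀) : Cv (fun i => ℓ (a i)) (ℓ a₀) := by
  have hm := mm_ne_zero (E := K)
  obtain ⟨c, hc⟩ : ∃ c : ℕ, ∀ k, (mm K : K) ^ c * ℓ (integralBasis E k) ∈ OS K := by
    refine (eventually_all.2 fun k => ?_ : ∀ᶠ c : ℕ in atTop,
      ∀ k, (mm K : K) ^ c * ℓ (integralBasis E k) ∈ OS K).exists
    obtain ⟨l, hl⟩ := exists_pow_mul_mem_OS (ℓ (integralBasis E k))
    filter_upwards [eventually_ge_atTop l] with c hc
    obtain ⟨d, rfl⟩ := Nat.exists_eq_add_of_le' hc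
    rw [pow_add, mul_assoc]
    exact mul_mem (pow_mem eC_mm _) hl
  have h1 : ∀ x ∈ Submodule.span ℤ (Set.range (integralBasis E)),
      (mm K : K) ^ c * ℓ x ∈ OS K := by
    intro x hx
    induction hx using Submodule.span_induction with
    | mem x hx => obtain ⟨k, rfl⟩ := hx; exact hc k
    | zero => rw [map_zero, mul_zero]; exact zero_mem _
    | add x y _ _ hx hy => rw [map_add, mul_add]; exact add_mem hx hy
    | smul n x _ hx => rw [map_zsmul, mul_smul_comm]; exact zsmul_mem hx n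
  have h2 : ∀ y ∈ OS E, (mm K : K) ^ c * ℓ y ∈ OS K := by
    rintro y ⟨b, hb, hy⟩
    rw [h.hm] at hb
    have hb0 : (b : K) ≠ 0 := by
      intro e
      have e' : b = 0 := by exact_mod_cast e
      have := six_le_mm (E := K)
      rw [e', Nat.coprime_zero_left] at hb
      omega
    have h3 := h1 _ ((mem_span_integralBasis E).2 ⟨⟨_, hy⟩, rfl⟩)
    have h4 := mul_mem (inv_natCast_mem_OS hb) h3
    convert h4 using 1
    have : ℓ ((b : E) * y) = b * ℓ y := by rw [← nsmul_eq_mul, map_nsmul, nsmul_eq_mul]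
    show _ = (b : K)⁻¹ * (_ * ℓ ((b : E) * y))
    rw [this]
    field_simp
  intro j
  filter_upwards [ha (j + c)] with i hi
  convert h2 _ hi using 1
  have : (a i - a₀) / (mm E : E) ^ (j + c) = (((mm K : K) ^ (j + c))⁻¹ : K) • (a i - a₀) := by
    rw [Algebra.smul_def, map_inv₀, map_pow, map_natCast, h.hm, div_eq_inv_mul]
  rw [this, map_smul, map_sub, smul_eq_mul]
  field_simp
  ring

end Crest.Agent.R312.CR
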