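import Crest.Agent.R312.CRe

/-!
# Row 312, cubic reciprocity: the algebras `K[X] / f`, local constancy by induction on the degree
-/

set_option autoImplicit false

noncomputable section

namespace Crest.Agent.R312.CR

open NumberField Filter Polynomial

variable {K : Type} [Field K] [NumberField K] [Fr K]

/-- Convergence of polynomials of bounded degree. -/
def CvP (f : ℕ → K[X]) (f₀ : K[X]) : Prop :=
  (∃ N, ∀ i, (f i).natDegree ≤ N) ∧ ∀ k, Cv (fun i => (f i).coeff k) (f₀.coeff k)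

/-- A convergent sequence of monic polynomials of degree `n`. -/
structure CvM (n : ℕ) (f : ℕ → K[X]) (f₀ : K[X]) : Prop where
  cv : CvP f f₀
  mon : ∀ᶠ i in atTop, (f i).Monic ∧ (f i).natDegree = n
  mon₀ : f₀.Monic
  deg₀ : f₀.natDegree = n

/-- The pairing in `K[X] / f`. -/
def cf (f g h : K[X]) : ZMod 3 := cB K (AdjoinRoot.mk f g) (AdjoinRoot.mk f h)

/-- The norm from `K[X] / f`. -/
def Nf (f h : K[X]) : K := Algebra.norm K (AdjoinRoot.mk f h)

/-! ## part A: continuity -/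

theorem CvP.const (f : K[X]) : CvP (fun _ => f) f :=
  ⟨⟨_, fun _ => le_rfl⟩, fun _ => Cv.const _⟩
theorem CvP.add {f g : ℕ → K[X]} {f₀ g₀ : K[X]} (h : CvP f f₀) (h' : CvP g g₀) :
    CvP (fun i => f i + g i) (f₀ + g₀) := by
  obtain ⟨⟨N, hN⟩, h⟩ := h
  obtain ⟨⟨M, hM⟩, h'⟩ := h'
  refine ⟨⟨max N M, fun i => (natDegree_add_le _ _).trans (max_le_max (hN i) (hM i))⟩, fun k => ?_⟩
  simpa only [coeff_add] using (h k).add (h' k)
theorem CvP.sub {f g : ℕ → K[X]} {f₀ g₀ : K[X]} (h : CvP f f₀) (h' : CvP g g₀) :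
    CvP (fun i => f i - g i) (f₀ - g₀) := by
  obtain ⟨⟨N, hN⟩, h⟩ := h
  obtain ⟨⟨M, hM⟩, h'⟩ := h'
  refine ⟨⟨max N M, fun i => (natDegree_sub_le _ _).trans (max_le_max (hN i) (hM i))⟩, fun k => ?_⟩
  simpa only [coeff_sub] using (h k).sub (h' k)
theorem CvP.mul {f g : ℕ → K[X]} {f₀ g₀ : K[X]} (h : CvP f f₀) (h' : CvP g g₀) :
    CvP (fun i => f i * g i) (f₀ * g₀) := by
  obtain ⟨⟨N, hN⟩, h⟩ := h
  obtain ⟨⟨M, hM⟩, h'⟩ := h'
  refine ⟨⟨N + M, fun i => natDegree_mul_le.trans (add_le_add (hN i) (hM i))⟩, fun k => ?_⟩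
  simpa only [coeff_mul] using Cv.sum _ fun x _ => (h x.1).mul (h' x.2)
theorem CvP.C {a : ℕ → K} {a₀ : K} (h : Cv a a₀) : CvP (fun i => C (a i)) (C a₀) := by
  refine ⟨⟨0, fun i => (natDegree_C _).le⟩, fun k => ?_⟩
  simp only [coeff_C]
  split_ifs
  exacts [h, Cv.const _]
omit [NumberField K] [Fr K] in
theorem fA_step {n d : ℕ} {f g : K[X]} (hf : f.Monic) (hn : f.natDegree = n)
    (hg : ∀ k, n + (d + 1) ≤ k → g.coeff k = 0) :
    (∀ k, n + d ≤ k → (g - Polynomial.C (g.coeff (n + d)) * (X ^ d * f)).coeff k = 0) ∧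
      (g - Polynomial.C (g.coeff (n + d)) * (X ^ d * f)) %ₘ f = g %ₘ f := by
  refine ⟨fun k hk => ?_, modByMonic_eq_of_dvd_sub hf (by
    rw [sub_sub_cancel_left, dvd_neg]; exact (dvd_mul_left _ _).mul_left _)⟩
  rw [coeff_sub, coeff_C_mul, coeff_X_pow_mul', if_pos (by omega)]
  rcases hk.eq_or_lt with rfl | hk
  · rw [Nat.add_sub_cancel, ← hn, hf.coeff_natDegree, mul_one, sub_self]
  · rw [hg k hk, coeff_eq_zero_of_natDegree_lt (p := f) (by omega), mul_zero, sub_self]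
theorem fA_mod {n : ℕ} {f : ℕ → K[X]} {f₀ : K[X]} (h : CvM n f f₀) (d : ℕ) :
    ∀ (g : ℕ → K[X]) (g₀ : K[X]), CvP g g₀ → (∀ᶠ i in atTop, ∀ k, n + d ≤ k → (g i).coeff k = 0) →
      ∀ k, Cv (fun i => (g i %ₘ f i).coeff k) ((g₀ %ₘ f₀).coeff k) := by
  induction d with
  | zero =>
    intro g g₀ hg h0 k
    have e : ∀ p q : K[X], q.Monic → q.natDegree = n → (∀ k, n + 0 ≤ k → p.coeff k = 0) →
        p %ₘ q = p := fun p q hq hn hp => (modByMonic_eq_self_iff hq).2 (by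
      rw [degree_eq_natDegree hq.ne_zero, hn, degree_lt_iff_coeff_zero]
      exact hp)
    rw [e _ _ h.mon₀ h.deg₀ fun k hk => (hg.2 k).eq_zero (h0.mono fun i hi => hi k hk)]
    refine (hg.2 k).congr' ?_
    filter_upwards [h.mon, h0] with i h1 h2
    rw [e _ _ h1.1 h1.2 h2]
  | succ d ih =>
    intro g g₀ hg h0 k
    have h1 := ih _ _ (hg.sub ((CvP.C (hg.2 (n + d))).mul ((CvP.const (X ^ d)).mul h.cv)))
      (by filter_upwards [h.mon, h0] with i h1 h2 using (fA_step h1.1 h1.2 h2).1) k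
    rw [(fA_step h.mon₀ h.deg₀ fun k hk =>
      (hg.2 k).eq_zero (h0.mono fun i hi => hi k hk)).2] at h1
    refine h1.congr' ?_
    filter_upwards [h.mon, h0] with i h1 h2
    rw [(fA_step h1.1 h1.2 h2).2]
/-- Induction on a bound `N` for the degrees: replace `g` by `g - C (g.coeff N) X^(N-n) f`
(`Cv.eq_zero` gives the bound for the limit; `natDegree_modByMonic_le_left` bounds the degrees). -/
theorem CvM.mod {n : ℕ} {f g : ℕ → K[X]} {f₀ g₀ : K[X]} (h : CvM n f f₀) (h' : CvP g g₀) :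
    CvP (fun i => g i %ₘ f i) (g₀ %ₘ f₀) := by
  obtain ⟨N, hN⟩ := h'.1
  exact ⟨⟨N, fun i => natDegree_modByMonic_le_left.trans (hN i)⟩, fA_mod h (N + 1) g g₀ h'
    (.of_forall fun i k hk => coeff_eq_zero_of_natDegree_lt (by have := hN i; omega))⟩
omit [NumberField K] [Fr K] in
/-- The matrix of the multiplication in the basis `AdjoinRoot.powerBasis'`. -/
theorem Nf_eq_det {n : ℕ} {f : K[X]} (hf : f.Monic) (hn : f.natDegree = n) (h : K[X]) :
    Nf f h = (Matrix.of fun k l : Fin n => ((h * X ^ (l : ℕ)) %ₘ f).coeff k).det := by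
  subst hn
  rw [Nf, Algebra.norm_eq_matrix_det (AdjoinRoot.powerBasisAux' hf)]
  congr 1
  ext k l
  rw [Algebra.leftMulMatrix_eq_repr_mul, show AdjoinRoot.powerBasisAux' hf l =
    AdjoinRoot.root f ^ (l : ℕ) from (AdjoinRoot.powerBasis' hf).basis_eq_pow l, ← AdjoinRoot.mk_X,
    ← map_pow, ← map_mul]
  rfl
theorem CvM.norm {n : ℕ} {f g : ℕ → K[X]} {f₀ g₀ : K[X]} (h : CvM n f f₀) (h' : CvP g g₀) :
    Cv (fun i => Nf (f i) (g i)) (Nf f₀ g₀) := by
  rw [Nf_eq_det h.mon₀ h.deg₀]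
  refine (Cv.det (M := fun i => Matrix.of fun k l : Fin n =>
    ((g i * X ^ (l : ℕ)) %ₘ f i).coeff k) fun k l =>
      (h.mod (h'.mul (CvP.const _))).2 k).congr' ?_
  filter_upwards [h.mon] with i hi
  rw [Nf_eq_det hi.1 hi.2]
omit [NumberField K] [Fr K] in
theorem isUnit_mk_iff {f g : K[X]} : IsUnit (AdjoinRoot.mk f g) ↔ IsCoprime f g := by
  rw [isUnit_iff_exists_inv']
  constructor
  · rintro ⟨b, hb⟩
    obtain ⟨b, rfl⟩ := AdjoinRoot.mk_surjective b
    rw [← map_mul, ← map_one (AdjoinRoot.mk f), AdjoinRoot.mk_eq_mk] at hb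
    obtain ⟨a, ha⟩ := hb
    exact ⟨-a, b, by linear_combination ha⟩
  · rintro ⟨a, b, h⟩
    refine ⟨AdjoinRoot.mk f b, ?_⟩
    rw [← map_mul, ← map_one (AdjoinRoot.mk f), AdjoinRoot.mk_eq_mk]
    exact ⟨-a, by linear_combination h⟩
omit [NumberField K] [Fr K] in
theorem isCoprime_iff_Nf {f g : K[X]} (hf : f.Monic) : IsCoprime f g ↔ Nf f g ≠ 0 := by
  have := hf.finite_adjoinRoot
  rw [← isUnit_mk_iff, ← Algebra.lmul_isUnit_iff (R := K), LinearMap.isUnit_iff_isUnit_det,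
    isUnit_iff_ne_zero, Nf, Algebra.norm_apply]
theorem CvM.coprime {n : ℕ} {f g : ℕ → K[X]} {f₀ g₀ : K[X]} (h : CvM n f f₀) (h' : CvP g g₀)
    (hc : IsCoprime f₀ g₀) : ∀ᶠ i in atTop, IsCoprime (f i) (g i) := by
  filter_upwards [h.mon, (h.norm h').ne ((isCoprime_iff_Nf h.mon₀).1 hc)] with i h1 h2
  exact (isCoprime_iff_Nf h1.1).2 h2
/-- Division by the leading coefficient. -/
theorem CvP.monic {n : ℕ} {g : ℕ → K[X]} {g₀ : K[X]} (h : CvP g g₀)
    (hd : ∀ᶠ i in atTop, (g i).natDegree ≤ n) (h₀ : g₀.coeff n ≠ 0) :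
    CvM n (fun i => Polynomial.C ((g i).coeff n)⁻¹ * g i) (Polynomial.C (g₀.coeff n)⁻¹ * g₀) := by
  have e : ∀ p : K[X], p.natDegree ≤ n → p.coeff n ≠ 0 → (Polynomial.C (p.coeff n)⁻¹ * p).Monic ∧
      (Polynomial.C (p.coeff n)⁻¹ * p).natDegree = n := fun p h1 h2 => by
    have h3 := natDegree_eq_of_le_of_coeff_ne_zero h1 h2
    exact ⟨monic_C_mul_of_mul_leadingCoeff_eq_one (by rw [leadingCoeff, h3, inv_mul_cancel₀ h2]),
      by rw [natDegree_C_mul (inv_ne_zero h2), h3]⟩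
  have h1 := e g₀ (natDegree_le_iff_coeff_eq_zero.2 fun k hk => (h.2 k).eq_zero
    (hd.mono fun i hi => coeff_eq_zero_of_natDegree_lt (hi.trans_lt hk))) h₀
  refine ⟨(CvP.C ((h.2 n).inv h₀)).mul h, ?_, h1.1, h1.2⟩
  filter_upwards [hd, (h.2 n).ne h₀] with i h2 h3 using e _ h2 h3

/-! ## part B: the three-term relation -/

theorem exists_lift_scale (f : K[X]) (hf : f.Monic) : ∃ t₀ : R K, t₀ ≠ 0 ∧ ∀ t : R K, t₀ ∣ t →
    ∃ F : (R K)[X], F.Monic ∧ F.map (algebraMap (R K) K) = f.scaleRoots (t : K) := by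
  obtain ⟨F, h1, -, h2⟩ := lifts_and_natDegree_eq_and_monic
    (IsLocalization.scaleRoots_commonDenom_mem_lifts (nonZeroDivisors (R K)) f
      ⟨1, by rw [map_one, hf.leadingCoeff]⟩) ((monic_scaleRoots_iff _).2 hf)
  refine ⟨_, nonZeroDivisors.coe_ne_zero
    (IsLocalization.commonDenom (nonZeroDivisors (R K)) f.support f.coeff), ?_⟩
  rintro _ ⟨u, rfl⟩
  refine ⟨F.scaleRoots u, (monic_scaleRoots_iff _).2 h2, ?_⟩
  rw [map_scaleRoots _ _ _ (by rw [h2.leadingCoeff, map_one]; exact one_ne_zero), h1,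
    ← scaleRoots_mul]
  rfl
theorem finite_of_coprime {F G : (R K)[X]} (hF : F.Monic)
    (h : IsCoprime (F.map (algebraMap (R K) K)) (G.map (algebraMap (R K) K))) :
    Finite ((R K)[X] ⧸ Ideal.span {F, G}) := by
  obtain ⟨a, b, e⟩ := h
  obtain ⟨c, hc, ha⟩ := IsLocalization.integerNormalization_spec (nonZeroDivisors (R K)) a
  obtain ⟨d, hd, hb⟩ := IsLocalization.integerNormalization_spec (nonZeroDivisors (R K)) b
  have h1 : Polynomial.C (c * d) ∈ Ideal.span {F, G} := Ideal.mem_span_pair.2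
    ⟨d • IsLocalization.integerNormalization (nonZeroDivisors (R K)) a,
      c • IsLocalization.integerNormalization (nonZeroDivisors (R K)) b,
      map_injective (algebraMap (R K) K) Subtype.val_injective (by
        simp only [Polynomial.map_add, Polynomial.map_mul, Polynomial.map_smul, ha, hb, map_C,
          map_mul, Algebra.smul_def, Polynomial.algebraMap_apply, Algebra.algebraMap_self, RingHom.id_apply]
        linear_combination (Polynomial.C (algebraMap (R K) K c) *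
          Polynomial.C (algebraMap (R K) K d)) * e)⟩
  have := hF.finite_quotient
  have hle : Ideal.span {F} ≤ Ideal.span {F, G} :=
    Ideal.span_mono (Set.singleton_subset_iff.2 (Set.mem_insert F {G}))
  have : Module.Finite (R K) ((R K)[X] ⧸ Ideal.span {F, G}) := Module.Finite.of_surjective
    (Ideal.Quotient.factorₐ (R K) hle).toLinearMap (Ideal.Quotient.factor_surjective hle)
  have := finite_quot (mul_ne_zero (nonZeroDivisors.ne_zero hc) (nonZeroDivisors.ne_zero hd))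
  have h2 := Submodule.finite_quotient_smul (Ideal.span {c * d})
    (N := (⊤ : Submodule (R K) ((R K)[X] ⧸ Ideal.span {F, G}))) Module.Finite.fg_top
  refine (Submodule.quotEquivOfEqBot _ (eq_bot_iff.2 (Submodule.smul_le.2 ?_))).finite_iff.1 h2
  intro r hr x _
  obtain ⟨r, rfl⟩ := Ideal.mem_span_singleton'.1 hr
  obtain ⟨x, rfl⟩ := Ideal.Quotient.mk_surjective x
  refine Ideal.Quotient.eq_zero_iff_mem.2 (?_ : (r * (c * d)) • x ∈ _)
  rw [smul_eq_C_mul, map_mul]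
  exact Ideal.mul_mem_right _ _ (Ideal.mul_mem_left _ _ h1)
/-- The map `X ↦ s · root`. -/
def ev (f : K[X]) (s : K) : (R K)[X] →ₐ[R K] AdjoinRoot f :=
  Polynomial.aeval (algebraMap K (AdjoinRoot f) s * AdjoinRoot.root f)
theorem ev_apply {f g : K[X]} {s : K} {G : (R K)[X]}
    (h : G.map (algebraMap (R K) K) = g.scaleRoots s) :
    ev f s G = algebraMap K (AdjoinRoot f) s ^ g.natDegree * AdjoinRoot.mk f g := by
  rw [ev, ← aeval_map_algebraMap K, h, aeval_def, scaleRoots_eval₂_mul, ← aeval_def,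
    AdjoinRoot.aeval_eq]
omit [Fr K] in
theorem fB_unit (f : K[X]) {s : K} (hs : s ≠ 0) (n : ℕ) :
    IsUnit (algebraMap K (AdjoinRoot f) s ^ n) := (hs.isUnit.map _).pow n
theorem ev_eq_zero_iff {f : K[X]} (hf : f.Monic) {s : K} (hs : s ≠ 0) {F : (R K)[X]} (hF : F.Monic)
    (h : F.map (algebraMap (R K) K) = f.scaleRoots s) (x : (R K)[X]) : ev f s x = 0 ↔ F ∣ x := by
  have e : x.map (algebraMap (R K) K) =
      ((x.map (algebraMap (R K) K)).scaleRoots s⁻¹).scaleRoots s := by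
    rw [← scaleRoots_mul, inv_mul_cancel₀ hs, scaleRoots_one]
  rw [ev_apply e, (fB_unit f hs _).mul_right_eq_zero, AdjoinRoot.mk_eq_zero,
    ← scaleRoots_dvd_iff _ _ hs.isUnit, ← e, ← h, map_dvd_map _ Subtype.val_injective hF]
theorem isLatt_ev {f : K[X]} (hf : f.Monic) {s : K} (hs : s ≠ 0) {F : (R K)[X]} (hF : F.Monic)
    (h : F.map (algebraMap (R K) K) = f.scaleRoots s) :
    IsLatt (K := K) (LinearMap.range (ev f s).toLinearMap) := by
  constructor
  · have h1 : IsIntegral (R K) (algebraMap K (AdjoinRoot f) s * AdjoinRoot.root f) :=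
      ⟨F, hF, (ev_eq_zero_iff hf hs hF h F).2 dvd_rfl⟩
    have h2 := h1.fg_adjoin_singleton
    rw [Algebra.adjoin_singleton_eq_range_aeval] at h2
    exact h2
  · rw [eq_top_iff, ← (AdjoinRoot.powerBasis' hf).basis.span_eq, Submodule.span_le]
    rintro _ ⟨i, rfl⟩
    have e : (AdjoinRoot.powerBasis' hf).basis i = (s⁻¹ ^ (i : ℕ)) • ev f s (X ^ (i : ℕ)) := by
      rw [PowerBasis.basis_eq_pow, ev, map_pow, aeval_X, ← _root_.smul_pow, ← Algebra.smul_def,
        inv_smul_smul₀ hs]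
      rfl
    rw [e]
    exact Submodule.smul_mem _ _ (Submodule.subset_span ⟨_, rfl⟩)
theorem fB_cu {f g h : K[X]} (hf : f.Monic) {t : K} (ht : t ≠ 0) {F G H : (R K)[X]} (hF : F.Monic)
    (eF : F.map (algebraMap (R K) K) = f.scaleRoots (t ^ 3))
    (eG : G.map (algebraMap (R K) K) = g.scaleRoots (t ^ 3))
    (eH : H.map (algebraMap (R K) K) = h.scaleRoots (t ^ 3)) :
    cu (LinearMap.range (ev f (t ^ 3)).toLinearMap) (ev f (t ^ 3) G) (ev f (t ^ 3) H) =
      cf f g h := by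
  have := hf.finite_adjoinRoot
  refine (cB_eq_cu (isLatt_ev hf (pow_ne_zero 3 ht) hF eF) _ _).symm.trans ?_
  rw [ev_apply eG, ev_apply eH, map_pow,
    pow_right_comm _ 3, pow_right_comm _ 3, cB_cube_mul_left (fB_unit f ht _),
    cB_cube_mul_right (fB_unit f ht _), cf]
/-- `three_term` for `A = (R K)[X]` and `s = t ^ 3` sufficiently divisible; `cB_eq_cu`,
`cB_cube_mul_left`, `cB_cube_mul_right`; the scaled polynomials are coprime over `K` because their
images in `AdjoinRoot` are units (or `Polynomial.isCoprime_scaleRoots`). -/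
theorem cf_three {f g h : K[X]} (hf : f.Monic) (hg : g.Monic) (hh : h.Monic) (hfg : IsCoprime f g)
    (hgh : IsCoprime g h) (hhf : IsCoprime h f) : cf f g h + cf g h f + cf h f g = 0 := by
  obtain ⟨a, ha, hF⟩ := exists_lift_scale f hf
  obtain ⟨b, hb, hG⟩ := exists_lift_scale g hg
  obtain ⟨c, hc, hH⟩ := exists_lift_scale h hh
  obtain ⟨F, mF, eF⟩ := hF ((a * b * c) ^ 3) ⟨a ^ 2 * (b * c) ^ 3, by ring⟩
  obtain ⟨G, mG, eG⟩ := hG ((a * b * c) ^ 3) ⟨b ^ 2 * (a * c) ^ 3, by ring⟩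
  obtain ⟨H, mH, eH⟩ := hH ((a * b * c) ^ 3) ⟨c ^ 2 * (a * b) ^ 3, by ring⟩
  have ht : ((a * b * c : R K) : K) ≠ 0 := fun h =>
    mul_ne_zero (mul_ne_zero ha hb) hc (Subtype.ext h)
  have hs := pow_ne_zero 3 ht
  rw [SubmonoidClass.coe_pow] at eF eG eH
  have u : ∀ {p q : K[X]} {Q : (R K)[X]}, IsCoprime p q →
      Q.map (algebraMap (R K) K) = q.scaleRoots (((a * b * c : R K) : K) ^ 3) →
      IsUnit (ev p (((a * b * c : R K) : K) ^ 3) Q) := fun h e => by
    rw [ev_apply e]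
    exact (fB_unit _ hs _).mul (isUnit_mk_iff.2 h)
  rw [← fB_cu hf ht mF eF eG eH, ← fB_cu hg ht mG eG eH eF, ← fB_cu hh ht mH eH eF eG]
  exact three_term _ _ _ (ev_eq_zero_iff hf hs mF eF) (ev_eq_zero_iff hg hs mG eG)
    (ev_eq_zero_iff hh hs mH eH) (u hfg eG) (u hhf.symm eH) (u hgh eH) (u hfg.symm eF) (u hhf eF)
    (u hgh.symm eG)
    (finite_of_coprime mF (by rw [eF, eG]; exact isCoprime_scaleRoots _ _ _ hs.isUnit hfg))
    (finite_of_coprime mG (by rw [eG, eH]; exact isCoprime_scaleRoots _ _ _ hs.isUnit hgh))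
    (finite_of_coprime mH (by rw [eH, eF]; exact isCoprime_scaleRoots _ _ _ hs.isUnit hhf))

/-! ## part C: the induction -/

theorem cf_swap (f g h : K[X]) : cf f h g = -cf f g h := by
  exact cB_swap _ _
omit [NumberField K] [Fr K] in
theorem fC_mk_mod {f : K[X]} (g : K[X]) : AdjoinRoot.mk f (g %ₘ f) = AdjoinRoot.mk f g := by
  rw [AdjoinRoot.mk_eq_mk, modByMonic_eq_sub_mul_div]
  simp
omit [NumberField K] [Fr K] in
theorem fC_cop_mod {f g : K[X]} : IsCoprime f (g %ₘ f) ↔ IsCoprime f g := by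
  rw [← isUnit_mk_iff, ← isUnit_mk_iff, fC_mk_mod]
theorem cf_mod {f : K[X]} (hf : f.Monic) (g h : K[X]) : cf f (g %ₘ f) (h %ₘ f) = cf f g h := by
  rw [cf, fC_mk_mod, fC_mk_mod, cf]
theorem cf_mul_left {f g g' h : K[X]} (hf : f.Monic) (hg : IsCoprime f g) (hg' : IsCoprime f g')
    (hh : IsCoprime f h) : cf f (g * g') h = cf f g h + cf f g' h := by
  have := hf.finite_adjoinRoot
  rw [cf, map_mul]
  exact cB_mul_left (isUnit_mk_iff.2 hg) (isUnit_mk_iff.2 hg') (isUnit_mk_iff.2 hh)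
theorem cf_mul_right {f g h h' : K[X]} (hf : f.Monic) (hg : IsCoprime f g) (hh : IsCoprime f h)
    (hh' : IsCoprime f h') : cf f g (h * h') = cf f g h + cf f g h' := by
  have := hf.finite_adjoinRoot
  rw [cf, map_mul]
  exact cB_mul_right (isUnit_mk_iff.2 hg) (isUnit_mk_iff.2 hh) (isUnit_mk_iff.2 hh')
theorem cf_C {f h : K[X]} (hf : f.Monic) {c : K} (hc : c ≠ 0) (hh : IsCoprime f h) :
    cf f (Polynomial.C c) h = rho c (Nf f h) := by
  have := hf.finite_adjoinRoot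
  rw [cf, AdjoinRoot.mk_C, ← AdjoinRoot.algebraMap_eq, cB_scalar hc (isUnit_mk_iff.2 hh)]
  exact Ov.refl.cB_eq_rho hc ((isCoprime_iff_Nf hf).1 hh)
theorem cf_degree_zero {f : K[X]} (hf : f.Monic) (h0 : f.natDegree = 0) (g h : K[X]) :
    cf f g h = 0 := by
  rw [hf.natDegree_eq_zero.1 h0]
  have : Subsingleton (AdjoinRoot (1 : K[X])) :=
    Ideal.Quotient.subsingleton_iff.2 (by simp)
  exact cB_subsingleton _ _

/-- Local constancy in degree `n`. -/
def PC (K : Type) [Field K] [NumberField K] [Fr K] (n : ℕ) : Prop :=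
  ∀ (f g h : ℕ → K[X]) (f₀ g₀ h₀ : K[X]), CvM n f f₀ → CvP g g₀ → CvP h h₀ → IsCoprime f₀ g₀ →
    IsCoprime f₀ h₀ → ∀ᶠ i in atTop, cf (f i) (g i) (h i) = cf f₀ g₀ h₀

theorem fC_formula {f G H : K[X]} {a b : K} (hf : f.Monic) (hG : G.Monic) (hH : H.Monic)
    (ha : a ≠ 0) (hb : b ≠ 0) (h1 : IsCoprime f G) (h2 : IsCoprime f H) (h3 : IsCoprime G H) :
    cf f (Polynomial.C a * G) (Polynomial.C b * H) =
      rho a (Nf f (Polynomial.C b * H)) - rho b (Nf f G) - cf G H f - cf H f G := by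
  have hC : ∀ {c : K}, c ≠ 0 → IsCoprime f (Polynomial.C c) := fun hc =>
    isCoprime_one_right.of_isCoprime_of_dvd_right (isUnit_C.2 hc.isUnit).dvd
  have h4 := cf_three hf hG hH h1 h3 h2.symm
  rw [cf_mul_left hf (hC ha) h1 ((hC hb).mul_right h2), cf_C hf ha ((hC hb).mul_right h2),
    cf_mul_right hf h1 (hC hb) h2, cf_swap f (Polynomial.C b) G, cf_C hf hb h1]
  linear_combination h4

omit [NumberField K] [Fr K] in
theorem fC_split {g : K[X]} {a : K} (ha : a ≠ 0) :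
    g = Polynomial.C a * (Polynomial.C a⁻¹ * g) := by
  rw [← mul_assoc, ← C_mul, mul_inv_cancel₀ ha, C_1, one_mul]

omit [NumberField K] [Fr K] in
theorem fC_cop {f g : K[X]} (a : K) (ha : a ≠ 0) (h : IsCoprime f g) :
    IsCoprime f (Polynomial.C a⁻¹ * g) :=
  (isCoprime_one_right.of_isCoprime_of_dvd_right
    (isUnit_C.2 (inv_ne_zero ha).isUnit).dvd).mul_right h

/-- The generic case: reduce modulo `f`, write `g = C a G`, `h = C b H` with `G, H` monic of degree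
`n`; `cf f g h = rho a (Nf f h) - rho b (Nf f G) - cf G H f - cf H f G`. -/
theorem PC.generic (hK : LC K) {n : ℕ} (ih : PC K n) {f g h : ℕ → K[X]} {f₀ g₀ h₀ : K[X]}
    (hf : CvM (n + 1) f f₀) (hg : CvP g g₀) (hh : CvP h h₀) (hg₀ : IsCoprime f₀ g₀)
    (hh₀ : IsCoprime f₀ h₀) (h₁ : (g₀ %ₘ f₀).coeff n ≠ 0) (h₂ : (h₀ %ₘ f₀).coeff n ≠ 0)
    (h₃ : IsCoprime (g₀ %ₘ f₀) (h₀ %ₘ f₀)) :
    ∀ᶠ i in atTop, cf (f i) (g i) (h i) = cf f₀ g₀ h₀ := by
  have hdeg : ∀ g : ℕ → K[X], ∀ᶠ i in atTop, (g i %ₘ f i).natDegree ≤ n := fun g => by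
    filter_upwards [hf.mon] with i hi
    have := natDegree_modByMonic_lt (g i) hi.1 (fun h => by
      have := hi.2
      rw [h, natDegree_one] at this
      omega)
    omega
  have cg := hf.mod hg
  have ch := hf.mod hh
  have mG := cg.monic (hdeg g) h₁
  have mH := ch.monic (hdeg h) h₂
  have ca := cg.2 n
  have cb := ch.2 n
  have c1 := fC_cop _ h₁ (fC_cop_mod.2 hg₀)
  have c2 := fC_cop _ h₂ (fC_cop_mod.2 hh₀)
  have c3 := fC_cop _ h₂ (fC_cop _ h₁ h₃.symm).symm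
  have r1 := hK _ _ _ _ h₁ ((isCoprime_iff_Nf hf.mon₀).1 (fC_cop_mod.2 hh₀)) ca (hf.norm ch)
  have r2 := hK _ _ _ _ h₂ ((isCoprime_iff_Nf hf.mon₀).1 c1) cb (hf.norm mG.cv)
  have i1 := ih _ _ _ _ _ _ mG mH.cv hf.cv c3 c1.symm
  have i2 := ih _ _ _ _ _ _ mH hf.cv mG.cv c2.symm c3.symm
  filter_upwards [hf.mon, mG.mon, mH.mon, ca.ne h₁, cb.ne h₂, hf.coprime mG.cv c1,
    hf.coprime mH.cv c2, mG.coprime mH.cv c3, r1, r2, i1, i2] with i e1 e2 e3 e4 e5 e6 e7 e8 e9 e10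
    e11 e12
  have k1 := fC_formula e1.1 e2.1 e3.1 e4 e5 e6 e7 e8
  have k2 := fC_formula hf.mon₀ mG.mon₀ mH.mon₀ h₁ h₂ c1 c2 c3
  rw [← fC_split e4, ← fC_split e5] at k1
  rw [← fC_split h₁, ← fC_split h₂] at k2
  rw [← cf_mod e1.1, ← cf_mod hf.mon₀, k1, k2, e9, e10, e11, e12]
omit [Fr K] in
/-- A vector space over an infinite field is not a finite union of proper subspaces
(`Subspace.biUnion_ne_univ_of_top_notMem` in `K[X]`): the subspaces are
`{u | ((c u) %ₘ f).coeff n = 0}` and `{u | q ∣ (c u) %ₘ f}` for `c ∈ {1, g}` and `q` a prime factor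
of `P`; they are proper because `u ↦ (c u) %ₘ f` takes the values `X ^ n` and `1`. -/
theorem exists_generic {n : ℕ} {f g P : K[X]} (hf : f.Monic) (hn : f.natDegree = n + 1)
    (hg : IsCoprime f g) (hP : P ≠ 0) : ∃ u : K[X], (u %ₘ f).coeff n ≠ 0 ∧
      ((g * u) %ₘ f).coeff n ≠ 0 ∧ IsCoprime P (u %ₘ f) ∧ IsCoprime P ((g * u) %ₘ f) := by
  classical
  have hf1 : f ≠ 1 := by rintro rfl; simp at hn
  let T : K[X] → K[X] →ₗ[K] K[X] := fun c => (modByMonicHom f).comp (LinearMap.mulLeft K c)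
  have hT : ∀ c u, T c u = (c * u) %ₘ f := fun _ _ => rfl
  have surj : ∀ c, IsCoprime f c → ∀ r : K[X], r.natDegree ≤ n → ∃ u, T c u = r := by
    rintro c ⟨a, b, hab⟩ r hr
    refine ⟨b * r, ?_⟩
    have hr' : r %ₘ f = r := (modByMonic_eq_self_iff hf).2
      (degree_lt_degree (by omega))
    rw [hT, ← hr']
    refine modByMonic_eq_of_dvd_sub hf ⟨-(a * r), ?_⟩
    rw [hr']
    linear_combination r * hab
  let A : K[X] → Submodule K K[X] := fun c => LinearMap.ker ((lcoeff K n).comp (T c))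
  let B : K[X] → K[X] → Submodule K K[X] := fun c q =>
    ((Ideal.span {q}).restrictScalars K).comap (T c)
  have hA : ∀ c, IsCoprime f c → A c ≠ ⊤ := fun c hc h => by
    obtain ⟨u, hu⟩ := surj c hc (X ^ n) (by simp)
    have : u ∈ A c := h ▸ Submodule.mem_top
    simp [A, hu] at this
  have hB : ∀ c q, IsCoprime f c → Prime q → B c q ≠ ⊤ := fun c q hc hq h => by
    obtain ⟨u, hu⟩ := surj c hc 1 (by simp)
    have : u ∈ B c q := h ▸ Submodule.mem_top
    simp only [B, Submodule.mem_comap, hu, Submodule.restrictScalars_mem,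
      Ideal.mem_span_singleton] at this
    exact hq.not_unit (isUnit_of_dvd_one this)
  let s := (UniqueFactorizationMonoid.factors P).toFinset
  have hs : ∀ q ∈ s, Prime q := fun q hq =>
    UniqueFactorizationMonoid.prime_of_factor q (Multiset.mem_toFinset.1 hq)
  have := Subspace.biUnion_ne_univ_of_top_notMem (k := K) (E := K[X])
    (s := insert (A 1) (insert (A g) (s.image (B 1) ∪ s.image (B g)))) (by
      simp only [Finset.mem_insert, Finset.mem_union, Finset.mem_image, not_or, not_exists, not_and]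
      exact ⟨(hA 1 isCoprime_one_right).symm, (hA g hg).symm,
        fun q hq => hB 1 q isCoprime_one_right (hs q hq), fun q hq => hB g q hg (hs q hq)⟩)
  obtain ⟨u, hu⟩ := (Set.ne_univ_iff_exists_notMem _).1 this
  simp only [Set.mem_iUnion, not_exists, SetLike.mem_coe] at hu
  have cop : ∀ c, (∀ q ∈ s, u ∉ B c q) → IsCoprime P ((c * u) %ₘ f) := fun c hc => by
    refine isCoprime_of_irreducible_dvd (fun h => hP h.1) fun z hz h1 h2 => ?_
    obtain ⟨q, hq, hzq⟩ := UniqueFactorizationMonoid.exists_mem_factors_of_dvd hP hz h1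
    exact hc q (Multiset.mem_toFinset.2 hq) (Ideal.mem_span_singleton.2 (hzq.symm.dvd.trans h2))
  refine ⟨u, ?_, ?_, ?_, cop g fun q hq => hu _ (by simp; exact Or.inr (Or.inr (Or.inr ⟨q, hq, rfl⟩)))⟩
  · simpa [A, hT] using hu (A 1) (by simp)
  · simpa [A, hT] using hu (A g) (by simp)
  · simpa using cop 1 fun q hq => hu _ (by simp; exact Or.inr (Or.inr (Or.inl ⟨q, hq, rfl⟩)))
/-- Choose `u` for `g₀` (with `P = f₀`), then `v` for `h₀` with
`P = f₀ (u %ₘ f₀) ((g₀ u) %ₘ f₀)`;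
`cf f g h = cf f (g u) (h v) - cf f u (h v) - cf f (g u) v + cf f u v`. -/
theorem PC.succ (hK : LC K) {n : ℕ} (ih : PC K n) : PC K (n + 1) := by
  intro f g h f₀ g₀ h₀ hf hg hh hg₀ hh₀
  obtain ⟨u, u1, u2, u3, u4⟩ := exists_generic hf.mon₀ hf.deg₀ hg₀ hf.mon₀.ne_zero
  have ne : ∀ {p : K[X]}, p.coeff n ≠ 0 → p ≠ 0 := fun h h' => h (by rw [h', coeff_zero])
  obtain ⟨v, v1, v2, v3, v4⟩ := exists_generic hf.mon₀ hf.deg₀ hh₀
    (mul_ne_zero (mul_ne_zero hf.mon₀.ne_zero (ne u1)) (ne u2))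
  have cu := fC_cop_mod.1 u3
  have cv := fC_cop_mod.1 v3.of_mul_left_left.of_mul_left_left
  have cgu := hg.mul (CvP.const u)
  have chv := hh.mul (CvP.const v)
  have a1 := ih.generic hK hf cgu chv (hg₀.mul_right cu) (hh₀.mul_right cv) u2 v2
    v4.of_mul_left_right
  have a2 := ih.generic hK hf (CvP.const u) chv cu (hh₀.mul_right cv) u1 v2
    v4.of_mul_left_left.of_mul_left_right
  have a3 := ih.generic hK hf cgu (CvP.const v) (hg₀.mul_right cu) cv u2 v1 v3.of_mul_left_right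
  have a4 := ih.generic hK hf (CvP.const u) (CvP.const v) cu cv u1 v1
    v3.of_mul_left_left.of_mul_left_right
  have key : ∀ {f g h : K[X]}, f.Monic → IsCoprime f g → IsCoprime f h → IsCoprime f u →
      IsCoprime f v →
      cf f g h = cf f (g * u) (h * v) - cf f u (h * v) - cf f (g * u) v + cf f u v := by
    intro f g h hf h1 h2 h3 h4
    rw [cf_mul_left hf h1 h3 (h2.mul_right h4), cf_mul_left hf h1 h3 h4, cf_mul_right hf h1 h2 h4]
    ring
  filter_upwards [hf.mon, hf.coprime hg hg₀, hf.coprime hh hh₀, hf.coprime (CvP.const u) cu,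
    hf.coprime (CvP.const v) cv, a1, a2, a3, a4] with i e1 e2 e3 e4 e5 e6 e7 e8 e9
  rw [key e1.1 e2 e3 e4 e5, key hf.mon₀ hg₀ hh₀ cu cv, e6, e7, e8, e9]
theorem LC.pc (hK : LC K) (n : ℕ) : PC K n := by
  induction n with
  | zero =>
    intro f g h f₀ g₀ h₀ hf _ _ _ _
    filter_upwards [hf.mon] with i hi
    rw [cf_degree_zero hi.1 hi.2, cf_degree_zero hf.mon₀ hf.deg₀]
  | succ n ih => exact ih.succ hK

/-- `E = K(θ)` (`Field.powerBasisOfFiniteOfSeparable`), `AdjoinRoot (minpoly K θ) ≃ₐ[K] E`; an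
element `x` of `E` is the value at `θ` of the polynomial `∑ k, C (coordinate k of x) X^k`, and the
coordinates converge (`Ov.cv_lin`); `cB_map`, `Ov.cB_eq_rho`. -/
theorem Ov.lc {E : Type} [Field E] [NumberField E] [Fr E] [Algebra K E] (h : Ov K E) (hK : LC K) :
    LC E := by
  intro a b a₀ b₀ ha₀ hb₀ ha hb
  let pb := Field.powerBasisOfFiniteOfSeparable K E
  have hint : IsIntegral K pb.gen := pb.isIntegral_gen
  have hf : (minpoly K pb.gen).Monic := minpoly.monic hint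
  have := hf.finite_adjoinRoot
  let e : AdjoinRoot (minpoly K pb.gen) ≃ₐ[K] E := AdjoinRoot.equiv' _ pb
    (by simp) (minpoly.aeval K pb.gen)
  let P : E → K[X] := fun x => ∑ k : Fin pb.dim, Polynomial.C (pb.basis.coord k x) * X ^ (k : ℕ)
  have hP : ∀ x, e (AdjoinRoot.mk _ (P x)) = x := fun x => by
    have h1 : ∀ p : K[X], e (AdjoinRoot.mk _ p) = aeval pb.gen p := fun p => by
      rw [← AdjoinRoot.aeval_eq, ← aeval_algHom_apply]
      simp [e]
    rw [h1]
    conv_rhs => rw [← pb.basis.sum_repr x]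
    simp [P, Algebra.smul_def]
  have cv : ∀ {a : ℕ → E} {a₀ : E}, Cv a a₀ → CvP (fun i => P (a i)) (P a₀) := by
    intro a a₀ ha
    simp only [P]
    induction (Finset.univ : Finset (Fin pb.dim)) using Finset.cons_induction with
    | empty => simpa using CvP.const (0 : K[X])
    | cons k s hk ih =>
      simp only [Finset.sum_cons]
      exact ((CvP.C (h.cv_lin _ ha)).mul (CvP.const _)).add ih
  have cop : ∀ {x : E}, x ≠ 0 → IsCoprime (minpoly K pb.gen) (P x) := fun hx => by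
    rw [← isUnit_mk_iff, ← MulEquiv.isUnit_map e, hP]
    exact hx.isUnit
  have val : ∀ {x y : E}, x ≠ 0 → y ≠ 0 → cf (minpoly K pb.gen) (P x) (P y) = rho x y := by
    intro x y hx hy
    rw [cf, ← cB_map e, hP, hP, h.cB_eq_rho hx hy]
  have := hK.pc _ _ _ _ _ _ _ ⟨CvP.const (minpoly K pb.gen), Eventually.of_forall fun _ => ⟨hf, rfl⟩,
    hf, rfl⟩ (cv ha) (cv hb) (cop ha₀) (cop hb₀)
  filter_upwards [this, ha.ne ha₀, hb.ne hb₀] with i e1 e2 e3
  rw [← val e2 e3, e1, val ha₀ hb₀]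

theorem rho_level (E : Type) [Field E] [NumberField E] [Fr E] :
    ∃ j : ℕ, 1 ≤ j ∧ ∀ x u : E, x ≠ 0 → U j u → rho x u = 0 := by
  obtain ⟨K, _, _, _, _, h, hK⟩ := exists_base E
  exact (h.lc (lc_of_level fun _ _ hx hu => Base.level hK hx hu)).level

end Crest.Agent.R312.CR
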