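import Crest.Agent.R312.Fact

/-!
# Row 312: the additive characters `eF`, `eS`, `ef`, the different, finite Fourier transforms
-/

set_option autoImplicit false

noncomputable section

namespace Crest.Agent.R312

open NumberField
open scoped ComplexConjugate

/-! ## part A: `efQ` (use `m ^ N * q ≡ m ^ (q.den)! * q (mod ℤ)` whenever `(q.den)! ∣ N`, `N ≠ 0`) -/

private theorem chA_pow_fact {M : Type} [Monoid M] [Fintype M] (x : M) {k : ℕ} (hk : k ≠ 0) :
    x ^ ((Fintype.card M).factorial * k) = x ^ (Fintype.card M).factorial := by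
  have key : ∀ i j : ℕ, i < j → j ≤ Fintype.card M → x ^ i = x ^ j →
      x ^ ((Fintype.card M).factorial * k) = x ^ (Fintype.card M).factorial := by
    intro i j hij hj h
    obtain ⟨p, rfl⟩ := Nat.exists_eq_add_of_le hij.le
    have hp : ∀ t a : ℕ, x ^ (i + a + p * t) = x ^ (i + a) := by
      intro t a
      induction t with
      | zero => simp
      | succ t ih =>
        rw [show i + a + p * (t + 1) = (i + p) + (a + p * t) by ring, pow_add, ← h, ← pow_add,
          ← add_assoc, ih]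
    obtain ⟨c, hc⟩ : p ∣ (Fintype.card M).factorial := Nat.dvd_factorial (by omega) (by omega)
    obtain ⟨a, ha⟩ : ∃ a, (Fintype.card M).factorial = i + a :=
      Nat.exists_eq_add_of_le ((by omega : i ≤ Fintype.card M).trans (Nat.self_le_factorial _))
    obtain ⟨k, rfl⟩ := Nat.exists_eq_succ_of_ne_zero hk
    rw [Nat.mul_succ, add_comm]
    conv_lhs => rw [hc, mul_assoc p c k, ← hc, ha]
    rw [hp, ← ha]
  obtain ⟨i, j, hne, h⟩ := Fintype.exists_ne_map_eq_of_card_lt
    (fun i : Fin (Fintype.card M + 1) => x ^ (i : ℕ)) (by simp)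
  rcases lt_or_gt_of_ne hne with hlt | hlt
  · exact key i j hlt (Nat.lt_succ_iff.1 j.2) h
  · exact key j i hlt (Nat.lt_succ_iff.1 i.2) h.symm

private theorem chA_exp_congr {a b : ℚ} {z : ℤ} (h : a = b + z) :
    Complex.exp (2 * Real.pi * Complex.I * (a : ℂ)) =
      Complex.exp (2 * Real.pi * Complex.I * (b : ℂ)) := by
  rw [h]
  push_cast
  rw [mul_add, Complex.exp_add, mul_comm _ (z : ℂ), Complex.exp_int_mul_two_pi_mul_I, mul_one]

/-- `efQ` can be computed with any non-zero multiple of `(q.den)!`. -/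
theorem efQ_eq_of_dvd (m : ℕ) (q : ℚ) {N : ℕ} (hN : N ≠ 0) (h : q.den.factorial ∣ N) :
    efQ m q = Complex.exp (2 * Real.pi * Complex.I * (((m : ℚ) ^ N * q : ℚ) : ℂ)) := by
  obtain ⟨k, rfl⟩ := h
  have : NeZero q.den := ⟨q.den_nz⟩
  have h1 := chA_pow_fact (m : ZMod q.den) (right_ne_zero_of_mul hN)
  rw [ZMod.card] at h1
  have h2 : ((q.den : ℕ) : ℤ) ∣ (m : ℤ) ^ q.den.factorial - (m : ℤ) ^ (q.den.factorial * k) := by
    rw [← ZMod.intCast_zmod_eq_zero_iff_dvd]
    push_cast
    rw [h1, sub_self]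
  obtain ⟨t, ht⟩ := h2
  refine chA_exp_congr (z := t * q.num) ?_
  have h3 : (m : ℚ) ^ q.den.factorial - (m : ℚ) ^ (q.den.factorial * k) = q.den * t := by
    exact_mod_cast ht
  push_cast
  rw [← Rat.mul_den_eq_num q]
  linear_combination q * h3

private theorem chA_norm (a : ℚ) : ‖Complex.exp (2 * Real.pi * Complex.I * (a : ℂ))‖ = 1 := by
  rw [show 2 * (Real.pi : ℂ) * Complex.I * (a : ℂ) = ((2 * Real.pi * a : ℝ) : ℂ) * Complex.I by
    push_cast; ring, Complex.norm_exp_ofReal_mul_I]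

private theorem chA_mul_conj {z : ℂ} (h : ‖z‖ = 1) : z * conj z = 1 := by
  rw [Complex.mul_conj, Complex.normSq_eq_norm_sq, h]; simp

theorem efQ_add {m : ℕ} (hm : m ≠ 0) (q q' : ℚ) : efQ m (q + q') = efQ m q * efQ m q' := by
  have hN : q.den.factorial * q'.den.factorial * (q + q').den.factorial ≠ 0 := by positivity
  rw [efQ_eq_of_dvd m q hN ((dvd_mul_right _ _).mul_right _),
    efQ_eq_of_dvd m q' hN ((dvd_mul_left _ _).mul_right _),
    efQ_eq_of_dvd m (q + q') hN (dvd_mul_left _ _), ← Complex.exp_add]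
  congr 1
  push_cast
  ring
theorem norm_efQ (m : ℕ) (q : ℚ) : ‖efQ m q‖ = 1 := chA_norm _
theorem efQ_eq_one {m : ℕ} (hm : m ≠ 0) {q : ℚ} {k : ℕ} {z : ℤ} (h : (m : ℚ) ^ k * q = z) :
    efQ m q = 1 := by
  have hN : q.den.factorial * (k + 1) ≠ 0 := by positivity
  obtain ⟨c, hc⟩ : ∃ c, q.den.factorial * (k + 1) = c + k :=
    Nat.exists_eq_add_of_le' (by nlinarith [Nat.factorial_pos q.den])
  rw [efQ_eq_of_dvd m q hN (dvd_mul_right _ _),
    chA_exp_congr (b := 0) (z := (m : ℤ) ^ c * z) (by rw [hc, pow_add, mul_assoc, h]; simp)]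
  simp
theorem efQ_eq_exp {m : ℕ} (hm : m ≠ 0) {q : ℚ} {b : ℕ} (hb : b.Coprime m) (hb0 : b ≠ 0) {z : ℤ}
    (h : (b : ℚ) * q = z) :
    efQ m q = Complex.exp (2 * Real.pi * Complex.I * (q : ℂ)) := by
  have hφ : 0 < b.totient := Nat.totient_pos.2 (Nat.pos_of_ne_zero hb0)
  have hN : b.totient * q.den.factorial ≠ 0 := by positivity
  have h1 : m ^ (b.totient * q.den.factorial) ≡ 1 [MOD b] := by
    have := (Nat.ModEq.pow_totient hb.symm).pow q.den.factorial
    rwa [← pow_mul, one_pow] at this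
  obtain ⟨t, ht⟩ := h1.symm.dvd
  rw [efQ_eq_of_dvd m q hN (dvd_mul_left _ _)]
  refine chA_exp_congr (z := t * z) ?_
  have h3 : (m : ℚ) ^ (b.totient * q.den.factorial) - 1 = b * t := by exact_mod_cast ht
  push_cast
  rw [← h]
  linear_combination q * h3

variable {E : Type} [Field E] [NumberField E] [Fr E]

omit [Fr E] in
private theorem chA_trace {x : E} {n : ℕ} (h : IsIntegral ℤ ((n : E) * x)) :
    ∃ z : ℤ, (n : ℚ) * Algebra.trace ℚ E x = z := by
  obtain ⟨z, hz⟩ := IsIntegrallyClosed.isIntegral_iff.1 (Algebra.isIntegral_trace (L := ℚ) h)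
  refine ⟨z, ?_⟩
  rw [← nsmul_eq_mul, map_nsmul, nsmul_eq_mul] at hz
  simpa using hz.symm

theorem eF_add (x y : E) : eF (x + y) = eF x * eF y := by
  unfold eF
  rw [map_add, efQ_add Fr.m_ne]
@[simp] theorem eF_zero : eF (0 : E) = 1 := by simp [eF, efQ]
theorem eF_neg (x : E) : eF (-x) = conj (eF x) := by
  have h1 : eF x * eF (-x) = 1 := by rw [← eF_add, add_neg_cancel, eF_zero]
  have h2 : eF x * conj (eF x) = 1 := chA_mul_conj (norm_efQ _ _)
  exact mul_left_cancel₀ (left_ne_zero_of_mul_eq_one h1) (h1.trans h2.symm)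
theorem norm_eF (x : E) : ‖eF x‖ = 1 := norm_efQ _ _
theorem eF_of_mem {x : E} (h : x ∈ RR E) : eF x = 1 := by
  obtain ⟨k, hk⟩ := h
  obtain ⟨z, hz⟩ := chA_trace (n := mm E ^ k) (x := x) (by exact_mod_cast hk)
  exact efQ_eq_one Fr.m_ne (k := k) (z := z) (by exact_mod_cast hz)
theorem eS_add (x y : E) : eS (x + y) = eS x * eS y := by
  unfold eS
  rw [eT_add, eF_add, map_mul]
  ring
@[simp] theorem eS_zero : eS (0 : E) = 1 := by simp [eS]
theorem eS_neg (x : E) : eS (-x) = conj (eS x) := by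
  unfold eS
  rw [eT_neg, eF_neg, map_mul]
theorem norm_eS (x : E) : ‖eS x‖ = 1 := by
  unfold eS
  rw [norm_mul, norm_eT, Complex.norm_conj, norm_eF, mul_one]
private theorem chA_eT_OS {x : E} (h : x ∈ OS E) : eT x = eF x := by
  obtain ⟨b, hb, hx⟩ := h
  obtain ⟨z, hz⟩ := chA_trace hx
  have hb0 : b ≠ 0 := by
    rintro rfl
    have h1 : mm E = 1 := by simpa using hb
    have h6 : 6 ∣ mm E := Fr.six_dvd
    omega
  exact (efQ_eq_exp Fr.m_ne hb hb0 hz).symm

theorem eS_of_mem {x : E} (h : x ∈ OS E) : eS x = 1 := by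
  unfold eS
  rw [chA_eT_OS h, chA_mul_conj (norm_eF x)]
theorem eT_eq_mul (x : E) : eT x = eF x * eS x := by
  unfold eS
  rw [mul_left_comm, chA_mul_conj (norm_eF x), mul_one]
theorem eT_of_mem_OS {x : E} (h : x ∈ OS E) : eT x = eF x := chA_eT_OS h
theorem eT_of_mem_RR {x : E} (h : x ∈ RR E) : eT x = eS x := by
  rw [eT_eq_mul, eF_of_mem h, one_mul]
/-- `R` is self-dual for `eF` (because `disc` is a unit of `R`; use `exists_approx`). -/
theorem mem_RR_of_eF {y : E} (h : ∀ x : R E, eF (y * x) = 1) : y ∈ RR E := by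
  obtain ⟨k, hk⟩ := exists_pow_mul_mem_OS y
  have hn : ∀ n : ℕ, IsIntegral ℤ (n : E) := fun n => by
    exact_mod_cast isIntegral_algebraMap (x := (n : ℤ))
  have h1 := isIntegral_discr_mul (y := (mm E : E) ^ k * y) fun x hx => by
    rw [eT_of_mem_OS ((OS E).mul_mem hk (mem_OS_of_isIntegral hx)),
      ← h ⟨(mm E : E) ^ k * x, mem_RR_of_isIntegral (((hn _).pow k).mul hx)⟩]
    congr 1
    ring
  obtain ⟨c, hc⟩ : (discr E).natAbs ∣ mm E := Fr.discr_dvd
  refine ⟨k + 1, ?_⟩
  have h2 := (hn c).mul h1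
  have h3 : (mm E : E) = ((discr E).natAbs : E) * c := by exact_mod_cast congrArg (Nat.cast (R := E)) hc
  rwa [show (c : E) * (((discr E).natAbs : E) * ((mm E : E) ^ k * y)) = (mm E : E) ^ (k + 1) * y by
    rw [pow_succ]; conv_rhs => enter [1, 2]; rw [h3]
    ring] at h2
/-- The dual module of `OS` for `eS` is contained in `m⁻¹ OS`. -/
theorem dS_aux_mm_mul {y : E} (h : ∀ x ∈ OS E, eS (y * x) = 1) : (mm E : E) * y ∈ OS E := by
  obtain ⟨b, hb, hby⟩ := exists_nat_mul_mem_RR y
  have hn : ∀ n : ℕ, IsIntegral ℤ (n : E) := fun n => by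
    exact_mod_cast isIntegral_algebraMap (x := (n : ℤ))
  have h1 : IsIntegral ℤ (((discr E).natAbs : E) * ((b : E) * y)) := by
    refine isIntegral_discr_mul fun x hx => ?_
    rw [eT_of_mem_RR ((RR E).mul_mem hby (mem_RR_of_isIntegral hx)),
      show (b : E) * y * x = y * ((b : E) * x) by ring]
    exact h _ (mem_OS_of_isIntegral ((hn b).mul hx))
  obtain ⟨c, hc⟩ := Fr.discr_dvd (E := E)
  refine ⟨b, hb, ?_⟩
  have h2 := (hn c).mul h1
  have h3 : (mm E : E) = ((discr E).natAbs : E) * (c : E) := by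
    have : mm E = (discr E).natAbs * c := hc
    rw [this]; push_cast; ring
  rwa [h3, show (b : E) * (((discr E).natAbs : E) * (c : E) * y) =
    (c : E) * (((discr E).natAbs : E) * ((b : E) * y)) by ring]
/-- The dual module of `OS` for `eS` is principal. -/
theorem dS_aux_exists : ∃ δ : E, δ ≠ 0 ∧
    ∀ y : E, (∀ x ∈ OS E, eS (y * x) = 1) ↔ δ * y ∈ OS E := by
  have hm := mm_ne_zero (E := E)
  have hn : ∀ n : ℕ, IsIntegral ℤ (n : E) := fun n => by
    exact_mod_cast isIntegral_algebraMap (x := (n : ℤ))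
  let A : Ideal (𝓞 E) :=
    { carrier := {a | ∀ x ∈ OS E, eS ((a : E) / (mm E : E) * x) = 1}
      add_mem' := by
        intro a b ha hb x hx
        have : ((a + b : 𝓞 E) : E) / (mm E : E) * x =
            (a : E) / (mm E : E) * x + (b : E) / (mm E : E) * x := by
          push_cast; ring
        rw [this, eS_add, ha x hx, hb x hx, one_mul]
      zero_mem' := by
        intro x _
        simp
      smul_mem' := by
        intro c a ha x hx
        have : ((c • a : 𝓞 E) : E) / (mm E : E) * x = (a : E) / (mm E : E) * ((c : E) * x) := by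
          rw [smul_eq_mul]; push_cast; ring
        rw [this]
        exact ha _ ((OS E).mul_mem (mem_OS_of_isIntegral c.isIntegral_coe) hx) }
  have hA : ∀ a : 𝓞 E, a ∈ A ↔ ∀ x ∈ OS E, eS ((a : E) / (mm E : E) * x) = 1 := fun _ => Iff.rfl
  have hm' : (mm E : 𝓞 E) ≠ 0 := Nat.cast_ne_zero.2 Fr.m_ne
  have hmA : (mm E : 𝓞 E) ∈ A := by
    rw [hA]
    intro x hx
    have : ((mm E : 𝓞 E) : E) / (mm E : E) * x = x := by
      push_cast; field_simp
    rw [this]
    exact eS_of_mem hx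
  have hne : Ideal.span {(mm E : 𝓞 E)} * A ≠ 0 := by
    intro h0
    have : (mm E : 𝓞 E) * (mm E : 𝓞 E) ∈ Ideal.span {(mm E : 𝓞 E)} * A :=
      Ideal.mul_mem_mul (Ideal.mem_span_singleton_self _) hmA
    rw [h0] at this
    exact mul_ne_zero hm' hm' (by simpa using this)
  obtain ⟨g, hg⟩ := IsDedekindDomain.exists_sup_span_eq
    (Ideal.mul_le_right : Ideal.span {(mm E : 𝓞 E)} * A ≤ A) hne
  have hgA : g ∈ A := by
    rw [← hg]
    exact Ideal.mem_sup_right (Ideal.mem_span_singleton_self _)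
  obtain ⟨r, hr1, hr⟩ := Submodule.exists_sub_one_mem_and_smul_le_of_fg_of_le_sup
    (I := Ideal.span {(mm E : 𝓞 E)}) (N := Ideal.span {g}) (N' := A) (P := A)
    (IsNoetherian.noetherian A) le_rfl (by rw [smul_eq_mul, sup_comm, hg])
  obtain ⟨γ, hγ⟩ := Ideal.mem_span_singleton'.1 hr1
  have hrE : (r : E) = 1 + (mm E : E) * (γ : E) := by
    have : r = 1 + (mm E : 𝓞 E) * γ := by linear_combination -hγ
    rw [this]; push_cast; ring
  obtain ⟨hr0, hri⟩ := inv_mem_OS (mem_OS_of_isIntegral γ.isIntegral_coe)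
  rw [← hrE] at hr0 hri
  have key : ∀ a ∈ A, ∃ z : 𝓞 E, (z : E) * (g : E) = (r : E) * (a : E) := by
    intro a ha
    obtain ⟨z, hz⟩ := Ideal.mem_span_singleton'.1 (hr (Submodule.smul_mem_pointwise_smul a r A ha))
    refine ⟨z, ?_⟩
    rw [smul_eq_mul] at hz
    exact_mod_cast congrArg (fun t : 𝓞 E => (t : E)) hz
  have hg0 : (g : E) ≠ 0 := by
    intro h0
    obtain ⟨z, hz⟩ := key _ hmA
    rw [h0, mul_zero] at hz
    refine mul_ne_zero hr0 hm ?_
    rw [hz]; push_cast; ring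
  refine ⟨(mm E : E) / g, div_ne_zero hm hg0, fun y => ⟨fun hy => ?_, fun hy x hx => ?_⟩⟩
  · obtain ⟨b, hb, hby⟩ := dS_aux_mm_mul hy
    have hb0 : (b : E) ≠ 0 := by
      rw [Nat.cast_ne_zero]
      rintro rfl
      have h6 := six_le_mm (E := E)
      rw [Nat.coprime_zero_left] at hb
      omega
    let a : 𝓞 E := ⟨(b : E) * ((mm E : E) * y), hby⟩
    have ha : (a : E) = (b : E) * ((mm E : E) * y) := rfl
    have haA : a ∈ A := by
      rw [hA]
      intro x hx
      have : (a : E) / (mm E : E) * x = y * ((b : E) * x) := by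
        rw [ha]; field_simp
      rw [this]
      exact hy _ ((OS E).mul_mem (mem_OS_of_isIntegral (hn b)) hx)
    obtain ⟨z, hz⟩ := key a haA
    have : (mm E : E) / g * y = (z : E) * (r : E)⁻¹ * (b : E)⁻¹ := by
      rw [ha] at hz
      field_simp
      linear_combination -hz
    rw [this]
    exact (OS E).mul_mem ((OS E).mul_mem (mem_OS_of_isIntegral z.isIntegral_coe) hri)
      (inv_natCast_mem_OS hb)
  · have : y * x = (g : E) / (mm E : E) * ((mm E : E) / g * y * x) := by
      field_simp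
    rw [this]
    exact (hA g).1 hgA _ ((OS E).mul_mem hy hx)
/-- The different at `S`.  `{y | eS (y OS) = 1}` is a fractional ideal of `OS`, and `OS` is principal
(an ideal `𝔞` of `𝓞` becomes principal after multiplication by an ideal prime to `m`; or: take an
element of `𝔞` outside `𝔭 𝔞` for all `𝔭 ∣ m`). -/
theorem dS_spec : dS E ≠ 0 ∧
    ∀ y : E, (∀ x ∈ OS E, eS (y * x) = 1) ↔ dS E * y ∈ OS E :=
  Classical.epsilon_spec dS_aux_exists
theorem dS_ne_zero : dS E ≠ 0 := dS_spec.1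
theorem dS_mem_OS : dS E ∈ OS E := by
  have := (dS_spec.2 (1 : E)).1 fun x hx => by rw [one_mul]; exact eS_of_mem hx
  rwa [mul_one] at this
theorem mm_div_dS_mem : (mm E : E) / dS E ∈ OS E := by
  rw [div_eq_mul_inv]
  refine dS_aux_mm_mul ((dS_spec.2 _).2 ?_)
  rw [mul_inv_cancel₀ dS_ne_zero]
  exact (OS E).one_mem

/-! ## part B: `ef` and `ft` -/

theorem ef_add (x y n : R E) : ef (x + y) n = ef x n * ef y n := by
  unfold ef
  rw [← eF_add, ← add_div]
  rfl
theorem ef_congr {x y n : R E} (h : n ∣ x - y) : ef x n = ef y n := by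
  obtain ⟨c, hc⟩ := h
  have hx : x = y + n * c := by rw [← hc]; ring
  by_cases hn : n = 0
  · rw [hx, hn, zero_mul, add_zero]
  have hn' : (n : E) ≠ 0 := fun h => hn (Subtype.ext h)
  rw [hx, ef_add]
  have : ef (n * c) n = 1 := by
    unfold ef
    rw [show ((n * c : R E) : E) = (n : E) * (c : E) from rfl, mul_div_cancel_left₀ _ hn']
    exact eF_of_mem c.2
  rw [this, mul_one]
theorem ef_mul_mul {g : R E} (hg : g ≠ 0) (x n : R E) : ef (g * x) (g * n) = ef x n := by
  have hg' : (g : E) ≠ 0 := fun h => hg (Subtype.ext h)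
  unfold ef
  rw [show ((g * x : R E) : E) = (g : E) * (x : E) from rfl,
    show ((g * n : R E) : E) = (g : E) * (n : E) from rfl, mul_div_mul_left _ _ hg']
theorem ef_neg (x n : R E) : ef (-x) n = conj (ef x n) := by
  unfold ef
  rw [← eF_neg, ← neg_div]
  rfl
theorem norm_ef (x n : R E) : ‖ef x n‖ = 1 := norm_eF _
theorem ef_crt {a b : R E} (ha : a ≠ 0) (hb : b ≠ 0) (x y : R E) :
    ef (b * x + a * y) (a * b) = ef x a * ef y b := by
  rw [ef_add, ef_mul_mul ha, mul_comm a b, ef_mul_mul hb]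
@[simp] theorem ef_zero_left (n : R E) : ef 0 n = 1 := by
  unfold ef
  rw [show ((0 : R E) : E) = 0 from rfl, zero_div, eF_zero]
theorem ef_of_dvd {x n : R E} (h : n ∣ x) : ef x n = 1 := by
  rw [ef_congr (y := 0) (by simpa using h), ef_zero_left]
open Classical in
/-- Orthogonality of additive characters. -/
theorem sum_res_ef {n : R E} (hn : n ≠ 0) (k : R E) :
    ∑ x ∈ res n, ef (k * x) n = if n ∣ k then (nN n : ℂ) else 0 := by
  split_ifs with h
  · rw [Finset.sum_congr rfl fun x _ => ef_of_dvd (h.mul_right x)]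
    simp [card_res hn]
  · have hn' : (n : E) ≠ 0 := fun h => hn (Subtype.ext h)
    obtain ⟨x₀, hx₀⟩ : ∃ x₀ : R E, ef (k * x₀) n ≠ 1 := by
      by_contra hc
      push Not at hc
      have hm : (k : E) / (n : E) ∈ RR E := mem_RR_of_eF fun x => by
        rw [← hc x, div_mul_eq_mul_div]
        rfl
      refine h ⟨⟨_, hm⟩, Subtype.ext ?_⟩
      change (k : E) = (n : E) * ((k : E) / (n : E))
      rw [mul_div_cancel₀ _ hn']
    have h1 := sum_res_affine hn (fun x => ef (k * x) n)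
      (fun x y hxy => ef_congr (by rw [← mul_sub]; exact hxy.mul_left k))
      (a := 1) isCoprime_one_left x₀
    simp only [one_mul, mul_add, ef_add, ← Finset.sum_mul] at h1
    have h2 : (∑ x ∈ res n, ef (k * x) n) * (ef (k * x₀) n - 1) = 0 := by
      rw [mul_sub, h1, mul_one, sub_self]
    exact (mul_eq_zero.1 h2).resolve_right (sub_ne_zero.2 hx₀)
theorem ft_congr {c : R E} (f : R E → ℂ) {k k' : R E} (h : c ∣ k - k') : ft c f k = ft c f k' := by
  unfold ft
  refine Finset.sum_congr rfl fun x _ => ?_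
  rw [ef_congr (x := k * x) (y := k' * x) (by rw [← sub_mul]; exact h.mul_right x)]
theorem norm_ft_le {c : R E} (hc : c ≠ 0) {f : R E → ℂ} {B : ℝ} (hf : ∀ x, ‖f x‖ ≤ B) (k : R E) :
    ‖ft c f k‖ ≤ B * nf (c : E) := by
  unfold ft
  refine (norm_sum_le _ _).trans ?_
  refine (Finset.sum_le_sum (g := fun _ => B) fun x _ => ?_).trans ?_
  · rw [norm_mul, norm_ef, mul_one]; exact hf x
  · rw [Finset.sum_const, card_res hc, nf_eq_nN hc, nsmul_eq_mul, mul_comm]
theorem ft_unit_mul {u : R E} (hu : IsUnit u) (c : R E) (f : R E → ℂ) (k : R E) :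
    ft (u * c) f (u * k) = ft c f k := by
  unfold ft
  rw [res_of_associated (associated_unit_mul_left c u hu)]
  refine Finset.sum_congr rfl fun x _ => ?_
  rw [mul_assoc u, ef_mul_mul hu.ne_zero]
theorem ft_mul_arg {c : R E} (hc : c ≠ 0) (f : R E → ℂ) (hf : ∀ x y, c ∣ x - y → f x = f y)
    {y : R E} (hy : IsCoprime y c) (k : R E) :
    ft c (fun x => f (y * x)) (y * k) = ft c f k := by
  unfold ft
  rw [← sum_res_affine hc (fun x => f x * ef (k * x) c)
    (fun x z hxz => by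
      rw [hf x z hxz, ef_congr (x := k * x) (y := k * z) (by rw [← mul_sub]; exact hxz.mul_left k)])
    hy 0]
  refine Finset.sum_congr rfl fun x _ => ?_
  rw [add_zero, show y * k * x = k * (y * x) by ring]
theorem ft_mul {a b : R E} (ha : a ≠ 0) (hb : b ≠ 0) (h : IsCoprime a b) (f g : R E → ℂ)
    (hf : ∀ x y, a ∣ x - y → f x = f y) (hg : ∀ x y, b ∣ x - y → g x = g y) (k : R E) :
    ft (a * b) (fun x => f x * g x) k =
      ft a (fun x => f (b * x)) k * ft b (fun y => g (a * y)) k := by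
  unfold ft
  rw [sum_res_crt ha hb h (fun x => f x * g x * ef (k * x) (a * b))
    (fun x z hxz => by
      rw [hf x z ((dvd_mul_right a b).trans hxz), hg x z ((dvd_mul_left b a).trans hxz),
        ef_congr (x := k * x) (y := k * z) (by rw [← mul_sub]; exact hxz.mul_left k)]),
    Finset.sum_mul_sum]
  refine Finset.sum_congr rfl fun x _ => Finset.sum_congr rfl fun y _ => ?_
  rw [hf (b * x + a * y) (b * x) ⟨y, by ring⟩, hg (b * x + a * y) (a * y) ⟨x, by ring⟩,
    show k * (b * x + a * y) = b * (k * x) + a * (k * y) by ring, ef_crt ha hb]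
  ring
theorem ft_ft {q : R E} (hq : q ≠ 0) (f : R E → ℂ) (hf : ∀ x y, q ∣ x - y → f x = f y) (x : R E) :
    ft q (ft q f) x = (nN q : ℂ) * f (-x) := by
  classical
  unfold ft
  simp only [Finset.sum_mul]
  rw [Finset.sum_comm]
  have h1 : ∀ y ∈ res q, ∑ k ∈ res q, f y * ef (k * y) q * ef (x * k) q =
      f y * if q ∣ x + y then (nN q : ℂ) else 0 := by
    intro y _
    rw [← sum_res_ef hq, Finset.mul_sum]
    refine Finset.sum_congr rfl fun k _ => ?_
    rw [mul_assoc, ← ef_add, show k * y + x * k = (x + y) * k by ring]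
  rw [Finset.sum_congr rfl h1]
  obtain ⟨r, ⟨hr, hr'⟩, hu⟩ := exists_unique_res hq (-x)
  have hd : ∀ y, q ∣ -x - y ↔ q ∣ x + y := fun y => by
    rw [show -x - y = -(x + y) by ring, dvd_neg]
  rw [Finset.sum_eq_single_of_mem r hr, if_pos ((hd r).1 hr'), hf _ _ hr', mul_comm]
  intro y hy hne
  rw [if_neg fun h => hne (hu y ⟨hy, (hd y).2 h⟩), mul_zero]

end Crest.Agent.R312
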