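import Mathlib

/-!
# Row 312: abstract power sums (port of `R17/CountAux.lean`)

`B X` is the finite set of the points of `P` of size `ν ≤ X`; it has at most `c X` elements.
-/

set_option autoImplicit false

noncomputable section

namespace Crest.Agent.R312.CountAux2

open Finset

/-- A counting bound. -/
structure Cnt {α : Type} (P : α → Prop) (ν : α → ℕ) (B : ℕ → Finset α) (c : ℝ) : Prop where
  mem : ∀ X z, z ∈ B X ↔ P z ∧ ν z ≤ X
  one : ∀ z, P z → 1 ≤ ν z
  card : ∀ X : ℕ, ((B X).card : ℝ) ≤ c * X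
  pos : 0 < c

variable {α : Type} {P : α → Prop} {ν : α → ℕ} {B : ℕ → Finset α} {c : ℝ}

/-- Abel summation against the bound `#(B X) ≤ c X`. -/
theorem abel (H : Cnt P ν B c) (g : ℕ → ℝ) (h0 : ∀ k, 0 ≤ g k)
    (hg : ∀ k, 1 ≤ k → g (k + 1) ≤ g k) (X : ℕ) :
    ∑ n ∈ B X, g (ν n) ≤ c * ∑ k ∈ range X, g (k + 1) := by
  classical
  have hB0 : B 0 = ∅ := eq_empty_of_forall_notMem fun z hz => by
    rw [H.mem] at hz
    have := H.one z hz.1
    omega
  have key : ∀ X : ℕ, ∑ n ∈ B X, g (ν n) +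
      (c * X - ((B X).card : ℝ)) * g X ≤ c * ∑ k ∈ range X, g (k + 1) := by
    intro X
    induction X with
    | zero => simp [hB0]
    | succ X ih =>
      have hs : B X ⊆ B (X + 1) := fun z hz => by
        rw [H.mem] at hz ⊢
        exact ⟨hz.1, by omega⟩
      have h1 : ∑ n ∈ B (X + 1) \ B X, g (ν n) =
          (((B (X + 1)).card : ℝ) - (B X).card) * g (X + 1) := by
        rw [sum_congr rfl (g := fun _ => g (X + 1)), sum_const, card_sdiff_of_subset hs,
          nsmul_eq_mul, Nat.cast_sub (card_le_card hs)]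
        intro z hz
        rw [mem_sdiff, H.mem, H.mem] at hz
        congr 1
        have := hz.2
        push Not at this
        have := this hz.1.1
        omega
      have h2 : (c * X - ((B X).card : ℝ)) * g (X + 1) ≤ (c * X - ((B X).card : ℝ)) * g X := by
        have h3 := H.card X
        rcases Nat.eq_zero_or_pos X with rfl | hX
        · simp [hB0]
        · exact mul_le_mul_of_nonneg_left (hg X hX) (by linarith)
      rw [← sum_sdiff hs, h1, sum_range_succ]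
      push_cast
      linarith
  have h1 := key X
  have h2 := mul_nonneg (sub_nonneg.2 (H.card X)) (h0 X)
  linarith

theorem rpow_step_le {p : ℝ} (hp0 : 0 ≤ p) (hp1 : p ≤ 1) (k : ℕ) :
    p * ((k + 1 : ℕ) : ℝ) ^ (p - 1) ≤ ((k + 1 : ℕ) : ℝ) ^ p - (k : ℝ) ^ p := by
  have hk : (0 : ℝ) < ((k + 1 : ℕ) : ℝ) := by positivity
  have h1 := rpow_one_add_le_one_add_mul_self (s := -((k + 1 : ℕ) : ℝ)⁻¹)
    (neg_le_neg (inv_le_one_of_one_le₀ (by exact_mod_cast Nat.le_add_left 1 k))) hp0 hp1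
  have h2 : 1 + -((k + 1 : ℕ) : ℝ)⁻¹ = k / ((k + 1 : ℕ) : ℝ) := by
    field_simp
    push_cast
    ring
  rw [h2, Real.div_rpow (Nat.cast_nonneg _) hk.le, div_le_iff₀ (Real.rpow_pos_of_pos hk _)] at h1
  rw [Real.rpow_sub_one hk.ne', div_eq_mul_inv]
  linarith

theorem sum_rpow_le (H : Cnt P ν B c) {σ : ℝ} (hσ : -1 < σ) :
    ∃ C : ℝ, 0 < C ∧ ∀ X : ℕ, 1 ≤ X → ∑ n ∈ B X, (ν n : ℝ) ^ σ ≤ C * (X : ℝ) ^ (1 + σ) := by
  have hc := H.pos
  rcases le_or_gt 0 σ with h | h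
  · refine ⟨c, hc, fun X hX => ?_⟩
    have hX' : (0 : ℝ) < X := by exact_mod_cast hX
    refine (sum_le_card_nsmul _ _ ((X : ℝ) ^ σ) fun z hz => Real.rpow_le_rpow (Nat.cast_nonneg _)
      (by exact_mod_cast ((H.mem X z).1 hz).2) h).trans ?_
    rw [nsmul_eq_mul, Real.rpow_add hX', Real.rpow_one, ← mul_assoc]
    exact mul_le_mul_of_nonneg_right (H.card X) (by positivity)
  · have hp : 0 < 1 + σ := by linarith
    refine ⟨c / (1 + σ), by positivity, fun X _ => ?_⟩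
    refine (abel H (fun k => (k : ℝ) ^ σ) (fun k => by positivity) (fun k hk =>
      Real.rpow_le_rpow_of_nonpos (by exact_mod_cast hk) (by simp) h.le) X).trans ?_
    have h1 : ∀ Y : ℕ, (1 + σ) * ∑ k ∈ range Y, ((k + 1 : ℕ) : ℝ) ^ σ ≤ (Y : ℝ) ^ (1 + σ) := by
      intro Y
      induction Y with
      | zero => simp; positivity
      | succ Y ih =>
        have := rpow_step_le hp.le (by linarith) Y
        rw [show 1 + σ - 1 = σ by ring] at this
        rw [sum_range_succ]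
        linarith
    rw [div_mul_eq_mul_div, le_div_iff₀ hp, mul_assoc, mul_comm _ (1 + σ)]
    exact mul_le_mul_of_nonneg_left (h1 X) hc.le

theorem rpow_step_ge {p : ℝ} (hp : 0 ≤ p) {x : ℝ} (hx : 0 < x) :
    p * (x + 1) ^ (-(p + 1)) ≤ x ^ (-p) - (x + 1) ^ (-p) := by
  have hx1 : 0 < x + 1 := by linarith
  have h1 := Real.one_sub_inv_le_log_of_pos (div_pos hx1 hx)
  have h2 : 1 - ((x + 1) / x)⁻¹ = (x + 1)⁻¹ := by
    field_simp
    ring
  have h3 : 1 + p * (x + 1)⁻¹ ≤ ((x + 1) / x) ^ p := by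
    rw [Real.rpow_def_of_pos (div_pos hx1 hx)]
    have := Real.add_one_le_exp (Real.log ((x + 1) / x) * p)
    have h4 := mul_le_mul_of_nonneg_left h1 hp
    rw [h2] at h4
    linarith
  have h5 : x ^ (-p) = ((x + 1) / x) ^ p * (x + 1) ^ (-p) := by
    rw [Real.div_rpow hx1.le hx.le, Real.rpow_neg hx.le, Real.rpow_neg hx1.le]
    have := Real.rpow_pos_of_pos hx1 p
    field_simp
  rw [h5, neg_add, Real.rpow_add hx1, Real.rpow_neg_one]
  have h6 := mul_le_mul_of_nonneg_right h3 (Real.rpow_pos_of_pos hx1 (-p)).le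
  linarith

theorem sum_tail (H : Cnt P ν B c) {σ : ℝ} (hσ : 1 < σ) :
    ∃ C : ℝ, 0 < C ∧ ∀ (X : ℝ) (S : Finset α), 1 ≤ X → (∀ n ∈ S, P n ∧ X ≤ ν n) →
      ∑ n ∈ S, (ν n : ℝ) ^ (-σ) ≤ C * X ^ (1 - σ) := by
  have hc := H.pos
  have hp : 0 < σ - 1 := by linarith
  refine ⟨c * (2 + (σ - 1)⁻¹), by positivity, fun X S hX hS => ?_⟩
  have hX0 : 0 < X := by linarith
  have hm : ∀ k : ℕ, 0 < max (k : ℝ) X := fun k => lt_max_of_lt_right hX0
  have hmono : ∀ k : ℕ, max (k : ℝ) X ≤ max ((k + 1 : ℕ) : ℝ) X := fun k =>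
    max_le_max_right _ (by simp)
  have h1 : S ⊆ B (S.sup ν) := fun z hz => (H.mem _ z).2 ⟨(hS z hz).1, le_sup (f := ν) hz⟩
  have h2 : ∀ Y : ℕ, ∑ k ∈ range Y, (max ((k + 1 : ℕ) : ℝ) X) ^ (-σ) ≤
      min (Y : ℝ) (X + 1) * X ^ (-σ) + (σ - 1)⁻¹ * (X ^ (1 - σ) - (max (Y : ℝ) X) ^ (1 - σ)) := by
    intro Y
    induction Y with
    | zero => simp [hX0.le, min_eq_left (by linarith : (0 : ℝ) ≤ X + 1)]
    | succ Y ih =>
      rw [sum_range_succ]
      have h3 : 0 < X ^ (-σ) := Real.rpow_pos_of_pos hX0 _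
      rcases lt_or_ge (Y : ℝ) X with h | h
      · have h4 : (max ((Y + 1 : ℕ) : ℝ) X) ^ (-σ) ≤ X ^ (-σ) :=
          Real.rpow_le_rpow_of_nonpos hX0 (le_max_right _ _) (by linarith)
        have h5 : (max ((Y + 1 : ℕ) : ℝ) X) ^ (1 - σ) ≤ (max (Y : ℝ) X) ^ (1 - σ) :=
          Real.rpow_le_rpow_of_nonpos (hm Y) (hmono Y) (by linarith)
        have h6 := mul_le_mul_of_nonneg_left h5 (inv_pos.2 hp).le
        rw [min_eq_left (by linarith)] at ih
        rw [min_eq_left (by push_cast; linarith)]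
        push_cast at *
        linarith
      · have h4 := rpow_step_ge hp.le (hX0.trans_le h)
        rw [show -(σ - 1 + 1) = -σ by ring, show -(σ - 1) = 1 - σ by ring,
          ← le_inv_mul_iff₀ hp] at h4
        have h5 : min (Y : ℝ) (X + 1) ≤ min ((Y + 1 : ℕ) : ℝ) (X + 1) :=
          min_le_min_right _ (by simp)
        have h6 := mul_le_mul_of_nonneg_right h5 h3.le
        rw [max_eq_left h] at ih
        rw [max_eq_left (by push_cast; linarith)]
        push_cast at *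
        linarith
  calc ∑ n ∈ S, (ν n : ℝ) ^ (-σ) = ∑ n ∈ S, (max (ν n : ℝ) X) ^ (-σ) :=
        sum_congr rfl fun n hn => by rw [max_eq_left (hS n hn).2]
    _ ≤ ∑ n ∈ B (S.sup ν), (max (ν n : ℝ) X) ^ (-σ) :=
        sum_le_sum_of_subset_of_nonneg h1 fun n _ _ => (Real.rpow_pos_of_pos (hm _) _).le
    _ ≤ c * ∑ k ∈ range (S.sup ν), (max ((k + 1 : ℕ) : ℝ) X) ^ (-σ) :=
        abel H (fun k => (max (k : ℝ) X) ^ (-σ)) (fun k => (Real.rpow_pos_of_pos (hm _) _).le)
          (fun k _ => Real.rpow_le_rpow_of_nonpos (hm k) (hmono k) (by linarith)) _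
    _ ≤ _ := by
        have h3 := h2 (S.sup ν)
        have h4 : min ((S.sup ν : ℕ) : ℝ) (X + 1) * X ^ (-σ) ≤ (2 * X) * X ^ (-σ) :=
          mul_le_mul_of_nonneg_right ((min_le_right _ _).trans (by linarith))
            (Real.rpow_pos_of_pos hX0 _).le
        have h5 : X ^ (1 - σ) = X * X ^ (-σ) := by
          rw [sub_eq_add_neg, Real.rpow_add hX0, Real.rpow_one]
        have h6 := mul_nonneg (inv_pos.2 hp).le
          (Real.rpow_pos_of_pos (hm (S.sup ν)) (1 - σ)).le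
        rw [mul_assoc]
        refine mul_le_mul_of_nonneg_left ?_ hc.le
        rw [h5] at h3 ⊢
        linarith

theorem sum_le_prod {β γ : Type} (A : Finset β) (D : Finset γ) (F : β → γ → α) {S : Finset α}
    (h : ∀ j ∈ S, ∃ a ∈ A, ∃ b ∈ D, j = F a b) (f : α → ℝ) (hf : ∀ j, 0 ≤ f j) :
    ∑ j ∈ S, f j ≤ ∑ a ∈ A, ∑ b ∈ D, f (F a b) := by
  classical
  rw [← sum_product']
  refine (sum_le_sum_of_subset_of_nonneg (t := (A ×ˢ D).image fun x => F x.1 x.2)
    (fun j hj => ?_) fun j _ _ => hf j).trans (sum_image_le_of_nonneg fun j _ => hf j)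
  obtain ⟨a, ha, b, hb, rfl⟩ := h j hj
  exact mem_image.2 ⟨(a, b), mem_product.2 ⟨ha, hb⟩, rfl⟩

end Crest.Agent.R312.CountAux2
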