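import Crest.Agent.R312.Fact
import Crest.Agent.R312.Box

/-!
# Row 312: the generators of one ideal in a lattice (auxiliary file of `Count.lean`)
-/

set_option autoImplicit false

noncomputable section

namespace Crest.Agent.R312.CountB2

open NumberField UniqueFactorizationMonoid

section ideals

variable {E : Type} [Field E] [NumberField E]

theorem two_pow_card_le {I : Ideal (𝓞 E)} (hI : I ≠ ⊥) :
    2 ^ Multiset.card (normalizedFactors I) ≤ Ideal.absNorm I := by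
  conv_rhs => rw [← Ideal.prod_normalizedFactors_eq_self hI, map_multiset_prod]
  rw [← Multiset.card_map (Ideal.absNorm)]
  refine Multiset.pow_card_le_prod fun x hx => ?_
  obtain ⟨p, hp, rfl⟩ := Multiset.mem_map.1 hx
  have hpr := prime_of_normalized_factor p hp
  have h0 : Ideal.absNorm p ≠ 0 := fun h => hpr.ne_zero (Ideal.absNorm_eq_zero_iff.1 h)
  have h1 : Ideal.absNorm p ≠ 1 := fun h =>
    hpr.not_isUnit (Ideal.isUnit_iff.2 (Ideal.absNorm_eq_one_iff.1 h))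
  omega

/-- The ideals which divide a power of `M` and have norm `< 2 ^ (n + 1)`. -/
theorem card_ideals_le {M : Ideal (𝓞 E)} (hM : M ≠ ⊥) (n : ℕ) (S : Finset (Ideal (𝓞 E)))
    (hS : ∀ I ∈ S, (∃ l : ℕ, I ∣ M ^ l) ∧ Ideal.absNorm I < 2 ^ (n + 1)) :
    S.card ≤ (n + 1) ^ (normalizedFactors M).toFinset.card := by
  classical
  set P := (normalizedFactors M).toFinset with hP
  have hne : ∀ I ∈ S, I ≠ ⊥ := by
    intro I hI h
    obtain ⟨l, hl⟩ := (hS I hI).1
    rw [h] at hl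
    exact pow_ne_zero l hM (zero_dvd_iff.1 hl)
  have hmem : ∀ I ∈ S, ∀ p ∈ normalizedFactors I, p ∈ P := by
    intro I hI p hp
    obtain ⟨l, hl⟩ := (hS I hI).1
    have hpr := prime_of_normalized_factor p hp
    have h1 : p ∣ M := hpr.dvd_of_dvd_pow ((dvd_of_mem_normalizedFactors hp).trans hl)
    rw [hP, Multiset.mem_toFinset, mem_normalizedFactors_iff' hM]
    exact ⟨hpr.irreducible, normalize_normalized_factor p hp, h1⟩
  have h1 : S.card ≤ (Fintype.piFinset fun _ : P => Finset.range (n + 1)).card := by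
    refine Finset.card_le_card_of_injOn
      (fun I (p : P) => Multiset.count p.1 (normalizedFactors I)) (fun I hI => ?_)
      (fun I hI J hJ h => ?_)
    · rw [Finset.mem_coe, Fintype.mem_piFinset]
      intro p
      rw [Finset.mem_range]
      have h2 := (two_pow_card_le (hne I hI)).trans_lt (hS I hI).2
      have h3 := (Nat.pow_lt_pow_iff_right (by norm_num)).1 h2
      exact (Multiset.count_le_card _ _).trans_lt h3
    · rw [← Ideal.prod_normalizedFactors_eq_self (hne I hI),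
        ← Ideal.prod_normalizedFactors_eq_self (hne J hJ)]
      congr 1
      ext p
      by_cases hp : p ∈ P
      · exact congrFun h ⟨p, hp⟩
      · rw [Multiset.count_eq_zero_of_notMem fun h' => hp (hmem I hI p h'),
          Multiset.count_eq_zero_of_notMem fun h' => hp (hmem J hJ p h')]
  simpa [Fintype.card_piFinset] using h1

end ideals

variable {E : Type} [Field E] [NumberField E] [Fr E]

/-- Points of `Fd j` which differ by units of `𝓞`. -/
theorem card_units_orbit {j : ℕ} (hj : 1 ≤ j) : ∃ N : ℕ, ∀ S : Finset (R E),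
    (∀ k ∈ S, Fd j (k : E)) →
    (∀ k ∈ S, ∀ k' ∈ S, ∃ e : (𝓞 E)ˣ, (k' : E) = ((e : 𝓞 E) : E) * k) → S.card ≤ N := by
  classical
  obtain ⟨T, hT⟩ := exists_unit_reps (E := E) (N := mm E ^ j) (pow_ne_zero _ Fr.m_ne)
  refine ⟨T.card, fun S h1 h2 => ?_⟩
  rcases S.eq_empty_or_nonempty with rfl | ⟨k0, hk0⟩
  · simp
  choose! e he using h2 k0 hk0
  choose τ hτ hτ' using hT
  refine Finset.card_le_card_of_injOn (fun k => τ (e k)) (fun k _ => hτ _) fun k hk k' hk' h => ?_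
  have hV : ∀ x : (𝓞 E)ˣ, V j (((x * (τ x)⁻¹ : (𝓞 E)ˣ) : 𝓞 E) : E) := fun x =>
    (V_iff hj).2 ⟨_, rfl, hτ' x⟩
  have h3 := (hV (e k')).mul ((hV (e k)).inv hj)
  refine (Subtype.ext ((h1 k hk).eq hj (h1 k' hk') h3 ?_)).symm
  dsimp only at h
  rw [he k hk, he k' hk', h]
  have n1 : (((e k : (𝓞 E)ˣ) : 𝓞 E) : E) ≠ 0 := by
    exact_mod_cast (e k).ne_zero
  have n2 : ((((τ (e k'))⁻¹ : (𝓞 E)ˣ) : 𝓞 E) : E) ≠ 0 := by
    exact_mod_cast ((τ (e k'))⁻¹).ne_zero
  push_cast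
  field_simp

/-- The main counting bound. -/
theorem card_le {j : ℕ} (hj : 1 ≤ j) : ∃ (N s : ℕ) (K : ℝ), 1 ≤ K ∧
    ∀ (t : E) (X : ℝ) (g : R E) (S : Finset (R E)) (n : ℕ), t ≠ 0 → K * X < 2 ^ (n + 1) →
      (∀ k ∈ S, Lat j t k ∧ szl t k ≤ X ∧ Associated k g) → S.card ≤ N * (n + 1) ^ s := by
  classical
  obtain ⟨N, hN⟩ := card_units_orbit (E := E) hj
  obtain ⟨B, hB⟩ := exists_bdd_unit (E := E)
  have hm : (mm E : E) ≠ 0 := mm_ne_zero
  have hmi : IsIntegral ℤ (mm E : E) := by exact_mod_cast isIntegral_algebraMap (x := (mm E : ℤ))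
  have hm1 : 1 ≤ nr (mm E : E) := one_le_nr hm hmi
  have hM : Ideal.span {(mm E : 𝓞 E)} ≠ ⊥ := by
    rw [Ne, Ideal.span_singleton_eq_bot]
    exact_mod_cast Fr.m_ne
  refine ⟨N, (normalizedFactors (Ideal.span {(mm E : 𝓞 E)})).toFinset.card, nr (mm E : E) ^ B,
    one_le_pow₀ hm1, fun t X g S n ht hX hS => ?_⟩
  rcases S.eq_empty_or_nonempty with rfl | ⟨k0, hk0⟩
  · simp
  have hk : ∀ k ∈ S, k ≠ 0 := fun k hk h => (hS k hk).1.1.1 (by rw [h]; rfl)
  have hkE : ∀ k ∈ S, (k : E) ≠ 0 := fun k hk => (hS k hk).1.1.1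
  have hg : g ≠ 0 := (hS k0 hk0).2.2.ne_zero_iff.1 (hk k0 hk0)
  have hgE : (g : E) ≠ 0 := fun h => hg (Subtype.ext h)
  obtain ⟨u, hu, hu1, hu2⟩ := hB ((g : E) / t) (div_ne_zero hgE ht)
  obtain ⟨huE, hui⟩ := isUnit_iff.1 hu
  have hint : ∀ k ∈ S, IsIntegral ℤ ((mm E : E) ^ B * ((k : E) / g) * (u : E)⁻¹) := by
    intro k hkS
    refine isIntegral_iff.2 ⟨?_, ?_⟩
    · exact mul_mem (mul_mem (pow_mem (mem_RR_of_isIntegral hmi) _)
        ((dvd_iff hg).1 (hS k hkS).2.2.symm.dvd)) hui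
    · have e : (mm E : E) ^ B * ((k : E) / g) * (u : E)⁻¹ =
          (mm E : E) ^ B / ((u : E) * ((g : E) / t)) * ((k : E) / t) := by
        field_simp
      rw [e]
      exact mul_mem hu2 (hS k hkS).1.2
  let w : R E → 𝓞 E := fun k =>
    if h : IsIntegral ℤ ((mm E : E) ^ B * ((k : E) / g) * (u : E)⁻¹) then ⟨_, h⟩ else 0
  have hw : ∀ k ∈ S, (w k : E) = (mm E : E) ^ B * ((k : E) / g) * (u : E)⁻¹ := by
    intro k hkS
    simp only [w, dif_pos (hint k hkS)]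
    rfl
  have h1 := Finset.card_le_mul_card_image (f := fun k => Ideal.span {w k}) S N fun I hI => by
    refine hN _ (fun k hk => (hS k (Finset.mem_filter.1 hk).1).1.1) fun k hk k' hk' => ?_
    obtain ⟨a1, a2⟩ := Finset.mem_filter.1 hk
    obtain ⟨b1, b2⟩ := Finset.mem_filter.1 hk'
    obtain ⟨e, he⟩ := Ideal.span_singleton_eq_span_singleton.1 (a2.trans b2.symm)
    refine ⟨e, ?_⟩
    have h2 : (w k : E) * ((e : 𝓞 E) : E) = (w k' : E) := by
      rw [← he]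
      rfl
    rw [hw k a1, hw k' b1] at h2
    field_simp at h2
    linear_combination -h2
  refine h1.trans (Nat.mul_le_mul_left N (card_ideals_le hM n _ fun I hI => ?_))
  obtain ⟨k, hkS, rfl⟩ := Finset.mem_image.1 hI
  have hkE' := hkE k hkS
  constructor
  · have h2 : ((mm E : E)⁻¹) ^ B * ((g : E) / k) * (u : E) ∈ RR E :=
      mul_mem (mul_mem (pow_mem mm_inv_mem _) ((dvd_iff (hk k hkS)).1 (hS k hkS).2.2.dvd)) u.2
    obtain ⟨l, hl⟩ := h2
    refine ⟨l, ?_⟩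
    rw [Ideal.span_singleton_pow, Ideal.dvd_iff_le, Ideal.span_singleton_le_span_singleton]
    let z : 𝓞 E := ⟨_, hl⟩
    refine ⟨z, ?_⟩
    apply RingOfIntegers.ext
    have e : ((w k * z : 𝓞 E) : E) =
        (w k : E) * ((mm E : E) ^ l * (((mm E : E)⁻¹) ^ B * ((g : E) / k) * (u : E))) := rfl
    rw [e, hw k hkS, inv_pow]
    push_cast
    field_simp
  · have h2 : (Ideal.absNorm (Ideal.span {w k}) : ℝ) < ((2 ^ (n + 1) : ℕ) : ℝ) := by
      rw [← nr_eq_absNorm, hw k hkS, nr_mul, nr_mul, nr_pow, nr_div, nr_inv]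
      push_cast
      refine lt_of_le_of_lt ?_ hX
      rw [mul_assoc]
      refine mul_le_mul_of_nonneg_left ?_ (by positivity)
      have p1 := nr_pos hgE
      have p2 := nr_pos huE
      have p3 := nr_pos hkE'
      have p4 := absS_pos t
      have p5 := absS_pos (g : E)
      have p6 := absS_pos (u : E)
      have q1 := absS_le_one hu1
      rw [absS_mul huE (div_ne_zero hgE ht), absS_div hgE ht, ← mul_div_assoc,
        div_le_one p4] at q1
      have q2 := nr_mul_absS_unit hu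
      have q3 : 1 ≤ nr (g : E) * absS (g : E) := one_le_nf hg
      have q4 : nr (k : E) * absS t ≤ X := (hS k hkS).2.1
      rw [← div_eq_mul_inv, div_div, div_le_iff₀ (by positivity)]
      calc nr (k : E) ≤ nr (k : E) * ((nr (g : E) * absS (g : E)) * (nr (u : E) * absS (u : E))) := by
            rw [q2, mul_one]
            exact le_mul_of_one_le_right p3.le q3
        _ = nr (k : E) * (absS (u : E) * absS (g : E)) * (nr (g : E) * nr (u : E)) := by ring
        _ ≤ nr (k : E) * absS t * (nr (g : E) * nr (u : E)) := by gcongr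
        _ ≤ X * (nr (g : E) * nr (u : E)) := by gcongr
    exact_mod_cast h2

theorem succ_pow_le (s : ℕ) {ε : ℝ} (hε : 0 < ε) : ∃ C : ℝ, 0 < C ∧ ∀ (Q : ℝ) (n : ℕ),
    (2 : ℝ) ^ n ≤ Q → ((n : ℝ) + 1) ^ s ≤ C * Q ^ ε := by
  set δ : ℝ := ε / (s + 1) with hδ
  have hδ0 : 0 < δ := by positivity
  have hl : 0 < Real.log 2 := Real.log_pos one_lt_two
  refine ⟨(1 + 1 / (δ * Real.log 2)) ^ (s + 1), by positivity, fun Q n hQ => ?_⟩
  have hQ1 : 1 ≤ Q := (one_le_pow₀ one_le_two).trans hQ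
  have hQ0 : 0 < Q := by linarith
  have h1 : (n : ℝ) * Real.log 2 ≤ Q ^ δ / δ := by
    rw [← Real.log_pow]
    exact (Real.log_le_log (by positivity) hQ).trans (Real.log_le_rpow_div hQ0.le hδ0)
  have h2 : 1 ≤ Q ^ δ := Real.one_le_rpow hQ1 hδ0.le
  have h3 : (n : ℝ) + 1 ≤ (1 + 1 / (δ * Real.log 2)) * Q ^ δ := by
    have h4 : (n : ℝ) ≤ 1 / (δ * Real.log 2) * Q ^ δ := by
      rw [← le_div_iff₀ hl] at h1
      refine h1.trans (le_of_eq ?_)
      field_simp
    linarith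
  have h5 : (1 : ℝ) ≤ (n : ℝ) + 1 := by
    have : (0 : ℝ) ≤ n := n.cast_nonneg
    linarith
  calc ((n : ℝ) + 1) ^ s ≤ ((n : ℝ) + 1) ^ (s + 1) := pow_le_pow_right₀ h5 (Nat.le_succ s)
    _ ≤ ((1 + 1 / (δ * Real.log 2)) * Q ^ δ) ^ (s + 1) := by gcongr
    _ = (1 + 1 / (δ * Real.log 2)) ^ (s + 1) * Q ^ ε := by
        rw [mul_pow, ← Real.rpow_natCast (Q ^ δ), ← Real.rpow_mul hQ0.le]
        congr 2
        rw [hδ]
        push_cast
        field_simp

open Classical in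
theorem card_assoc {j : ℕ} (hj : 1 ≤ j) {ε : ℝ} (hε : 0 < ε) : ∃ C : ℝ, 0 < C ∧
    ∀ (t : E) (X : ℝ) (g : R E), t ≠ 0 → 1 ≤ X →
      (((lats j t X).filter fun k => Associated k g).card : ℝ) ≤ C * X ^ ε := by
  obtain ⟨N, s, K, hK, h⟩ := card_le (E := E) hj
  obtain ⟨C, hC, hC'⟩ := succ_pow_le s hε
  have hK0 : 0 < K := by linarith
  refine ⟨(N + 1) * C * K ^ ε, by positivity, fun t X g ht hX => ?_⟩
  have hKX : 1 ≤ K * X := one_le_mul_of_one_le_of_one_le hK hX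
  have hf : ⌊K * X⌋₊ ≠ 0 := by
    have := (Nat.one_le_floor_iff _).2 hKX
    omega
  have h1 : (2 : ℝ) ^ Nat.log 2 ⌊K * X⌋₊ ≤ K * X := by
    have h2 := Nat.pow_log_le_self 2 hf
    have h3 : ((2 ^ Nat.log 2 ⌊K * X⌋₊ : ℕ) : ℝ) ≤ K * X :=
      (Nat.le_floor_iff (by linarith)).1 h2
    exact_mod_cast h3
  have h2 : K * X < (2 : ℝ) ^ (Nat.log 2 ⌊K * X⌋₊ + 1) := by
    have h2 := Nat.lt_pow_succ_log_self (b := 2) one_lt_two ⌊K * X⌋₊
    have h3 : K * X < ((2 ^ (Nat.log 2 ⌊K * X⌋₊ + 1) : ℕ) : ℝ) :=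
      (Nat.floor_lt (by linarith)).1 h2
    exact_mod_cast h3
  have h3 := h t X g ((lats j t X).filter fun k => Associated k g) _ ht h2 fun k hk => by
    obtain ⟨a, b⟩ := Finset.mem_filter.1 hk
    exact ⟨(of_mem_fin a).1, (of_mem_fin a).2, b⟩
  have h4 := hC' _ _ h1
  have h5 : (((lats j t X).filter fun k => Associated k g).card : ℝ) ≤
      N * ((Nat.log 2 ⌊K * X⌋₊ : ℝ) + 1) ^ s := by exact_mod_cast h3
  have hX0 : 0 < X := by linarith
  calc _ ≤ _ := h5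
    _ ≤ (N + 1) * (C * (K * X) ^ ε) := by
        gcongr
        linarith
    _ = (N + 1) * C * K ^ ε * X ^ ε := by
        rw [Real.mul_rpow hK0.le hX0.le]
        ring

theorem sum_lats {j : ℕ} (hj : 1 ≤ j) {ε : ℝ} (hε : 0 < ε) : ∃ C : ℝ, 0 < C ∧
    ∀ (t : E) (X : ℝ) (F : R E → ℝ), t ≠ 0 → 1 ≤ X → (∀ k, 0 ≤ F k) →
      ∑ k ∈ lats j t X, F (nrm k) ≤ C * X ^ ε * ∑ k ∈ nms X, F k := by
  classical
  obtain ⟨C, hC, h⟩ := card_assoc (E := E) hj hε
  refine ⟨C, hC, fun t X F ht hX hF => ?_⟩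
  have hne : ∀ k ∈ lats j t X, k ≠ 0 := fun k hk h0 =>
    (of_mem_fin hk).1.1.1 (by rw [h0]; rfl)
  have hmap : ∀ k ∈ lats j t X, nrm k ∈ (nms X : Finset (R E)) := fun k hk =>
    mem_nms.2 ⟨nm_nrm (hne k hk), by
      rw [nf_nrm (hne k hk)]
      exact (nf_le_szl ht (of_mem_fin hk).1).trans (of_mem_fin hk).2⟩
  rw [← Finset.sum_fiberwise_of_maps_to hmap, Finset.mul_sum]
  refine Finset.sum_le_sum fun g _ => ?_
  rw [Finset.sum_congr rfl (g := fun _ => F g) fun k hk => by rw [(Finset.mem_filter.1 hk).2],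
    Finset.sum_const, nsmul_eq_mul]
  refine mul_le_mul_of_nonneg_right (le_trans ?_ (h t X g ht hX)) (hF g)
  refine Nat.cast_le.2 (Finset.card_le_card fun k hk => ?_)
  obtain ⟨a, b⟩ := Finset.mem_filter.1 hk
  exact Finset.mem_filter.2 ⟨a, b ▸ (associated_nrm (hne k a)).symm⟩

end Crest.Agent.R312.CountB2
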