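import Crest.Agent.R312.Fact
import Crest.Agent.R312.Box
import Crest.Agent.R312.CountAuxB2
import Crest.Agent.R312.CountAux2

/-!
# Row 312: counting lemmas (port of `R17/Count.lean`, and the lattices modulo units)
-/

set_option autoImplicit false

noncomputable section

namespace Crest.Agent.R312

open NumberField
open scoped ComplexConjugate

variable {E : Type} [Field E] [NumberField E] [Fr E]

/-! ## part A: ideals -/

/-- Every non-zero element of `R` is associated with a balanced algebraic integer. -/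
theorem CountA1_balanced : ∃ C : ℝ, ∀ g : R E, g ≠ 0 → ∃ y : R E, Associated g y ∧
    IsIntegral ℤ (y : E) ∧ ∀ σ, lg (y : E) σ ≤ C + Real.log (nf (g : E)) / rk E := by
  obtain ⟨B, hB⟩ := exists_bdd_unit (E := E)
  obtain ⟨C, hC⟩ := exists_balanced (E := E) (N := 1) one_ne_zero
  refine ⟨C + Real.log (nr (mm E : E) ^ B) / rk E, fun g hg => ?_⟩
  have hg' : (g : E) ≠ 0 := fun h => hg (Subtype.ext h)
  obtain ⟨u, hu, h1, h2⟩ := hB g hg'
  have hu' : (u : E) ≠ 0 := (isUnit_iff.1 hu).1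
  have hx : (u : E) * g ≠ 0 := mul_ne_zero hu' hg'
  have hint : IsIntegral ℤ ((u : E) * g) := isIntegral_iff.2 ⟨(u * g).2, h1⟩
  obtain ⟨v, -, hv⟩ := hC (lg ((u : E) * g))
  have hv' : ((v : 𝓞 E) : E) ≠ 0 := by
    simp
  have hm : 0 < nr (mm E : E) := nr_pos mm_ne_zero
  have hvu : IsUnit (toR (v : 𝓞 E) : R E) := v.isUnit.map toR
  have hnf : nf ((u : E) * g) = nf (g : E) := by
    rw [nf_mul, nf_eq_one_iff.2 hu, one_mul]
  have h3 := absS_le_of_div_mem (pow_ne_zero B mm_ne_zero) hx h2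
  rw [absS_pow, absS_mm, inv_pow] at h3
  have h4 : nr ((u : E) * g) ≤ nr (mm E : E) ^ B * nf (g : E) := by
    rw [← hnf, nf]
    have h5 := mul_le_mul_of_nonneg_left h3 (mul_nonneg (pow_pos hm B).le (nr_nonneg ((u : E) * g)))
    rw [mul_right_comm, mul_inv_cancel₀ (pow_pos hm B).ne', one_mul] at h5
    linarith
  have h5 := Real.log_le_log (nr_pos hx) h4
  rw [Real.log_mul (pow_pos hm B).ne' (nf_pos hg').ne'] at h5
  have hr : (0 : ℝ) < rk E := by exact_mod_cast rk_pos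
  refine ⟨toR (v : 𝓞 E) * (u * g), ?_, ?_, fun σ => ?_⟩
  · exact (associated_unit_mul_right g u hu).trans (associated_unit_mul_right _ _ hvu)
  · exact (v : 𝓞 E).isIntegral_coe.mul hint
  · have e : ((toR (v : 𝓞 E) * (u * g) : R E) : E) = ((v : 𝓞 E) : E) * ((u : E) * g) := rfl
    rw [e, lg_mul hv' hx, Pi.add_apply]
    have h6 := (abs_le.1 (hv σ)).2
    rw [sum_lg hx] at h6
    have h7 := div_le_div_of_nonneg_right h5 hr.le
    rw [add_div] at h7
    linarith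

theorem CountA1_pairwise : ∃ C : ℝ, 0 < C ∧ ∀ (X : ℝ) (S : Finset (R E)), 0 ≤ X →
    (∀ a ∈ S, a ≠ 0 ∧ nf (a : E) ≤ X) → (∀ a ∈ S, ∀ b ∈ S, Associated a b → a = b) →
    (S.card : ℝ) ≤ C * X := by
  classical
  obtain ⟨C, hC⟩ := CountA1_balanced (E := E)
  obtain ⟨K, hK, hbox⟩ := card_box_le (E := E)
  refine ⟨K * Real.exp (rk E * C), by positivity, fun X S hX hS hA => ?_⟩
  rcases S.eq_empty_or_nonempty with rfl | ⟨a, ha⟩
  · simp only [Finset.card_empty, Nat.cast_zero]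
    positivity
  have hX0 : 0 < X := lt_of_lt_of_le one_pos ((one_le_nf (hS a ha).1).trans (hS a ha).2)
  choose! y hy1 hy2 hy3 using hC
  have hr : (0 : ℝ) < rk E := by exact_mod_cast rk_pos
  have hinj : Set.InjOn (fun g : R E => (y g : E)) S := fun a ha b hb h => by
    have h' : y a = y b := Subtype.ext h
    exact hA a ha b hb ((hy1 a (hS a ha).1).trans (h' ▸ (hy1 b (hS b hb).1).symm))
  have h1 := hbox 1 (fun _ => C + Real.log X / rk E) (S.image fun g => (y g : E)) one_ne_zero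
    fun x hx => by
      obtain ⟨g, hg, rfl⟩ := Finset.mem_image.1 hx
      have hg0 := (hS g hg).1
      refine ⟨fun h => (hy1 g hg0).ne_zero_iff.1 hg0 (Subtype.ext h), by simpa using hy2 g hg0,
        fun σ => (hy3 g hg0 σ).trans ?_⟩
      have := Real.log_le_log (nf_pos fun h => hg0 (Subtype.ext h)) (hS g hg).2
      have := div_le_div_of_nonneg_right this hr.le
      linarith
  rw [Finset.card_image_of_injOn hinj, nr_one, mul_one, Finset.sum_const, Finset.card_univ,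
    nsmul_eq_mul, mul_add, mul_div_cancel₀ _ hr.ne', Real.exp_add, Real.exp_log hX0,
    ← mul_assoc] at h1
  exact h1

/-- Multiply by an `S`-unit (`exists_bdd_unit`) and a unit (`exists_balanced`), then `card_box_le`. -/
theorem card_nms_le : ∃ C : ℝ, 0 < C ∧ ∀ X : ℝ, 0 ≤ X → ((nms X : Finset (R E)).card : ℝ) ≤ C * X := by
  obtain ⟨C, hC, h⟩ := CountA1_pairwise (E := E)
  exact ⟨C, hC, fun X hX => h X _ hX (fun a ha => ⟨(mem_nms.1 ha).1.ne_zero, (mem_nms.1 ha).2⟩)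
    fun a ha b hb hab => (mem_nms.1 ha).1.eq_of_associated (mem_nms.1 hb).1 hab⟩
/-- Pairwise non-associated elements. -/
theorem card_le_of_pairwise : ∃ C : ℝ, 0 < C ∧ ∀ (X : ℝ) (S : Finset (R E)), 0 ≤ X →
    (∀ a ∈ S, a ≠ 0 ∧ nf (a : E) ≤ X) → (∀ a ∈ S, ∀ b ∈ S, Associated a b → a = b) →
    (S.card : ℝ) ≤ C * X := CountA1_pairwise
theorem nms_eq_empty {X : ℝ} (h : X < 1) : (nms X : Finset (R E)) = ∅ :=
  Finset.eq_empty_of_forall_notMem fun g hg => by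
    have h1 := mem_nms.1 hg
    linarith [one_le_nf h1.1.ne_zero, h1.2]
theorem nms_mono {X Y : ℝ} (h : X ≤ Y) : (nms X : Finset (R E)) ⊆ nms Y := fun _ hg =>
  mem_nms.2 ⟨(mem_nms.1 hg).1, (mem_nms.1 hg).2.trans h⟩
theorem sqs_subset (X : ℝ) : (sqs X : Finset (R E)) ⊆ nms X := fun _ hg =>
  mem_nms.2 ⟨(mem_sqs.1 hg).1, (mem_sqs.1 hg).2.2⟩

theorem CountA1_pow_card_pf_le {ε : ℝ} (hε : 0 < ε) (B : ℝ) :
    ∃ C : ℝ, 0 < C ∧ ∀ n : R E, n ≠ 0 → B ^ (pf n).card ≤ C * nf (n : E) ^ ε := by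
  classical
  set B' := max |B| 1 with hB'
  have h1 : 1 ≤ B' := le_max_right _ _
  set T : Finset (R E) := nms (B' ^ ε⁻¹)
  refine ⟨B' ^ T.card, by positivity, fun n hn => ?_⟩
  have h2 : ∀ p ∈ pf n, B' ≤ (if p ∈ T then B' else 1) * nf (p : E) ^ ε := by
    intro p hp
    have hp' := of_mem_pf hp
    split_ifs with h
    · exact le_mul_of_one_le_right (by linarith)
        (Real.one_le_rpow (one_le_nf hp'.1.ne_zero) hε.le)
    · rw [mem_nms, not_and, not_le] at h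
      rw [one_mul, ← Real.rpow_inv_rpow (by linarith : 0 ≤ B') hε.ne']
      exact Real.rpow_le_rpow (by positivity) (h hp'.1).le hε.le
  calc B ^ (pf n).card ≤ B' ^ (pf n).card := (le_abs_self _).trans (by
        rw [abs_pow]
        exact pow_le_pow_left₀ (abs_nonneg _) (le_max_left _ _) _)
    _ = ∏ _p ∈ pf n, B' := (Finset.prod_const _).symm
    _ ≤ ∏ p ∈ pf n, (if p ∈ T then B' else 1) * nf (p : E) ^ ε :=
        Finset.prod_le_prod (fun _ _ => by linarith) h2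
    _ = B' ^ (pf n ∩ T).card * nf (rad n : E) ^ ε := by
        rw [Finset.prod_mul_distrib, Finset.prod_ite_mem, Finset.prod_const,
          Real.finsetProd_rpow _ _ (fun _ _ => nf_nonneg _), rad, nf_prod]
    _ ≤ _ := mul_le_mul (pow_le_pow_right₀ h1 (Finset.card_le_card Finset.inter_subset_right))
        (Real.rpow_le_rpow (nf_nonneg _) (nf_le_of_dvd (rad_dvd n) hn) hε.le)
        (Real.rpow_nonneg (nf_nonneg _) _) (by positivity)

theorem CountA1_sum_le_prod {α β γ : Type} (A : Finset α) (B : Finset β) (F : α → β → γ)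
    {S : Finset γ} (h : ∀ j ∈ S, ∃ a ∈ A, ∃ b ∈ B, j = F a b) (f : γ → ℝ) (hf : ∀ j, 0 ≤ f j) :
    ∑ j ∈ S, f j ≤ ∑ a ∈ A, ∑ b ∈ B, f (F a b) := by
  classical
  rw [← Finset.sum_product']
  refine (Finset.sum_le_sum_of_subset_of_nonneg (t := (A ×ˢ B).image fun x => F x.1 x.2)
    (fun j hj => ?_) fun j _ _ => hf j).trans (Finset.sum_image_le_of_nonneg fun j _ => hf j)
  obtain ⟨a, ha, b, hb, rfl⟩ := h j hj
  exact Finset.mem_image.2 ⟨(a, b), Finset.mem_product.2 ⟨ha, hb⟩, rfl⟩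

/-- Euler product bound. -/
theorem CountA1_euler {σ : ℝ} (hσ : 0 < σ) (P : Finset (R E)) (hP : ∀ p ∈ P, 2 ≤ nf (p : E)) :
    ∀ S : Finset (R E), (∀ j ∈ S, ∃ e : R E → ℕ, j = ∏ p ∈ P, p ^ e p) →
      ∑ j ∈ S, nf (j : E) ^ (-σ) ≤ (1 - 2 ^ (-σ))⁻¹ ^ P.card := by
  classical
  have hnn : ∀ j : R E, 0 ≤ nf (j : E) ^ (-σ) := fun j => Real.rpow_nonneg (nf_nonneg _) _
  induction P using Finset.induction_on with
  | empty =>
    intro S hS
    simp only [Finset.prod_empty, Finset.card_empty, pow_zero] at hS ⊢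
    refine (Finset.sum_le_sum_of_subset_of_nonneg (t := {1}) (fun j hj => ?_)
      fun j _ _ => hnn j).trans (by simp)
    obtain ⟨-, rfl⟩ := hS j hj
    exact Finset.mem_singleton_self _
  | insert q P hq ih =>
    intro S hS
    choose! e he using hS
    have h1 := ih (fun p hp => hP p (Finset.mem_insert_of_mem hp))
      (S.image fun j => ∏ p ∈ P, p ^ e j p) fun j hj => by
        obtain ⟨j, -, rfl⟩ := Finset.mem_image.1 hj
        exact ⟨_, rfl⟩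
    have h2 : (2 : ℝ) ^ (-σ) < 1 := Real.rpow_lt_one_of_one_lt_of_neg one_lt_two (by linarith)
    have h3 : ∑ k ∈ Finset.range (S.sup (e · q) + 1), (nf (q : E) ^ (-σ)) ^ k ≤
        (1 - 2 ^ (-σ))⁻¹ := by
      have h4 : nf (q : E) ^ (-σ) ≤ 2 ^ (-σ) := Real.rpow_le_rpow_of_nonpos two_pos
        (hP q (Finset.mem_insert_self q P)) (by linarith)
      rw [← tsum_geometric_of_lt_one (by positivity) h2]
      exact (Finset.sum_le_sum fun k _ => pow_le_pow_left₀ (hnn q) h4 k).trans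
        ((summable_geometric_of_lt_one (by positivity) h2).sum_le_tsum _ fun _ _ => by positivity)
    refine (CountA1_sum_le_prod (Finset.range (S.sup (e · q) + 1))
      (S.image fun j => ∏ p ∈ P, p ^ e j p)
      (fun k j => q ^ k * j) (fun j hj => ⟨e j q, Finset.mem_range.2 (Nat.lt_succ_of_le
        (Finset.le_sup (f := (e · q)) hj)), _, Finset.mem_image_of_mem _ hj, ?_⟩) _ hnn).trans ?_
    · conv_lhs => rw [he j hj, Finset.prod_insert hq]
    · have h5 : ∀ (k : ℕ) (j : R E), nf ((q ^ k * j : R E) : E) ^ (-σ) =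
          (nf (q : E) ^ (-σ)) ^ k * nf (j : E) ^ (-σ) := by
        intro k j
        push_cast
        rw [nf_mul, nf_pow, Real.mul_rpow (pow_nonneg (nf_nonneg _) _) (nf_nonneg _),
          ← Real.rpow_natCast_mul (nf_nonneg _), mul_comm (k : ℝ), Real.rpow_mul_natCast (nf_nonneg _)]
      simp only [h5]
      rw [← Finset.sum_mul_sum, Finset.card_insert_of_notMem hq, pow_succ, mul_comm]
      exact mul_le_mul h1 h3 (Finset.sum_nonneg fun _ _ => pow_nonneg (hnn q) _)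
        ((Finset.sum_nonneg fun j _ => hnn j).trans h1)

theorem CountA1_sum_smooth_le {ε σ : ℝ} (hε : 0 < ε) (hσ : 0 < σ) :
    ∃ C : ℝ, 0 < C ∧ ∀ (h : R E) (S : Finset (R E)), h ≠ 0 → (∀ d ∈ S, Nm d ∧ pf d ⊆ pf h) →
      ∑ d ∈ S, nf (d : E) ^ (-σ) ≤ C * nf (h : E) ^ ε := by
  obtain ⟨C, hC, hpow⟩ := CountA1_pow_card_pf_le (E := E) hε (1 - (2 : ℝ) ^ (-σ))⁻¹
  refine ⟨C, hC, fun h S hh hS => (CountA1_euler hσ (pf h) (fun p hp => ?_) S
    fun j hj => ?_).trans (hpow h hh)⟩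
  · have hp' := (of_mem_pf hp).2.1
    rw [nf_eq_nN hp'.ne_zero]
    exact_mod_cast le_trans (by norm_num) (nN_prime_mod hp').2
  · obtain ⟨hj0, hj⟩ := hS j hj
    refine ⟨fun p => vp p j, hj0.eq_prod.trans (Finset.prod_subset hj fun p hp hp' => ?_)⟩
    have h3 := of_mem_pf hp
    rw [(vp_eq_zero_iff h3.2.1 hj0.ne_zero).2 fun h4 =>
      hp' ((mem_pf hj0.ne_zero).2 ⟨h3.1, h3.2.1, h4⟩), pow_zero]

/-- Rankin's trick. -/
theorem CountA1_rankin {S : Finset (R E)} {X : ℝ} (hS : ∀ j ∈ S, j ≠ 0 ∧ nf (j : E) ≤ X) {σ : ℝ}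
    (hσ : 0 ≤ σ) : (S.card : ℝ) ≤ X ^ σ * ∑ j ∈ S, nf (j : E) ^ (-σ) := by
  rw [Finset.mul_sum, Finset.card_eq_sum_ones, Nat.cast_sum]
  refine Finset.sum_le_sum fun j hj => ?_
  rw [Real.rpow_neg (nf_nonneg _), ← div_eq_mul_inv, Nat.cast_one,
    one_le_div (Real.rpow_pos_of_pos (nf_pos fun h => (hS j hj).1 (Subtype.ext h)) _)]
  exact Real.rpow_le_rpow (nf_nonneg _) (hS j hj).2 hσ

open Classical in
theorem CountA1_card_smooth_le {ε : ℝ} (hε : 0 < ε) :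
    ∃ C : ℝ, 0 < C ∧ ∀ (h : R E) (X : ℝ), h ≠ 0 → 1 ≤ X →
      (((nms X).filter fun d => pf d ⊆ pf h).card : ℝ) ≤ C * (X * nf (h : E)) ^ ε := by
  obtain ⟨C, hC, hs⟩ := CountA1_sum_smooth_le (E := E) hε hε
  refine ⟨C, hC, fun h X hh hX => (CountA1_rankin (X := X) (fun j hj => ?_) hε.le).trans ?_⟩
  · rw [Finset.mem_filter, mem_nms] at hj
    exact ⟨hj.1.1.ne_zero, hj.1.2⟩
  · rw [Real.mul_rpow (by linarith) (nf_nonneg _), mul_left_comm]
    exact mul_le_mul_of_nonneg_left (hs h _ hh fun j hj =>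
      ⟨(mem_nms.1 (Finset.mem_filter.1 hj).1).1, (Finset.mem_filter.1 hj).2⟩)
      (Real.rpow_nonneg (by linarith) _)

theorem card_dvs_le {ε : ℝ} (hε : 0 < ε) :
    ∃ C : ℝ, 0 < C ∧ ∀ n : R E, n ≠ 0 → ((dvs n).card : ℝ) ≤ C * nf (n : E) ^ ε := by
  classical
  obtain ⟨C, hC, h⟩ := CountA1_card_smooth_le (E := E) (half_pos hε)
  refine ⟨C, hC, fun n hn => ?_⟩
  have h1 := h n (nf (n : E)) hn (one_le_nf hn)
  rw [Real.mul_rpow (nf_nonneg _) (nf_nonneg _),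
    ← Real.rpow_add (nf_pos fun h => hn (Subtype.ext h)), add_halves] at h1
  refine le_trans (Nat.cast_le.2 (Finset.card_le_card fun d hd => ?_)) h1
  obtain ⟨h2, h3⟩ := of_mem_dvs hd
  exact Finset.mem_filter.2 ⟨mem_nms.2 ⟨h2, nf_le_of_dvd h3 hn⟩, pf_subset_of_dvd h3 hn⟩
theorem pow_card_pf_le {ε : ℝ} (hε : 0 < ε) (B : ℝ) :
    ∃ C : ℝ, 0 < C ∧ ∀ n : R E, n ≠ 0 → B ^ (pf n).card ≤ C * nf (n : E) ^ ε :=
  CountA1_pow_card_pf_le hε B
theorem sum_smooth_le {ε σ : ℝ} (hε : 0 < ε) (hσ : 0 < σ) :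
    ∃ C : ℝ, 0 < C ∧ ∀ (h : R E) (S : Finset (R E)), h ≠ 0 → (∀ d ∈ S, Nm d ∧ pf d ⊆ pf h) →
      ∑ d ∈ S, nf (d : E) ^ (-σ) ≤ C * nf (h : E) ^ ε := CountA1_sum_smooth_le hε hσ
open Classical in
theorem card_smooth_le {ε : ℝ} (hε : 0 < ε) :
    ∃ C : ℝ, 0 < C ∧ ∀ (h : R E) (X : ℝ), h ≠ 0 → 1 ≤ X →
      (((nms X).filter fun d => pf d ⊆ pf h).card : ℝ) ≤ C * (X * nf (h : E)) ^ ε :=
  CountA1_card_smooth_le hε
/-- Powerful normalised elements. -/
def Powerful (n : R E) : Prop := Nm n ∧ ∀ p ∈ pf n, 2 ≤ vp p n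
theorem cnt2_cnt : ∃ c : ℝ, CountAux2.Cnt (Nm : R E → Prop) nN (fun X : ℕ => nms (X : ℝ)) c := by
  obtain ⟨C, hC, h⟩ := card_nms_le (E := E)
  refine ⟨C, fun X z => ?_, fun z hz => ?_, fun X => h X (Nat.cast_nonneg _), hC⟩
  · rw [mem_nms]
    exact and_congr_right fun hz => by rw [nf_eq_nN hz.ne_zero, Nat.cast_le]
  · have := one_le_nf hz.ne_zero
    rw [nf_eq_nN hz.ne_zero] at this
    exact_mod_cast this
theorem cnt2_rpow {σ : ℝ} (hσ : -1 < σ) : ∃ C : ℝ, 0 < C ∧ ∀ X : ℝ, 1 ≤ X →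
    ∑ n ∈ (nms X : Finset (R E)), nf (n : E) ^ σ ≤ C * X ^ (1 + σ) := by
  obtain ⟨c, H⟩ := cnt2_cnt (E := E)
  obtain ⟨C, hC, h⟩ := CountAux2.sum_rpow_le H hσ
  refine ⟨C, hC, fun X hX => ?_⟩
  have e : (nms X : Finset (R E)) = nms (⌊X⌋₊ : ℝ) := by
    ext z
    rw [mem_nms, mem_nms]
    exact and_congr_right fun hz => by
      rw [nf_eq_nN hz.ne_zero, Nat.cast_le, Nat.le_floor_iff (by linarith)]
  rw [e, Finset.sum_congr rfl fun n hn => by rw [nf_eq_nN (mem_nms.1 hn).1.ne_zero]]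
  exact (h _ ((Nat.one_le_floor_iff X).2 hX)).trans (mul_le_mul_of_nonneg_left
    (Real.rpow_le_rpow (Nat.cast_nonneg _) (Nat.floor_le (by linarith)) (by linarith)) hC.le)
theorem cnt2_tail {σ : ℝ} (hσ : 1 < σ) : ∃ C : ℝ, 0 < C ∧ ∀ (X : ℝ) (S : Finset (R E)),
    1 ≤ X → (∀ n ∈ S, Nm n ∧ X ≤ nf (n : E)) → ∑ n ∈ S, nf (n : E) ^ (-σ) ≤ C * X ^ (1 - σ) := by
  obtain ⟨c, H⟩ := cnt2_cnt (E := E)
  obtain ⟨C, hC, h⟩ := CountAux2.sum_tail H hσ
  refine ⟨C, hC, fun X S hX hS => ?_⟩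
  rw [Finset.sum_congr rfl fun n hn => by rw [nf_eq_nN (hS n hn).1.ne_zero]]
  exact h X S hX fun n hn => ⟨(hS n hn).1, nf_eq_nN (hS n hn).1.ne_zero ▸ (hS n hn).2⟩
theorem cnt2_all {σ : ℝ} (hσ : 1 < σ) : ∃ C : ℝ, 0 < C ∧ ∀ S : Finset (R E),
    (∀ n ∈ S, Nm n) → ∑ n ∈ S, nf (n : E) ^ (-σ) ≤ C := by
  obtain ⟨C, hC, h⟩ := cnt2_tail (E := E) hσ
  exact ⟨C, hC, fun S hS => by
    simpa using h 1 S le_rfl fun n hn => ⟨hS n hn, one_le_nf (hS n hn).ne_zero⟩⟩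
theorem Powerful.exists_sq_cube {n : R E} (h : Powerful n) :
    ∃ a b : R E, Nm a ∧ Nm b ∧ n = a ^ 2 * b ^ 3 := by
  refine ⟨∏ p ∈ pf n, p ^ ((vp p n - 3 * (vp p n % 2)) / 2), ∏ p ∈ pf n, p ^ (vp p n % 2),
    Nm.prod fun p hp => (of_mem_pf hp).1.pow _, Nm.prod fun p hp => (of_mem_pf hp).1.pow _, ?_⟩
  rw [← Finset.prod_pow, ← Finset.prod_pow, ← Finset.prod_mul_distrib]
  refine h.1.eq_prod.trans (Finset.prod_congr rfl fun p hp => ?_)
  rw [← pow_mul, ← pow_mul, ← pow_add]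
  have := h.2 p hp
  congr 1
  omega
open Classical in
theorem sum_powerful_le {ε : ℝ} (hε : 0 < ε) : ∃ C : ℝ, 0 < C ∧ ∀ X : ℝ, 1 ≤ X →
    ∑ n ∈ (nms X : Finset (R E)).filter Powerful, nf (n : E) ^ (-(1 / 2 : ℝ)) ≤ C * X ^ ε := by
  obtain ⟨C, hC, h1⟩ := cnt2_rpow (E := E) (σ := -1 + ε) (by linarith)
  obtain ⟨C', hC', h2⟩ := cnt2_all (E := E) (σ := 3 / 2) (by norm_num)
  refine ⟨C * C', by positivity, fun X hX => ?_⟩
  have h0 : ∀ (x : E) (s : ℝ), 0 ≤ nf x ^ s := fun x s => Real.rpow_nonneg (nf_nonneg x) s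
  refine (CountAux2.sum_le_prod (nms X) (nms X) (fun a b : R E => a ^ 2 * b ^ 3)
    (fun j hj => ?_) (fun n => nf (n : E) ^ (-(1 / 2 : ℝ))) fun _ => h0 _ _).trans ?_
  · rw [Finset.mem_filter, mem_nms] at hj
    obtain ⟨a, b, na, nb, hab⟩ := hj.2.exists_sq_cube
    have hj0 := hj.2.1.ne_zero
    have ha : a ∣ j := hab ▸ (dvd_pow_self a two_ne_zero).mul_right _
    have hb : b ∣ j := hab ▸ (dvd_pow_self b three_ne_zero).mul_left _
    exact ⟨a, mem_nms.2 ⟨na, (nf_le_of_dvd ha hj0).trans hj.1.2⟩,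
      b, mem_nms.2 ⟨nb, (nf_le_of_dvd hb hj0).trans hj.1.2⟩, hab⟩
  · have e : ∀ a b : R E, nf ((a ^ 2 * b ^ 3 : R E) : E) ^ (-(1 / 2 : ℝ)) =
        nf (a : E) ^ (-1 : ℝ) * nf (b : E) ^ (-(3 / 2 : ℝ)) := by
      intro a b
      push_cast
      rw [nf_mul, nf_pow, nf_pow, Real.mul_rpow (pow_nonneg (nf_nonneg _) _)
        (pow_nonneg (nf_nonneg _) _), ← Real.rpow_natCast_mul (nf_nonneg _),
        ← Real.rpow_natCast_mul (nf_nonneg _)]
      norm_num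
    simp only [e]
    rw [← Finset.sum_mul_sum, mul_right_comm]
    refine mul_le_mul ((Finset.sum_le_sum fun a ha => ?_).trans ((h1 X hX).trans_eq ?_))
      (h2 _ fun n hn => (mem_nms.1 hn).1) (Finset.sum_nonneg fun _ _ => h0 _ _) (by positivity)
    · exact Real.rpow_le_rpow_of_exponent_le (one_le_nf (mem_nms.1 ha).1.ne_zero) (by linarith)
    · rw [add_neg_cancel_left]
theorem Powerful.nf_rad_sq_le {n : R E} (h : Powerful n) : nf (rad n : E) ^ 2 ≤ nf (n : E) := by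
  have hd : rad n ^ 2 ∣ n := by
    conv_rhs => rw [h.1.eq_prod]
    rw [rad, ← Finset.prod_pow]
    exact Finset.prod_dvd_prod_of_dvd _ _ fun p hp => pow_dvd_pow p (h.2 p hp)
  have := nf_le_of_dvd hd h.1.ne_zero
  push_cast at this
  rwa [nf_pow] at this
theorem exists_sqfree_powerful {n : R E} (hn : Nm n) :
    ∃ k h : R E, Nm k ∧ Squarefree k ∧ Powerful h ∧ IsCoprime k h ∧ n = k * h := by
  classical
  have h1 : ∀ (P : R E → Prop) [DecidablePred P], ∀ q ∈ (pf n).filter P, Nm q ∧ Prime q :=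
    fun P _ q hq => by
      have := of_mem_pf (Finset.mem_filter.1 hq).1
      exact ⟨this.1, this.2.1⟩
  obtain ⟨k1, k2, k3⟩ := squarefree_prod_primes (h1 fun p => vp p n = 1)
  have h2 : Nm (∏ p ∈ (pf n).filter fun p => ¬ vp p n = 1, p ^ vp p n) :=
    Nm.prod fun p hp => (h1 _ p hp).1.pow _
  have h3 : ∀ p ∈ pf (∏ p ∈ (pf n).filter fun p => ¬ vp p n = 1, p ^ vp p n),
      ¬ vp p n = 1 ∧ 2 ≤ vp p (∏ p ∈ (pf n).filter fun p => ¬ vp p n = 1, p ^ vp p n) := by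
    intro p hp
    have hp := of_mem_pf hp
    have h4 := (vp_eq_zero_iff hp.2.1 h2.ne_zero).not.2 (not_not.2 hp.2.2)
    rw [vp_prod_pow (h1 _) _ hp.2.1 hp.1] at h4 ⊢
    split_ifs at h4 ⊢ with h5
    · have := (Finset.mem_filter.1 h5).2
      omega
    · exact absurd rfl h4
  refine ⟨_, _, k2, k1, ⟨h2, fun p hp => (h3 p hp).2⟩,
    isCoprime_of_disjoint_pf k2.ne_zero h2.ne_zero ?_, ?_⟩
  · rw [k3]
    exact Finset.disjoint_left.2 fun p hp hp' => (h3 p hp').1 (Finset.mem_filter.1 hp).2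
  · rw [Finset.prod_congr rfl (g := fun p => p ^ vp p n) fun p hp => by
      rw [(Finset.mem_filter.1 hp).2, pow_one], Finset.prod_filter_mul_prod_filter_not]
    exact hn.eq_prod
theorem sum_inv_nf_le {ε : ℝ} (hε : 0 < ε) : ∃ C : ℝ, 0 < C ∧ ∀ X : ℝ, 1 ≤ X →
    ∑ n ∈ (nms X : Finset (R E)), (nf (n : E))⁻¹ ≤ C * X ^ ε := by
  obtain ⟨C, hC, h⟩ := cnt2_rpow (E := E) (σ := -1 + ε) (by linarith)
  refine ⟨C, hC, fun X hX => (Finset.sum_le_sum fun a ha => ?_).trans ((h X hX).trans_eq ?_)⟩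
  · rw [← Real.rpow_neg_one]
    exact Real.rpow_le_rpow_of_exponent_le (one_le_nf (mem_nms.1 ha).1.ne_zero) (by linarith)
  · rw [add_neg_cancel_left]
open Classical in
theorem summable_nf_rpow {σ : ℝ} (hσ : 1 < σ) :
    Summable fun n : R E => if Nm n then nf (n : E) ^ (-σ) else 0 := by
  obtain ⟨C, -, h⟩ := cnt2_all (E := E) hσ
  refine summable_of_sum_le (c := C) (fun n => ?_) fun S => ?_
  · dsimp only
    split_ifs
    · exact Real.rpow_nonneg (nf_nonneg _) _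
    · exact le_rfl
  · rw [← Finset.sum_filter]
    exact h _ fun n hn => (Finset.mem_filter.1 hn).2
theorem sum_nf_rpow_le {σ : ℝ} (hσ : -1 < σ) : ∃ C : ℝ, 0 < C ∧ ∀ X : ℝ, 1 ≤ X →
    ∑ n ∈ (nms X : Finset (R E)), nf (n : E) ^ σ ≤ C * X ^ (1 + σ) := by
  exact cnt2_rpow hσ
theorem sum_nf_rpow_tail {σ : ℝ} (hσ : 1 < σ) : ∃ C : ℝ, 0 < C ∧ ∀ (X : ℝ) (S : Finset (R E)),
    1 ≤ X → (∀ n ∈ S, Nm n ∧ X ≤ nf (n : E)) → ∑ n ∈ S, nf (n : E) ^ (-σ) ≤ C * X ^ (1 - σ) := by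
  exact cnt2_tail hσ
theorem log_le {ε : ℝ} (hε : 0 < ε) : ∃ C : ℝ, 0 < C ∧ ∀ (Q : ℝ) (n : ℕ),
    (2 : ℝ) ^ n ≤ Q → (n : ℝ) + 1 ≤ C * Q ^ ε := by
  refine ⟨1 + 2 * ε⁻¹, by positivity, fun Q n hQ => ?_⟩
  have hQ1 : 1 ≤ Q := (one_le_pow₀ one_le_two).trans hQ
  have h2 : n * Real.log 2 ≤ Real.log Q := by
    rw [← Real.log_pow]
    exact Real.log_le_log (by positivity) hQ
  have h3 : Real.log Q ≤ Q ^ ε / ε := Real.log_le_rpow_div (by linarith) hε
  have h4 : 1 ≤ Q ^ ε := Real.one_le_rpow hQ1 hε.le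
  have h5 := Real.log_two_gt_d9
  have h6 : (0 : ℝ) ≤ n := Nat.cast_nonneg _
  rw [div_eq_inv_mul] at h3
  nlinarith
open Classical in
/-- Dyadic decomposition with respect to a size function. -/
theorem dyadic {ε : ℝ} (hε : 0 < ε) : ∃ C : ℝ, 0 < C ∧ ∀ {α : Type} (N : α → ℝ) (Q K B : ℝ)
    (S : Finset α) (f : α → ℝ), 1 ≤ K → K ≤ Q → (∀ k ∈ S, 1 ≤ N k ∧ N k ≤ K) → (∀ k, 0 ≤ f k) →
    (∀ K₁ : ℝ, 1 ≤ K₁ → K₁ ≤ K →
      ∑ k ∈ S.filter (fun k => K₁ ≤ N k ∧ N k ≤ 2 * K₁), f k ≤ B) →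
    ∑ k ∈ S, f k ≤ C * Q ^ ε * B := by
  obtain ⟨C, hC, h⟩ := log_le hε
  refine ⟨C, hC, fun N Q K B S f hK hKQ hS hf hE => ?_⟩
  have hE0 : 0 ≤ B := (Finset.sum_nonneg fun _ _ => hf _).trans (hE 1 le_rfl hK)
  have hl : ∀ {y : ℝ}, 1 ≤ y → (2 : ℝ) ^ Nat.log 2 ⌊y⌋₊ ≤ y := fun {y} hy =>
    le_trans (by
      exact_mod_cast Nat.pow_log_le_self 2
        (Nat.one_le_iff_ne_zero.1 ((Nat.one_le_floor_iff y).2 hy))) (Nat.floor_le (by linarith))
  rw [← Finset.sum_fiberwise_of_maps_to (t := Finset.range (Nat.log 2 ⌊K⌋₊ + 1))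
    (g := fun k => Nat.log 2 ⌊N k⌋₊) fun k hk => Finset.mem_range.2
      (Nat.lt_succ_of_le (Nat.log_mono_right (Nat.floor_le_floor (hS k hk).2)))]
  calc _ ≤ ∑ _e ∈ Finset.range (Nat.log 2 ⌊K⌋₊ + 1), B := by
        refine Finset.sum_le_sum fun e he => le_trans ?_ (hE (2 ^ e) (one_le_pow₀ one_le_two)
          ((pow_le_pow_right₀ one_le_two
            (Nat.lt_succ_iff.1 (Finset.mem_range.1 he))).trans (hl hK)))
        refine Finset.sum_le_sum_of_subset_of_nonneg (fun k hk => ?_) fun _ _ _ => hf _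
        obtain ⟨hk', rfl⟩ := Finset.mem_filter.1 hk
        refine Finset.mem_filter.2 ⟨hk', hl (hS k hk').1, ?_⟩
        have h1 : ⌊N k⌋₊ + 1 ≤ 2 ^ (Nat.log 2 ⌊N k⌋₊).succ :=
          Nat.lt_pow_succ_log_self one_lt_two ⌊N k⌋₊
        rw [pow_succ'] at h1
        exact (Nat.lt_floor_add_one (N k)).le.trans (by exact_mod_cast h1)
    _ ≤ _ := by
        rw [Finset.sum_const, Finset.card_range, nsmul_eq_mul]
        refine mul_le_mul_of_nonneg_right ?_ hE0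
        exact_mod_cast h Q _ ((hl hK).trans hKQ)

/-! ## part B: lattices and ray classes modulo units -/

theorem CountB1_nr_le {B : ℕ} {x : E} (hx : x ≠ 0) (h : (mm E : E) ^ B / x ∈ OS E) :
    (absS x)⁻¹ ≤ nr (mm E : E) ^ B := by
  have h1 := absS_le_of_div_mem (pow_ne_zero B mm_ne_zero) hx h
  rw [absS_pow, absS_mm, inv_pow] at h1
  exact inv_le_of_inv_le₀ (pow_pos (nr_pos mm_ne_zero) B) h1
theorem CountB1_card_le {j : ℕ} (hj : 1 ≤ j) : ∃ C : ℝ, 0 < C ∧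
    ∀ (t : E) (X : ℝ) (S : Finset (R E)), t ≠ 0 → 0 ≤ X → (∀ k ∈ S, Lat j t k ∧ szl t k ≤ X) →
      (S.card : ℝ) ≤ C * X := by
  classical
  obtain ⟨B, hB⟩ := exists_bdd_unit (E := E)
  obtain ⟨C₀, hC₀⟩ := exists_balanced (E := E) (N := mm E ^ j) (pow_ne_zero _ Fr.m_ne)
  obtain ⟨C₁, hC₁, h₁⟩ := card_box_le (E := E)
  have hm : 0 < nr (mm E : E) ^ B := pow_pos (nr_pos mm_ne_zero) B
  refine ⟨C₁ * nr (mm E : E) ^ B * Real.exp (rk E * C₀), by positivity, fun t X S ht hX hS => ?_⟩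
  rcases hX.eq_or_lt with rfl | hX
  · rw [Finset.eq_empty_of_forall_notMem (s := S) fun k hk => ?_]
    · simp
    · exact absurd (hS k hk).2 (not_le.2 (mul_pos (nr_pos (hS k hk).1.1.1) (absS_pos t)))
  obtain ⟨u, hu, h1, h2⟩ := hB t ht
  have hu0 : (u : E) ≠ 0 := (isUnit_iff.1 hu).1
  choose v hv hv' using hC₀
  have hV : ∀ η, V j ((v η : 𝓞 E) : E) := fun η => (V_iff hj).2 ⟨v η, rfl, hv η⟩
  set φ : R E → E := fun k => ((v (lg ((u : E) * k)) : 𝓞 E) : E) * ((u : E) * k) with hφ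
  have hinj : Set.InjOn φ S := by
    intro k hk l hl hkl
    have h3 := (hV (lg ((u : E) * l))).ne_zero hj
    refine Subtype.ext (Fd.eq hj (hS l hl).1.1 (hS k hk).1.1
      ((hV (lg ((u : E) * l))).mul ((hV (lg ((u : E) * k))).inv hj)) ?_)
    have h4 := (hV (lg ((u : E) * k))).ne_zero hj
    simp only [hφ] at hkl
    refine mul_left_cancel₀ (mul_ne_zero h4 hu0) ?_
    rw [mul_assoc, hkl]
    field_simp
  have hr : (0 : ℝ) < rk E := Nat.cast_pos.2 rk_pos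
  have h5 := h₁ 1 (fun _ => Real.log (nr (mm E : E) ^ B * X) / rk E + C₀) (S.image φ) one_ne_zero
    fun x hx => by
      obtain ⟨k, hk, rfl⟩ := Finset.mem_image.1 hx
      have hk0 : (k : E) ≠ 0 := (hS k hk).1.1.1
      have huk : (u : E) * k ≠ 0 := mul_ne_zero hu0 hk0
      have hv0 := (hV (lg ((u : E) * k))).ne_zero hj
      refine ⟨mul_ne_zero hv0 huk, ?_, fun σ => ?_⟩
      · rw [one_mul]
        refine (RingOfIntegers.isIntegral_coe _).mul (isIntegral_iff.2 ⟨(u * k).2, ?_⟩)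
        have := (OS E).mul_mem (hS k hk).1.2 h1
        rwa [show (k : E) / t * (u * t) = u * k by field_simp] at this
      · have h6 := (abs_le.1 (hv' (lg ((u : E) * k)) σ)).2
        rw [sum_lg huk] at h6
        have h7 : nr ((u : E) * k) ≤ nr (mm E : E) ^ B * X := by
          have h8 := nr_mul_absS_unit hu
          have h9 : nr ((u : E) * k) = (absS ((u : E) * t))⁻¹ * szl t k := by
            have h10 := (absS_pos (u : E)).ne'
            have h11 := (absS_pos t).ne'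
            rw [nr_mul, absS_mul hu0 ht, szl, eq_div_of_mul_eq h10 h8]
            field_simp
          rw [h9]
          exact mul_le_mul (CountB1_nr_le (mul_ne_zero hu0 ht) h2) (hS k hk).2
            (mul_nonneg (nr_nonneg _) (absS_pos t).le) hm.le
        have h12 : Real.log (nr ((u : E) * k)) / rk E ≤ Real.log (nr (mm E : E) ^ B * X) / rk E :=
          div_le_div_of_nonneg_right (Real.log_le_log (nr_pos huk) h7) hr.le
        simp only [hφ]
        rw [lg_mul hv0 huk, Pi.add_apply]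
        linarith
  rw [Finset.card_image_of_injOn hinj, nr_one, mul_one, Finset.sum_const, Finset.card_univ,
    nsmul_eq_mul, mul_add, mul_div_cancel₀ _ hr.ne', Real.exp_add,
    Real.exp_log (by positivity)] at h5
  exact h5.trans_eq (by ring)
theorem finite_lats {j : ℕ} (hj : 1 ≤ j) {t : E} (ht : t ≠ 0) (X : ℝ) :
    {k : R E | Lat j t k ∧ szl t k ≤ X}.Finite := by
  obtain ⟨C, -, h⟩ := CountB1_card_le (E := E) hj
  by_contra hinf
  obtain ⟨n, hn⟩ := exists_nat_gt (C * max X 0)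
  obtain ⟨S, hS, rfl⟩ := Set.Infinite.exists_subset_card_eq hinf n
  exact absurd (h t (max X 0) S ht (le_max_right _ _) fun k hk =>
    ⟨(hS hk).1, (hS hk).2.trans (le_max_left _ _)⟩) (not_le.2 hn)
theorem mem_lats {j : ℕ} (hj : 1 ≤ j) {t : E} (ht : t ≠ 0) {X : ℝ} {k : R E} :
    k ∈ lats j t X ↔ Lat j t k ∧ szl t k ≤ X := mem_fin (finite_lats hj ht X)
theorem mem_Col {j : ℕ} (hj : 1 ≤ j) {t : E} {L : ℝ} {n : R E} :
    n ∈ Col j t L ↔ Cls j t n ∧ Squarefree n ∧ nf (n : E) ≤ L := by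
  refine mem_fin ?_
  by_cases ht : t = 0
  · exact Set.finite_empty.subset fun k hk => (hk.1.2.ne_zero hj).1 ht
  · exact (finite_lats hj ht L).subset fun k hk =>
      ⟨(hk.1.szl_eq hj).1, (hk.1.szl_eq hj).2.trans_le hk.2.2⟩
theorem one_le_szl {j : ℕ} {t : E} (ht : t ≠ 0) {k : R E} (hk : Lat j t k) : 1 ≤ szl t k :=
  (one_le_nf fun h => hk.1.1 (by rw [h]; rfl)).trans (nf_le_szl ht hk)
/-- Uniform in `t`: normalise `t` by an `S`-unit, balance each point by an element of `V j`. -/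
theorem card_lats_le {j : ℕ} (hj : 1 ≤ j) : ∃ C : ℝ, 0 < C ∧ ∀ (t : E) (X : ℝ), t ≠ 0 → 0 ≤ X →
    ((lats j t X).card : ℝ) ≤ C * X := by
  obtain ⟨C, hC, h⟩ := CountB1_card_le (E := E) hj
  exact ⟨C, hC, fun t X ht hX => h t X _ ht hX fun k hk => (mem_lats hj ht).1 hk⟩
theorem card_Col_le {j : ℕ} (hj : 1 ≤ j) : ∃ C : ℝ, 0 < C ∧ ∀ (t : E) (X : ℝ), 0 ≤ X →
    ((Col j t X).card : ℝ) ≤ C * X := by
  obtain ⟨C, hC, h⟩ := CountB1_card_le (E := E) hj
  refine ⟨C, hC, fun t X hX => ?_⟩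
  by_cases ht : t = 0
  · rw [Finset.eq_empty_of_forall_notMem (s := Col j t X) fun k hk =>
      (((mem_Col hj).1 hk).1.2.ne_zero hj).1 ht]
    simpa using mul_nonneg hC.le hX
  · refine h t X _ ht hX fun k hk => ?_
    have hk' := (mem_Col hj).1 hk
    exact ⟨(hk'.1.szl_eq hj).1, (hk'.1.szl_eq hj).2.trans_le hk'.2.2⟩
theorem Col_eq_empty {j : ℕ} (hj : 1 ≤ j) (t : E) {X : ℝ} (h : X < 1) : Col j t X = ∅ :=
  Finset.eq_empty_of_forall_notMem fun _ hk =>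
    absurd ((one_le_nf ((mem_Col hj).1 hk).2.1.ne_zero).trans ((mem_Col hj).1 hk).2.2) (not_le.2 h)
open Classical in
/-- The generators of one ideal in a lattice: `k / t ∈ OS` has `absS (k / t)⁻¹ ≤ X`, so that the
ideal `m^B k / (u t)`... has `O(X^ε)` possible `S`-parts (Rankin's trick in `𝓞`), and each `S`-part
occurs at most `[𝓞ˣ : V j]` times. -/
theorem card_lats_associated_le {j : ℕ} (hj : 1 ≤ j) {ε : ℝ} (hε : 0 < ε) : ∃ C : ℝ, 0 < C ∧
    ∀ (t : E) (X : ℝ) (g : R E), t ≠ 0 → 1 ≤ X →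
      (((lats j t X).filter fun k => Associated k g).card : ℝ) ≤ C * X ^ ε :=
  CountB2.card_assoc hj hε
/-- From lattice points to ideals. -/
theorem sum_lats_le {j : ℕ} (hj : 1 ≤ j) {ε : ℝ} (hε : 0 < ε) : ∃ C : ℝ, 0 < C ∧
    ∀ (t : E) (X : ℝ) (F : R E → ℝ), t ≠ 0 → 1 ≤ X → (∀ k, 0 ≤ F k) →
      ∑ k ∈ lats j t X, F (nrm k) ≤ C * X ^ ε * ∑ k ∈ nms X, F k := CountB2.sum_lats hj hε
/-- From ideals to lattice points. -/
theorem sum_nms_le {j : ℕ} (hj : 1 ≤ j) : ∃ C : ℝ, 1 ≤ C ∧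
    ∀ (X : ℝ) (F : R E → ℝ), (∀ k, 0 ≤ F k) →
      ∑ k ∈ nms X, F k ≤ ∑ k ∈ lats j (1 : E) (C * X), F (nrm k) := by
  classical
  obtain ⟨B, hB⟩ := exists_bdd_unit (E := E)
  have hm : 1 ≤ nr (mm E : E) ^ B := one_le_pow₀ (one_le_nr mm_ne_zero
    (by exact_mod_cast isIntegral_algebraMap (x := (mm E : ℤ))))
  refine ⟨nr (mm E : E) ^ B, hm, fun X F hF => ?_⟩
  have key : ∀ k ∈ (nms X : Finset (R E)), ∃ l ∈ lats j (1 : E) (nr (mm E : E) ^ B * X),
      nrm l = k := by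
    intro k hk
    obtain ⟨hk1, hk2⟩ := mem_nms.1 hk
    have hk0 : (k : E) ≠ 0 := fun h => hk1.ne_zero (Subtype.ext h)
    obtain ⟨u, hu, h1, h2⟩ := hB k hk0
    have hu0 : (u : E) ≠ 0 := (isUnit_iff.1 hu).1
    have huk : (u : E) * k ≠ 0 := mul_ne_zero hu0 hk0
    obtain ⟨v, hv, hv'⟩ := repR_spec j (u * k)
    have hass : Associated (repR j (u * k)) k := by
      rw [hv', ← mul_assoc]
      exact associated_unit_mul_left k _ (((V_iff_isUnit hj).1 hv).1.mul hu)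
    refine ⟨repR j (u * k), (mem_lats hj one_ne_zero).2 ⟨⟨fd_rep hj huk, ?_⟩, ?_⟩,
      (nrm_eq_of_associated hass).trans hk1.nrm_eq⟩
    · rw [div_one, hv']
      exact (OS E).mul_mem hv.1.mem_OS h1
    · have h3 : szl 1 (repR j (u * k)) = (absS ((u : E) * k))⁻¹ * nf (k : E) := by
        have h4 := (absS_pos ((u : E) * k)).ne'
        have h5 : nf ((u : E) * k) = nf (k : E) := by
          rw [nf_mul, nf_eq_one_iff.2 hu, one_mul]
        rw [szl, absS_one, mul_one, hv', ← h5, nf]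
        push_cast
        rw [nr_mul (v : E), hv.nr_eq hj]
        field_simp
      rw [h3]
      exact mul_le_mul (CountB1_nr_le huk h2) hk2 (nf_nonneg _) (zero_le_one.trans hm)
  calc ∑ k ∈ nms X, F k ≤ ∑ k ∈ (lats j (1 : E) (nr (mm E : E) ^ B * X)).image nrm, F k :=
        Finset.sum_le_sum_of_subset_of_nonneg (fun k hk => Finset.mem_image.2 (key k hk))
          fun k _ _ => hF k
    _ ≤ _ := Finset.sum_image_le_of_nonneg fun k _ => hF k
open nonZeroDivisors in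
theorem CountB1_card_ge (X : ℝ) :
    Nat.card {I : (Ideal (𝓞 E))⁰ // Ideal.absNorm (I : Ideal (𝓞 E)) ≤ X ∧ ClassGroup.mk0 I = 1} ≤
      (lats 1 (1 : E) X).card := by
  have key : ∀ I : {I : (Ideal (𝓞 E))⁰ //
      Ideal.absNorm (I : Ideal (𝓞 E)) ≤ X ∧ ClassGroup.mk0 I = 1},
      ∃ (k : lats 1 (1 : E) X) (y : 𝓞 E), (y : E) = (k.1 : E) ∧ Ideal.span {y} = I.1.1 := by
    rintro ⟨I, h1, h2⟩
    obtain ⟨x, hx⟩ := (ClassGroup.mk0_eq_one_iff I.2).1 h2
    have hx' : (I : Ideal (𝓞 E)) = Ideal.span {x} := hx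
    have hx0 : (x : E) ≠ 0 := fun h => by
      have h3 : x = 0 := by exact_mod_cast h
      exact nonZeroDivisors.coe_ne_zero I (by rw [hx', h3]; simp)
    obtain ⟨v, hv, hv'⟩ := rep_spec 1 (x : E)
    obtain ⟨w, hw, -⟩ := (V_iff le_rfl).1 hv
    have h4 : ((repR 1 (toR x) : R E) : E) = v * x := hv'
    refine ⟨⟨repR 1 (toR x), (mem_lats le_rfl one_ne_zero).2 ⟨⟨fd_rep le_rfl hx0, ?_⟩, ?_⟩⟩,
      w * x, ?_, ?_⟩
    · rw [div_one, h4]
      exact (OS E).mul_mem hv.1.mem_OS (mem_OS_of_isIntegral x.isIntegral_coe)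
    · rwa [szl, absS_one, mul_one, h4, nr_mul, hv.nr_eq le_rfl, one_mul, nr_eq_absNorm, ← hx']
    · rw [h4, ← hw]
      simp
    · exact (Ideal.span_singleton_mul_left_unit w.isUnit x).trans hx'.symm
  choose f y h1 h2 using key
  rw [← Nat.card_eq_finsetCard]
  refine Nat.card_le_card_of_injective f fun I J h => Subtype.ext (Subtype.ext ?_)
  have h3 : y I = y J := RingOfIntegers.ext (by rw [h1, h1, h])
  rw [← h2, ← h2, h3]
/-- There are many ideals (Mathlib's `Ideal.tendsto_norm_le_div_atTop`, or Minkowski, and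
`card_lats_associated_le`). -/
theorem card_nms_ge {ε : ℝ} (hε : 0 < ε) : ∃ c : ℝ, 0 < c ∧ ∀ X : ℝ, 1 ≤ X →
    c * X ^ (1 - ε) ≤ ((nms X : Finset (R E)).card : ℝ) := by
  obtain ⟨C, hC, h⟩ := sum_lats_le (E := E) le_rfl hε
  have h1 := NumberField.Ideal.tendsto_norm_le_and_mk_eq_div_atTop E 1
  generalize hL : (_ / (_ * Real.sqrt _) : ℝ) = L at h1
  have hL0 : 0 < L := by
    have h2 := Units.regulator_pos E
    have h3 : (0 : ℝ) < Units.torsionOrder E := Nat.cast_pos.2 (Units.torsionOrder_pos E)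
    have h4 : (0 : ℝ) < |(discr E : ℝ)| := abs_pos.2 (Int.cast_ne_zero.2 (discr_ne_zero E))
    have h5 := Real.pi_pos
    rw [← hL]
    positivity
  obtain ⟨X₀, hX₀⟩ := Filter.eventually_atTop.1 (h1.eventually_const_le (half_lt_self hL0))
  have hM : 0 < max X₀ 1 := lt_max_of_lt_right one_pos
  refine ⟨min (L / 2 / C) (max X₀ 1)⁻¹, by positivity, fun X hX => ?_⟩
  have hX0 : 0 < X := by linarith
  rcases le_total X₀ X with h2 | h2
  · have h3 := hX₀ X h2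
    rw [le_div_iff₀ hX0] at h3
    have h4 := h 1 X (fun _ => 1) one_ne_zero hX fun _ => zero_le_one
    simp only [Finset.sum_const, nsmul_eq_mul, mul_one] at h4
    have h5 := (h3.trans (Nat.cast_le.2 (CountB1_card_ge X))).trans h4
    have h6 : 0 < X ^ ε := Real.rpow_pos_of_pos hX0 ε
    refine (mul_le_mul_of_nonneg_right (min_le_left _ _) (by positivity)).trans ?_
    rw [Real.rpow_sub hX0, Real.rpow_one, div_mul_div_comm, div_le_iff₀ (by positivity)]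
    linarith
  · have h3 : (1 : ℝ) ≤ (nms X : Finset (R E)).card :=
      Nat.one_le_cast.2 (Finset.card_pos.2 ⟨1, mem_nms.2 ⟨nm_one, by simpa using hX⟩⟩)
    have h4 : X ^ (1 - ε) ≤ max X₀ 1 := by
      refine le_trans ?_ (h2.trans (le_max_left _ _))
      simpa using Real.rpow_le_rpow_of_exponent_le hX (show 1 - ε ≤ 1 by linarith)
    refine (mul_le_mul (min_le_right _ _) h4 (by positivity) (by positivity)).trans ?_
    rwa [inv_mul_cancel₀ hM.ne']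
open Classical in
/-- The multiples of `g` among the columns. -/
theorem sum_Col_dvd {j : ℕ} (hj : 1 ≤ j) (t : E) (L : ℝ) {g : R E} (hg : Squarefree g)
    {f : R E → ℂ} (hf : InvR j f) :
    ∑ n ∈ (Col j t L).filter (g ∣ ·), f n =
      ∑ n ∈ (Col j (t / g) (L / nf (g : E))).filter (IsCoprime · g), f (g * n) := by
  have hg0 : g ≠ 0 := hg.ne_zero
  have hg1 : 0 < nf (g : E) := one_pos.trans_le (one_le_nf hg0)
  have h1 := tsum_Cls_dvd hj t hg0
    (f := fun n => if Squarefree n ∧ nf (n : E) ≤ L then f n else 0) fun u x hu => by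
      have h2 : Associated (u * x) x := associated_unit_mul_left x u ((V_iff_isUnit hj).1 hu).1
      simp only [h2.squarefree_iff, nf_of_associated h2, hf u x hu]
  have h3 : ∀ n : R E, Squarefree (g * n) ∧ nf ((g * n : R E) : E) ≤ L ↔
      (Squarefree n ∧ nf (n : E) ≤ L / nf (g : E)) ∧ IsCoprime n g := fun n => by
    rw [squarefree_mul_iff, isRelPrime_iff_isCoprime, le_div_iff₀' hg1, Subring.coe_mul, nf_mul,
      isCoprime_comm]
    tauto
  rw [tsum_eq_sum (s := (Col j t L).filter (g ∣ ·)) fun n hn => ?_,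
    tsum_eq_sum (s := (Col j (t / g) (L / nf (g : E))).filter (IsCoprime · g)) fun n hn => ?_] at h1
  · convert h1 using 1
    · refine Finset.sum_congr rfl fun n hn => ?_
      rw [Finset.mem_filter, mem_Col hj] at hn
      rw [if_pos ⟨hn.1.1, hn.2⟩, if_pos hn.1.2]
    · refine Finset.sum_congr rfl fun n hn => ?_
      rw [Finset.mem_filter, mem_Col hj] at hn
      rw [if_pos hn.1.1, if_pos ((h3 n).2 ⟨hn.1.2, hn.2⟩)]
  · rw [Finset.mem_filter, mem_Col hj] at hn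
    split_ifs with h4 h5
    · exact absurd ⟨⟨h4, ((h3 n).1 h5).1⟩, ((h3 n).1 h5).2⟩ hn
    · rfl
    · rfl
  · rw [Finset.mem_filter, mem_Col hj] at hn
    split_ifs with h4 h5
    · exact absurd ⟨⟨h4.1, h5⟩, h4.2⟩ hn
    · rfl
    · rfl

end Crest.Agent.R312
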