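import Crest.Agent.R312.CRf

/-!
# Row 312: cubic reciprocity (target statement)
-/

set_option autoImplicit false

noncomputable section

namespace Crest.Agent.R312

open NumberField
open scoped ComplexConjugate

variable {E : Type} [Field E] [NumberField E] [Fr E]

/-- **Cubic reciprocity**: the pairing `rho` is continuous at `S`.  (Proved in `CR*.lean`.) -/
theorem exists_rho_level : ∃ j : ℕ, 1 ≤ j ∧ ∀ x u : E, x ≠ 0 → U j u → rho x u = 0 :=
  CR.rho_level E

end Crest.Agent.R312
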