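import Mathlib

/-!
# Poisson summation on `ℤ^d` for continuous functions with Gaussian decay
-/

set_option autoImplicit false

noncomputable section

namespace Crest.Agent.R312.PZ

open MeasureTheory Filter Topology Set

variable {d : Type} [Fintype d]

theorem summable_int {δ : ℝ} (hδ : 0 < δ) :
    Summable fun n : ℤ => Real.exp (-δ * (n : ℝ) ^ 2) := by
  have h : Summable fun n : ℕ => Real.exp (-δ * (n : ℝ) ^ 2) := by
    refine Summable.of_nonneg_of_le (fun _ => (Real.exp_pos _).le) (fun n => ?_)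
      (summable_geometric_of_lt_one (Real.exp_pos (-δ)).le
        (Real.exp_lt_one_iff.2 (by linarith)))
    rw [← Real.exp_nat_mul]
    refine Real.exp_le_exp.2 ?_
    have : (n : ℝ) ≤ (n : ℝ) ^ 2 := by exact_mod_cast Nat.le_self_pow two_ne_zero n
    nlinarith
  refine Summable.of_nat_of_neg ?_ ?_ <;> simpa using h

theorem summable_pi {δ : ℝ} (hδ : 0 < δ) :
    Summable fun n : d → ℤ => Real.exp (-δ * ∑ i, (n i : ℝ) ^ 2) := by
  classical
  have h := summable_int hδ
  refine summable_of_sum_le (c := ∏ _i : d, ∑' k : ℤ, Real.exp (-δ * (k : ℝ) ^ 2))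
    (fun _ => (Real.exp_pos _).le) fun S => ?_
  have h1 : S ⊆ Fintype.piFinset fun i => S.image fun n => n i := fun n hn =>
    Fintype.mem_piFinset.2 fun i => Finset.mem_image_of_mem _ hn
  refine (Finset.sum_le_sum_of_subset_of_nonneg h1 fun _ _ _ => (Real.exp_pos _).le).trans ?_
  simp only [Finset.mul_sum, Real.exp_sum]
  rw [← Finset.prod_univ_sum (fun i => S.image fun n => n i)
    fun _ (k : ℤ) => Real.exp (-δ * (k : ℝ) ^ 2)]
  exact Finset.prod_le_prod (fun _ _ => Finset.sum_nonneg fun _ _ => (Real.exp_pos _).le)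
    fun i _ => h.sum_le_tsum _ fun _ _ => (Real.exp_pos _).le

theorem integrable_gauss {c : ℝ} (hc : 0 < c) :
    Integrable fun x : d → ℝ => Real.exp (-c * ∑ i, x i ^ 2) := by
  simp only [Finset.mul_sum, Real.exp_sum]
  exact Integrable.fintype_prod (f := fun _ (t : ℝ) => Real.exp (-c * t ^ 2))
    fun _ => integrable_exp_neg_mul_sq hc

/-- The unit cube with corner `n`. -/
def cube (n : d → ℤ) : Set (d → ℝ) := {x | ∀ i, x i ∈ Ioc ((n i : ℝ)) (n i + 1)}

theorem measurableSet_cube (n : d → ℤ) : MeasurableSet (cube n) :=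
  MeasurableSet.univ_pi' fun _ => measurableSet_Ioc

omit [Fintype d] in
theorem cube_disjoint : Pairwise (Function.onFun Disjoint (cube (d := d))) := by
  intro m n hmn
  refine Set.disjoint_left.2 fun x hm hn => hmn (funext fun i => ?_)
  obtain ⟨a1, a2⟩ := hm i
  obtain ⟨b1, b2⟩ := hn i
  have h1 : (m i : ℝ) < (n i + 1 : ℤ) := by push_cast; linarith
  have h2 : (n i : ℝ) < (m i + 1 : ℤ) := by push_cast; linarith
  have h3 : m i < n i + 1 := by exact_mod_cast h1
  have h4 : n i < m i + 1 := by exact_mod_cast h2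
  omega

omit [Fintype d] in
theorem iUnion_cube : ⋃ n, cube (d := d) n = univ := by
  refine eq_univ_of_forall fun x => mem_iUnion.2 ⟨fun i => ⌈x i⌉ - 1, fun i => ?_⟩
  push_cast
  exact ⟨by linarith [Int.ceil_lt_add_one (x i)], by linarith [Int.le_ceil (x i)]⟩

theorem setIntegral_cube {V : Type} [NormedAddCommGroup V] [NormedSpace ℝ V] (g : (d → ℝ) → V)
    (n : d → ℤ) : ∫ x in cube n, g x = ∫ x in cube 0, g (x + fun i => (n i : ℝ)) := by
  rw [← integral_indicator (measurableSet_cube _), ← integral_indicator (measurableSet_cube _),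
    ← integral_add_right_eq_self _ (fun i => (n i : ℝ))]
  refine integral_congr_ae (Eventually.of_forall fun x => ?_)
  have : (x + fun i => (n i : ℝ)) ∈ cube n ↔ x ∈ cube (0 : d → ℤ) := by
    simp only [cube, mem_ofPred_eq, Pi.add_apply, mem_Ioc, Pi.zero_apply, Int.cast_zero]
    refine forall_congr' fun i => ⟨fun h => ⟨?_, ?_⟩, fun h => ⟨?_, ?_⟩⟩ <;> linarith [h.1, h.2]
  by_cases hx : x ∈ cube (0 : d → ℤ)
  · simp only [indicator_of_mem hx, indicator_of_mem (this.2 hx)]
  · simp only [indicator_of_notMem hx, indicator_of_notMem (mt this.1 hx)]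

theorem hasSum_cube {V : Type} [NormedAddCommGroup V] [NormedSpace ℝ V] {g : (d → ℝ) → V}
    (hg : Integrable g) :
    HasSum (fun n : d → ℤ => ∫ x in cube 0, g (x + fun i => (n i : ℝ))) (∫ x, g x) := by
  have := hasSum_integral_iUnion (μ := volume) (f := g) measurableSet_cube cube_disjoint
    hg.integrableOn
  rw [iUnion_cube, Measure.restrict_univ] at this
  simpa only [setIntegral_cube g] using this

theorem integral_cube_tsum {g : (d → ℝ) → ℂ} (hg : Integrable g) :
    ∫ x in cube 0, ∑' n : d → ℤ, g (x + fun i => (n i : ℝ)) = ∫ x, g x := by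
  rw [← (hasSum_cube hg).tsum_eq]
  refine (integral_tsum_of_summable_integral_norm
    (fun n => (hg.comp_add_right _).integrableOn) ?_).symm
  exact (hasSum_cube hg.norm).summable

/-- The character `e(m · x)`. -/
def ec (m : d → ℤ) (x : d → ℝ) : ℂ :=
  Complex.exp (2 * Real.pi * Complex.I * ((∑ i, m i * x i : ℝ) : ℂ))

theorem mFourier_coe (m : d → ℤ) (x : d → ℝ) :
    UnitAddTorus.mFourier m (fun i => (x i : UnitAddCircle)) = ec m x := by
  simp only [UnitAddTorus.mFourier, ContinuousMap.coe_mk, fourier_coe_apply, ec,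
    ← Complex.exp_sum]
  congr 1
  push_cast
  rw [Finset.mul_sum]
  exact Finset.sum_congr rfl fun i _ => by ring

theorem ec_add_int (m n : d → ℤ) (x : d → ℝ) : ec m (x + fun i => (n i : ℝ)) = ec m x := by
  unfold ec
  have : ((∑ i, (m i : ℝ) * (x + fun i => (n i : ℝ)) i : ℝ) : ℂ) =
      ((∑ i, m i * x i : ℝ) : ℂ) + ((∑ i, m i * n i : ℤ) : ℂ) := by
    push_cast
    rw [← Finset.sum_add_distrib]
    refine Finset.sum_congr rfl fun i _ => ?_
    simp only [Pi.add_apply]
    push_cast
    ring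
  rw [this, mul_add, Complex.exp_add, mul_comm (2 * (Real.pi : ℂ) * Complex.I) ((_ : ℤ) : ℂ),
    Complex.exp_int_mul_two_pi_mul_I, mul_one]

theorem norm_ec (m : d → ℤ) (x : d → ℝ) : ‖ec m x‖ = 1 := by
  unfold ec
  rw [show 2 * (Real.pi : ℂ) * Complex.I * ((∑ i, m i * x i : ℝ) : ℂ) =
    ((2 * Real.pi * ∑ i, m i * x i : ℝ) : ℂ) * Complex.I by push_cast; ring,
    Complex.norm_exp_ofReal_mul_I]

theorem continuous_ec (m : d → ℤ) : Continuous (ec m) := by
  unfold ec; fun_prop

theorem continuous_per {f : (d → ℝ) → ℂ} (hf : Continuous f) {C c : ℝ} (hc : 0 < c)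
    (hb : ∀ x, ‖f x‖ ≤ C * Real.exp (-c * ∑ i, x i ^ 2)) :
    Continuous fun x : d → ℝ => ∑' n : d → ℤ, f (x + fun i => (n i : ℝ)) := by
  have hC : 0 ≤ C := by
    have := (norm_nonneg _).trans (hb 0)
    exact nonneg_of_mul_nonneg_left this (Real.exp_pos _)
  refine continuous_iff_continuousAt.2 fun x₀ => ?_
  set R := ‖x₀‖ + 1 with hR
  have h1 : ContinuousOn (fun x : d → ℝ => ∑' n : d → ℤ, f (x + fun i => (n i : ℝ)))
      (Metric.ball 0 R) := by
    refine continuousOn_tsum (u := fun n : d → ℤ => C * Real.exp (c * ∑ _i : d, R ^ 2) *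
      Real.exp (-(c / 2) * ∑ i, (n i : ℝ) ^ 2)) (fun n => (hf.comp (by fun_prop)).continuousOn)
      ((summable_pi (half_pos hc)).mul_left _) fun n x hx => (hb _).trans ?_
    rw [mul_assoc, ← Real.exp_add]
    refine mul_le_mul_of_nonneg_left (Real.exp_le_exp.2 ?_) hC
    simp only [Finset.mul_sum, ← Finset.sum_add_distrib]
    refine Finset.sum_le_sum fun i _ => ?_
    have h2 : |x i| ≤ R := (norm_le_pi_norm x i).trans (mem_ball_zero_iff.1 hx).le
    have h3 : x i ^ 2 ≤ R ^ 2 := by rw [← sq_abs]; exact pow_le_pow_left₀ (abs_nonneg _) h2 2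
    simp only [Pi.add_apply]
    nlinarith [sq_nonneg (2 * x i + n i)]
  exact h1.continuousAt (Metric.isOpen_ball.mem_nhds (mem_ball_zero_iff.2 (by linarith)))

/-- **Poisson summation on `ℤ^d`.** -/
theorem poisson {f : (d → ℝ) → ℂ} (hf : Continuous f) {C c : ℝ} (hc : 0 < c)
    (hb : ∀ x, ‖f x‖ ≤ C * Real.exp (-c * ∑ i, x i ^ 2))
    (hs : Summable fun m : d → ℤ => ∫ x, ec (-m) x * f x) :
    ∑' n : d → ℤ, f (fun i => (n i : ℝ)) = ∑' m : d → ℤ, ∫ x, ec (-m) x * f x := by
  set P : (d → ℝ) → ℂ := fun x => ∑' n : d → ℤ, f (x + fun i => (n i : ℝ)) with hP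
  have hPc : Continuous P := continuous_per hf hc hb
  have hper : ∀ (x : d → ℝ) (k : d → ℤ), P (x + fun i => (k i : ℝ)) = P x := fun x k => by
    simp only [hP]
    rw [← (Equiv.addLeft k).tsum_eq fun n : d → ℤ => f (x + fun i => (n i : ℝ))]
    refine tsum_congr fun n => congrArg f (funext fun i => ?_)
    simp [add_assoc]
  set g : UnitAddTorus d → ℂ := fun t => P fun i => (AddCircle.equivIoc 1 0 (t i)).1 with hg
  have hgP : ∀ x : d → ℝ, g (fun i => (x i : UnitAddCircle)) = P x := fun x => by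
    have h1 : ∀ i, ∃ k : ℤ, ((AddCircle.equivIoc 1 0 (x i : UnitAddCircle)).1 : ℝ) = x i + k :=
      fun i => by
        have h2 : (((AddCircle.equivIoc 1 0 (x i : UnitAddCircle)).1 : ℝ) : UnitAddCircle) =
            (x i : UnitAddCircle) := (AddCircle.equivIoc 1 0).symm_apply_apply _
        rw [QuotientAddGroup.eq, AddSubgroup.mem_zmultiples_iff] at h2
        obtain ⟨k, hk⟩ := h2
        refine ⟨-k, ?_⟩
        simp only [zsmul_eq_mul, mul_one] at hk
        push_cast
        linarith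
    choose k hk using h1
    simp only [hg, hk]
    exact hper x k
  have hq : IsOpenQuotientMap fun (x : d → ℝ) (i : d) => (x i : UnitAddCircle) :=
    IsOpenQuotientMap.piMap fun _ : d => QuotientAddGroup.isOpenQuotientMap_mk
  have hgc : Continuous g := by
    rw [← hq.continuous_comp_iff]
    exact hPc.congr fun x => (hgP x).symm
  have hfi : Integrable f :=
    ((integrable_gauss hc).const_mul C).mono' hf.aestronglyMeasurable (Eventually.of_forall hb)
  have hco : ∀ m, UnitAddTorus.mFourierCoeff (⟨g, hgc⟩ : C(UnitAddTorus d, ℂ)) m =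
      ∫ x, ec (-m) x * f x := fun m => by
    have hi : Integrable fun x => ec (-m) x * f x :=
      hfi.bdd_mul (c := 1) (continuous_ec _).aestronglyMeasurable
        (Eventually.of_forall fun x => (norm_ec _ x).le)
    rw [UnitAddTorus.mFourierCoeff_eq_integral _ _ 0, ← integral_cube_tsum hi]
    have : {x : d → ℝ | ∀ i, x i ∈ Ioc ((0 : d → ℝ) i) ((0 : d → ℝ) i + 1)} = cube 0 := by
      simp [cube]
    rw [this]
    refine integral_congr_ae (Eventually.of_forall fun x => ?_)
    simp only [ContinuousMap.coe_mk, mFourier_coe, hgP, smul_eq_mul, ec_add_int, hP]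
    rw [tsum_mul_left]
  have h := UnitAddTorus.hasSum_mFourier_series_apply_of_summable
    (f := (⟨g, hgc⟩ : C(UnitAddTorus d, ℂ))) (hs.congr fun m => (hco m).symm)
    (fun i => ((0 : d → ℝ) i : UnitAddCircle))
  simp only [hco] at h
  simp only [mFourier_coe, ContinuousMap.coe_mk, hgP] at h
  have h0 : ∀ m : d → ℤ, ec m 0 = 1 := fun m => by simp [ec]
  simp only [h0, smul_eq_mul, mul_one] at h
  rw [h.tsum_eq]
  simp only [hP, zero_add]

end Crest.Agent.R312.PZ
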