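import Crest.Agent.R312.Arch
import Crest.Agent.R312.PoisAux0

/-!
# Row 312: coordinates on `ℂ^r` given by an integral basis, the Jacobian, the dual lattice
-/

set_option autoImplicit false

noncomputable section

namespace Crest.Agent.R312.PZ

open NumberField MeasureTheory Module
open scoped ComplexConjugate

/-- real and imaginary parts as coordinates -/
def Phi {ι : Type} (y : ι ⊕ ι → ℝ) : ι → ℂ := fun σ => ⟨y (.inl σ), y (.inr σ)⟩

theorem integral_Phi {ι : Type} [Fintype ι] (G : (ι → ℂ) → ℂ) :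
    ∫ y : ι ⊕ ι → ℝ, G (Phi y) = ∫ z, G z := by
  have h1 := volume_measurePreserving_sumPiEquivProdPi (fun _ : ι ⊕ ι => ℝ)
  have h2 := (volume_measurePreserving_arrowProdEquivProdArrow ℝ ℝ ι).symm
  have h3 : MeasurePreserving (MeasurableEquiv.piCongrRight
      fun _ : ι => Complex.measurableEquivRealProd.symm) volume volume :=
    volume_preserving_pi fun _ => Complex.volume_preserving_equiv_real_prod.symm
  exact ((h1.trans h2).trans h3).integral_comp' G

theorem integral_vecMul {d : Type} [Fintype d] [DecidableEq d] {M : Matrix d d ℝ}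
    (hM : M.det ≠ 0) (G : (d → ℝ) → ℂ) :
    ∫ y, G y = (|M.det| : ℝ) * ∫ x, G (Matrix.vecMul x M) := by
  have hT : M.transpose.det ≠ 0 := by rwa [Matrix.det_transpose]
  have h := Real.map_matrix_volume_pi_eq_smul_volume_pi hT
  let e : (d → ℝ) ≃ᵐ (d → ℝ) :=
    (Matrix.toLinearEquiv' M.transpose
      (Matrix.invertibleOfIsUnitDet _ (Ne.isUnit hT))).toContinuousLinearEquiv.toHomeomorph.toMeasurableEquiv
  have he : (e : (d → ℝ) → d → ℝ) = Matrix.toLin' M.transpose := rfl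
  have h2 := integral_map_equiv (μ := volume) e G
  rw [he, h, integral_smul_measure, Matrix.det_transpose,
    ENNReal.toReal_ofReal (abs_nonneg _)] at h2
  simp only [Matrix.toLin'_apply, Matrix.mulVec_transpose] at h2
  rw [← h2, Complex.real_smul, ← mul_assoc, ← Complex.ofReal_mul, ← abs_mul, mul_inv_cancel₀ hM]
  simp

theorem sq_pair_le {ι : Type} [Fintype ι] (w z : ι → ℂ) :
    (∑ σ, 2 * (w σ * z σ).re) ^ 2 ≤ (4 * ∑ σ, ‖w σ‖ ^ 2) * ∑ σ, ‖z σ‖ ^ 2 := by
  have h1 : |∑ σ, 2 * (w σ * z σ).re| ≤ 2 * ∑ σ, ‖w σ‖ * ‖z σ‖ := by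
    rw [Finset.mul_sum]
    refine (Finset.abs_sum_le_sum_abs _ _).trans (Finset.sum_le_sum fun σ _ => ?_)
    rw [abs_mul, abs_two, ← norm_mul]
    exact mul_le_mul_of_nonneg_left (Complex.abs_re_le_norm _) zero_le_two
  have h2 := Finset.sum_mul_sq_le_sq_mul_sq Finset.univ (fun σ => ‖w σ‖) fun σ => ‖z σ‖
  rw [← sq_abs]
  refine (pow_le_pow_left₀ (abs_nonneg _) h1 2).trans ?_
  nlinarith

theorem gauss_le {ι d : Type} [Fintype ι] [Fintype d] (w : d → ι → ℂ) {c : ℝ} (hc : 0 < c) :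
    ∃ c' : ℝ, 0 < c' ∧ ∀ (z : ι → ℂ) (x : d → ℝ), (∀ j, x j = ∑ σ, 2 * (w j σ * z σ).re) →
      Real.exp (-c * ∑ σ, ‖z σ‖ ^ 2) ≤ Real.exp (-c' * ∑ j, x j ^ 2) := by
  set K : ℝ := ∑ j, 4 * ∑ σ, ‖w j σ‖ ^ 2 with hK
  have hK0 : 0 ≤ K := by positivity
  refine ⟨c / (K + 1), by positivity, fun z x hx => Real.exp_le_exp.2 ?_⟩
  have h1 : ∑ j, x j ^ 2 ≤ K * ∑ σ, ‖z σ‖ ^ 2 := by
    rw [hK, Finset.sum_mul]
    exact Finset.sum_le_sum fun j _ => hx j ▸ sq_pair_le _ _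
  have h2 : 0 ≤ ∑ σ, ‖z σ‖ ^ 2 := by positivity
  rw [neg_mul, neg_mul, neg_le_neg_iff, div_mul_eq_mul_div, div_le_iff₀ (by positivity)]
  nlinarith

variable {E : Type} [Field E] [NumberField E] [Om E]

/-- An integral basis indexed by the real coordinates. -/
def bO (E : Type) [Field E] [NumberField E] [Om E] : Basis (Pl E ⊕ Pl E) ℤ (𝓞 E) :=
  (RingOfIntegers.basis E).reindex (Fintype.equivOfCardEq (by
    rw [Fintype.card_sum, ← finrank_eq_card_chooseBasisIndex, RingOfIntegers.rank, ← two_mul_rk,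
      two_mul]))

/-- The same basis as a basis of the field. -/
def bE (E : Type) [Field E] [NumberField E] [Om E] : Basis (Pl E ⊕ Pl E) ℚ E :=
  Basis.localizationLocalization ℚ (nonZeroDivisors ℤ) E (bO E)

theorem bE_apply (i : Pl E ⊕ Pl E) : bE E i = (bO E i : E) := by
  simp [bE]

theorem discr_bE : (discr E : ℚ) = Algebra.discr ℚ (bE E) := by
  rw [← discr_eq_discr E (bO E)]
  exact (Algebra.discr_localizationLocalization ℤ (nonZeroDivisors ℤ) E (bO E)).symm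

/-- The dual basis. -/
def bD (E : Type) [Field E] [NumberField E] [Om E] : Basis (Pl E ⊕ Pl E) ℚ E :=
  (Algebra.traceForm ℚ E).dualBasis (traceForm_nondegenerate ℚ E) (bE E)

theorem trace_bD (i j : Pl E ⊕ Pl E) :
    Algebra.trace ℚ E (bD E i * bE E j) = if j = i then 1 else 0 :=
  LinearMap.BilinForm.apply_dualBasis_left (traceForm_nondegenerate ℚ E) (bE E) i j

theorem bD_repr (x : E) (i : Pl E ⊕ Pl E) : (bD E).repr x i = Algebra.trace ℚ E (x * bE E i) :=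
  LinearMap.BilinForm.dualBasis_repr_apply _ _ x i

/-- The matrix of the basis. -/
def MM (E : Type) [Field E] [NumberField E] [Om E] : Matrix (Pl E ⊕ Pl E) (Pl E ⊕ Pl E) ℝ :=
  Matrix.of fun i => Sum.elim (fun σ => (σ.1 (bE E i)).re) fun σ => (σ.1 (bE E i)).im

theorem det_MM_sq : (discr E : ℝ) = (MM E).det ^ 2 * (2 ^ rk E * (-2) ^ rk E) := by
  have h1 : (Algebra.traceMatrix ℚ (bE E)).map (Rat.castHom ℝ) =
      MM E * Matrix.diagonal (Sum.elim (fun _ => 2) fun _ => -2) * (MM E).transpose := by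
    ext i j
    rw [Matrix.map_apply, Algebra.traceMatrix_apply, Algebra.traceForm_apply, Rat.coe_castHom,
      trace_eq, Matrix.mul_apply, Fintype.sum_sum_type, ← Finset.sum_add_distrib]
    refine Finset.sum_congr rfl fun σ _ => ?_
    simp only [Matrix.mul_diagonal, Matrix.transpose_apply, MM, Matrix.of_apply, Sum.elim_inl,
      Sum.elim_inr, map_mul, Complex.mul_re]
    ring
  have h2 : (discr E : ℝ) = ((Algebra.traceMatrix ℚ (bE E)).map (Rat.castHom ℝ)).det := by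
    have := (Rat.castHom ℝ).map_det (Algebra.traceMatrix ℚ (bE E))
    rw [RingHom.mapMatrix_apply] at this
    rw [← this, ← Algebra.discr_def, ← discr_bE]
    simp
  rw [h2, h1, Matrix.det_mul, Matrix.det_mul, Matrix.det_transpose, Matrix.det_diagonal,
    Fintype.prod_sum_type]
  simp only [Sum.elim_inl, Sum.elim_inr, Finset.prod_const, Finset.card_univ]
  ring

theorem det_MM_ne : (MM E).det ≠ 0 := fun h => by
  have := det_MM_sq (E := E)
  rw [h] at this
  have h0 : (discr E : ℝ) = 0 := this.trans (by ring)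
  exact discr_ne_zero E (by exact_mod_cast h0)

theorem sqrt_discr : Real.sqrt |(discr E : ℝ)| = 2 ^ rk E * |(MM E).det| := by
  rw [det_MM_sq, abs_mul, abs_mul, abs_pow, abs_pow, abs_pow, abs_neg, abs_two,
    show |(MM E).det| ^ 2 * (2 ^ rk E * 2 ^ rk E) = (2 ^ rk E * |(MM E).det|) ^ 2 by ring,
    Real.sqrt_sq (by positivity)]

/-- The coordinates. -/
def LL (x : Pl E ⊕ Pl E → ℝ) : Pl E → ℂ := fun σ => ∑ i, (x i : ℂ) * σ.1 (bE E i)

theorem continuous_LL : Continuous (LL (E := E)) := by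
  unfold LL; fun_prop

theorem Phi_vecMul (x : Pl E ⊕ Pl E → ℝ) : Phi (Matrix.vecMul x (MM E)) = LL x := by
  funext σ
  apply Complex.ext <;> simp [Phi, LL, MM, Matrix.vecMul, dotProduct]

theorem LL_surjective : Function.Surjective (LL (E := E)) := fun z => by
  obtain ⟨x, hx⟩ := Matrix.vecMul_surjective_iff_isUnit.2
    ((Matrix.isUnit_iff_isUnit_det _).2 (Ne.isUnit (det_MM_ne (E := E))))
    (Sum.elim (fun σ => (z σ).re) fun σ => (z σ).im)
  refine ⟨x, ?_⟩
  rw [← Phi_vecMul]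
  change Matrix.vecMul x (MM E) = _ at hx
  rw [hx]
  rfl

theorem integral_LL (G : (Pl E → ℂ) → ℂ) :
    2 ^ rk E * ∫ z, G z = (Real.sqrt |(discr E : ℝ)| : ℝ) * ∫ x, G (LL x) := by
  rw [← integral_Phi, integral_vecMul det_MM_ne, sqrt_discr]
  simp only [Phi_vecMul]
  push_cast
  ring

theorem pair_LL (ν : E) (x : Pl E ⊕ Pl E → ℝ) : ∑ σ, 2 * (em ν σ * LL x σ).re =
    ∑ i, ((Algebra.trace ℚ E (ν * bE E i) : ℚ) : ℝ) * x i := by
  simp only [trace_eq, LL, em, Finset.mul_sum, Finset.sum_mul, Complex.re_sum]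
  rw [Finset.sum_comm]
  refine Finset.sum_congr rfl fun i _ => Finset.sum_congr rfl fun σ _ => ?_
  simp only [map_mul, Complex.mul_re, Complex.ofReal_re, Complex.ofReal_im, Complex.mul_im]
  ring

theorem coord_LL (x : Pl E ⊕ Pl E → ℝ) (j : Pl E ⊕ Pl E) :
    x j = ∑ σ, 2 * (em (bD E j) σ * LL x σ).re := by
  rw [pair_LL]
  simp [trace_bD, apply_ite]

theorem LL_int (n : Pl E ⊕ Pl E → ℤ) :
    LL (fun i => (n i : ℝ)) = em (((bO E).equivFun.symm n : 𝓞 E) : E) := by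
  funext σ
  simp [LL, em, bE_apply]

/-- The point of the dual lattice with coordinates `m`. -/
def nu (m : Pl E ⊕ Pl E → ℤ) : E := ∑ j, (m j : E) * bD E j

theorem trace_nu (m : Pl E ⊕ Pl E → ℤ) (i : Pl E ⊕ Pl E) :
    Algebra.trace ℚ E (nu m * bE E i) = m i := by
  have : ∀ j, (m j : E) * bD E j * bE E i = (m j : ℚ) • (bD E j * bE E i) := fun j => by
    rw [Algebra.smul_def, mul_assoc]; simp
  simp only [nu, Finset.sum_mul, this, map_sum, map_smul, trace_bD, smul_eq_mul, mul_ite, mul_one,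
    mul_zero, Finset.sum_ite_eq, Finset.mem_univ, if_true]

theorem eT_nu (m : Pl E ⊕ Pl E → ℤ) (x : E) (hx : IsIntegral ℤ x) : eT (nu m * x) = 1 := by
  have h := (bO E).sum_repr ⟨x, hx⟩
  have h1 : x = ∑ i, (((bO E).repr ⟨x, hx⟩ i : ℤ) : ℚ) • bE E i := by
    have := congrArg (algebraMap (𝓞 E) E) h
    rw [map_sum] at this
    refine this.symm.trans (Finset.sum_congr rfl fun i _ => ?_)
    rw [bE_apply, zsmul_eq_mul, map_mul, Algebra.smul_def]
    simp
  have h2 : Algebra.trace ℚ E (nu m * x) = ((∑ i, (bO E).repr ⟨x, hx⟩ i * m i : ℤ) : ℚ) := by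
    conv_lhs => rw [h1]
    simp only [Finset.mul_sum, mul_smul_comm, map_sum, map_smul, trace_nu, smul_eq_mul]
    push_cast
    rfl
  rw [eT, h2, Rat.cast_intCast, mul_comm, Complex.exp_int_mul_two_pi_mul_I]

theorem nu_bijective : Function.Bijective fun m : Pl E ⊕ Pl E → ℤ =>
    (⟨nu m, eT_nu m⟩ : {ν : E // ∀ x : E, IsIntegral ℤ x → eT (ν * x) = 1}) := by
  refine ⟨fun m m' h => funext fun i => ?_, fun ν => ?_⟩
  · have h1 : nu m = nu m' := congrArg Subtype.val h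
    have := trace_nu m i
    rw [h1, trace_nu] at this
    exact_mod_cast this.symm
  · have h : ∀ i, ∃ k : ℤ, (k : ℚ) = Algebra.trace ℚ E (ν * bE E i) := fun i =>
      ArchA_trace_int (ν.2 _ (by rw [bE_apply]; exact (bO E i).isIntegral_coe))
    choose k hk using h
    refine ⟨k, Subtype.ext ?_⟩
    have := (bD E).sum_repr ν
    refine Eq.trans ?_ this
    refine Finset.sum_congr rfl fun j _ => ?_
    rw [bD_repr, ← hk, Algebra.smul_def]
    simp

theorem ez_nu (m : Pl E ⊕ Pl E → ℤ) (x : Pl E ⊕ Pl E → ℝ) :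
    conj (ez (em (nu m)) (LL x)) = ec (-m) x := by
  rw [ez, pair_LL, ec, ← Complex.exp_conj]
  congr 1
  simp only [trace_nu, map_mul, Complex.conj_ofReal, Complex.conj_I, Pi.neg_apply, Int.cast_neg,
    neg_mul, Finset.sum_neg_distrib, Rat.cast_intCast, map_ofNat]
  push_cast
  ring

theorem exists_near : ∃ C : ℝ, ∀ z : Pl E → ℂ, ∃ t : 𝓞 E, ∀ σ : Pl E, ‖z σ - σ.1 t‖ ≤ C := by
  refine ⟨∑ σ : Pl E, ∑ i, ‖σ.1 (bE E i)‖, fun z => ?_⟩
  obtain ⟨x, rfl⟩ := LL_surjective z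
  refine ⟨(bO E).equivFun.symm fun i => ⌊x i⌋, fun σ => ?_⟩
  have h := congrFun (LL_int (E := E) fun i => ⌊x i⌋) σ
  refine le_trans ?_ (Finset.single_le_sum (f := fun σ : Pl E => ∑ i, ‖σ.1 (bE E i)‖)
    (fun _ _ => by positivity) (Finset.mem_univ σ))
  rw [show σ.1 (((bO E).equivFun.symm fun i => ⌊x i⌋ : 𝓞 E) : E) = _ from h.symm, LL, LL,
    ← Finset.sum_sub_distrib]
  refine (norm_sum_le _ _).trans (Finset.sum_le_sum fun i _ => ?_)
  rw [← sub_mul, norm_mul, ← Complex.ofReal_sub, Complex.norm_real]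
  refine mul_le_of_le_one_left (norm_nonneg _) ?_
  rw [Real.norm_of_nonneg (by linarith [Int.floor_le (x i)])]
  linarith [Int.lt_floor_add_one (x i)]

theorem PS_int {F : (Pl E → ℂ) → ℂ} (hF : Continuous F)
    (h1 : ∃ C c : ℝ, 0 < c ∧ ∀ z, ‖F z‖ ≤ C * Real.exp (-c * ∑ σ, ‖z σ‖ ^ 2))
    (h2 : ∃ C c : ℝ, 0 < c ∧ ∀ ν : Pl E → ℂ,
      ‖2 ^ rk E * ∫ z, F z * conj (ez ν z)‖ ≤ C * Real.exp (-c * ∑ σ, ‖ν σ‖ ^ 2)) :
    ∑' x : 𝓞 E, F (em (x : E)) = (((Real.sqrt |(discr E : ℝ)|)⁻¹ : ℝ) : ℂ) *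
      ∑' ν : {ν : E // ∀ x : E, IsIntegral ℤ x → eT (ν * x) = 1},
        2 ^ rk E * ∫ z, F z * conj (ez (em (ν : E)) z) := by
  obtain ⟨C, c, hc, h1⟩ := h1
  obtain ⟨C', c', hc', h2⟩ := h2
  have hC : 0 ≤ C := nonneg_of_mul_nonneg_left ((norm_nonneg _).trans (h1 0)) (Real.exp_pos _)
  have hC' : 0 ≤ C' := nonneg_of_mul_nonneg_left ((norm_nonneg _).trans (h2 0)) (Real.exp_pos _)
  obtain ⟨a, ha, h3⟩ := gauss_le (fun j => em (bD E j)) hc
  obtain ⟨a', ha', h4⟩ := gauss_le (fun j => em (bE E j)) hc'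
  have hD : (0 : ℝ) < Real.sqrt |(discr E : ℝ)| :=
    Real.sqrt_pos.2 (abs_pos.2 (by exact_mod_cast discr_ne_zero E))
  have hD' : ((Real.sqrt |(discr E : ℝ)| : ℝ) : ℂ) ≠ 0 := by exact_mod_cast hD.ne'
  have key : ∀ m : Pl E ⊕ Pl E → ℤ, ∫ x, ec (-m) x * F (LL x) =
      (((Real.sqrt |(discr E : ℝ)|)⁻¹ : ℝ) : ℂ) *
        (2 ^ rk E * ∫ z, F z * conj (ez (em (nu m)) z)) := fun m => by
    rw [integral_LL, ← mul_assoc, Complex.ofReal_inv, inv_mul_cancel₀ hD', one_mul]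
    simp only [ez_nu, mul_comm]
  have hs : Summable fun m : Pl E ⊕ Pl E → ℤ => ∫ x, ec (-m) x * F (LL x) := by
    simp only [key]
    refine Summable.mul_left _ (Summable.of_norm_bounded
      ((summable_pi ha').mul_left C') fun m => (h2 _).trans ?_)
    refine mul_le_mul_of_nonneg_left (h4 _ (fun j => (m j : ℝ)) fun j => ?_) hC'
    have := trace_eq (bE E j * nu m)
    rw [mul_comm, trace_nu, mul_comm (nu m)] at this
    simpa [em] using this
  have h := poisson (f := fun x => F (LL x)) (hF.comp continuous_LL) ha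
    (fun x => (h1 _).trans (mul_le_mul_of_nonneg_left (h3 _ x (coord_LL x)) hC)) hs
  simp only [key, LL_int] at h
  rw [tsum_mul_left] at h
  rw [← (bO E).equivFun.symm.toEquiv.tsum_eq, ← (Equiv.ofBijective _ nu_bijective).tsum_eq]
  exact h

end Crest.Agent.R312.PZ
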