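import Crest.Agent.R312.Mean

/-!
# Row 312: auxiliary lemmas for `FT_chirp` and `Mn_quad`
-/

set_option autoImplicit false

noncomputable section

namespace Crest.Agent.R312

open NumberField
open scoped ComplexConjugate

open MeasureTheory Filter Topology

/-- The product of the two square roots. -/
theorem pa3_sqrt {a β : ℝ} (ha : 0 < a) :
    2 * (((Real.pi : ℂ) / -(-(2 * Real.pi) * (a - 2 * β * Complex.I))) ^ (1 / 2 : ℂ) *
      ((Real.pi : ℂ) / -(-(2 * Real.pi) * (a + 2 * β * Complex.I))) ^ (1 / 2 : ℂ)) =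
      (((Real.sqrt (a ^ 2 + 4 * β ^ 2))⁻¹ : ℝ) : ℂ) := by
  have hπ : (Real.pi : ℂ) ≠ 0 := Complex.ofReal_ne_zero.2 Real.pi_ne_zero
  have hΔ : 0 < a ^ 2 + 4 * β ^ 2 := by positivity
  have h1 : (a : ℂ) - 2 * β * Complex.I ≠ 0 := fun h => by
    have := congrArg Complex.re h
    simp at this
    exact ha.ne' this
  have h2 : (a : ℂ) + 2 * β * Complex.I ≠ 0 := fun h => by
    have := congrArg Complex.re h
    simp at this
    exact ha.ne' this
  set w : ℂ := (2 * ((a : ℂ) + 2 * β * Complex.I))⁻¹ with hw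
  have e2 : (Real.pi : ℂ) / -(-(2 * Real.pi) * (a + 2 * β * Complex.I)) = w := by
    rw [hw]; field_simp
  have e1 : (Real.pi : ℂ) / -(-(2 * Real.pi) * (a - 2 * β * Complex.I)) = conj w := by
    rw [hw]
    simp only [map_inv₀, map_mul, map_add, Complex.conj_ofReal, Complex.conj_I, map_ofNat]
    rw [show (a : ℂ) + 2 * β * -Complex.I = a - 2 * β * Complex.I by ring]
    field_simp
  have hre : 0 < w.re := by
    rw [hw, Complex.inv_re]
    refine div_pos (by simpa using ha) (Complex.normSq_pos.2 (mul_ne_zero two_ne_zero h2))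
  have harg : w.arg ≠ Real.pi := by
    rw [Ne, Complex.arg_eq_pi_iff]
    exact fun h => absurd h.1 (not_lt.2 hre.le)
  have hc : conj (1 / 2 : ℂ) = 1 / 2 := by simp [map_ofNat]
  rw [e1, e2, Complex.conj_cpow _ _ harg, hc, Complex.conj_mul']
  have hn : ‖w ^ (1 / 2 : ℂ)‖ ^ 2 = ‖w‖ := by
    rw [← norm_pow, one_div, ← Nat.cast_ofNat (R := ℂ), Complex.cpow_nat_inv_pow _ two_ne_zero]
  have hn2 : ‖(a : ℂ) + 2 * β * Complex.I‖ = Real.sqrt (a ^ 2 + 4 * β ^ 2) := by
    rw [show (a : ℂ) + 2 * β * Complex.I = a + ((2 * β : ℝ) : ℂ) * Complex.I by push_cast; ring,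
      Complex.norm_add_mul_I]
    congr 1
    ring
  rw [← Complex.ofReal_pow, hn, hw, norm_inv, norm_mul, hn2]
  have hs : (Real.sqrt (a ^ 2 + 4 * β ^ 2) : ℂ) ≠ 0 :=
    Complex.ofReal_ne_zero.2 (Real.sqrt_pos.2 hΔ).ne'
  push_cast
  simp only [Complex.norm_ofNat]
  push_cast
  field_simp

theorem pa3_alg {P Q a β p : ℂ} (hP : P ≠ 0) (hQ : Q ≠ 0) (hp : p ≠ 0)
    (h1 : P = a - 2 * β * Complex.I) (h2 : Q = a + 2 * β * Complex.I) (x y : ℂ) :
    -((4 * p * Complex.I * x) ^ 2 / (4 * (-(2 * p) * P))) -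
      (4 * p * Complex.I * y) ^ 2 / (4 * (-(2 * p) * Q)) =
    -(2 * p) * a * (x * x + y * y) / (P * Q) +
      -(2 * p) * Complex.I * (2 * (β * (x * x - y * y)) / (P * Q)) := by
  field_simp
  subst h1 h2
  linear_combination (4 * (x ^ 2 * (a + 2 * β * Complex.I) +
    y ^ 2 * (a - 2 * β * Complex.I))) * Complex.I_sq

/-- The chirped Gaussian in one place, for a real coefficient. -/
theorem pa3_real {a : ℝ} (ha : 0 < a) (β : ℝ) (μ : ℂ) :
    2 * ∫ z : ℂ, Complex.exp (-(2 * Real.pi) * a * (‖z‖ ^ 2 : ℝ) +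
        2 * Real.pi * Complex.I * ((2 * (β * z * z).re : ℝ) : ℂ) -
        2 * Real.pi * Complex.I * ((2 * (μ * z).re : ℝ) : ℂ)) =
      (((Real.sqrt (a ^ 2 + 4 * β ^ 2))⁻¹ *
          Real.exp (-(2 * Real.pi) * a * ‖μ‖ ^ 2 / (a ^ 2 + 4 * β ^ 2)) : ℝ) : ℂ) *
        Complex.exp (-(2 * Real.pi) * Complex.I *
          ((2 * (β * μ ^ 2).re / (a ^ 2 + 4 * β ^ 2) : ℝ) : ℂ)) := by
  have hπ : (Real.pi : ℂ) ≠ 0 := Complex.ofReal_ne_zero.2 Real.pi_ne_zero
  have hΔ : 0 < a ^ 2 + 4 * β ^ 2 := by positivity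
  have h1 : (a : ℂ) - 2 * β * Complex.I ≠ 0 := fun h => by
    have := congrArg Complex.re h
    simp at this
    exact ha.ne' this
  have h2 : (a : ℂ) + 2 * β * Complex.I ≠ 0 := fun h => by
    have := congrArg Complex.re h
    simp at this
    exact ha.ne' this
  set B₁ : ℂ := -(2 * Real.pi) * (a - 2 * β * Complex.I) with hB₁
  set B₂ : ℂ := -(2 * Real.pi) * (a + 2 * β * Complex.I) with hB₂
  set c₁ : ℂ := -(4 * Real.pi * Complex.I * μ.re) with hc₁
  set c₂ : ℂ := 4 * Real.pi * Complex.I * μ.im with hc₂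
  have hre₁ : B₁.re < 0 := by
    have : B₁.re = -(2 * Real.pi * a) := by simp [hB₁]
    rw [this, neg_lt_zero]
    have := Real.pi_pos
    positivity
  have hre₂ : B₂.re < 0 := by
    have : B₂.re = -(2 * Real.pi * a) := by simp [hB₂]
    rw [this, neg_lt_zero]
    have := Real.pi_pos
    positivity
  have key : ∀ z : ℂ, Complex.exp (-(2 * Real.pi) * a * (‖z‖ ^ 2 : ℝ) +
        2 * Real.pi * Complex.I * ((2 * (β * z * z).re : ℝ) : ℂ) -
        2 * Real.pi * Complex.I * ((2 * (μ * z).re : ℝ) : ℂ)) =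
      (fun p : ℝ × ℝ => Complex.exp (B₁ * p.1 ^ 2 + c₁ * p.1 + 0) *
        Complex.exp (B₂ * p.2 ^ 2 + c₂ * p.2 + 0)) (Complex.measurableEquivRealProd z) := by
    intro z
    simp only [Complex.measurableEquivRealProd_apply]
    rw [← Complex.exp_add, ← Complex.normSq_eq_norm_sq, Complex.normSq_apply]
    congr 1
    simp only [Complex.mul_re, Complex.mul_im, Complex.ofReal_re, Complex.ofReal_im, hB₁, hB₂,
      hc₁, hc₂]
    push_cast
    ring
  simp only [key]
  rw [Complex.volume_preserving_equiv_real_prod.integral_comp' (fun p : ℝ × ℝ =>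
    Complex.exp (B₁ * p.1 ^ 2 + c₁ * p.1 + 0) * Complex.exp (B₂ * p.2 ^ 2 + c₂ * p.2 + 0)),
    Measure.volume_eq_prod,
    integral_prod_mul (fun x : ℝ => Complex.exp (B₁ * x ^ 2 + c₁ * x + 0))
      (fun x : ℝ => Complex.exp (B₂ * x ^ 2 + c₂ * x + 0)),
    integral_cexp_quadratic hre₁, integral_cexp_quadratic hre₂, mul_mul_mul_comm, ← mul_assoc,
    hB₁, hB₂, pa3_sqrt ha, Complex.ofReal_mul, mul_assoc _ _ (Complex.exp _), Complex.ofReal_exp,
    ← Complex.exp_add, ← Complex.exp_add]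
  congr 2
  have hΔ' : ((a : ℂ) ^ 2 + 4 * (β : ℂ) ^ 2) =
      (a - 2 * β * Complex.I) * (a + 2 * β * Complex.I) := by
    linear_combination (4 * (β : ℂ) ^ 2) * Complex.I_sq
  rw [← Complex.normSq_eq_norm_sq, Complex.normSq_apply]
  simp only [sq μ, Complex.mul_re, Complex.mul_im, Complex.ofReal_re, Complex.ofReal_im, hc₁, hc₂]
  push_cast
  rw [hΔ']
  have := pa3_alg h1 h2 hπ rfl rfl μ.re μ.im
  linear_combination this

/-- The chirped Gaussian in one place. -/
theorem pa3_one {a : ℝ} (ha : 0 < a) (b ν : ℂ) :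
    2 * ∫ z : ℂ, Complex.exp (-(2 * Real.pi) * a * (‖z‖ ^ 2 : ℝ) +
        2 * Real.pi * Complex.I * ((2 * (b * z * z).re : ℝ) : ℂ) -
        2 * Real.pi * Complex.I * ((2 * (ν * z).re : ℝ) : ℂ)) =
      (((Real.sqrt (a ^ 2 + 4 * ‖b‖ ^ 2))⁻¹ *
          Real.exp (-(2 * Real.pi) * a * ‖ν‖ ^ 2 / (a ^ 2 + 4 * ‖b‖ ^ 2)) : ℝ) : ℂ) *
        Complex.exp (-(2 * Real.pi) * Complex.I *
          ((2 * (conj b * ν ^ 2).re / (a ^ 2 + 4 * ‖b‖ ^ 2) : ℝ) : ℂ)) := by
  set u : Circle := Circle.exp (-(b.arg / 2)) with hu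
  have hu2 : (u : ℂ) * u = Complex.exp (-(b.arg * Complex.I)) := by
    rw [hu, Circle.coe_exp, ← Complex.exp_add]
    congr 1
    push_cast
    ring
  have hb := Complex.norm_mul_exp_arg_mul_I b
  have h1 : b * (u * u) = (‖b‖ : ℂ) := by
    rw [hu2]
    conv_lhs => enter [1]; rw [← hb]
    rw [mul_assoc, ← Complex.exp_add, add_neg_cancel, Complex.exp_zero, mul_one]
  have h2 : (‖b‖ : ℂ) * (u * u) = conj b := by
    rw [hu2]
    conv_rhs => rw [← hb]
    rw [map_mul, Complex.conj_ofReal, ← Complex.exp_conj, map_mul, Complex.conj_ofReal,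
      Complex.conj_I, mul_neg]
  have h3 := pa3_real ha ‖b‖ (ν * u)
  rw [norm_mul, Circle.norm_coe, mul_one,
    show (‖b‖ : ℂ) * (ν * u) ^ 2 = (‖b‖ : ℂ) * (u * u) * ν ^ 2 by ring, h2] at h3
  rw [← h3, ← (rotation u).measurePreserving.integral_comp
    (rotation u).toHomeomorph.measurableEmbedding]
  congr 2
  funext z
  rw [rotation_apply, norm_mul, Circle.norm_coe, one_mul,
    show b * (u * z) * (u * z) = b * (u * u) * z * z by ring, h1, mul_assoc ν]

section
variable {E : Type} [Field E] [NumberField E]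

/-- A periodic function times a quadratic phase is periodic. -/
theorem Per.mul_eT_sq {φ : E → ℂ} (h : Per φ) (c : E) : Per fun x => φ x * eT (c * x ^ 2) := by
  obtain ⟨D, hD, hs, hp⟩ := h
  obtain ⟨M, hM, hc⟩ := exists_nat_mul_isIntegral c
  have hn : ∀ n : ℕ, IsIntegral ℤ (n : E) := fun n => by
    exact_mod_cast isIntegral_algebraMap (x := (n : ℤ))
  refine ⟨D * M, mul_ne_zero hD hM, fun x hx => ?_, fun x y hy => ?_⟩
  · have := (hn M).mul (hs x (left_ne_zero_of_mul hx))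
    rwa [show (M : E) * ((D : E) * x) = ((D * M : ℕ) : E) * x by push_cast; ring] at this
  · have e1 : φ (x + ((D * M : ℕ) : E) * y) = φ x := by
      rw [← hp x ((M : E) * y) ((hn M).mul hy)]
      congr 1
      push_cast
      ring
    show φ _ * _ = φ x * _
    rw [e1]
    by_cases h0 : φ x = 0
    · rw [h0, zero_mul, zero_mul]
    have h2 : IsIntegral ℤ ((M : E) * c * (((2 : ℕ) : E) * ((D : E) * x) * y +
        (D : E) * (D : E) * (M : E) * (y * y))) :=
      hc.mul ((((hn 2).mul (hs x h0)).mul hy).add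
        ((((hn D).mul (hn D)).mul (hn M)).mul (hy.mul hy)))
    rw [show c * (x + ((D * M : ℕ) : E) * y) ^ 2 = c * x ^ 2 + (M : E) * c *
      (((2 : ℕ) : E) * ((D : E) * x) * y + (D : E) * (D : E) * (M : E) * (y * y)) by
        push_cast; ring, eT_add, eT_of_isIntegral h2, mul_one]

omit [NumberField E] in
theorem Per.norm' {φ : E → ℂ} (h : Per φ) : Per fun x => ((‖φ x‖ : ℝ) : ℂ) := by
  obtain ⟨D, hD, hs, hp⟩ := h
  refine ⟨D, hD, fun x hx => hs x fun h0 => hx (by simp [h0]), fun x y hy => ?_⟩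
  show ((‖φ _‖ : ℝ) : ℂ) = _
  rw [hp x y hy]

end

/-- Two phases are close when their arguments are close. -/
theorem pa3_phase (s t : ℝ) :
    ‖Complex.exp (-(2 * Real.pi) * Complex.I * (s : ℂ)) -
      Complex.exp (-(2 * Real.pi) * Complex.I * (t : ℂ))‖ ≤ 2 * Real.pi * |s - t| := by
  have e : Complex.exp (-(2 * Real.pi) * Complex.I * (s : ℂ)) -
      Complex.exp (-(2 * Real.pi) * Complex.I * (t : ℂ)) =
      Complex.exp (((-(2 * Real.pi) * t : ℝ) : ℂ) * Complex.I) *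
        (Complex.exp (Complex.I * ((-(2 * Real.pi) * (s - t) : ℝ) : ℂ)) - 1) := by
    rw [mul_sub, mul_one, ← Complex.exp_add]
    congr 2 <;> push_cast <;> ring
  rw [e, norm_mul, Complex.norm_exp_ofReal_mul_I, one_mul]
  refine Real.norm_exp_I_mul_ofReal_sub_one_le.trans (le_of_eq ?_)
  rw [Real.norm_eq_abs, abs_mul, abs_neg, abs_of_pos (by have := Real.pi_pos; positivity)]

end Crest.Agent.R312
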