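import Crest.Agent.R312.Mean
import Crest.Agent.R312.PoisAux1
import Crest.Agent.R312.PoisAux3

/-!
# Row 312: Poisson summation on `ℂ^r`
-/

set_option autoImplicit false

noncomputable section

namespace Crest.Agent.R312

open NumberField
open scoped ComplexConjugate

open MeasureTheory Filter Topology

variable {E : Type} [Field E] [NumberField E] [Om E]

/-- The lattice `𝓞` is cocompact in `ℂ^r` (the image of an integral basis is an `ℝ`-basis). -/
theorem exists_near : ∃ C : ℝ, ∀ z : Pl E → ℂ, ∃ t : 𝓞 E, ∀ σ : Pl E, ‖z σ - σ.1 t‖ ≤ C :=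
  PZ.exists_near

/-- The Fourier transform for the self-dual measure `∏ 2 dx dy`. -/
def FT (F : (Pl E → ℂ) → ℂ) (ν : Pl E → ℂ) : ℂ := 2 ^ rk E * ∫ z, F z * conj (ez ν z)

/-- Gaussian decay. -/
def GD (F : (Pl E → ℂ) → ℂ) : Prop :=
  ∃ C c : ℝ, 0 < c ∧ ∀ z, ‖F z‖ ≤ C * Real.exp (-c * ∑ σ, ‖z σ‖ ^ 2)

/-- Poisson summation on `𝓞` (periodise `F`, pull back to the torus `UnitAddTorus (Fin n)` by an
integral basis `b`, `UnitAddTorus.hasSum_mFourier_series_of_summable`; the dual basis for the trace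
form gives the frequencies; the Jacobian is `2^{-r} √|disc|`.  Compare `R229/LatticeA.lean`). -/
theorem PS_int {F : (Pl E → ℂ) → ℂ} (hF : Continuous F) (h1 : GD F) (h2 : GD (FT F)) :
    ∑' x : 𝓞 E, F (em (x : E)) = (((Real.sqrt |(discr E : ℝ)|)⁻¹ : ℝ) : ℂ) *
      ∑' ν : {ν : E // ∀ x : E, IsIntegral ℤ x → eT (ν * x) = 1}, FT F (em (ν : E)) :=
  PZ.PS_int hF h1 h2

open Classical in
theorem PB_summable {F : (Pl E → ℂ) → ℂ} (h : GD F) {D : E} (hD : D ≠ 0) :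
    Summable fun x : E => if IsIntegral ℤ (D * x) then ‖F (em x)‖ else 0 := by
  obtain ⟨C, c, hc, hF⟩ := h
  obtain ⟨K, -, hK⟩ := tsum_gz_le (E := E)
  have h1 := (hK D (fun _ => -Real.log (c / (2 * Real.pi))) 0 hD).1
  refine (h1.mul_left C).of_nonneg_of_le (fun x => by split_ifs <;> simp) fun x => ?_
  split_ifs with hx
  · refine (hF _).trans (le_of_eq ?_)
    have hπ := Real.pi_pos
    rw [gz, add_zero]
    simp only [neg_neg, Real.exp_log (show 0 < c / (2 * Real.pi) by positivity)]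
    rw [← Finset.sum_mul]
    congr 2
    field_simp
  · simp

theorem GD.summable {F : (Pl E → ℂ) → ℂ} (h : GD F) {φ : E → ℂ} (hφ : Per φ) :
    Summable fun x => ‖φ x * F (em x)‖ := by
  classical
  obtain ⟨B, hB⟩ := hφ.bdd
  obtain ⟨D, hD, hs, -⟩ := hφ
  have h1 := PB_summable h (D := (D : E)) (Nat.cast_ne_zero.2 hD)
  refine (h1.mul_left B).of_nonneg_of_le (fun x => norm_nonneg _) fun x => ?_
  rw [norm_mul]
  split_ifs with hx
  · exact mul_le_mul_of_nonneg_right (hB x) (norm_nonneg _)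
  · have : φ x = 0 := by
      by_contra h0
      exact hx (hs x h0)
    simp [this]

theorem PB_GD_affine {F : (Pl E → ℂ) → ℂ} (h : GD F) (w : Pl E → ℂ) {a : ℝ} (ha : a ≠ 0) :
    GD fun z => F (a • z + w) := by
  obtain ⟨C, c, hc, hF⟩ := h
  have hC : 0 ≤ C := by
    have h1 := (norm_nonneg _).trans (hF 0)
    exact nonneg_of_mul_nonneg_left h1 (Real.exp_pos _)
  refine ⟨C * Real.exp (c * ∑ σ, ‖w σ‖ ^ 2), c * a ^ 2 / 2, by positivity, fun z => ?_⟩
  refine (hF _).trans ?_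
  rw [mul_assoc, ← Real.exp_add]
  refine mul_le_mul_of_nonneg_left (Real.exp_le_exp.2 ?_) hC
  have h1 : ∀ σ, a ^ 2 / 2 * ‖z σ‖ ^ 2 ≤ ‖(a • z + w) σ‖ ^ 2 + ‖w σ‖ ^ 2 := fun σ => by
    have h2 : ‖a • z σ‖ ≤ ‖(a • z + w) σ‖ + ‖w σ‖ := by
      have := norm_sub_le ((a • z + w) σ) (w σ)
      simpa using this
    have h3 : ‖a • z σ‖ ^ 2 = a ^ 2 * ‖z σ‖ ^ 2 := by
      rw [norm_smul, mul_pow, Real.norm_eq_abs, sq_abs]
    have h4 := pow_le_pow_left₀ (norm_nonneg _) h2 2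
    nlinarith [sq_nonneg (‖(a • z + w) σ‖ - ‖w σ‖)]
  have h5 := Finset.sum_le_sum fun σ (_ : σ ∈ Finset.univ) => h1 σ
  rw [← Finset.mul_sum, Finset.sum_add_distrib] at h5
  nlinarith [mul_le_mul_of_nonneg_left h5 hc.le]

theorem PB_GD_mul {F G : (Pl E → ℂ) → ℂ} (h : GD F) {B : ℝ} (hG : ∀ z, ‖G z‖ ≤ B * ‖F z‖) :
    GD G := by
  obtain ⟨C, c, hc, hF⟩ := h
  refine ⟨|B| * C, c, hc, fun z => (hG z).trans ?_⟩
  rw [mul_assoc]
  exact (mul_le_mul_of_nonneg_right (le_abs_self B) (norm_nonneg _)).trans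
    (mul_le_mul_of_nonneg_left (hF z) (abs_nonneg B))

theorem PB_ez_smul (ν z : Pl E → ℂ) (a : ℝ) : ez (a • ν) z = ez ν (a • z) := by
  unfold ez
  congr 3
  refine Finset.sum_congr rfl fun σ _ => ?_
  simp only [Pi.smul_apply, smul_mul_assoc, mul_smul_comm]

theorem PB_FT_shift (F : (Pl E → ℂ) → ℂ) (w ν : Pl E → ℂ) :
    FT (fun z => F (z + w)) ν = FT F ν * ez ν w := by
  have h1 : ez ν w * conj (ez ν w) = 1 := by
    rw [Complex.mul_conj, Complex.normSq_eq_norm_sq, norm_ez]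
    simp
  rw [FT, FT, mul_assoc, ← integral_mul_const,
    ← integral_add_right_eq_self (fun z => F z * conj (ez ν z) * ez ν w) w]
  congr 1
  refine integral_congr_ae (Eventually.of_forall fun z => ?_)
  simp only [ez_add_right, map_mul]
  linear_combination (-F (z + w) * conj (ez ν z)) * h1

theorem PB_FT_smul (F : (Pl E → ℂ) → ℂ) {a : ℝ} (ha : 0 < a) (ν : Pl E → ℂ) :
    FT (fun z => F (a • z)) ν = (((a ^ Module.finrank ℚ E)⁻¹ : ℝ) : ℂ) * FT F (a⁻¹ • ν) := by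
  have h1 := Measure.integral_comp_smul (volume : Measure (Pl E → ℂ))
    (fun z => F z * conj (ez (a⁻¹ • ν) z)) a
  have h2 : Module.finrank ℝ (Pl E → ℂ) = Module.finrank ℚ E := by
    rw [← two_mul_rk, Module.finrank_pi_fintype]
    simp [mul_comm]
  rw [h2, abs_of_pos (by positivity), Complex.real_smul] at h1
  rw [FT, FT, mul_left_comm, ← h1]
  congr 1
  refine integral_congr_ae (Eventually.of_forall fun z => ?_)
  simp only [PB_ez_smul, smul_smul, inv_mul_cancel₀ ha.ne', one_smul]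

theorem PB_em_lin (t y : E) (D : ℕ) : em (t + D * y) = (D : ℝ) • em y + em t := by
  funext σ
  simp [em, add_comm]

omit [NumberField E] in
theorem PB_em_div (ν : E) (D : ℕ) : em (ν / D) = (D : ℝ)⁻¹ • em ν := by
  funext σ
  simp [em, div_eq_inv_mul]

/-- Poisson summation for one class `t + D 𝓞`. -/
theorem PB_class {F : (Pl E → ℂ) → ℂ} (hF : Continuous F) (h1 : GD F) (h2 : GD (FT F)) {D : ℕ}
    (hD : D ≠ 0) (t : E) :
    ∑' y : 𝓞 E, F (em (t + D * (y : E))) =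
      (((Real.sqrt |(discr E : ℝ)| * (D : ℝ) ^ Module.finrank ℚ E)⁻¹ : ℝ) : ℂ) *
        ∑' μ : {ν : E // ∀ x : E, IsIntegral ℤ x → eT (ν * x) = 1},
          eT (μ.1 / D * t) * FT F (em (μ.1 / D)) := by
  have hD' : (0 : ℝ) < D := by exact_mod_cast Nat.pos_of_ne_zero hD
  have h3 : ∀ ν, FT (fun z => F ((D : ℝ) • z + em t)) ν =
      ((((D : ℝ) ^ Module.finrank ℚ E)⁻¹ : ℝ) : ℂ) *
        (FT F ((D : ℝ)⁻¹ • ν) * ez ((D : ℝ)⁻¹ • ν) (em t)) := fun ν => by
    rw [PB_FT_smul (fun z => F (z + em t)) hD', PB_FT_shift]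
  have h4 := PS_int (F := fun z => F ((D : ℝ) • z + em t)) (by fun_prop)
    (PB_GD_affine h1 _ hD'.ne') (PB_GD_mul (PB_GD_affine h2 0 (inv_ne_zero hD'.ne'))
      (B := ‖((((D : ℝ) ^ Module.finrank ℚ E)⁻¹ : ℝ) : ℂ)‖) fun ν => by
        rw [h3, norm_mul, norm_mul, norm_ez, mul_one, add_zero])
  simp only [PB_em_lin, h4, h3, tsum_mul_left]
  rw [mul_inv, Complex.ofReal_mul, mul_assoc]
  congr 2
  refine tsum_congr fun μ => ?_
  rw [← PB_em_div, ez_em, mul_comm]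

/-- **Poisson summation** with a periodic function (split into classes `t + D 𝓞`, apply `PS_int`
to `z ↦ F (t + D z)`, `Mn_eq_sum`, `Mn_mul_eT_eq_zero`). -/
theorem PSgen {F : (Pl E → ℂ) → ℂ} (hF : Continuous F) (h1 : GD F) (h2 : GD (FT F)) {φ : E → ℂ}
    (hφ : Per φ) :
    ∑' x : E, φ x * F (em x) = ∑' ν : E, Mn (fun x => φ x * eT (ν * x)) * FT F (em ν) := by
  classical
  have hsum := (h1.summable hφ).of_norm
  obtain ⟨D, hD⟩ := id hφ
  have hD0 : (D : E) ≠ 0 := Nat.cast_ne_zero.2 hD.1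
  obtain ⟨T, -, hT1, hT2⟩ := exists_reps (E := E) hD.1
  have hn : IsIntegral ℤ (D : E) := by exact_mod_cast isIntegral_algebraMap (x := (D : ℤ))
  -- the left side
  let g : T × 𝓞 E → E := fun p => p.1 + D * (p.2 : E)
  have hg : Function.Injective g := by
    rintro ⟨t, y⟩ ⟨t', y'⟩ h
    have h' : (t : E) + D * (y : E) = t' + D * (y' : E) := h
    have e1 : t = t' := by
      refine Subtype.ext ((hT2 t (hT1 t t.2)).unique ⟨t.2, by simpa using isIntegral_zero⟩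
        ⟨t'.2, ?_⟩)
      rw [show ((t : E) - t') / D = (y' : E) - y by field_simp; linear_combination h']
      exact y'.isIntegral_coe.sub y.isIntegral_coe
    subst e1
    rw [RingOfIntegers.ext (mul_left_cancel₀ hD0 (add_left_cancel h'))]
  have hL : ∑' x : E, φ x * F (em x) = ∑ t ∈ T, φ t * ∑' y : 𝓞 E, F (em (t + D * (y : E))) := by
    have hsum' : Summable fun p => φ (g p) * F (em (g p)) := hsum.comp_injective hg
    rw [← hg.tsum_eq (f := fun x => φ x * F (em x)), hsum'.tsum_prod,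
      tsum_fintype, ← Finset.sum_coe_sort T]
    · refine Finset.sum_congr rfl fun t _ => ?_
      rw [← tsum_mul_left]
      refine tsum_congr fun y => ?_
      simp only [g]
      rw [hD.2.2 _ _ y.isIntegral_coe]
    · intro x hx
      obtain ⟨t, ⟨ht, ht'⟩, -⟩ := hT2 x (hD.2.1 x (left_ne_zero_of_mul hx))
      refine ⟨(⟨t, ht⟩, ⟨(x - t) / D, ht'⟩), ?_⟩
      change t + D * ((x - t) / D) = x
      field_simp
      ring
  -- the right side
  let g' : {ν : E // ∀ x : E, IsIntegral ℤ x → eT (ν * x) = 1} → E := fun μ => μ.1 / D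
  have hg' : Function.Injective g' := fun μ μ' h => Subtype.ext ((div_left_inj' hD0).1 h)
  have hs' : Summable fun μ => ‖FT F (em (g' μ))‖ := by
    have hd : ((discr E).natAbs : E) ≠ 0 :=
      Nat.cast_ne_zero.2 (Int.natAbs_ne_zero.2 (discr_ne_zero E))
    refine ((PB_summable h2 (mul_ne_zero hd hD0)).comp_injective hg').congr fun μ => ?_
    refine if_pos ?_
    rw [show ((discr E).natAbs : E) * D * g' μ = ((discr E).natAbs : E) * μ.1 by
      simp only [g']; field_simp]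
    exact isIntegral_discr_mul μ.2
  rw [hL, ← hg'.tsum_eq (f := fun ν => Mn (fun x => φ x * eT (ν * x)) * FT F (em ν))]
  · have hs'' : ∀ t ∈ T, Summable fun μ => φ t *
        ((((Real.sqrt |(discr E : ℝ)| * (D : ℝ) ^ Module.finrank ℚ E)⁻¹ : ℝ) : ℂ) *
          (eT (g' μ * t) * FT F (em (g' μ)))) := fun t _ => by
      have h4 : Summable fun μ => ‖eT (g' μ * t) * FT F (em (g' μ))‖ :=
        hs'.congr fun μ => by rw [norm_mul, norm_eT, one_mul]
      exact (h4.of_norm.mul_left _).mul_left _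
    have h3 : ∀ t ∈ T, φ t * ∑' y : 𝓞 E, F (em (t + D * (y : E))) = ∑' μ, φ t *
        ((((Real.sqrt |(discr E : ℝ)| * (D : ℝ) ^ Module.finrank ℚ E)⁻¹ : ℝ) : ℂ) *
          (eT (g' μ * t) * FT F (em (g' μ)))) := fun t _ => by
      rw [PB_class hF h1 h2 hD.1, tsum_mul_left, tsum_mul_left]
    rw [Finset.sum_congr rfl h3, ← Summable.tsum_finsetSum hs'']
    · refine tsum_congr fun μ => ?_
      have hP : PerD D fun x => φ x * eT (g' μ * x) :=
        ⟨hD.1, fun x hx => hD.2.1 x (left_ne_zero_of_mul hx), fun x y hy => by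
          beta_reduce
          rw [hD.2.2 x y hy, mul_add, eT_add,
            show g' μ * (D * y) = μ.1 * y by simp only [g']; field_simp, μ.2 y hy, mul_one]⟩
      rw [Mn_eq_sum hP T hT2, Finset.mul_sum, Finset.sum_mul]
      exact Finset.sum_congr rfl fun t _ => by ring
  · intro ν hν
    refine ⟨⟨ν * D, fun x hx => ?_⟩, mul_div_cancel_right₀ ν hD0⟩
    by_contra h0
    refine left_ne_zero_of_mul hν (Mn_mul_eT_eq_zero hφ (t := D * x)
      (fun y => hD.2.2 y x hx) ?_)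
    rwa [← mul_assoc]

theorem PB_GD_gz (α : Pl E → ℝ) : GD fun z => (gz z α : ℂ) := by
  have hπ := Real.pi_pos
  refine ⟨1, 2 * Real.pi * Real.exp (-∑ σ, |α σ|), by positivity, fun z => ?_⟩
  rw [Complex.norm_real, Real.norm_of_nonneg (gz_pos _ _).le, one_mul, gz]
  refine Real.exp_le_exp.2 ?_
  rw [neg_mul, neg_mul, neg_le_neg_iff, mul_assoc, Finset.mul_sum]
  refine mul_le_mul_of_nonneg_left (Finset.sum_le_sum fun σ _ => ?_) (by positivity)
  rw [mul_comm]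
  refine mul_le_mul_of_nonneg_left (Real.exp_le_exp.2 (neg_le_neg ?_)) (by positivity)
  exact (le_abs_self _).trans
    (Finset.single_le_sum (f := fun σ => |α σ|) (fun _ _ => abs_nonneg _) (Finset.mem_univ σ))

theorem GD_gz (w : Pl E → ℂ) (α : Pl E → ℝ) : GD fun z => (gz (z + w) α : ℂ) := by
  simpa only [one_smul] using PB_GD_affine (PB_GD_gz α) w one_ne_zero

theorem PB_gauss (a : ℝ) (ν : ℂ) :
    2 * ∫ u : ℂ, (Real.exp (-(2 * Real.pi) * (‖u‖ ^ 2 * Real.exp (-a))) : ℂ) *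
      conj (Complex.exp (2 * Real.pi * Complex.I * ((2 * (ν * u).re : ℝ) : ℂ))) =
      Real.exp a * Real.exp (-(2 * Real.pi) * (‖ν‖ ^ 2 * Real.exp a)) := by
  have hπ := Real.pi_pos
  have h1 := GaussianFourier.integral_cexp_neg_mul_sq_norm_add (V := ℂ)
    (b := ((2 * Real.pi * Real.exp (-a) : ℝ) : ℂ)) (by rw [Complex.ofReal_re]; positivity)
    (-(4 * Real.pi * Complex.I)) (conj ν)
  have h2 : ∀ u : ℂ, (Real.exp (-(2 * Real.pi) * (‖u‖ ^ 2 * Real.exp (-a))) : ℂ) *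
      conj (Complex.exp (2 * Real.pi * Complex.I * ((2 * (ν * u).re : ℝ) : ℂ))) =
      Complex.exp (-((2 * Real.pi * Real.exp (-a) : ℝ) : ℂ) * (‖u‖ : ℂ) ^ 2 +
        -(4 * Real.pi * Complex.I) * (inner ℝ (conj ν) u : ℝ)) := fun u => by
    rw [← Complex.exp_conj, Complex.ofReal_exp, ← Complex.exp_add]
    congr 1
    have : (inner ℝ (conj ν) u : ℝ) = (ν * u).re := by
      rw [Complex.inner, Complex.conj_conj, mul_comm]
    rw [this]
    simp only [map_mul, Complex.conj_ofReal, Complex.conj_I, map_ofNat]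
    push_cast
    ring
  simp only [h2]
  rw [h1, Complex.finrank_real_complex, Complex.norm_conj]
  have h3 : ((2 : ℕ) : ℂ) / 2 = 1 := by norm_num
  have h4 : (Real.pi : ℂ) ≠ 0 := by exact_mod_cast hπ.ne'
  have h5 : Complex.exp a ≠ 0 := Complex.exp_ne_zero _
  rw [h3, Complex.cpow_one, ← mul_assoc]
  congr 1
  · push_cast
    rw [Complex.exp_neg]
    field_simp
  · rw [Complex.ofReal_exp]
    congr 1
    push_cast
    rw [Complex.exp_neg]
    field_simp
    rw [Complex.I_sq]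
    ring

theorem FT_gz (w : Pl E → ℂ) (α : Pl E → ℝ) (ν : Pl E → ℂ) :
    FT (fun z => (gz (z + w) α : ℂ)) ν = Real.exp (∑ σ, α σ) * gz ν (-α) * ez ν w := by
  rw [PB_FT_shift (fun z => (gz z α : ℂ))]
  congr 1
  have h1 : ∀ z : Pl E → ℂ, (gz z α : ℂ) * conj (ez ν z) =
      ∏ σ, ((Real.exp (-(2 * Real.pi) * (‖z σ‖ ^ 2 * Real.exp (-α σ))) : ℂ) *
        conj (Complex.exp (2 * Real.pi * Complex.I * ((2 * (ν σ * z σ).re : ℝ) : ℂ)))) :=
    fun z => by
      rw [gz, Finset.mul_sum, Real.exp_sum, Complex.ofReal_prod, ez_eq_prod, map_prod,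
        Finset.prod_mul_distrib]
  simp only [FT, h1]
  rw [integral_fintype_prod_volume_eq_prod (fun σ (u : ℂ) =>
      (Real.exp (-(2 * Real.pi) * (‖u‖ ^ 2 * Real.exp (-α σ))) : ℂ) *
        conj (Complex.exp (2 * Real.pi * Complex.I * ((2 * (ν σ * u).re : ℝ) : ℂ)))),
    rk, ← Finset.card_univ, ← Finset.prod_const, ← Finset.prod_mul_distrib]
  simp only [PB_gauss]
  rw [gz, Finset.mul_sum, Real.exp_sum, Real.exp_sum, Complex.ofReal_prod, Complex.ofReal_prod,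
    ← Finset.prod_mul_distrib]
  simp only [Pi.neg_apply, neg_neg]

theorem summable_gz {φ : E → ℂ} (hφ : Per φ) (w : Pl E → ℂ) (α : Pl E → ℝ) :
    Summable fun x => ‖φ x * gz (em x + w) α‖ := (GD_gz w α).summable hφ

/-- **Poisson summation with a shifted Gaussian.** -/
theorem PS {φ : E → ℂ} (hφ : Per φ) (w : Pl E → ℂ) (α : Pl E → ℝ) :
    ∑' x : E, φ x * gz (em x + w) α = Real.exp (∑ σ, α σ) *
      ∑' ν : E, Mn (fun x => φ x * eT (ν * x)) * gz (em ν) (-α) * ez (em ν) w := by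
  have h0 : Continuous fun z : Pl E → ℂ => (gz (z + w) α : ℂ) := by
    unfold gz
    fun_prop
  rw [PSgen h0 (GD_gz w α) (PB_GD_mul (PB_GD_gz (-α)) (B := ‖(Real.exp (∑ σ, α σ) : ℂ)‖)
    fun ν => by rw [FT_gz, norm_mul, norm_mul, norm_ez, mul_one]) hφ, ← tsum_mul_left]
  refine tsum_congr fun ν => ?_
  rw [FT_gz]
  ring

/-- The filter `∑ η → -∞`. -/
abbrev lB (E : Type) [Field E] [NumberField E] [Om E] : Filter (Pl E → ℝ) :=
  comap (fun η => ∑ σ, η σ) atBot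

instance : (lB E).NeBot := by
  refine NeBot.comap_of_surj inferInstance fun x => ⟨Pi.single (Classical.arbitrary _) x, ?_⟩
  simp
instance : (lB E).IsCountablyGenerated := comap.isCountablyGenerated _ _
theorem tendsto_add_lB (a : Pl E → ℝ) : Tendsto (fun η => η + a) (lB E) (lB E) := by
  refine tendsto_comap_iff.2 ?_
  have h := tendsto_atBot_add_const_right (lB E) (∑ σ, a σ) tendsto_comap
  refine h.congr fun η => ?_
  simp only [Function.comp, Pi.add_apply, Finset.sum_add_distrib]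

theorem PB_gz_le {x : E} (hx : x ≠ 0) (η : Pl E → ℝ) :
    gz (em x) η ≤ Real.exp (-2 * ∑ σ, ((-η) σ + lg x σ) - 1 * ∑ σ, |(-η) σ + lg x σ|) := by
  rw [gz_em hx, ← Real.exp_sum, Finset.mul_sum, Finset.mul_sum, ← Finset.sum_sub_distrib]
  refine Real.exp_le_exp.2 (Finset.sum_le_sum fun σ _ => ?_)
  rw [show (-η) σ + lg x σ = lg x σ - η σ by rw [Pi.neg_apply]; ring]
  generalize lg x σ - η σ = v
  have h1 := Real.add_one_le_exp v
  have h2 := Real.pi_gt_three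
  have h3 := Real.exp_pos v
  have h4 : 3 * Real.exp v ≤ Real.pi * Real.exp v := mul_le_mul_of_nonneg_right h2.le h3.le
  rcases abs_cases v with h | h <;> linarith [h.1, h.2]

/-- Riemann sums of the Gaussian, uniformly in the shape of the box (`PS`; the non-zero
frequencies are bounded by `tsum_lattice_le` with `a = 2`). -/
theorem tendsto_gz {φ : E → ℂ} (hφ : Per φ) :
    Tendsto (fun η : Pl E → ℝ => (Real.exp (∑ σ, η σ) : ℂ) * ∑' x : E, φ x * gz (em x) (-η))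
      (lB E) (𝓝 (Mn φ)) := by
  classical
  have hψ := per_Mn_eT hφ
  obtain ⟨B, hB⟩ := hψ.bdd
  have hB0 : 0 ≤ B := (norm_nonneg _).trans (hB 0)
  obtain ⟨D, hD, hs, -⟩ := id hψ
  have hD0 : (D : E) ≠ 0 := Nat.cast_ne_zero.2 hD
  obtain ⟨C, hC, hle⟩ := tsum_lattice_le (E := E) (δ := 1) (a := 2) one_pos one_le_two
  have key : ∀ η : Pl E → ℝ,
      ‖(Real.exp (∑ σ, η σ) : ℂ) * ∑' x : E, φ x * gz (em x) (-η) - Mn φ‖ ≤
        B * (C * nr (D : E) ^ (2 : ℝ) * Real.exp (2 * ∑ σ, η σ)) := fun η => by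
    have h1 := PS hφ 0 (-η)
    have h2 := (summable_gz hψ 0 η).of_norm
    simp only [add_zero, neg_neg, ez_zero_right, mul_one, Pi.neg_apply,
      Finset.sum_neg_distrib] at h1 h2
    obtain ⟨h3, h4⟩ := hle D (-η) hD0
    rw [h1, ← mul_assoc, ← Complex.ofReal_mul, ← Real.exp_add, add_neg_cancel, Real.exp_zero,
      Complex.ofReal_one, one_mul, h2.tsum_eq_add_tsum_ite 0]
    simp only [zero_mul, eT_zero, mul_one, em_zero, gz_zero, Complex.ofReal_one,
      add_sub_cancel_left]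
    refine (tsum_of_norm_bounded (h3.mul_left B).hasSum fun ν => ?_).trans ?_
    · by_cases hν : ν = 0
      · simp [hν]
      · rw [if_neg hν, norm_mul, Complex.norm_real, Real.norm_of_nonneg (gz_pos _ _).le]
        split_ifs with h5
        · exact mul_le_mul (hB ν) (PB_gz_le hν η) (gz_pos _ _).le hB0
        · have : (Mn fun x => φ x * eT (ν * x)) = 0 := by
            by_contra h0
            exact h5 ⟨hν, hs ν h0⟩
          simp [this]
    · rw [tsum_mul_left]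
      refine mul_le_mul_of_nonneg_left (h4.trans (le_of_eq ?_)) hB0
      simp only [Pi.neg_apply, Finset.sum_neg_distrib, neg_mul_neg]
  refine tendsto_iff_norm_sub_tendsto_zero.2 (squeeze_zero (fun _ => norm_nonneg _) key ?_)
  have h6 : Tendsto (fun η : Pl E → ℝ => Real.exp (2 * ∑ σ, η σ)) (lB E) (𝓝 0) :=
    Real.tendsto_exp_atBot.comp (Tendsto.const_mul_atBot two_pos tendsto_comap)
  simpa using (h6.const_mul (C * nr (D : E) ^ (2 : ℝ))).const_mul B

/-- The chirped Gaussian: a product of two real Gaussian integrals with complex coefficients in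
each place (rotate `z` by `√(b / |b|)`, `integral_cexp_quadratic`). -/
theorem FT_chirp (b : Pl E → ℂ) {a : ℝ} (ha : 0 < a) (ν : Pl E → ℂ) :
    FT (fun z => (Real.exp (-(2 * Real.pi) * a * ∑ σ, ‖z σ‖ ^ 2) : ℂ) * ez (b * z) z) ν =
      ∏ σ, (((Real.sqrt (a ^ 2 + 4 * ‖b σ‖ ^ 2))⁻¹ *
          Real.exp (-(2 * Real.pi) * a * ‖ν σ‖ ^ 2 / (a ^ 2 + 4 * ‖b σ‖ ^ 2)) : ℝ) : ℂ) *
        Complex.exp (-(2 * Real.pi) * Complex.I *
          ((2 * (conj (b σ) * ν σ ^ 2).re / (a ^ 2 + 4 * ‖b σ‖ ^ 2) : ℝ) : ℂ)) := by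
  unfold FT
  have h : ∀ z : Pl E → ℂ,
      (Real.exp (-(2 * Real.pi) * a * ∑ σ, ‖z σ‖ ^ 2) : ℂ) * ez (b * z) z * conj (ez ν z) =
      ∏ σ, Complex.exp (-(2 * Real.pi) * a * (‖z σ‖ ^ 2 : ℝ) +
        2 * Real.pi * Complex.I * ((2 * (b σ * z σ * z σ).re : ℝ) : ℂ) -
        2 * Real.pi * Complex.I * ((2 * (ν σ * z σ).re : ℝ) : ℂ)) := fun z => by
    rw [← Complex.exp_sum, ez, ez, ← Complex.exp_conj, Complex.ofReal_exp, ← Complex.exp_add,
      ← Complex.exp_add]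
    congr 1
    simp only [Finset.sum_sub_distrib, Finset.sum_add_distrib, ← Finset.mul_sum,
      ← Complex.ofReal_sum, map_mul, Complex.conj_ofReal, Complex.conj_I, map_ofNat, Pi.mul_apply,
      Complex.ofReal_mul, Complex.ofReal_neg, Complex.ofReal_ofNat]
    ring
  simp only [h]
  rw [integral_fintype_prod_volume_eq_prod fun σ (z : ℂ) =>
      Complex.exp (-(2 * Real.pi) * a * (‖z‖ ^ 2 : ℝ) +
        2 * Real.pi * Complex.I * ((2 * (b σ * z * z).re : ℝ) : ℂ) -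
        2 * Real.pi * Complex.I * ((2 * (ν σ * z).re : ℝ) : ℂ)),
    show (2 : ℂ) ^ rk E = ∏ _σ : Pl E, (2 : ℂ) by rw [Finset.prod_const, Finset.card_univ],
    ← Finset.prod_mul_distrib]
  exact Finset.prod_congr rfl fun σ _ => pa3_one ha _ _

/-- An error term in the Riemann sums of the Gaussian. -/
theorem pa3_err {ψ : E → ℂ} (hψ : Per ψ) {ι : Type} {l : Filter ι} {η : ι → Pl E → ℝ}
    (hη : Tendsto η l (lB E)) {ε : ι → ℝ} (hε : Tendsto ε l (𝓝 0)) {Q : ι → E → ℂ}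
    (hQ : ∀ᶠ i in l, ∀ ν : E,
      ‖Q i ν‖ ≤ ε i * (2 * Real.pi * ∑ σ, ‖em ν σ‖ ^ 2 * Real.exp (η i σ))) :
    Tendsto (fun i => (Real.exp (∑ σ, η i σ) : ℂ) * ∑' ν : E, ψ ν * Q i ν * gz (em ν) (-η i)) l
      (𝓝 0) := by
  set c : Pl E → ℝ := fun _ => -Real.log 2 with hc
  have H := ((tendsto_gz hψ.norm').comp ((tendsto_add_lB c).comp hη)).norm
  have H2 := ((hε.abs.mul_const (2 * Real.exp (-∑ σ, c σ))).mul H)
  rw [abs_zero, zero_mul, zero_mul] at H2
  refine squeeze_zero_norm' (hQ.mono fun i hi => ?_) H2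
  have hs : Summable fun x : E => ‖ψ x‖ * gz (em x) (-(η i + c)) := by
    refine (summable_gz hψ 0 (-(η i + c))).congr fun x => ?_
    rw [add_zero, norm_mul, Complex.norm_real, Real.norm_eq_abs, abs_of_pos (gz_pos _ _)]
  have hS0 : 0 ≤ ∑' x : E, ‖ψ x‖ * gz (em x) (-(η i + c)) :=
    tsum_nonneg fun x => mul_nonneg (norm_nonneg _) (gz_pos _ _).le
  have hb : ‖∑' ν : E, ψ ν * Q i ν * gz (em ν) (-η i)‖ ≤
      |ε i| * 2 * ∑' x : E, ‖ψ x‖ * gz (em x) (-(η i + c)) := by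
    refine tsum_of_norm_bounded (hs.hasSum.mul_left (|ε i| * 2)) fun ν => ?_
    set t : ℝ := 2 * Real.pi * ∑ σ, ‖em ν σ‖ ^ 2 * Real.exp (η i σ) with ht
    have ht0 : 0 ≤ t := by
      have := Real.pi_pos
      positivity
    have e1 : gz (em ν) (-η i) = Real.exp (-(t / 2)) * Real.exp (-(t / 2)) := by
      rw [← Real.exp_add, gz, ht]
      simp only [Pi.neg_apply, neg_neg]
      congr 1
      ring
    have e2 : gz (em ν) (-(η i + c)) = Real.exp (-(t / 2)) := by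
      rw [gz, ht]
      congr 1
      simp only [Pi.neg_apply, neg_neg, Pi.add_apply, hc, Real.exp_add, Real.exp_neg,
        Real.exp_log two_pos, ← mul_assoc, ← Finset.sum_mul]
      ring
    have e3 : t * Real.exp (-(t / 2)) ≤ 2 := by
      have h1 := Real.add_one_le_exp (t / 2)
      rw [Real.exp_neg, ← div_eq_mul_inv, div_le_iff₀ (Real.exp_pos _)]
      linarith
    have e4 : ‖Q i ν‖ ≤ |ε i| * t := (hi ν).trans (mul_le_mul_of_nonneg_right (le_abs_self _) ht0)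
    rw [norm_mul, norm_mul, Complex.norm_real, Real.norm_eq_abs, abs_of_pos (gz_pos _ _), e1, e2]
    have e5 := Real.exp_pos (-(t / 2))
    calc ‖ψ ν‖ * ‖Q i ν‖ * (Real.exp (-(t / 2)) * Real.exp (-(t / 2)))
        ≤ ‖ψ ν‖ * (|ε i| * t) * (Real.exp (-(t / 2)) * Real.exp (-(t / 2))) := by gcongr
      _ = |ε i| * (t * Real.exp (-(t / 2))) * (‖ψ ν‖ * Real.exp (-(t / 2))) := by ring
      _ ≤ |ε i| * 2 * (‖ψ ν‖ * Real.exp (-(t / 2))) := by gcongr
  have e6 : (∑' x : E, ((‖ψ x‖ : ℝ) : ℂ) * (gz (em x) (-(η i + c)) : ℂ)) =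
      ((∑' x : E, ‖ψ x‖ * gz (em x) (-(η i + c)) : ℝ) : ℂ) := by
    rw [Complex.ofReal_tsum]
    simp only [Complex.ofReal_mul]
  simp only [Function.comp_apply]
  rw [e6, norm_mul, norm_mul, Complex.norm_real, Complex.norm_real, Complex.norm_real,
    Real.norm_eq_abs, Real.norm_eq_abs, Real.norm_eq_abs, abs_of_pos (Real.exp_pos _),
    abs_of_pos (Real.exp_pos _), abs_of_nonneg hS0]
  refine (mul_le_mul_of_nonneg_left hb (Real.exp_pos _).le).trans (le_of_eq ?_)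
  have e7 : Real.exp (∑ σ, η i σ) = Real.exp (-∑ σ, c σ) * Real.exp (∑ σ, (η i + c) σ) := by
    rw [← Real.exp_add]
    simp only [Pi.add_apply, Finset.sum_add_distrib]
    congr 1
    ring
  rw [e7]
  ring

/-- Poisson summation for the chirped Gaussian. -/
theorem pa3_PS {φ : E → ℂ} (hφ : Per φ) (b : E) {a : ℝ} (ha : 0 < a) :
    (Real.exp (∑ _σ : Pl E, Real.log a) : ℂ) *
      ∑' x : E, φ x * eT (b * x ^ 2) * gz (em x) (-fun _ => Real.log a) =
    ((∏ σ, Real.sqrt (a ^ 2 + 4 * ‖em b σ‖ ^ 2) : ℝ) : ℂ) *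
      ((Real.exp (∑ σ, Real.log (a / (a ^ 2 + 4 * ‖em b σ‖ ^ 2))) : ℂ) *
        ∑' ν : E, Mn (fun x => φ x * eT (ν * x)) * Complex.exp (-(2 * Real.pi) * Complex.I *
          ((∑ σ, 2 * (conj (em b σ) * em ν σ ^ 2).re / (a ^ 2 + 4 * ‖em b σ‖ ^ 2) : ℝ) : ℂ)) *
          gz (em ν) (-fun σ => Real.log (a / (a ^ 2 + 4 * ‖em b σ‖ ^ 2)))) := by
  have hπ := Real.pi_pos
  have hΔ : ∀ σ, 0 < a ^ 2 + 4 * ‖em b σ‖ ^ 2 := fun σ => by positivity
  set F : (Pl E → ℂ) → ℂ := fun z =>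
    (Real.exp (-(2 * Real.pi) * a * ∑ σ, ‖z σ‖ ^ 2) : ℂ) * ez (em b * z) z with hF
  have hFT : ∀ ν : Pl E → ℂ, FT F ν = ((∏ σ, (Real.sqrt (a ^ 2 + 4 * ‖em b σ‖ ^ 2))⁻¹ : ℝ) : ℂ) *
      (Complex.exp (-(2 * Real.pi) * Complex.I *
          ((∑ σ, 2 * (conj (em b σ) * ν σ ^ 2).re / (a ^ 2 + 4 * ‖em b σ‖ ^ 2) : ℝ) : ℂ)) *
        gz ν (-fun σ => Real.log (a / (a ^ 2 + 4 * ‖em b σ‖ ^ 2)))) := fun ν => by
    rw [hF, FT_chirp _ ha, Finset.prod_mul_distrib, ← Complex.ofReal_prod, Finset.prod_mul_distrib,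
      ← Complex.exp_sum, ← Real.exp_sum, ← Finset.mul_sum, ← Complex.ofReal_sum,
      Complex.ofReal_mul, mul_assoc, mul_comm (Complex.exp _), gz, Finset.mul_sum]
    congr 4
    refine Finset.sum_congr rfl fun σ _ => ?_
    simp only [Pi.neg_apply, neg_neg]
    rw [Real.exp_log (div_pos ha (hΔ σ))]
    ring
  have hc : Continuous F := by
    rw [hF]
    unfold ez
    simp only [Pi.mul_apply]
    fun_prop
  have h1 : GD F := ⟨1, 2 * Real.pi * a, by positivity, fun z => by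
    rw [hF]
    simp only
    rw [norm_mul, norm_ez, Complex.norm_real, Real.norm_eq_abs, abs_of_pos (Real.exp_pos _),
      mul_one, one_mul, neg_mul (2 * Real.pi)]⟩
  have h2 : GD (FT F) := by
    have hM : 0 < a ^ 2 + 4 * ∑ τ, ‖em b τ‖ ^ 2 := by positivity
    refine ⟨∏ σ, (Real.sqrt (a ^ 2 + 4 * ‖em b σ‖ ^ 2))⁻¹,
      2 * Real.pi * (a / (a ^ 2 + 4 * ∑ τ, ‖em b τ‖ ^ 2)), by positivity, fun ν => ?_⟩
    have hP : 0 ≤ ∏ σ, (Real.sqrt (a ^ 2 + 4 * ‖em b σ‖ ^ 2))⁻¹ := by positivity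
    rw [hFT, norm_mul, norm_mul, Complex.norm_real, Complex.norm_real, Real.norm_eq_abs,
      Real.norm_eq_abs, abs_of_nonneg hP, abs_of_pos (gz_pos _ _), mul_right_comm,
      ← Complex.ofReal_ofNat, ← Complex.ofReal_mul, ← Complex.ofReal_neg, ← Complex.ofReal_mul,
      Complex.norm_exp_ofReal_mul_I, one_mul]
    refine mul_le_mul_of_nonneg_left (Real.exp_le_exp.2 ?_) hP
    rw [neg_mul, neg_mul, neg_le_neg_iff, mul_assoc (2 * Real.pi), Finset.mul_sum]
    refine mul_le_mul_of_nonneg_left (Finset.sum_le_sum fun σ _ => ?_) (by positivity)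
    simp only [Pi.neg_apply, neg_neg]
    rw [Real.exp_log (div_pos ha (hΔ σ)), mul_comm]
    refine mul_le_mul_of_nonneg_left (div_le_div_of_nonneg_left ha.le (hΔ σ) ?_) (sq_nonneg _)
    have := Finset.single_le_sum (f := fun τ => ‖em b τ‖ ^ 2) (fun _ _ => sq_nonneg _)
      (Finset.mem_univ σ)
    linarith
  have h3 : ∀ x : E, φ x * eT (b * x ^ 2) * gz (em x) (-fun _ => Real.log a) = φ x * F (em x) :=
    fun x => by
      rw [hF]
      simp only
      rw [← em_mul, ez_em, gz, mul_assoc (φ x), mul_comm (eT _), mul_assoc b, ← sq]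
      simp only [Pi.neg_apply, neg_neg, Real.exp_log ha, ← Finset.sum_mul]
      congr 4
      ring
  simp only [h3]
  rw [PSgen hc h1 h2 hφ]
  simp only [hFT, mul_left_comm _ ((∏ σ, (Real.sqrt (a ^ 2 + 4 * ‖em b σ‖ ^ 2))⁻¹ : ℝ) : ℂ),
    tsum_mul_left, mul_assoc (Mn _)]
  rw [← mul_assoc, ← mul_assoc, ← Complex.ofReal_mul, ← Complex.ofReal_mul]
  congr 2
  rw [Real.exp_sum, Real.exp_sum, ← Finset.prod_mul_distrib, ← Finset.prod_mul_distrib]
  refine Finset.prod_congr rfl fun σ _ => ?_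
  rw [Real.exp_log ha, Real.exp_log (div_pos ha (hΔ σ))]
  have h4 := Real.sqrt_pos.2 (hΔ σ)
  have h5 := Real.mul_self_sqrt (hΔ σ).le
  generalize Real.sqrt (a ^ 2 + 4 * ‖em b σ‖ ^ 2) = s at h4 h5 ⊢
  rw [← h5]
  field_simp

/-- **Reciprocity for quadratic exponential sums** (Weil index `1` at the complex places): apply
`PSgen` to the chirped Gaussian and let `a → 0`; the left side is `a^{-r} (Mn + o(1))` by
`tendsto_gz`, on the right side the phase differs from `e(-ν² / 4b)` by `O(a² |ν|²)`. -/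
theorem Mn_quad {φ : E → ℂ} (hφ : Per φ) {b : E} (hb : b ≠ 0) :
    Mn (fun x => φ x * eT (b * x ^ 2)) = (Real.sqrt (nr (2 * b)) : ℂ) *
      Mn fun ν => Mn (fun x => φ x * eT (ν * x)) * eT (-(ν ^ 2 / (4 * b))) := by
  have hπ := Real.pi_pos
  have hβ : ∀ σ, 0 < ‖em b σ‖ := fun σ => norm_pos_iff.2 (Pl.ne_zero σ hb)
  have hΔ : ∀ (a : ℝ) σ, 0 < a ^ 2 + 4 * ‖em b σ‖ ^ 2 := fun a σ => by
    have := hβ σ
    positivity
  have hr : (0 : ℝ) < rk E := Nat.cast_pos.2 rk_pos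
  set ψ : E → ℂ := fun ν => Mn fun x => φ x * eT (ν * x) with hψd
  have hψ : Per ψ := per_Mn_eT hφ
  have hψ₁ : Per fun ν => ψ ν * eT (-(ν ^ 2 / (4 * b))) := by
    have := hψ.mul_eT_sq (-(4 * b)⁻¹)
    simpa only [neg_mul, inv_mul_eq_div] using this
  set η : ℝ → Pl E → ℝ := fun a σ => Real.log (a / (a ^ 2 + 4 * ‖em b σ‖ ^ 2)) with hηd
  set P : ℝ → E → ℂ := fun a ν => Complex.exp (-(2 * Real.pi) * Complex.I *
    ((∑ σ, 2 * (conj (em b σ) * em ν σ ^ 2).re / (a ^ 2 + 4 * ‖em b σ‖ ^ 2) : ℝ) : ℂ)) with hPd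
  have hlog : Tendsto (fun a : ℝ => ∑ _σ : Pl E, Real.log a) (𝓝[>] 0) atBot := by
    simp only [Finset.sum_const, Finset.card_univ, nsmul_eq_mul]
    exact Real.tendsto_log_nhdsGT_zero.const_mul_atBot hr
  have T1 : Tendsto (fun (a : ℝ) (_ : Pl E) => Real.log a) (𝓝[>] 0) (lB E) :=
    tendsto_comap_iff.2 hlog
  have T2 : Tendsto η (𝓝[>] 0) (lB E) := by
    refine tendsto_comap_iff.2 (tendsto_atBot_mono' _ ?_
      (tendsto_atBot_add_const_right _ (∑ σ, -Real.log (4 * ‖em b σ‖ ^ 2)) hlog))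
    filter_upwards [self_mem_nhdsWithin] with a ha
    have ha' : 0 < a := ha
    rw [← Finset.sum_add_distrib]
    refine Finset.sum_le_sum fun σ _ => ?_
    have h1 := hβ σ
    have h2 : Real.log (4 * ‖em b σ‖ ^ 2) ≤ Real.log (a ^ 2 + 4 * ‖em b σ‖ ^ 2) :=
      Real.log_le_log (by positivity) (by nlinarith [sq_nonneg a])
    simp only [hηd]
    rw [Real.log_div ha'.ne' (hΔ a σ).ne']
    linarith
  have hP0 : ∀ ν : E, eT (-(ν ^ 2 / (4 * b))) = P 0 ν := fun ν => by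
    rw [eT, ← Complex.ofReal_ratCast, map_neg, Rat.cast_neg, trace_eq, Complex.ofReal_neg, hPd]
    simp only
    rw [mul_neg, neg_mul, neg_mul]
    congr 4
    refine Finset.sum_congr rfl fun σ _ => ?_
    have h1 : em b σ ≠ 0 := Pl.ne_zero σ hb
    have h2 : σ.1 (ν ^ 2 / (4 * b)) =
        conj (em b σ) * em ν σ ^ 2 / ((0 ^ 2 + 4 * ‖em b σ‖ ^ 2 : ℝ) : ℂ) := by
      have h3 : conj (em b σ) ≠ 0 := (map_ne_zero _).2 h1
      rw [map_div₀, map_pow, map_mul, map_ofNat]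
      push_cast
      rw [← Complex.conj_mul']
      show em ν σ ^ 2 / (4 * em b σ) = _
      rw [zero_pow two_ne_zero, zero_add]
      field_simp
    rw [h2, Complex.div_ofReal_re, mul_div_assoc]
  have T3 := pa3_err hψ T2 (ε := fun a => a * ∑ σ, ‖em b σ‖⁻¹) (Q := fun a ν => P a ν - P 0 ν)
    (by
      have : Tendsto (fun a : ℝ => a * ∑ σ, ‖em b σ‖⁻¹) (𝓝 0) (𝓝 (0 * ∑ σ, ‖em b σ‖⁻¹)) :=
        tendsto_id.mul_const _
      rw [zero_mul] at this
      exact this.mono_left nhdsWithin_le_nhds)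
    (by
      filter_upwards [self_mem_nhdsWithin] with a ha ν
      have ha' : 0 < a := ha
      refine (pa3_phase _ _).trans ?_
      rw [mul_left_comm, ← Finset.sum_sub_distrib, Finset.mul_sum]
      refine mul_le_mul_of_nonneg_left ((Finset.abs_sum_le_sum_abs _ _).trans
        (Finset.sum_le_sum fun σ _ => ?_)) (by positivity)
      have h1 := hβ σ
      have h2 := hΔ a σ
      have h3 : |(conj (em b σ) * em ν σ ^ 2).re| ≤ ‖em b σ‖ * ‖em ν σ‖ ^ 2 := by
        refine (Complex.abs_re_le_norm _).trans (le_of_eq ?_)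
        rw [norm_mul, norm_pow, Complex.norm_conj]
      have h4 : ‖em b σ‖⁻¹ ≤ ∑ τ, ‖em b τ‖⁻¹ :=
        Finset.single_le_sum (f := fun τ => ‖em b τ‖⁻¹) (fun _ _ => by positivity)
          (Finset.mem_univ σ)
      simp only [hηd]
      rw [Real.exp_log (div_pos ha' h2)]
      generalize (conj (em b σ) * em ν σ ^ 2).re = s at h3 ⊢
      generalize ∑ τ, ‖em b τ‖⁻¹ = K at h4 ⊢
      generalize ‖em b σ‖ = β at h1 h2 h3 h4 ⊢
      generalize ‖em ν σ‖ = n at h3 ⊢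
      have h5 : 2 * s / (a ^ 2 + 4 * β ^ 2) - 2 * s / (0 ^ 2 + 4 * β ^ 2) =
          s * -(a ^ 2 / (2 * β ^ 2 * (a ^ 2 + 4 * β ^ 2))) := by
        field_simp
        ring
      rw [h5, abs_mul, abs_neg, abs_of_pos (by positivity :
        0 < a ^ 2 / (2 * β ^ 2 * (a ^ 2 + 4 * β ^ 2)))]
      calc |s| * (a ^ 2 / (2 * β ^ 2 * (a ^ 2 + 4 * β ^ 2)))
          ≤ β * n ^ 2 * (a ^ 2 / (1 * β ^ 2 * (a ^ 2 + 4 * β ^ 2))) := by
            gcongr
            norm_num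
        _ = a * β⁻¹ * (n ^ 2 * (a / (a ^ 2 + 4 * β ^ 2))) := by field_simp
        _ ≤ a * K * (n ^ 2 * (a / (a ^ 2 + 4 * β ^ 2))) := by gcongr)
  have T4 := ((tendsto_gz hψ₁).comp T2).add T3
  rw [add_zero] at T4
  have T5 : Tendsto (fun a : ℝ => ((∏ σ, Real.sqrt (a ^ 2 + 4 * ‖em b σ‖ ^ 2) : ℝ) : ℂ)) (𝓝[>] 0)
      (𝓝 (Real.sqrt (nr (2 * b)) : ℂ)) := by
    have hc : Continuous fun a : ℝ => ((∏ σ, Real.sqrt (a ^ 2 + 4 * ‖em b σ‖ ^ 2) : ℝ) : ℂ) := by
      fun_prop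
    have h0 : (Real.sqrt (nr (2 * b)) : ℂ) =
        ((∏ σ, Real.sqrt ((0 : ℝ) ^ 2 + 4 * ‖em b σ‖ ^ 2) : ℝ) : ℂ) := by
      rw [nr, Real.sqrt_prod _ fun _ _ => sq_nonneg _]
      congr 1
      refine Finset.prod_congr rfl fun σ _ => ?_
      rw [map_mul, map_ofNat, norm_mul, Complex.norm_ofNat]
      congr 1
      show (2 * ‖em b σ‖) ^ 2 = _
      ring
    rw [h0]
    exact (hc.tendsto 0).mono_left nhdsWithin_le_nhds
  refine tendsto_nhds_unique ((tendsto_gz (hφ.mul_eT_sq b)).comp T1) ((T5.mul T4).congr' ?_)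
  filter_upwards [self_mem_nhdsWithin] with a ha
  have ha' : 0 < a := ha
  simp only [Function.comp_apply]
  rw [pa3_PS hφ b ha', ← mul_add]
  congr 2
  have s0 : Summable fun ν : E => ψ ν * P a ν * gz (em ν) (-η a) := by
    refine .of_norm ((summable_gz hψ 0 (-η a)).congr fun ν => ?_)
    have : ‖P a ν‖ = 1 := by
      simp only [hPd]
      rw [mul_right_comm, ← Complex.ofReal_ofNat, ← Complex.ofReal_mul, ← Complex.ofReal_neg,
        ← Complex.ofReal_mul, Complex.norm_exp_ofReal_mul_I]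
    rw [add_zero, norm_mul, norm_mul, norm_mul, this, mul_one]
  have s1 : Summable fun ν : E => ψ ν * eT (-(ν ^ 2 / (4 * b))) * gz (em ν) (-η a) := by
    simpa only [add_zero] using (summable_gz hψ₁ 0 (-η a)).of_norm
  have e : ∀ ν : E, ψ ν * (P a ν - P 0 ν) * gz (em ν) (-η a) = ψ ν * P a ν * gz (em ν) (-η a) -
      ψ ν * eT (-(ν ^ 2 / (4 * b))) * gz (em ν) (-η a) := fun ν => by
    rw [hP0]
    ring
  simp only [e]
  rw [s0.tsum_sub s1, add_sub_cancel]

end Crest.Agent.R312
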