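import Crest.Agent.R17.Weight

/-!
# Row 312: the sup lemma for an abstract family of entire functions with the dilation property
-/

set_option autoImplicit false

noncomputable section

namespace Crest.Agent.R312.WtB

open MeasureTheory
open Crest.Agent.R17.WeightB (cz cv cauchy continuous_cz cz_mem cv_mem)

/-- `F X` is entire and a real shift of the exponent is a dilation. -/
def Good (F : ℝ → ℂ → ℂ) : Prop :=
  ∀ X : ℝ, 0 < X → Differentiable ℂ (F X) ∧ ∀ (s : ℂ) (σ : ℝ),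
    F X (s + σ) = Complex.exp ((σ : ℂ) ^ 2 / 4 + s * σ / 2) * F (X * Real.exp (σ / 2)) s

variable {F : ℝ → ℂ → ℂ}

theorem F_eq (hF : Good F) {X : ℝ} (hX : 0 < X) (z : ℂ) :
    F (X * Real.exp (z.re / 2)) (z.im * Complex.I) =
      Complex.exp (-((z.re : ℂ) ^ 2 / 4 + z.im * Complex.I * z.re / 2)) * F X z := by
  have := (hF X hX).2 (z.im * Complex.I) z.re
  rw [add_comm, Complex.re_add_im] at this
  rw [this, ← mul_assoc, ← Complex.exp_add, neg_add_cancel, Complex.exp_zero, one_mul]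

theorem norm_F_eq (hF : Good F) {X : ℝ} (hX : 0 < X) (z : ℂ) :
    ‖F X z‖ = Real.exp (z.re ^ 2 / 4) * ‖F (X * Real.exp (z.re / 2)) (z.im * Complex.I)‖ := by
  have := (hF X hX).2 (z.im * Complex.I) z.re
  rw [add_comm, Complex.re_add_im] at this
  rw [this, norm_mul, Complex.norm_exp]
  congr 2
  rw [show (z.re : ℂ) ^ 2 / 4 + z.im * Complex.I * z.re / 2 =
    ((z.re ^ 2 / 4 : ℝ) : ℂ) + ((z.im * z.re / 2 : ℝ) : ℂ) * Complex.I by push_cast; ring]
  simp only [Complex.add_re, Complex.ofReal_re, Complex.mul_re, Complex.I_re, Complex.ofReal_im,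
    Complex.I_im, mul_zero, zero_mul, sub_self, add_zero]

theorem continuous_F_cv (hF : Good F) {X : ℝ} (hX : 0 < X) (t₀ : ℝ) :
    Continuous fun u => F (cv X t₀ u).1 ((cv X t₀ u).2 * Complex.I) := by
  have h1 := continuous_cz t₀
  have h2 := (hF X hX).1.continuous
  simp only [cv, F_eq hF hX]
  fun_prop

theorem sup_aux (hF : Good F) {X : ℝ} (hX : 0 < X) (t₀ : ℝ) {Y t : ℝ}
    (hY : Y ∈ Set.Icc X (2 * X)) (ht : t ∈ Set.Icc t₀ (t₀ + 1)) :
    ‖F Y (t * Complex.I)‖ ≤ 6 * Real.exp 2 *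
      ∫ u in Set.Ioc (0 : ℝ) 1, ‖F (cv X t₀ u).1 ((cv X t₀ u).2 * Complex.I)‖ := by
  have hY0 : 0 < Y / X := div_pos (hX.trans_le hY.1) hX
  have h1 : 0 ≤ Real.log (Y / X) := Real.log_nonneg ((one_le_div hX).2 hY.1)
  have h2 : Real.log (Y / X) ≤ 1 := by
    have := Real.log_le_sub_one_of_pos hY0
    have h3 : Y / X ≤ 2 := (div_le_iff₀ hX).2 hY.2
    linarith
  have h3 := norm_F_eq hF hX ⟨2 * Real.log (Y / X), t⟩
  rw [mul_div_cancel_left₀ _ two_ne_zero, Real.exp_log hY0, mul_div_cancel₀ _ hX.ne'] at h3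
  have h4 := cauchy (hF X hX).1 t₀ (w := ⟨2 * Real.log (Y / X), t⟩) (by
    refine abs_le_of_sq_le_sq' ?_ (by norm_num) |>.2
    rw [Complex.sq_norm, Complex.normSq_apply]
    simp only [Complex.sub_re, Complex.sub_im]
    nlinarith [ht.1, ht.2])
  have h5 : ∫ u in (0 : ℝ)..1, ‖F X (cz t₀ u)‖ ≤ ∫ u in (0 : ℝ)..1,
      Real.exp 2 * ‖F (cv X t₀ u).1 ((cv X t₀ u).2 * Complex.I)‖ := by
    refine intervalIntegral.integral_mono_on zero_le_one
      (((hF X hX).1.continuous.comp (continuous_cz t₀)).norm.intervalIntegrable _ _)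
      ((continuous_const.mul (continuous_F_cv hF hX t₀).norm).intervalIntegrable _ _)
      fun u _ => ?_
    rw [norm_F_eq hF hX]
    refine mul_le_mul_of_nonneg_right (Real.exp_le_exp.2 ?_) (norm_nonneg _)
    have h6 := abs_le.1 (cz_mem t₀ u).1
    nlinarith [h6.1, h6.2]
  rw [intervalIntegral.integral_const_mul, intervalIntegral.integral_of_le zero_le_one
    (f := fun u => ‖F (cv X t₀ u).1 ((cv X t₀ u).2 * Complex.I)‖)] at h5
  have h6 : ‖F Y (t * Complex.I)‖ ≤ ‖F X ⟨2 * Real.log (Y / X), t⟩‖ := by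
    rw [h3]
    exact le_mul_of_one_le_left (norm_nonneg _) (Real.one_le_exp (by positivity))
  linarith

theorem window (k : ℕ) {ρ : Type} (S : Finset ρ) {w : ρ → ℝ} {G : ρ → ℝ → ℂ → ℂ} {X E t₀ : ℝ}
    {Y t : ρ → ℝ} (hw : ∀ r, 0 ≤ w r) (hb : ∀ r ∈ S, Good (G r)) (hX : 0 < X)
    (hY : ∀ r ∈ S, Y r ∈ Set.Icc X (2 * X)) (ht : ∀ r ∈ S, t r ∈ Set.Icc t₀ (t₀ + 1))
    (hE : ∀ Y' ∈ Set.Icc (X / 4) (8 * X), ∀ t' ∈ Set.Icc (t₀ - 1) (t₀ + 2),
      ∑ r ∈ S, w r * ‖G r Y' (t' * Complex.I)‖ ^ k ≤ E) :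
    ∑ r ∈ S, w r * ‖G r (Y r) (t r * Complex.I)‖ ^ k ≤ (6 * Real.exp 2) ^ k * E := by
  have hc := fun r hr => (continuous_F_cv (hb r hr) hX t₀).norm
  have hi : ∀ r ∈ S, IntegrableOn
      (fun u => ‖G r (cv X t₀ u).1 ((cv X t₀ u).2 * Complex.I)‖ ^ k) (Set.Ioc 0 1) :=
    fun r hr => ((hc r hr).pow k).integrableOn_Ioc
  have h1 : ∀ r ∈ S, w r * ‖G r (Y r) (t r * Complex.I)‖ ^ k ≤ (6 * Real.exp 2) ^ k *
      ∫ u in Set.Ioc (0 : ℝ) 1,
        w r * ‖G r (cv X t₀ u).1 ((cv X t₀ u).2 * Complex.I)‖ ^ k := by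
    intro r hr
    rw [integral_const_mul, mul_left_comm]
    refine mul_le_mul_of_nonneg_left ?_ (hw r)
    refine (pow_le_pow_left₀ (norm_nonneg _)
      (sup_aux (hb r hr) hX t₀ (hY r hr) (ht r hr)) k).trans ?_
    rw [mul_pow]
    refine mul_le_mul_of_nonneg_left ?_ (by positivity)
    exact (convexOn_pow k).map_integral_le (continuous_pow k).continuousOn isClosed_Ici
      (Filter.Eventually.of_forall fun u => norm_nonneg _) (hc r hr).integrableOn_Ioc (hi r hr)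
  refine (Finset.sum_le_sum h1).trans ?_
  rw [← Finset.mul_sum, ← integral_finsetSum _ fun r hr => (hi r hr).const_mul _]
  refine mul_le_mul_of_nonneg_left ?_ (by positivity)
  refine (integral_mono (integrable_finsetSum _ fun r hr => (hi r hr).const_mul _)
    (integrable_const E) fun u => hE _ (cv_mem hX t₀ u).1 _ (cv_mem hX t₀ u).2).trans_eq ?_
  simp

theorem sup_moment (k : ℕ) {ρ : Type} (S : Finset ρ) (w : ρ → ℝ)
    (G : ρ → ℝ → ℂ → ℂ) (X T E : ℝ) (Y t : ρ → ℝ) (hw : ∀ r, 0 ≤ w r) (hb : ∀ r ∈ S, Good (G r))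
    (hX : 0 < X) (hT : 0 ≤ T) (hY : ∀ r ∈ S, Y r ∈ Set.Icc X (2 * X)) (ht : ∀ r ∈ S, |t r| ≤ T)
    (hE : ∀ Y' ∈ Set.Icc (X / 4) (8 * X), ∀ t' : ℝ, |t'| ≤ T + 3 →
      ∑ r ∈ S, w r * ‖G r Y' (t' * Complex.I)‖ ^ k ≤ E) :
    ∑ r ∈ S, w r * ‖G r (Y r) (t r * Complex.I)‖ ^ k ≤
      3 * (6 * Real.exp 2) ^ k * (1 + T) ^ (2 * k + 1) * E := by
  classical
  have hE0 : 0 ≤ E := (Finset.sum_nonneg fun r _ => mul_nonneg (hw r) (by positivity)).trans
    (hE X ⟨by linarith, by linarith⟩ 0 (by rw [abs_zero]; linarith))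
  have hfl := Nat.floor_le hT
  rw [← Finset.sum_fiberwise_of_maps_to (t := Finset.Icc (-(⌊T⌋₊ : ℤ) - 1) ⌊T⌋₊)
    (g := fun r => ⌊t r⌋) fun r hr => ?_]
  · refine (Finset.sum_le_card_nsmul _ _ ((6 * Real.exp 2) ^ k * E) fun j hj => ?_).trans ?_
    · rw [Finset.mem_Icc] at hj
      have h1 : -(⌊T⌋₊ : ℝ) - 1 ≤ j := by exact_mod_cast hj.1
      have h2 : (j : ℝ) ≤ ⌊T⌋₊ := by exact_mod_cast hj.2
      refine window k _ (t₀ := j) hw (fun r hr => hb r (Finset.mem_filter.1 hr).1) hX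
        (fun r hr => hY r (Finset.mem_filter.1 hr).1)
        (fun r hr => ?_) fun Y' hY' t' ht' => le_trans ?_ (hE Y' hY' t' ?_)
      · rw [← (Finset.mem_filter.1 hr).2]
        exact ⟨Int.floor_le _, (Int.lt_floor_add_one _).le⟩
      · exact Finset.sum_le_sum_of_subset_of_nonneg (Finset.filter_subset _ _)
          fun r _ _ => mul_nonneg (hw r) (by positivity)
      · rw [abs_le]
        constructor <;> linarith [ht'.1, ht'.2]
    · have h1 : (Finset.Icc (-(⌊T⌋₊ : ℤ) - 1) ⌊T⌋₊).card = 2 * ⌊T⌋₊ + 2 := by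
        rw [Int.card_Icc]
        omega
      have h2 : 1 + T ≤ (1 + T) ^ (2 * k + 1) := le_self_pow₀ (by linarith) (by omega)
      rw [h1, nsmul_eq_mul]
      push_cast
      calc _ ≤ 3 * (1 + T) ^ (2 * k + 1) * ((6 * Real.exp 2) ^ k * E) := by
            gcongr
            linarith
        _ = _ := by ring
  · have h1 := abs_le.1 (ht r hr)
    have h2 := Nat.lt_floor_add_one T
    rw [Finset.mem_Icc, Int.le_floor, ← Int.lt_add_one_iff, Int.floor_lt]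
    push_cast
    constructor <;> linarith [h1.1, h1.2]

end Crest.Agent.R312.WtB
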