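import Crest.Agent.R312.Defs
import Crest.Agent.R17.Weight
import Crest.Agent.R312.WtAuxB

/-!
# Row 312: smooth sums over an abstract index set (port of `R17/Weight.lean`)
-/

set_option autoImplicit false

noncomputable section

namespace Crest.Agent.R312

open NumberField
open scoped ComplexConjugate

open MeasureTheory
open Crest.Agent.R17 (Wc Wm)

/-- The indices `i` with `P i` have size `N i ≥ 1`, and at most `C X` of them have size `≤ X`. -/
def Cnt {ι : Type} (P : ι → Prop) (N : ι → ℝ) (C : ℝ) : Prop :=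
  (∀ i, P i → 1 ≤ N i) ∧
    ∀ (X : ℝ) (S : Finset ι), 0 ≤ X → (∀ i ∈ S, P i ∧ N i ≤ X) → (S.card : ℝ) ≤ C * X

/-- `b` is supported on `P` and bounded by `H N^B`. -/
def PB {ι : Type} (P : ι → Prop) (N : ι → ℝ) (b : ι → ℂ) (H B : ℝ) : Prop :=
  0 ≤ H ∧ (∀ i, ¬ P i → b i = 0) ∧ ∀ i, P i → ‖b i‖ ≤ H * N i ^ B

/-- Smooth sums. -/
def Sm {ι : Type} (N : ι → ℝ) (b : ι → ℂ) (X : ℝ) (s : ℂ) : ℂ := ∑' i, b i * Wc (N i / X) s

/-! ## part A -/

theorem WtA.C_nonneg {ι : Type} {P : ι → Prop} {N : ι → ℝ} {C : ℝ} (h : Cnt P N C) : 0 ≤ C := by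
  simpa using h.2 1 ∅ zero_le_one (by simp)

theorem WtA.N_pos {ι : Type} {P : ι → Prop} {N : ι → ℝ} {C : ℝ} (h : Cnt P N C) {i : ι}
    (hi : P i) : 0 < N i := one_pos.trans_le (h.1 i hi)

theorem WtA.sum_dyadic {ι : Type} {P : ι → Prop} {N : ι → ℝ} {C σ X : ℝ} (h : Cnt P N C)
    (hσ : 1 < σ) (hX : 0 < X) (K : ℕ) : ∀ S : Finset ι,
      (∀ i ∈ S, P i ∧ X ≤ N i ∧ N i < 2 ^ K * X) → ∑ i ∈ S, N i ^ (-σ) ≤
        2 * C * X ^ (1 - σ) * ∑ k ∈ Finset.range K, ((2 : ℝ) ^ (1 - σ)) ^ k := by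
  classical
  induction K with
  | zero =>
    intro S hS
    have : S = ∅ := Finset.eq_empty_of_forall_notMem fun i hi => by
      have := hS i hi
      linarith [this.2.1, this.2.2]
    simp [this]
  | succ K ih =>
    intro S hS
    rw [← Finset.sum_filter_add_sum_filter_not S fun i => N i < 2 ^ K * X, Finset.sum_range_succ,
      mul_add]
    refine add_le_add (ih _ fun i hi => ?_) ?_
    · obtain ⟨h1, h2⟩ := Finset.mem_filter.1 hi
      exact ⟨(hS i h1).1, (hS i h1).2.1, h2⟩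
    · have h0 : (0 : ℝ) < 2 ^ K * X := by positivity
      refine (Finset.sum_le_card_nsmul _ _ ((2 ^ K * X) ^ (-σ)) fun i hi => ?_).trans ?_
      · exact Real.rpow_le_rpow_of_nonpos h0 (not_lt.1 (Finset.mem_filter.1 hi).2) (by linarith)
      · have h1 := h.2 (2 ^ (K + 1) * X) (S.filter fun i => ¬ N i < 2 ^ K * X) (by positivity)
          fun i hi => ⟨(hS i (Finset.mem_filter.1 hi).1).1,
            (hS i (Finset.mem_filter.1 hi).1).2.2.le⟩
        rw [nsmul_eq_mul]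
        refine (mul_le_mul_of_nonneg_right h1 (by positivity)).trans_eq ?_
        have h2 : ((2 : ℝ) ^ (1 - σ)) ^ K * X ^ (1 - σ) = 2 ^ K * X * (2 ^ K * X) ^ (-σ) := by
          rw [Real.rpow_pow_comm zero_le_two, ← Real.mul_rpow (by positivity) hX.le,
            sub_eq_add_neg, Real.rpow_add h0, Real.rpow_one]
        rw [mul_assoc (2 * C), mul_comm (X ^ (1 - σ)), h2]
        ring

theorem WtA.sum_tail (C : ℝ) {σ : ℝ} (hσ : 1 < σ) : ∃ C' : ℝ, 0 < C' ∧
    ∀ {ι : Type} (P : ι → Prop) (N : ι → ℝ), Cnt P N C → ∀ X : ℝ, 0 < X → ∀ S : Finset ι,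
      (∀ i ∈ S, P i ∧ X ≤ N i) → ∑ i ∈ S, N i ^ (-σ) ≤ C' * X ^ (1 - σ) := by
  have hq0 : (0 : ℝ) ≤ 2 ^ (1 - σ) := by positivity
  have hq : (2 : ℝ) ^ (1 - σ) < 1 := Real.rpow_lt_one_of_one_lt_of_neg one_lt_two (by linarith)
  have hq' : 0 < 1 - (2 : ℝ) ^ (1 - σ) := by linarith
  refine ⟨2 * |C| * (1 - (2 : ℝ) ^ (1 - σ))⁻¹ + 1, by positivity, fun P N h X hX S hS => ?_⟩
  obtain ⟨B, hB⟩ := (S.image N).bddAbove
  obtain ⟨K, hK⟩ := pow_unbounded_of_one_lt (B / X) (one_lt_two (α := ℝ))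
  rw [div_lt_iff₀ hX] at hK
  refine (WtA.sum_dyadic h hσ hX K S fun i hi => ⟨(hS i hi).1, (hS i hi).2,
    (hB (by simpa using ⟨i, hi, rfl⟩)).trans_lt hK⟩).trans ?_
  have h1 : ∑ k ∈ Finset.range K, ((2 : ℝ) ^ (1 - σ)) ^ k ≤ (1 - (2 : ℝ) ^ (1 - σ))⁻¹ :=
    sum_le_hasSum _ (fun _ _ => by positivity) (hasSum_geometric_of_lt_one hq0 hq)
  have h2 := WtA.C_nonneg h
  rw [abs_of_nonneg h2]
  calc _ ≤ 2 * C * X ^ (1 - σ) * (1 - (2 : ℝ) ^ (1 - σ))⁻¹ := by gcongr
    _ = 2 * C * (1 - (2 : ℝ) ^ (1 - σ))⁻¹ * X ^ (1 - σ) := by ring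
    _ ≤ _ := by gcongr; linarith

open Classical in
theorem Cnt.summable_rpow {ι : Type} {P : ι → Prop} {N : ι → ℝ} {C σ : ℝ} (h : Cnt P N C)
    (hσ : 1 < σ) : Summable fun i => if P i then N i ^ (-σ) else 0 := by
  obtain ⟨C', -, h'⟩ := WtA.sum_tail C hσ
  refine summable_of_sum_le (c := C' * 1 ^ (1 - σ)) (fun i => ?_) fun S => ?_
  · dsimp only
    split_ifs with hi
    exacts [Real.rpow_nonneg (WtA.N_pos h hi).le _, le_rfl]
  · rw [← Finset.sum_filter]
    exact h' P N h 1 one_pos _ fun i hi =>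
      ⟨(Finset.mem_filter.1 hi).2, h.1 i (Finset.mem_filter.1 hi).2⟩
open Classical in
theorem tsum_rpow_le (C : ℝ) {σ : ℝ} (hσ : 1 < σ) : ∃ C' : ℝ, 0 < C' ∧
    ∀ {ι : Type} (P : ι → Prop) (N : ι → ℝ), Cnt P N C → ∀ X : ℝ, 0 < X →
      ∑' i, (if P i ∧ X ≤ N i then N i ^ (-σ) else 0) ≤ C' * X ^ (1 - σ) := by
  obtain ⟨C', hC', h'⟩ := WtA.sum_tail C hσ
  refine ⟨C', hC', fun P N h X hX => Real.tsum_le_of_sum_le (fun i => ?_) fun S => ?_⟩
  · dsimp only
    split_ifs with hi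
    exacts [Real.rpow_nonneg (WtA.N_pos h hi.1).le _, le_rfl]
  · rw [← Finset.sum_filter]
    exact h' P N h X hX _ fun i hi => (Finset.mem_filter.1 hi).2
open Classical in
theorem tsum_min_le (C : ℝ) {σ : ℝ} (hσ : 1 < σ) : ∃ C' : ℝ, 0 < C' ∧
    ∀ {ι : Type} (P : ι → Prop) (N : ι → ℝ), Cnt P N C → ∀ X : ℝ, 0 < X →
      (Summable fun i => if P i then min 1 ((N i / X) ^ (-σ)) else 0) ∧
      ∑' i, (if P i then min 1 ((N i / X) ^ (-σ)) else 0) ≤ C' * X := by
  obtain ⟨C', hC', h'⟩ := WtA.sum_tail C hσ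
  refine ⟨C' + |C|, by positivity, fun {ι} P N h X hX => ?_⟩
  have h0 : ∀ i, 0 ≤ (if P i then min 1 ((N i / X) ^ (-σ)) else 0) := fun i => by
    split_ifs with hi
    exacts [le_min zero_le_one (Real.rpow_nonneg (div_pos (WtA.N_pos h hi) hX).le _), le_rfl]
  have h1 : ∀ S : Finset ι, ∑ i ∈ S, (if P i then min 1 ((N i / X) ^ (-σ)) else 0) ≤
      (C' + |C|) * X := by
    intro S
    rw [← Finset.sum_filter,
      ← Finset.sum_filter_add_sum_filter_not (S.filter P) fun i => X ≤ N i, add_mul]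
    refine add_le_add ?_ ?_
    · have h2 := h' P N h X hX ((S.filter P).filter fun i => X ≤ N i) fun i hi =>
        ⟨(Finset.mem_filter.1 (Finset.mem_filter.1 hi).1).2, (Finset.mem_filter.1 hi).2⟩
      refine (Finset.sum_le_sum (g := fun i => X ^ σ * N i ^ (-σ)) fun i hi => ?_).trans ?_
      · refine (min_le_right _ _).trans_eq ?_
        rw [Real.div_rpow (hX.le.trans (Finset.mem_filter.1 hi).2) hX.le, Real.rpow_neg hX.le,
          div_inv_eq_mul, mul_comm]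
      · rw [← Finset.mul_sum]
        refine (mul_le_mul_of_nonneg_left h2 (by positivity)).trans_eq ?_
        rw [mul_left_comm, ← Real.rpow_add hX, add_sub_cancel, Real.rpow_one]
    · refine (Finset.sum_le_card_nsmul _ _ 1 fun i _ => min_le_left _ _).trans ?_
      rw [nsmul_eq_mul, mul_one, abs_of_nonneg (WtA.C_nonneg h)]
      exact h.2 X _ hX.le fun i hi => ⟨(Finset.mem_filter.1 (Finset.mem_filter.1 hi).1).2,
        (not_le.1 (Finset.mem_filter.1 hi).2).le⟩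
  exact ⟨summable_of_sum_le h0 h1, Real.tsum_le_of_sum_le h0 h1⟩

open Classical in
/-- the majorant -/
def WtA.g {ι : Type} (P : ι → Prop) (N : ι → ℝ) (X : ℝ) (i : ι) : ℝ :=
  if P i then min 1 ((N i / X) ^ (-(2 : ℝ))) else 0

theorem WtA.g_nonneg {ι : Type} {P : ι → Prop} {N : ι → ℝ} {C X : ℝ} (h : Cnt P N C) (hX : 0 < X)
    (i : ι) : 0 ≤ WtA.g P N X i := by
  unfold WtA.g
  split_ifs with hi
  exacts [le_min zero_le_one (Real.rpow_nonneg (div_pos (WtA.N_pos h hi) hX).le _), le_rfl]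

theorem WtA.summable_g {ι : Type} {P : ι → Prop} {N : ι → ℝ} {C X : ℝ} (h : Cnt P N C)
    (hX : 0 < X) : Summable (WtA.g P N X) := by
  obtain ⟨C', -, h'⟩ := tsum_min_le C one_lt_two
  exact (h' P N h X hX).1

theorem WtA.term_le (A B σ : ℝ) (hA : 0 ≤ A) : ∃ C' : ℝ, 0 < C' ∧
    ∀ {ι : Type} (P : ι → Prop) (N : ι → ℝ) (b : ι → ℂ) (C H X L : ℝ) (s : ℂ), Cnt P N C →
      PB P N b H B → 0 < X → 1 ≤ L → |s.re| ≤ σ → ∀ i : ι,
      (P i → L ≤ N i / X ∨ N i / X ≤ L⁻¹) →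
      ‖b i * Wc (N i / X) s‖ ≤ C' * H * X ^ B * L ^ (-A) * WtA.g P N X i := by
  obtain ⟨C', hC', h⟩ := R17.WeightB.pt A B σ hA
  refine ⟨C', hC', fun P N b C H X L s hc hb hX hL hs n hn => ?_⟩
  by_cases h0 : P n
  swap
  · simp [h0, hb.2.1 n h0, WtA.g]
  have hH := hb.1
  have hN := WtA.N_pos hc h0
  have hy : 0 < N n / X := div_pos hN hX
  have h1 := h _ L s hy hL hs (hn h0)
  rw [norm_mul, WtA.g, if_pos h0]
  calc ‖b n‖ * ‖Wc (N n / X) s‖ ≤ H * N n ^ B * ‖Wc (N n / X) s‖ := by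
        gcongr; exact hb.2.2 n h0
    _ = H * X ^ B * ((N n / X) ^ B * ‖Wc (N n / X) s‖) := by
      rw [Real.div_rpow hN.le hX.le]
      field_simp
    _ ≤ H * X ^ B * (C' * L ^ (-A) * min 1 ((N n / X) ^ (-2 : ℝ))) := by gcongr
    _ = _ := by ring

theorem WtA.tsum_le (C : ℝ) : ∃ C' : ℝ, 0 < C' ∧ ∀ {ι : Type} (P : ι → Prop) (N : ι → ℝ)
    (f : ι → ℝ) (K X : ℝ), Cnt P N C → 0 < X → 0 ≤ K → (∀ n, 0 ≤ f n) →
    (∀ n, f n ≤ K * WtA.g P N X n) → ∑' n, f n ≤ K * (C' * X) := by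
  obtain ⟨C', hC', h⟩ := tsum_min_le C one_lt_two
  refine ⟨C', hC', fun P N f K X hc hX hK h0 h1 => ?_⟩
  have h2 := (WtA.summable_g hc hX).mul_left K
  refine ((Summable.of_nonneg_of_le h0 h1 h2).tsum_le_tsum h1 h2).trans ?_
  rw [tsum_mul_left]
  exact mul_le_mul_of_nonneg_left (h P N hc X hX).2 hK

theorem summable_Sm {ι : Type} {P : ι → Prop} {N : ι → ℝ} {C : ℝ} (h : Cnt P N C) {b : ι → ℂ}
    {H B : ℝ} (hb : PB P N b H B) {X : ℝ} (hX : 0 < X) (s : ℂ) :
    Summable fun i => ‖b i * Wc (N i / X) s‖ := by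
  obtain ⟨C', -, h'⟩ := WtA.term_le 0 B |s.re| le_rfl
  exact Summable.of_nonneg_of_le (fun _ => norm_nonneg _)
    (fun n => h' P N b C H X 1 s h hb hX le_rfl le_rfl n fun _ => R17.WeightB.one_or _)
    ((WtA.summable_g h hX).mul_left _)
/-- Trivial bound; for `X < 1` it decays faster than any power of `X`. -/
theorem tsum_norm_Sm_le (C A B σ : ℝ) (hB : 0 ≤ B) : ∃ C' : ℝ, 0 < C' ∧
    ∀ {ι : Type} (P : ι → Prop) (N : ι → ℝ) (b : ι → ℂ) (H X : ℝ) (s : ℂ), Cnt P N C →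
      PB P N b H B → 0 < X → |s.re| ≤ σ →
      ∑' i, ‖b i * Wc (N i / X) s‖ ≤ C' * H * min (X ^ (B + 1)) (X ^ (B + 1 + |A|)) := by
  have _ := hB
  obtain ⟨C₁, hC, h⟩ := WtA.term_le |A| B σ (abs_nonneg A)
  obtain ⟨C', hC', h'⟩ := WtA.tsum_le C
  refine ⟨C₁ * C', by positivity, fun P N b H X s hc hb hX hs => ?_⟩
  have hH := hb.1
  rcases le_total 1 X with h1 | h1
  · rw [min_eq_left (Real.rpow_le_rpow_of_exponent_le h1 (by linarith [abs_nonneg A]))]
    refine (h' P N _ _ X hc hX (by positivity) (fun _ => norm_nonneg _)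
      fun n => h P N b C H X 1 s hc hb hX le_rfl hs n fun _ => R17.WeightB.one_or _).trans_eq ?_
    rw [Real.one_rpow, Real.rpow_add_one hX.ne']
    ring
  · rw [min_eq_right (Real.rpow_le_rpow_of_exponent_ge hX h1 (by linarith [abs_nonneg A]))]
    refine (h' P N _ _ X hc hX (by positivity) (fun _ => norm_nonneg _)
      fun n => h P N b C H X X⁻¹ s hc hb hX ((one_le_inv₀ hX).2 h1) hs n
        fun hn => Or.inl ?_).trans_eq ?_
    · rw [← one_div]
      exact div_le_div_of_nonneg_right (hc.1 n hn) hX.le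
    · rw [Real.inv_rpow hX.le, Real.rpow_neg hX.le, inv_inv, Real.rpow_add hX,
        Real.rpow_add_one hX.ne']
      ring
/-- Truncation to the window `[X/L, X L]` costs a negligible error. -/
theorem tsum_norm_Sm_tail_le (C A B σ : ℝ) (hB : 0 ≤ B) : ∃ C' : ℝ, 0 < C' ∧
    ∀ {ι : Type} (P : ι → Prop) (N : ι → ℝ) (b : ι → ℂ) (H X L : ℝ) (s : ℂ), Cnt P N C →
      PB P N b H B → 0 < X → 1 ≤ L → |s.re| ≤ σ →
      ∑' i, (if X / L ≤ N i ∧ N i ≤ X * L then 0 else ‖b i * Wc (N i / X) s‖)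
        ≤ C' * H * X ^ (B + 1) * L ^ (-A) := by
  have _ := hB
  obtain ⟨C₁, hC, h⟩ := WtA.term_le |A| B σ (abs_nonneg A)
  obtain ⟨C', hC', h'⟩ := WtA.tsum_le C
  refine ⟨C₁ * C', by positivity, fun P N b H X L s hc hb hX hL hs => ?_⟩
  have hH := hb.1
  have hL0 : 0 < L := by linarith
  refine (h' P N _ (C₁ * H * X ^ B * L ^ (-|A|)) X hc hX (by positivity) (fun n => ?_)
    fun n => ?_).trans ?_
  · split_ifs
    exacts [le_rfl, norm_nonneg _]
  · split_ifs with h1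
    · have := WtA.g_nonneg hc hX n
      positivity
    · refine h P N b C H X L s hc hb hX hL hs n fun _ => ?_
      rcases not_and_or.1 h1 with h2 | h2
      · right
        rw [div_le_iff₀ hX, inv_mul_eq_div]
        exact (not_le.1 h2).le
      · left
        rw [le_div_iff₀ hX, mul_comm]
        exact (not_le.1 h2).le
  · have h1 : L ^ (-|A|) ≤ L ^ (-A) :=
      Real.rpow_le_rpow_of_exponent_le hL (neg_le_neg (le_abs_self A))
    rw [Real.rpow_add_one hX.ne']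
    calc _ = C₁ * C' * H * (X ^ B * X) * L ^ (-|A|) := by ring
      _ ≤ _ := by gcongr
theorem Sm_shift {ι : Type} {N : ι → ℝ} {b : ι → ℂ} (hb : ∀ i, b i ≠ 0 → 0 < N i) {X : ℝ}
    (hX : 0 < X) (s : ℂ) (σ : ℝ) :
    Sm N b X (s + σ) =
      Complex.exp ((σ : ℂ) ^ 2 / 4 + s * σ / 2) * Sm N b (X * Real.exp (σ / 2)) s := by
  rw [Sm, Sm, ← tsum_mul_left]
  refine tsum_congr fun n => ?_
  by_cases h0 : b n = 0
  · simp [h0]
  · rw [R17.Wc_shift (div_pos (hb n h0) hX), div_div, mul_left_comm]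
/-- Mellin representation through the Dirichlet series. -/
theorem Sm_eq_integral {ι : Type} [Countable ι] {P : ι → Prop} {N : ι → ℝ} {C : ℝ} (h : Cnt P N C)
    {b : ι → ℂ} {H B : ℝ} (hb : PB P N b H B) {X σ : ℝ} (hX : 0 < X) (hσ : B + 1 < σ) (t : ℂ) :
    Sm N b X t = (1 / (2 * Real.pi) : ℂ) * ∫ u : ℝ, Wm (σ + u * Complex.I + t) *
      (X : ℂ) ^ (σ + u * Complex.I) * ∑' i, b i * (N i : ℂ) ^ (-(σ + u * Complex.I)) := by
  classical
  have hH := hb.1
  have hX' : (X : ℂ) ≠ 0 := Complex.ofReal_ne_zero.2 hX.ne'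
  have hW : Integrable fun u : ℝ => ‖Wm (σ + u * Complex.I + t)‖ := by
    refine ((R17.integrable_Wm_mul_pow (σ + t.re) 0).comp_add_right t.im).congr
      (Filter.Eventually.of_forall fun u => ?_)
    simp only [pow_zero, mul_one]
    congr 2
    conv_rhs => rw [← Complex.re_add_im t]
    push_cast
    ring
  have hn : ∀ (n : ι) (u : ℝ), ‖Wm (σ + u * Complex.I + t) * (X : ℂ) ^ (σ + u * Complex.I) *
      (b n * (N n : ℂ) ^ (-(σ + u * Complex.I)))‖ =
      X ^ σ * (‖b n‖ * N n ^ (-σ)) * ‖Wm (σ + u * Complex.I + t)‖ := by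
    intro n u
    by_cases h0 : P n
    swap
    · simp [hb.2.1 n h0]
    · rw [norm_mul, norm_mul, norm_mul, Complex.norm_cpow_eq_rpow_re_of_pos hX,
        Complex.norm_cpow_eq_rpow_re_of_pos (WtA.N_pos h h0)]
      simp only [Complex.add_re, Complex.neg_re, Complex.ofReal_re, Complex.mul_re, Complex.I_re,
        Complex.ofReal_im, Complex.I_im, mul_zero, zero_mul, sub_self, add_zero]
      ring
  have hi : ∀ n : ι, Integrable fun u : ℝ => Wm (σ + u * Complex.I + t) *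
      (X : ℂ) ^ (σ + u * Complex.I) * (b n * (N n : ℂ) ^ (-(σ + u * Complex.I))) := by
    intro n
    by_cases h0 : P n
    swap
    · simp [hb.2.1 n h0]
    refine (hW.const_mul _).mono' (Continuous.aestronglyMeasurable ?_)
      (Filter.Eventually.of_forall fun u => (hn n u).le)
    refine ((R17.differentiable_Wm.continuous.comp (by fun_prop)).mul
      (Continuous.const_cpow (by fun_prop) (Or.inl hX'))).mul (continuous_const.mul
      (Continuous.const_cpow (by fun_prop) (Or.inl ?_)))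
    exact Complex.ofReal_ne_zero.2 (WtA.N_pos h h0).ne'
  have hs : Summable fun n : ι => ‖b n‖ * N n ^ (-σ) := by
    refine Summable.of_nonneg_of_le (fun n => ?_) (fun n => ?_)
      ((h.summable_rpow (σ := σ - B) (by linarith)).mul_left H)
    · by_cases h0 : P n
      · have := WtA.N_pos h h0
        positivity
      · simp [hb.2.1 n h0]
    by_cases h0 : P n
    swap
    · simp [h0, hb.2.1 n h0]
    · have := WtA.N_pos h h0
      rw [if_pos h0, show -(σ - B) = B + -σ by ring, Real.rpow_add this, ← mul_assoc]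
      exact mul_le_mul_of_nonneg_right (hb.2.2 n h0) (by positivity)
  simp only [← tsum_mul_left]
  rw [← integral_tsum_of_summable_integral_norm hi, ← tsum_mul_left, Sm]
  · refine tsum_congr fun n => ?_
    by_cases h0 : P n
    swap
    · simp [hb.2.1 n h0]
    rw [R17.Wc_eq_integral (div_pos (WtA.N_pos h h0) hX) σ t, mul_left_comm,
      ← integral_const_mul]
    congr 2
    funext u
    rw [Complex.ofReal_div, Complex.div_cpow_ofReal_nonneg (WtA.N_pos h h0).le hX.le,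
      Complex.cpow_neg (X : ℂ), div_inv_eq_mul]
    ring
  · simp only [hn, integral_const_mul]
    exact (hs.mul_left _).mul_right _

/-! ## part B -/

theorem differentiable_Sm {ι : Type} {P : ι → Prop} {N : ι → ℝ} {C : ℝ} (h : Cnt P N C)
    {b : ι → ℂ} {H B : ℝ} (hb : PB P N b H B) {X : ℝ} (hX : 0 < X) :
    Differentiable ℂ (Sm N b X) := by
  classical
  intro s
  obtain ⟨C₁, hC₁, h₁⟩ := R17.norm_Wc_le_rpow (-(B + 2)) (|s.re| + 1)
  have hU : IsOpen {w : ℂ | |w.re| < |s.re| + 1} := isOpen_lt (by fun_prop) continuous_const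
  have hH := hb.1
  refine (Complex.differentiableOn_tsum_of_summable_norm
    (F := fun i w => b i * Wc (N i / X) w)
    ((h.summable_rpow one_lt_two).mul_left (H * C₁ * X ^ (B + 2)))
    (fun i => Differentiable.differentiableOn ?_) hU
    fun i w hw => ?_).differentiableAt (hU.mem_nhds (lt_add_one |s.re|))
  · unfold Wc
    fun_prop
  · by_cases hi : P i
    · have hN : 0 < N i := one_pos.trans_le (h.1 i hi)
      rw [if_pos hi, norm_mul]
      calc ‖b i‖ * ‖Wc (N i / X) w‖ ≤ H * N i ^ B * (C₁ * (N i / X) ^ (-(B + 2))) :=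
            mul_le_mul (hb.2.2 i hi) (h₁ _ w (div_pos hN hX) (le_of_lt hw)) (norm_nonneg _)
              (by positivity)
        _ = H * C₁ * X ^ (B + 2) * (N i ^ B * N i ^ (-(B + 2))) := by
            rw [Real.div_rpow hN.le hX.le, Real.rpow_neg hX.le, div_inv_eq_mul]
            ring
        _ = _ := by
            rw [← Real.rpow_add hN]
            congr 2
            ring
    · simp [hi, hb.2.1 i hi]
/-- A bound for a `k`-th moment at every fixed scale and height implies the same bound when scale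
and height depend on the row (within a dyadic range / a window).  The support may depend on the
row. -/
theorem sup_moment (k : ℕ) : ∃ C' : ℝ, 0 < C' ∧ ∀ {ρ ι : Type} (S : Finset ρ) (w : ρ → ℝ)
    (P : ρ → ι → Prop) (N : ι → ℝ) (b : ρ → ι → ℂ) (C H B X T Z : ℝ) (Y t : ρ → ℝ),
    (∀ r, 0 ≤ w r) → (∀ r ∈ S, Cnt (P r) N C ∧ PB (P r) N (b r) H B) →
    0 < X → 0 ≤ T → (∀ r ∈ S, Y r ∈ Set.Icc X (2 * X)) → (∀ r ∈ S, |t r| ≤ T) →
    (∀ Y' ∈ Set.Icc (X / 4) (8 * X), ∀ t' : ℝ, |t'| ≤ T + 3 →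
      ∑ r ∈ S, w r * ‖Sm N (b r) Y' (t' * Complex.I)‖ ^ k ≤ Z) →
    ∑ r ∈ S, w r * ‖Sm N (b r) (Y r) (t r * Complex.I)‖ ^ k ≤
      C' * (1 + T) ^ (2 * k + 1) * Z := by
  refine ⟨3 * (6 * Real.exp 2) ^ k, by positivity, ?_⟩
  intro ρ ι S w P N b C H B X T Z Y t hw hb hX hT hY ht hE
  refine WtB.sup_moment k S w (fun r => Sm N (b r)) X T Z Y t hw (fun r hr X' hX' =>
    ⟨differentiable_Sm (hb r hr).1 (hb r hr).2 hX', fun s σ => Sm_shift (fun i hi => ?_) hX' s σ⟩)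
    hX hT hY ht hE
  by_contra h0
  refine hi ((hb r hr).2.2.1 i fun hP => h0 (one_pos.trans_le ((hb r hr).1.1 i hP)))

end Crest.Agent.R312
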