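import Crest.Agent.R312.Tav
import Crest.Agent.R312.Pois
import Crest.Agent.R312.Count
import Crest.Agent.R312.Wt

/-!
# Row 312: Poisson summation on the lattices `R ∩ t OS` (auxiliary file for `PP.lean`, part A)
-/

set_option autoImplicit false

noncomputable section

namespace Crest.Agent.R312.PPA

open NumberField
open scoped ComplexConjugate

open MeasureTheory Filter Topology

variable {E : Type} [Field E] [NumberField E] [Fr E]

omit [Fr E] in
theorem one_le_dE : 1 ≤ |(discr E : ℝ)| := by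
  exact_mod_cast Int.one_le_abs (discr_ne_zero E)

open Classical in
/-- The function `1_{R ∩ t OS} f`. -/
def lf (t : E) (f : R E → ℂ) (x : E) : ℂ :=
  if hx : x ∈ RR E then (if x / t ∈ OS E then (1 : ℂ) else 0) * f ⟨x, hx⟩ else 0

theorem per_lf {t : E} (ht : t ≠ 0) {c : R E} (hc : c ≠ 0) {f : R E → ℂ}
    (hf : ∀ x y, c ∣ x - y → f x = f y) : Per (lf t f) :=
  per_of_perS (perS_lat ht) hc hf

theorem lf_zero (t : E) (f : R E → ℂ) : lf t f 0 = f 0 := by
  rw [lf, dif_pos (zero_mem _), zero_div, if_pos (zero_mem _), one_mul]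
  rfl

theorem lf_add {t : E} {c : R E} {f : R E → ℂ} (hf : ∀ x y, c ∣ x - y → f x = f y) {z : R E}
    (hz : ((c * z : R E) : E) / t ∈ OS E) (x : E) : lf t f (x + ((c * z : R E) : E)) = lf t f x := by
  unfold lf
  by_cases hx : x ∈ RR E
  · have hx' : x + ((c * z : R E) : E) ∈ RR E := add_mem hx (c * z).2
    rw [dif_pos hx, dif_pos hx', add_div, (OS E).toAddSubgroup.add_mem_cancel_right hz |> propext
      |> fun h => (h : (x / t + ((c * z : R E) : E) / t ∈ OS E) = (x / t ∈ OS E))]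
    congr 1
    exact hf _ _ ⟨z, Subtype.ext (by simp)⟩
  · rw [dif_neg hx, dif_neg fun h => hx (by simpa using sub_mem h (c * z).2)]

theorem mm_pow_mem (k : ℕ) : (mm E : E) ^ k ∈ OS E := pow_mem (natCast_mem _ _) k

/-- The frequencies outside `c⁻¹ R` do not occur. -/
theorem exists_eT_ne {y : E} (hy : y ∉ RR E) (w : E) :
    ∃ z : R E, (z : E) * w ∈ OS E ∧ eT (y * z) ≠ 1 := by
  by_contra h
  push Not at h
  refine hy (mem_RR_of_eF fun x => ?_)
  obtain ⟨b, hb, hb'⟩ := exists_nat_mul_mem_RR y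
  obtain ⟨k, hk⟩ := exists_pow_mul_mem_OS w
  obtain ⟨l, hl⟩ := exists_pow_mul_mem_OS y
  have hb0 : (b : R E) ≠ 0 := by
    have h6 := six_le_mm (E := E)
    have : b ≠ 0 := by
      rintro rfl
      rw [Nat.coprime_zero_left] at hb
      omega
    exact_mod_cast this
  obtain ⟨z, ⟨v, hv⟩, hz⟩ := exists_approx hb0 x 0 (k + l)
  have hm := mm_ne_zero (E := E)
  rw [sub_zero] at hz
  have h1 : (z : E) * w ∈ OS E := by
    have := mul_mem (mul_mem hz (mm_pow_mem l)) hk
    rwa [show (z : E) / (mm E : E) ^ (k + l) * (mm E : E) ^ l * ((mm E : E) ^ k * w) = z * w by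
      rw [pow_add]; field_simp] at this
  have h2 : y * (z : E) ∈ OS E := by
    have := mul_mem (mul_mem hz (mm_pow_mem k)) hl
    rwa [show (z : E) / (mm E : E) ^ (k + l) * (mm E : E) ^ k * ((mm E : E) ^ l * y) = y * z by
      rw [pow_add]; field_simp] at this
  have h3 := h z h1
  rw [eT_of_mem_OS h2] at h3
  have h4 : y * (z : E) = y * x + (b : E) * y * v := by
    have := congrArg Subtype.val hv
    push_cast at this
    linear_combination y * this
  rwa [h4, eF_add, eF_of_mem (mul_mem hb' v.2), mul_one] at h3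

/-- The Fourier transform of `lf`. -/
theorem Mn_lf {t : E} (ht : t ≠ 0) {c : R E} (hc : c ≠ 0) {f : R E → ℂ}
    (hf : ∀ x y, c ∣ x - y → f x = f y) (k : E) :
    Mn (fun x => lf t f x * eT (k / c * x)) =
      (((Real.sqrt |(discr E : ℝ)| * nf (c : E))⁻¹ * absS t : ℝ) : ℂ) *
        lf (c / (t * dS E)) (ft c f) k := by
  classical
  have hc' : (c : E) ≠ 0 := fun h => hc (Subtype.ext h)
  have hδ := dS_ne_zero (E := E)
  by_cases hk : k ∈ RR E
  · have h1 := Mn_crt ((perS_lat ht).mul_prd (prdS_eS (k / c))) hc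
      (f := fun x => f x * ef (⟨k, hk⟩ * x) c) fun x y h => by
        rw [hf x y h, ef_congr (y := ⟨k, hk⟩ * y) (by rw [← mul_sub]; exact h.mul_left _)]
    rw [IS_lat_eS ht] at h1
    have h2 : (fun x => lf t f x * eT (k / c * x)) = fun x => if hx : x ∈ RR E then
        (if x / t ∈ OS E then (1 : ℂ) else 0) * eS (k / c * x) *
          (f ⟨x, hx⟩ * ef (⟨k, hk⟩ * ⟨x, hx⟩) c) else 0 := by
      funext x
      unfold lf
      by_cases hx : x ∈ RR E
      · rw [dif_pos hx, dif_pos hx, eT_eq_mul, ef,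
          show ((⟨k, hk⟩ * ⟨x, hx⟩ : R E) : E) / c = k / c * x by
            change k * x / c = _; ring]
        ring
      · rw [dif_neg hx, dif_neg hx, zero_mul]
    rw [h2, h1, lf, dif_pos hk, show k / ((c : E) / (t * dS E)) = dS E * t * (k / c) by field_simp]
    unfold ft
    split_ifs
    · push_cast; ring
    · simp
  · obtain ⟨z, hz, hz'⟩ := exists_eT_ne hk ((c : E) / t)
    rw [lf, dif_neg hk, mul_zero]
    refine Mn_mul_eT_eq_zero (per_lf ht hc hf) (t := ((c * z : R E) : E)) (lf_add hf ?_) ?_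
    · rwa [show ((c * z : R E) : E) / t = z * (c / t) by push_cast; ring]
    · rwa [show k / c * ((c * z : R E) : E) = k * z by push_cast; field_simp]

/-- Poisson summation for `lf`. -/
theorem PS_lf {t : E} (ht : t ≠ 0) {c : R E} (hc : c ≠ 0) {f : R E → ℂ}
    (hf : ∀ x y, c ∣ x - y → f x = f y) (α : Pl E → ℝ) :
    ∑' x : E, lf t f x * gz (em x) α =
      (((Real.sqrt |(discr E : ℝ)| * nf (c : E))⁻¹ * absS t : ℝ) : ℂ) * Real.exp (∑ σ, α σ) *
        ∑' k : E, lf (c / (t * dS E)) (ft c f) k * gz (em k) (-α + lg (c : E)) := by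
  have hc' : (c : E) ≠ 0 := fun h => hc (Subtype.ext h)
  have h := PS (per_lf ht hc hf) 0 α
  simp only [add_zero, ez_zero_right, mul_one] at h
  rw [h, mul_comm _ (Real.exp (∑ σ, α σ) : ℂ), mul_assoc]
  congr 1
  rw [← tsum_mul_left]
  refine ((Equiv.divRight₀ (c : E) hc').tsum_eq _).symm.trans (tsum_congr fun k => ?_)
  rw [Equiv.divRight₀_apply, Mn_lf ht hc hf, mul_assoc, div_eq_inv_mul k, em_mul,
    gz_em_mul (inv_ne_zero hc'), lg_inv, sub_neg_eq_add]

theorem tendsto_diag :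
    Tendsto (fun n : ℕ => fun _ : Pl E => -(n : ℝ)) atTop (lB E) := by
  rw [tendsto_comap_iff]
  have h : ((fun η : Pl E → ℝ => ∑ σ, η σ) ∘ fun n : ℕ => fun _ : Pl E => -(n : ℝ)) =
      fun n : ℕ => -((rk E : ℝ) * n) := by
    funext n
    simp
  rw [h]
  refine tendsto_neg_atTop_atBot.comp (tendsto_natCast_atTop_atTop.const_mul_atTop ?_)
  exact_mod_cast rk_pos

theorem tendsto_zero_term {φ : E → ℂ} (hφ : Per φ) :
    Tendsto (fun n : ℕ => ∑' x : E, φ x * gz (em x) (fun _ => -(n : ℝ))) atTop (𝓝 (φ 0)) := by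
  classical
  have h0 : φ 0 = ∑' x : E, if x = 0 then φ 0 else 0 := by simp
  rw [h0]
  have hs := summable_gz hφ 0 0
  simp only [add_zero] at hs
  refine tendsto_tsum_of_dominated_convergence hs (fun x => ?_) (Eventually.of_forall fun n x => ?_)
  · split_ifs with hx
    · subst hx
      simp
    · rw [← mul_zero (φ x)]
      refine Tendsto.const_mul _ ?_
      rw [← Complex.ofReal_zero]
      refine (Complex.continuous_ofReal.tendsto 0).comp ?_
      have hp : 0 < ∑ σ : Pl E, ‖em x σ‖ ^ 2 :=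
        Finset.sum_pos (fun σ _ => pow_pos (norm_pos_iff.2 (σ.ne_zero hx)) 2) Finset.univ_nonempty
      unfold gz
      simp only [neg_neg, ← Finset.sum_mul, ← mul_assoc]
      refine Real.tendsto_exp_atBot.comp (Tendsto.const_mul_atTop_of_neg ?_
        (Real.tendsto_exp_atTop.comp tendsto_natCast_atTop_atTop))
      have := Real.pi_pos
      nlinarith
  · rw [norm_mul, norm_mul]
    refine mul_le_mul_of_nonneg_left ?_ (norm_nonneg _)
    rw [Complex.norm_real, Complex.norm_real, Real.norm_of_nonneg (gz_pos _ _).le,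
      Real.norm_of_nonneg (gz_pos _ _).le]
    unfold gz
    refine Real.exp_le_exp.2 (mul_le_mul_of_nonpos_left (Finset.sum_le_sum fun σ _ => ?_) ?_)
    · refine mul_le_mul_of_nonneg_left (Real.exp_le_exp.2 ?_) (sq_nonneg _)
      simp
    · have := Real.pi_pos
      linarith

theorem ft_one_one (k : R E) : ft (1 : R E) (fun _ => 1) k = 1 := by
  unfold ft
  rw [sum_res_unit isUnit_one _ fun x y => by rw [ef_of_dvd (one_dvd _), ef_of_dvd (one_dvd _)],
    ef_of_dvd (one_dvd _), mul_one]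

theorem absS_dS : absS (dS E) = (|(discr E : ℝ)|)⁻¹ := by
  classical
  have hδ := dS_ne_zero (E := E)
  have hd : 0 < |(discr E : ℝ)| := lt_of_lt_of_le one_pos one_le_dE
  have hf : ∀ x y : R E, (1 : R E) ∣ x - y → (fun _ : R E => (1 : ℂ)) x = (fun _ : R E => (1 : ℂ)) y :=
    fun _ _ _ => rfl
  have h1 := tendsto_zero_term (per_lf (one_ne_zero (α := E)) one_ne_zero hf)
  have hδ' : (dS E)⁻¹ ≠ 0 := inv_ne_zero hδ
  have h2 := ((tendsto_gz (per_lf hδ' one_ne_zero hf)).comp tendsto_diag).const_mul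
    (((Real.sqrt |(discr E : ℝ)|)⁻¹ : ℝ) : ℂ)
  have e : ∀ α : Pl E → ℝ, ∑' x : E, lf 1 (fun _ => 1) x * gz (em x) α =
      (((Real.sqrt |(discr E : ℝ)|)⁻¹ : ℝ) : ℂ) * (Real.exp (∑ σ, α σ) *
        ∑' k : E, lf (dS E)⁻¹ (fun _ => 1) k * gz (em k) (-α)) := fun α => by
    have := PS_lf (one_ne_zero (α := E)) one_ne_zero hf α
    rw [funext ft_one_one] at this
    simpa [mul_assoc] using this
  simp only [e] at h1
  have h3 := tendsto_nhds_unique h1 h2
  have h4 := Mn_crt (perS_lat hδ') one_ne_zero hf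
  rw [IS_lat hδ', sum_res_unit isUnit_one _ fun _ _ => rfl] at h4
  rw [lf_zero, show Mn (lf (dS E)⁻¹ fun _ => 1) = _ from h4, absS_inv] at h3
  have h5 : (1 : ℝ) = (Real.sqrt |(discr E : ℝ)|)⁻¹ *
      ((Real.sqrt |(discr E : ℝ)| * nf ((1 : R E) : E))⁻¹ * (absS (dS E))⁻¹ * 1) := by
    exact_mod_cast h3
  have h6 := Real.mul_self_sqrt hd.le
  have h7 := Real.sqrt_pos.2 hd
  have h8 := absS_pos (dS E)
  rw [OneMemClass.coe_one, nf_one] at h5
  field_simp at h5 ⊢
  nlinarith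

theorem cnt_Lat {j : ℕ} (hj : 1 ≤ j) : ∃ C : ℝ, 0 < C ∧
    ∀ t : E, t ≠ 0 → Cnt (Lat j t) (szl t) C := by
  obtain ⟨C, hC, H⟩ := CountB1_card_le (E := E) hj
  exact ⟨C, hC, fun t ht => ⟨fun k hk => one_le_szl ht hk, fun X S hX hS => H t X S ht hX hS⟩⟩

theorem cnt_Cls {j : ℕ} (hj : 1 ≤ j) : ∃ C : ℝ, 0 < C ∧
    ∀ t : E, Cnt (Cls j t) (fun n : R E => nf (n : E)) C := by
  obtain ⟨C, hC, H⟩ := CountB1_card_le (E := E) hj
  refine ⟨C, hC, fun t => ⟨fun k hk => one_le_nf fun h => hk.1.1 (by rw [h]; rfl),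
    fun X S hX hS => ?_⟩⟩
  rcases S.eq_empty_or_nonempty with rfl | ⟨k, hk⟩
  · simpa using mul_nonneg hC.le hX
  · refine H t X S ((hS k hk).1.2.ne_zero hj).1 hX fun n hn => ?_
    obtain ⟨h1, h2⟩ := (hS n hn).1.szl_eq hj
    exact ⟨h1, h2 ▸ (hS n hn).2⟩

theorem cnt_Nm : ∃ C : ℝ, 0 < C ∧ Cnt Nm (fun n : R E => nf (n : E)) C := by
  obtain ⟨C, hC, H⟩ := card_nms_le (E := E)
  refine ⟨C, hC, fun k hk => one_le_nf hk.ne_zero, fun X S hX hS => le_trans ?_ (H X hX)⟩
  exact_mod_cast Finset.card_le_card fun n hn => mem_nms.2 (hS n hn)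

theorem Lat_congr {j : ℕ} {t t' : E} (ht : t ≠ 0) (ht' : t' ≠ 0) (h : t / t' ∈ OS E)
    (h' : t' / t ∈ OS E) : Lat j t = Lat j t' ∧ szl t = szl t' := by
  constructor
  · funext k
    unfold Lat
    congr 1
    refine propext ⟨fun hk => ?_, fun hk => ?_⟩
    · have := mul_mem hk h
      rwa [div_mul_div_cancel₀ ht] at this
    · have := mul_mem hk h'
      rwa [div_mul_div_cancel₀ ht'] at this
  · funext k
    rw [szl, szl, le_antisymm (absS_le_of_div_mem ht ht' h) (absS_le_of_div_mem ht' ht h')]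

theorem szl_mul {t : E} (ht : t ≠ 0) {g : R E} (hg : g ≠ 0) (k : R E) :
    szl t (g * k) = nf (g : E) * szl (t / g) k := by
  have hg' : (g : E) ≠ 0 := fun h => hg (Subtype.ext h)
  have := (absS_pos (g : E)).ne'
  rw [szl, szl, nf, absS_div ht hg', Subring.coe_mul, nr_mul]
  field_simp

theorem invR_ft {j : ℕ} (hj : 1 ≤ j) {c : R E} (hc : c ≠ 0) {f : R E → ℂ}
    (hf : ∀ x y, c ∣ x - y → f x = f y) (h : InvR j f) : InvR j (ft c f) := by
  intro u k hu
  have h1 : IsUnit u := ((V_iff_isUnit hj).1 hu).1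
  have h2 : IsCoprime u c := by
    obtain ⟨v, rfl⟩ := h1
    exact ⟨↑v⁻¹, 0, by simp⟩
  rw [← ft_mul_arg hc f hf h2 k]
  congr 1
  funext x
  exact (h u x hu).symm

theorem Gw_le {σ C : ℝ} (H : ∀ y : ℝ, 0 < y → Gw E y ≤ C * y ^ (-σ)) {N X : ℝ} (hN : 1 ≤ N)
    (hX : 0 < X) : Gw E (N / X) ≤ C * X ^ σ * N ^ (-σ) := by
  have hN0 : 0 < N := by linarith
  refine (H _ (div_pos hN0 hX)).trans (le_of_eq ?_)
  rw [Real.div_rpow hN0.le hX.le, Real.rpow_neg hX.le]
  field_simp

open Classical in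
theorem summable_Gw {j : ℕ} (hj : 1 ≤ j) {t : E} (ht : t ≠ 0) {f : R E → ℂ} {H : ℝ}
    (hf : ∀ k, ‖f k‖ ≤ H) {X : ℝ} (hX : 0 < X) :
    Summable fun k : R E => ‖if Lat j t k then f k * (Gw E (szl t k / X) : ℂ) else 0‖ := by
  obtain ⟨C, -, hC⟩ := cnt_Lat (E := E) hj
  obtain ⟨C', -, hC'⟩ := Gw_le_rpow (E := E) (σ := 2) two_pos
  refine Summable.of_nonneg_of_le (fun _ => norm_nonneg _) (fun k => ?_)
    (((hC t ht).summable_rpow one_lt_two).mul_left (H * (C' * X ^ (2 : ℝ))))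
  split_ifs with hk
  · rw [norm_mul, Complex.norm_real, Real.norm_of_nonneg (Gw_pos _).le, mul_assoc]
    exact mul_le_mul (hf k) (Gw_le hC' (one_le_szl ht hk) hX) (Gw_pos _).le
      ((norm_nonneg _).trans (hf k))
  · simp

open Classical in
theorem latB_of_per {φ : E → ℂ} (h : Per φ) : LatB fun x => if x = 0 then 0 else φ x := by
  obtain ⟨B, hB⟩ := h.bdd
  obtain ⟨D, hD, h1, -⟩ := h
  refine ⟨D, B, 0, hD, le_rfl, fun x hx => ?_⟩
  by_cases h0 : x = 0
  · simp [h0] at hx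
  · simp only [if_neg h0] at hx ⊢
    exact ⟨h0, h1 x hx, by simpa using hB x⟩

open Classical in
theorem inv_lf {j : ℕ} (hj : 1 ≤ j) (t : E) {f : R E → ℂ} (h : InvR j f) :
    Inv j fun x => if x = 0 then 0 else lf t f x := by
  intro u x hu
  have h0 := hu.ne_zero hj
  have h1 : u * x / t ∈ OS E ↔ x / t ∈ OS E := by
    refine ⟨fun h => ?_, fun h => ?_⟩
    · have := mul_mem (hu.1.inv hj).mem_OS h
      rwa [mul_div_assoc, inv_mul_cancel_left₀ h0] at this
    · rw [mul_div_assoc]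
      exact mul_mem hu.1.mem_OS h
  simp only [mul_eq_zero, h0, false_or]
  congr 1
  unfold lf
  by_cases hx : x ∈ RR E
  · rw [dif_pos hx, dif_pos (mul_mem hu.2.1 hx), h1]
    congr 1
    exact h ⟨u, hu.2.1⟩ ⟨x, hx⟩ hu
  · rw [dif_neg hx, dif_neg fun h => hx ?_]
    have := mul_mem hu.2.2 h
    rwa [inv_mul_cancel_left₀ h0] at this

open Classical in
theorem tsum_lf (j : ℕ) (t : E) (f : R E → ℂ) (G : E → ℂ) :
    ∑' x : E, (if Fd j x then (if x = 0 then 0 else lf t f x) * G x else 0) =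
      ∑' k : R E, if Lat j t k then f k * G k else 0 := by
  rw [tsum_R_eq]
  refine tsum_congr fun x => ?_
  unfold lf Lat
  by_cases h1 : Fd j x
  · rw [if_pos h1, if_neg h1.1]
    by_cases h2 : x ∈ RR E
    · rw [dif_pos h2, dif_pos h2]
      by_cases h3 : x / t ∈ OS E
      · rw [if_pos h3, if_pos ⟨h1, h3⟩, one_mul]
      · rw [if_neg h3, if_neg fun h => h3 h.2, zero_mul, zero_mul]
    · rw [dif_neg h2, dif_neg h2, zero_mul]
  · rw [if_neg h1]
    by_cases h2 : x ∈ RR E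
    · rw [dif_pos h2, if_neg fun h => h1 h.1]
    · rw [dif_neg h2]

open Classical in
theorem tsum_gz_eq {φ : E → ℂ} (h : Per φ) (α : Pl E → ℝ) :
    ∑' x : E, φ x * gz (em x) α = φ 0 + ∑' x : E, (if x = 0 then 0 else φ x) *
      ((∏ σ : Pl E, Real.exp (-(2 * Real.pi) * Real.exp (lg x σ - α σ)) : ℝ) : ℂ) := by
  have hs := (summable_gz h 0 α).of_norm
  simp only [add_zero] at hs
  rw [hs.tsum_eq_add_tsum_ite 0, em_zero, gz_zero, Complex.ofReal_one, mul_one]
  congr 1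
  refine tsum_congr fun x => ?_
  split_ifs with hx
  · rw [zero_mul]
  · rw [gz_em hx]

open Classical in
theorem PP1 {j : ℕ} (hj : 1 ≤ j) : ∃ κ : ℝ, 0 < κ ∧
    ∀ (t : E) (c : R E) (f : R E → ℂ) (X : ℝ), t ≠ 0 → c ≠ 0 →
      (∀ x y, c ∣ x - y → f x = f y) → InvR j f → 0 < X →
      κ * f 0 + ∑' k : R E, (if Lat j t k then f k * (Gw E (szl t k / X) : ℂ) else 0) =
        ((X / (Real.sqrt |(discr E : ℝ)| * nf (c : E)) : ℝ) : ℂ) * (κ * ft c f 0 +
          ∑' k : R E, if Lat j (c / (t * dS E)) k then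
            ft c f k * (Gw E (X * szl (c / (t * dS E)) k / (|(discr E : ℝ)| * nf (c : E))) : ℂ)
            else 0) := by
  obtain ⟨κ, hκ, H⟩ := TA (E := E) hj
  refine ⟨κ, hκ, fun t c f X ht hc hf hf' hX => ?_⟩
  have hc' : (c : E) ≠ 0 := fun h => hc (Subtype.ext h)
  have hδ := dS_ne_zero (E := E)
  have hd : 0 < |(discr E : ℝ)| := lt_of_lt_of_le one_pos one_le_dE
  have ht' : (c : E) / (t * dS E) ≠ 0 := div_ne_zero hc' (mul_ne_zero ht hδ)
  have hg : ∀ x y, c ∣ x - y → ft c f x = ft c f y := fun _ _ h => ft_congr f h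
  have h1 := H _ _ _ (f 0) (ft c f 0)
    (((Real.sqrt |(discr E : ℝ)| * nf (c : E))⁻¹ * absS t : ℝ) : ℂ) (-lg (c : E)) kerOK_gauss
    (inv_lf hj t hf') (inv_lf hj (c / (t * dS E)) (invR_ft hj hc hf hf'))
    (latB_of_per (per_lf ht hc hf)) (latB_of_per (per_lf ht' hc hg)) (fun η => by
      have h := PS_lf ht hc hf (-η)
      rw [tsum_gz_eq (per_lf ht hc hf), tsum_gz_eq (per_lf ht' hc hg), lf_zero, lf_zero] at h
      simp only [Pi.neg_apply, sub_neg_eq_add, Finset.sum_neg_distrib, neg_neg, Pi.add_apply] at h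
      simp only [Pi.neg_apply]
      rw [h]
      simp only [sub_eq_add_neg, neg_add, add_assoc]) (Real.log (absS t / X))
  have hat := absS_pos t
  have hac := absS_pos (c : E)
  have hnc := nr_pos hc'
  rw [tsum_lf j t f (fun ν => (tav E _ (Real.log (nr ν) + Real.log (absS t / X)) : ℂ)),
    tsum_lf j _ (ft c f) (fun ν => (tav E _ (Real.log (nr ν) + ∑ σ, (-lg (c : E)) σ -
      Real.log (absS t / X)) : ℂ))] at h1
  convert h1 using 2
  · refine tsum_congr fun k => ?_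
    split_ifs with hk
    · rw [Gw, szl, mul_div_assoc, Real.log_mul (nr_pos hk.1.1).ne' (div_pos hat hX).ne']
    · rfl
  · rw [Real.exp_neg, Real.exp_log (div_pos hat hX), ← Complex.ofReal_mul]
    congr 1
    field_simp
  · congr 1
    refine tsum_congr fun k => ?_
    split_ifs with hk
    · have hk' := nr_pos hk.1.1
      have e : X * szl (c / (t * dS E)) k / (|(discr E : ℝ)| * nf (c : E)) =
          nr (k : E) / nr (c : E) / (absS t / X) := by
        rw [szl, nf, absS_div hc' (mul_ne_zero ht hδ), absS_mul ht hδ, absS_dS]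
        field_simp
      simp only [Pi.neg_apply, Finset.sum_neg_distrib]
      rw [Gw, e, Real.log_div (div_pos hk' hnc).ne' (div_pos hat hX).ne', Real.log_div hk'.ne' hnc.ne',
        sum_lg hc', sub_eq_add_neg (Real.log (nr (k : E)))]
    · rfl

open Classical in
theorem tsum_Gw_tail {j : ℕ} (hj : 1 ≤ j) (A : ℝ) : ∃ C : ℝ, 0 < C ∧
    ∀ (t : E) (X L : ℝ), t ≠ 0 → 0 < X → 1 ≤ L →
      ∑' k : R E, (if Lat j t k ∧ X * L ≤ szl t k then Gw E (szl t k / X) else 0) ≤
        C * X * L ^ (-A) := by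
  have hA := abs_nonneg A
  have hσ : 1 < 2 + |A| := by linarith
  obtain ⟨C, -, hC⟩ := cnt_Lat (E := E) hj
  obtain ⟨C₁, hC₁, H₁⟩ := Gw_le_rpow (E := E) (σ := 2 + |A|) (by linarith)
  obtain ⟨C₂, hC₂, H₂⟩ := tsum_rpow_le C hσ
  refine ⟨C₁ * C₂, by positivity, fun t X L ht hX hL => ?_⟩
  have hL0 : 0 < L := by linarith
  have hs : Summable fun k : R E =>
      if Lat j t k ∧ X * L ≤ szl t k then szl t k ^ (-(2 + |A|)) else 0 := by
    refine Summable.of_nonneg_of_le (fun k => ?_) (fun k => ?_) ((hC t ht).summable_rpow hσ)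
    · split_ifs with h
      · exact Real.rpow_nonneg (zero_le_one.trans (one_le_szl ht h.1)) _
      · exact le_rfl
    · by_cases h : Lat j t k
      · rw [if_pos h]
        split_ifs
        · exact le_rfl
        · exact Real.rpow_nonneg (zero_le_one.trans (one_le_szl ht h)) _
      · rw [if_neg h, if_neg fun h' => h h'.1]
  have hle : ∀ k : R E, (if Lat j t k ∧ X * L ≤ szl t k then Gw E (szl t k / X) else 0) ≤
      C₁ * X ^ (2 + |A|) * if Lat j t k ∧ X * L ≤ szl t k then szl t k ^ (-(2 + |A|)) else 0 := by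
    intro k
    split_ifs with h
    · exact Gw_le H₁ (one_le_szl ht h.1) hX
    · simp
  have h0 : ∀ k : R E, 0 ≤ (if Lat j t k ∧ X * L ≤ szl t k then Gw E (szl t k / X) else 0) := by
    intro k
    split_ifs
    · exact (Gw_pos _).le
    · exact le_rfl
  refine ((Summable.of_nonneg_of_le h0 hle (hs.mul_left _)).tsum_le_tsum hle
    (hs.mul_left _)).trans ?_
  rw [tsum_mul_left]
  refine (mul_le_mul_of_nonneg_left (H₂ _ _ (hC t ht) _ (mul_pos hX hL0)) (by positivity)).trans ?_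
  have e : X ^ (2 + |A|) * X ^ (1 - (2 + |A|)) = X := by
    rw [← Real.rpow_add hX, add_sub_cancel, Real.rpow_one]
  calc _ = C₁ * C₂ * (X ^ (2 + |A|) * X ^ (1 - (2 + |A|))) * L ^ (1 - (2 + |A|)) := by
        rw [Real.mul_rpow hX.le hL0.le]; ring
    _ ≤ _ := by
        rw [e]
        refine mul_le_mul_of_nonneg_left (Real.rpow_le_rpow_of_exponent_le hL ?_) (by positivity)
        linarith [le_abs_self A]

theorem sum_half_pow {ι : Type} {P : ι → Prop} {N : ι → ℝ} {C : ℝ} (hC : 0 ≤ C) (h : Cnt P N C)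
    (n : ℕ) : ∀ S : Finset ι, (∀ i ∈ S, P i ∧ N i ≤ 4 ^ n) →
      ∑ i ∈ S, N i ^ (-(1 / 2 : ℝ)) ≤ 4 * C * 2 ^ n := by
  classical
  induction n with
  | zero =>
    intro S hS
    have h1 := h.2 _ S (by positivity) hS
    have h2 : ∑ i ∈ S, N i ^ (-(1 / 2 : ℝ)) ≤ ∑ _i ∈ S, (1 : ℝ) := Finset.sum_le_sum fun i hi =>
      Real.rpow_le_one_of_one_le_of_nonpos (h.1 i (hS i hi).1) (by norm_num)
    simp only [Finset.sum_const, nsmul_eq_mul, mul_one, pow_zero] at h1 h2 ⊢
    linarith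
  | succ n ih =>
    intro S hS
    rw [← Finset.sum_filter_add_sum_filter_not S fun i => N i ≤ 4 ^ n]
    have h1 := ih (S.filter fun i => N i ≤ 4 ^ n) fun i hi =>
      ⟨(hS i (Finset.mem_filter.1 hi).1).1, (Finset.mem_filter.1 hi).2⟩
    have h2 := h.2 _ (S.filter fun i => ¬ N i ≤ 4 ^ n) (by positivity) fun i hi =>
      hS i (Finset.mem_filter.1 hi).1
    have h3 : ∑ i ∈ S.filter fun i => ¬ N i ≤ 4 ^ n, N i ^ (-(1 / 2 : ℝ)) ≤
        ∑ _i ∈ S.filter fun i => ¬ N i ≤ 4 ^ n, ((2 : ℝ) ^ n)⁻¹ := Finset.sum_le_sum fun i hi => by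
      have h4 := (not_le.1 (Finset.mem_filter.1 hi).2).le
      refine (Real.rpow_le_rpow_of_nonpos (by positivity) h4 (by norm_num)).trans (le_of_eq ?_)
      rw [Real.rpow_neg (by positivity), ← Real.sqrt_eq_rpow,
        show (4 : ℝ) ^ n = (2 ^ n) ^ 2 by rw [← pow_mul, mul_comm, pow_mul]; norm_num,
        Real.sqrt_sq (by positivity)]
    rw [Finset.sum_const, nsmul_eq_mul] at h3
    have h4 : C * 4 ^ (n + 1) * ((2 : ℝ) ^ n)⁻¹ = 4 * C * 2 ^ n := by
      rw [pow_succ, show (4 : ℝ) ^ n = 2 ^ n * 2 ^ n by rw [← mul_pow]; norm_num]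
      field_simp
    have h5 := mul_le_mul_of_nonneg_right h2 (show 0 ≤ ((2 : ℝ) ^ n)⁻¹ by positivity)
    rw [pow_succ 2]
    linarith

theorem sum_half {ι : Type} {P : ι → Prop} {N : ι → ℝ} {C : ℝ} (hC : 0 ≤ C) (h : Cnt P N C)
    {X : ℝ} (hX : 1 ≤ X) (S : Finset ι) (hS : ∀ i ∈ S, P i ∧ N i ≤ X) :
    ∑ i ∈ S, N i ^ (-(1 / 2 : ℝ)) ≤ 8 * C * X ^ (1 / 2 : ℝ) := by
  obtain ⟨n, h1, h2⟩ := exists_nat_pow_near hX (show (1 : ℝ) < 4 by norm_num)
  refine (sum_half_pow hC h (n + 1) S fun i hi => ⟨(hS i hi).1, (hS i hi).2.trans h2.le⟩).trans ?_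
  have h3 : (2 : ℝ) ^ n ≤ X ^ (1 / 2 : ℝ) := by
    rw [← Real.sqrt_eq_rpow]
    refine Real.le_sqrt_of_sq_le ?_
    rwa [← pow_mul, mul_comm, pow_mul, show (2 : ℝ) ^ 2 = 4 by norm_num]
  rw [pow_succ]
  nlinarith

open Classical in
theorem tsum_Gw_le {j : ℕ} (hj : 1 ≤ j) (A : ℝ) : ∃ C : ℝ, 0 < C ∧
    ∀ (t : E) (X : ℝ), t ≠ 0 → 0 < X →
      ∑' k : R E, (if Lat j t k then Gw E (szl t k / X) else 0) ≤ C * min X (X ^ (1 + |A|)) := by
  obtain ⟨C, hC0, hC⟩ := cnt_Lat (E := E) hj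
  obtain ⟨C₁, hC₁, H₁⟩ := tsum_Gw_tail (E := E) hj |A|
  obtain ⟨C₂, hC₂, H₂⟩ := Gw_le_rpow (E := E) (σ := 1 / 2) (by norm_num)
  refine ⟨C₁ + 8 * C * C₂, by positivity, fun t X ht hX => ?_⟩
  have hA := abs_nonneg A
  rcases le_total X 1 with h | h
  · have h1 := H₁ t X X⁻¹ ht hX (one_le_inv₀ hX |>.2 h)
    have h2 : X ^ (1 + |A|) ≤ X := by
      conv_rhs => rw [← Real.rpow_one X]
      exact Real.rpow_le_rpow_of_exponent_ge hX h (by linarith)
    rw [mul_inv_cancel₀ hX.ne', Real.inv_rpow hX.le, Real.rpow_neg hX.le, inv_inv, mul_assoc,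
      ← Real.rpow_one_add' hX.le (by positivity)] at h1
    rw [min_eq_right h2]
    refine le_trans (le_of_eq (tsum_congr fun k => ?_)) (h1.trans ?_)
    · exact if_congr ⟨fun hk => ⟨hk, one_le_szl ht hk⟩, fun hk => hk.1⟩ rfl rfl
    · refine mul_le_mul_of_nonneg_right ?_ (by positivity)
      have : 0 < 8 * C * C₂ := by positivity
      linarith
  · have h1 := H₁ t X 1 ht hX le_rfl
    have h2 : X ≤ X ^ (1 + |A|) := by
      conv_lhs => rw [← Real.rpow_one X]
      exact Real.rpow_le_rpow_of_exponent_le h (by linarith)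
    rw [mul_one, Real.one_rpow, mul_one] at h1
    rw [min_eq_left h2]
    have hs : Summable fun k : R E => if Lat j t k then Gw E (szl t k / X) else 0 := by
      refine (summable_Gw hj ht (f := fun _ => 1) (H := 1) (by simp) hX).congr fun k => ?_
      split_ifs
      · rw [one_mul, Complex.norm_real, Real.norm_of_nonneg (Gw_pos _).le]
      · simp
    have h0 : ∀ k : R E, 0 ≤ (if Lat j t k ∧ X ≤ szl t k then Gw E (szl t k / X) else 0) := by
      intro k
      split_ifs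
      · exact (Gw_pos _).le
      · exact le_rfl
    have hs' : Summable fun k : R E =>
        if Lat j t k ∧ X ≤ szl t k then Gw E (szl t k / X) else 0 := by
      refine Summable.of_nonneg_of_le h0 (fun k => ?_) hs
      by_cases h : Lat j t k
      · rw [if_pos h]
        split_ifs
        · exact le_rfl
        · exact (Gw_pos _).le
      · rw [if_neg h, if_neg fun h' => h h'.1]
    refine hs.tsum_le_of_sum_le fun S => ?_
    have h3 := (hs'.sum_le_tsum S fun k _ => h0 k).trans h1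
    have h4 := sum_half hC0.le (hC t ht) h (S.filter fun k => Lat j t k ∧ szl t k ≤ X)
      fun k hk => (Finset.mem_filter.1 hk).2
    have h5 : ∑ k ∈ S, (if Lat j t k then Gw E (szl t k / X) else 0) ≤
        ∑ k ∈ S, ((if Lat j t k ∧ X ≤ szl t k then Gw E (szl t k / X) else 0) +
          C₂ * X ^ (1 / 2 : ℝ) *
            if Lat j t k ∧ szl t k ≤ X then szl t k ^ (-(1 / 2 : ℝ)) else 0) := by
      refine Finset.sum_le_sum fun k _ => ?_
      by_cases hk : Lat j t k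
      · have hk1 := one_le_szl ht hk
        rcases le_total X (szl t k) with h6 | h6
        · rw [if_pos hk, if_pos ⟨hk, h6⟩]
          refine le_add_of_nonneg_right (mul_nonneg (by positivity) ?_)
          split_ifs
          · positivity
          · exact le_rfl
        · rw [if_pos hk, if_pos (show Lat j t k ∧ szl t k ≤ X from ⟨hk, h6⟩)]
          exact le_add_of_nonneg_of_le (h0 k) (Gw_le H₂ hk1 hX)
      · rw [if_neg hk, if_neg fun h' => hk h'.1, if_neg fun h' => hk h'.1]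
        simp
    rw [Finset.sum_add_distrib, ← Finset.mul_sum, ← Finset.sum_filter
      (fun k => Lat j t k ∧ szl t k ≤ X)] at h5
    have h6 := mul_le_mul_of_nonneg_left h4 (show 0 ≤ C₂ * X ^ (1 / 2 : ℝ) by positivity)
    have h7 : X ^ (1 / 2 : ℝ) * X ^ (1 / 2 : ℝ) = X := by
      rw [← Real.rpow_add hX]; norm_num
    have h8 : C₂ * X ^ (1 / 2 : ℝ) * (8 * C * X ^ (1 / 2 : ℝ)) = 8 * C * C₂ * X := by
      linear_combination 8 * C * C₂ * h7
    rw [add_mul]
    linarith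

end Crest.Agent.R312.PPA
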