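import Crest.Agent.R312.Tav
import Crest.Agent.R312.Count
import Crest.Agent.R312.Wt
import Crest.Agent.R17.ReflMel

/-!
# Row 312: the Mellin transfer (auxiliary file for part B of `PP.lean`)
-/

set_option autoImplicit false

noncomputable section

namespace Crest.Agent.R312.PPB

open MeasureTheory Complex Set Filter Asymptotics
open scoped Topology
open Crest.Agent.R17 (Wc Wm U1 KernelOK norm_Wm differentiable_Wm integrable_Wm_mul_pow)
open Crest.Agent.R17.RMA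

/-! ## The reflected kernel -/

/-- The density of the reflected kernel. -/
def Kq (r : ℕ) (t s : ℂ) : ℂ := (1 / (2 * Real.pi) : ℂ) * Wm (1 - t + s) * gF t ^ r

theorem differentiableAt_Kq (r : ℕ) (s : ℂ) {t : ℂ} (ht : 0 ≤ t.re) :
    DifferentiableAt ℂ (fun t => Kq r t s) t :=
  (((differentiable_Wm _).comp t (by fun_prop)).const_mul _).mul ((differentiableAt_gF ht).pow r)

theorem Kq_shift (r σ : ℕ) (s : ℂ) {x : ℝ} (hx : 0 < x) :
    ∫ u : ℝ, Kq r (u * I) s * (x : ℂ) ^ (-((u : ℂ) * I)) =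
      ∫ u : ℝ, Kq r (σ + u * I) s * (x : ℂ) ^ (-((σ : ℂ) + u * I)) := by
  have hσ := Nat.cast_nonneg (α := ℝ) σ
  have hr := Nat.cast_nonneg (α := ℝ) r
  obtain ⟨C, hC, h⟩ := norm_gF_strip σ
  have := integral_vertical_shift (F := fun t => Kq r t s * (x : ℂ) ^ (-t)) (a := 0) (b := σ) hσ
    (fun t ht => ((differentiableAt_Kq r s ht.1).mul (DifferentiableAt.const_cpow (by fun_prop)
      (Or.inl (ofReal_ne_zero.2 hx.ne')))).differentiableWithinAt)
    (C := Real.sqrt Real.pi * C ^ r * Real.exp ((1 + σ + |s.re|) ^ 2 / 4 + (8 * r + 1) ^ 2 +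
      (8 * r + 1) * |s.im| + σ * |Real.log x|)) one_pos fun t h0 h1 => ?_
  · simpa using this
  have h0' : 0 ≤ t.re := by simpa using h0
  have e1 : (1 - t + s).re = 1 - t.re + s.re := by simp
  have e2 : (1 - t + s).im = s.im - t.im := by simp; ring
  rw [norm_mul, Kq, norm_mul, norm_mul, norm_Wm, Complex.norm_cpow_eq_rpow_re_of_pos hx, e1, e2,
    Real.rpow_def_of_pos hx, norm_pow]
  have b1 := mul_le_mul (mul_le_of_le_one_left (by positivity :
    0 ≤ Real.sqrt Real.pi * Real.exp (((1 - t.re + s.re) ^ 2 - (s.im - t.im) ^ 2) / 4)) norm_c_le)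
    (pow_le_pow_left₀ (norm_nonneg _) (h t h0' h1) r) (by positivity) (by positivity)
  refine (mul_le_mul_of_nonneg_right b1 (Real.exp_pos _).le).trans ?_
  have e3 : Real.sqrt Real.pi * Real.exp (((1 - t.re + s.re) ^ 2 - (s.im - t.im) ^ 2) / 4) *
      (C * Real.exp (8 * |t.im|)) ^ r * Real.exp (Real.log x * (-t).re) =
      Real.sqrt Real.pi * C ^ r * Real.exp (((1 - t.re + s.re) ^ 2 - (s.im - t.im) ^ 2) / 4 +
        r * (8 * |t.im|) + Real.log x * (-t).re) := by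
    rw [Real.exp_add, Real.exp_add, mul_pow, Real.exp_nat_mul]; ring
  rw [e3, mul_assoc (Real.sqrt Real.pi * C ^ r), ← Real.exp_add]
  refine mul_le_mul_of_nonneg_left (Real.exp_le_exp.2 ?_) (by positivity)
  have c1 : (1 - t.re + s.re) ^ 2 ≤ (1 + σ + |s.re|) ^ 2 :=
    sq_le_sq' (by linarith [neg_abs_le s.re]) (by linarith [le_abs_self s.re])
  have c2 : |t.im| ≤ |s.im| + |s.im - t.im| := by
    have := abs_sub s.im (s.im - t.im)
    rwa [sub_sub_cancel] at this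
  have c3 : Real.log x * (-t).re ≤ σ * |Real.log x| := by
    rw [neg_re]
    nlinarith [neg_abs_le (Real.log x), abs_nonneg (Real.log x)]
  have c4 := mul_le_mul_of_nonneg_left c2 (by positivity : (0 : ℝ) ≤ 8 * r + 1)
  nlinarith [sq_nonneg (|s.im - t.im| - 2 * (8 * r + 1)), sq_abs (s.im - t.im)]

theorem Kq_bound (r σ : ℕ) (B : ℝ) : ∃ C : ℝ, ∀ s : ℂ, |s.re| ≤ B →
    Integrable (fun u : ℝ => Kq r (σ + u * I) s) ∧
    (∫ u : ℝ, ‖Kq r (σ + u * I) s‖) ≤ C * (1 + |s.im|) ^ (4 * σ * r) := by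
  have hσ := Nat.cast_nonneg (α := ℝ) σ
  obtain ⟨C, hC, h⟩ := norm_gF_le σ
  have hg := integrable_Wm_mul_pow 0 (4 * σ * r)
  set g : ℝ → ℝ := fun u => ‖Wm (((0 : ℝ) : ℂ) + u * I)‖ * (1 + |u|) ^ (4 * σ * r) with hgdef
  refine ⟨C ^ r * Real.exp ((1 + σ + B) ^ 2 / 4) * ∫ u, g u, fun s hs => ?_⟩
  have hpt : ∀ u : ℝ, ‖Kq r (σ + u * I) s‖ ≤
      C ^ r * Real.exp ((1 + σ + B) ^ 2 / 4) * (1 + |s.im|) ^ (4 * σ * r) * g (u - s.im) := by
    intro u
    have e1 : (1 - ((σ : ℂ) + u * I) + s).re = 1 - σ + s.re := by simp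
    have e2 : (1 - ((σ : ℂ) + u * I) + s).im = s.im - u := by simp; ring
    have e3 : (((0 : ℝ) : ℂ) + ((u - s.im : ℝ) : ℂ) * I).re = 0 := by simp
    have e4 : (((0 : ℝ) : ℂ) + ((u - s.im : ℝ) : ℂ) * I).im = u - s.im := by simp
    have w : ‖Wm (1 - ((σ : ℂ) + u * I) + s)‖ ≤
        Real.exp ((1 + σ + B) ^ 2 / 4) * ‖Wm (((0 : ℝ) : ℂ) + ((u - s.im : ℝ) : ℂ) * I)‖ := by
      rw [norm_Wm, norm_Wm, e1, e2, e3, e4, mul_left_comm, ← Real.exp_add]
      refine mul_le_mul_of_nonneg_left (Real.exp_le_exp.2 ?_) (by positivity)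
      have c1 : (1 - σ + s.re) ^ 2 ≤ (1 + σ + B) ^ 2 :=
        sq_le_sq' (by linarith [neg_abs_le s.re]) (by linarith [le_abs_self s.re])
      nlinarith
    have p : (1 + |u|) ^ (4 * σ * r) ≤
        (1 + |s.im|) ^ (4 * σ * r) * (1 + |u - s.im|) ^ (4 * σ * r) := by
      rw [← mul_pow]
      refine pow_le_pow_left₀ (by positivity) ?_ _
      have := abs_add_le (u - s.im) s.im
      rw [sub_add_cancel] at this
      nlinarith [abs_nonneg s.im, abs_nonneg (u - s.im)]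
    have q : ‖gF (σ + u * I)‖ ^ r ≤ C ^ r * (1 + |u|) ^ (4 * σ * r) := by
      rw [pow_mul, ← mul_pow]
      exact pow_le_pow_left₀ (norm_nonneg _) (h u) r
    rw [Kq, norm_mul, norm_mul, norm_pow]
    refine (mul_le_mul ((mul_le_of_le_one_left (norm_nonneg _) norm_c_le).trans w)
      (q.trans (mul_le_mul_of_nonneg_left p (by positivity))) (by positivity)
      (by positivity)).trans (le_of_eq ?_)
    simp only [hgdef]
    ring
  have hcont : Continuous fun u : ℝ => Kq r (σ + u * I) s :=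
    continuous_iff_continuousAt.2 fun u =>
      (differentiableAt_Kq r s (t := σ + u * I) (by simp)).continuousAt.comp
        (f := fun u : ℝ => (σ : ℂ) + u * I) (by fun_prop)
  have hi := (hg.comp_sub_right s.im).const_mul
    (C ^ r * Real.exp ((1 + σ + B) ^ 2 / 4) * (1 + |s.im|) ^ (4 * σ * r))
  have hI : Integrable (fun u : ℝ => Kq r (σ + u * I) s) :=
    hi.mono' hcont.aestronglyMeasurable (Eventually.of_forall hpt)
  refine ⟨hI, (integral_mono hI.norm hi hpt).trans (le_of_eq ?_)⟩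
  rw [integral_const_mul, integral_sub_right_eq_self g]
  ring

/-- The reflected kernel. -/
def Vq (r : ℕ) (x : ℝ) (s : ℂ) : ℂ := ∫ u : ℝ, Kq r (u * I) s * (x : ℂ) ^ (-((u : ℂ) * I))

theorem kernelOK_Kq (r : ℕ) : KernelOK (Kq r) (Vq r) := by
  intro σ B
  obtain ⟨C, h⟩ := Kq_bound r σ B
  exact ⟨C, 4 * σ * r, fun s hs => ⟨(h s hs).1, (h s hs).2, fun x hx => Kq_shift r σ s hx⟩⟩

/-! ## The Mellin transfer -/

theorem mellin_eq_exp (f : ℝ → ℂ) (s : ℂ) :
    mellin f s = ∫ x : ℝ, f (Real.exp x) * Complex.exp (s * x) := by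
  rw [mellin, ← Real.range_exp, ← Set.image_univ, integral_image_eq_integral_abs_deriv_smul
    MeasurableSet.univ (fun x _ => (Real.hasDerivAt_exp x).hasDerivWithinAt)
    Real.exp_injective.injOn, Measure.restrict_univ]
  refine integral_congr_ae (Eventually.of_forall fun x => ?_)
  have h0 : (Real.exp x : ℂ) ≠ 0 := ofReal_ne_zero.2 (Real.exp_pos x).ne'
  simp only [abs_of_pos (Real.exp_pos x), smul_eq_mul, real_smul]
  rw [cpow_sub _ _ h0, cpow_one, cpow_def_of_ne_zero h0, ← ofReal_log (Real.exp_pos x).le,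
    Real.log_exp, mul_comm (x : ℂ)]
  field_simp

/-- Kernels which are `O(y^{-k})` for all `k > 0`. -/
def UOK (U : ℝ → ℂ) : Prop :=
  ContinuousOn U (Ioi 0) ∧ ∀ k : ℝ, 0 < k → ∃ C : ℝ, 0 ≤ C ∧ ∀ y, 0 < y → ‖U y‖ ≤ C * y ^ (-k)

theorem UOK.conv {U : ℝ → ℂ} (hU : UOK U) {s : ℂ} (hs : 0 < s.re) : MellinConvergent U s := by
  obtain ⟨C₁, -, h₁⟩ := hU.2 (s.re + 1) (by linarith)
  obtain ⟨C₂, -, h₂⟩ := hU.2 (s.re / 2) (by linarith)
  refine mellinConvergent_of_isBigO_rpow (a := s.re + 1) (b := s.re / 2)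
    (hU.1.locallyIntegrableOn measurableSet_Ioi) (IsBigO.of_bound C₁ ?_) (by linarith)
    (IsBigO.of_bound C₂ ?_) (by linarith)
  · filter_upwards [eventually_gt_atTop 0] with x hx
    rw [Real.norm_of_nonneg (by positivity)]
    exact h₁ x hx
  · filter_upwards [self_mem_nhdsWithin] with x hx
    have hx : 0 < x := hx
    rw [Real.norm_of_nonneg (by positivity)]
    exact h₂ x hx

section Sums

variable {ι : Type} {P : ι → Prop} {N : ι → ℝ} {C₀ : ℝ} {a b : ι → ℂ} {H Ha Hb A B : ℝ}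
  {U : ℝ → ℂ}

/-- The kernel sum. -/
def fS (U : ℝ → ℂ) (N : ι → ℝ) (a : ι → ℂ) (A x : ℝ) : ℂ := ∑' i, a i * U (A * N i * x)

/-- The Dirichlet series. -/
def dD (N : ι → ℝ) (a : ι → ℂ) (s : ℂ) : ℂ := ∑' i, a i * (N i : ℂ) ^ (-s)

theorem N_pos (h : Cnt P N C₀) (ha : PB P N a H 1) {i : ι} (hi : a i ≠ 0) : 0 < N i := by
  by_contra h0
  exact hi (ha.2.1 i fun hP => h0 (one_pos.trans_le (h.1 i hP)))

theorem coef_nonneg (h : Cnt P N C₀) (ha : PB P N a H 1) (k : ℝ) (i : ι) :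
    0 ≤ ‖a i‖ * N i ^ k := by
  by_cases h0 : a i = 0
  · simp [h0]
  · have := N_pos h ha h0
    positivity

theorem summable_coef (h : Cnt P N C₀) (ha : PB P N a H 1) {k : ℝ} (hk : 2 < k) :
    Summable fun i => ‖a i‖ * N i ^ (-k) := by
  classical
  refine Summable.of_nonneg_of_le (coef_nonneg h ha _) (fun i => ?_)
    ((h.summable_rpow (σ := k - 1) (by linarith)).mul_left H)
  by_cases hP : P i
  · have hN : 0 < N i := one_pos.trans_le (h.1 i hP)
    rw [if_pos hP, show -(k - 1) = 1 + -k by ring, Real.rpow_add hN, ← mul_assoc]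
    exact mul_le_mul_of_nonneg_right (ha.2.2 i hP) (by positivity)
  · simp [hP, ha.2.1 i hP]

theorem term_le (h : Cnt P N C₀) (ha : PB P N a H 1) (hU : UOK U) (hA : 0 < A) {k : ℝ}
    (hk : 2 < k) : ∃ u : ι → ℝ, Summable u ∧ (∀ i, 0 ≤ u i) ∧
      ∀ i x, 0 < x → ‖a i * U (A * N i * x)‖ ≤ u i * x ^ (-k) := by
  obtain ⟨C, hC, hb⟩ := hU.2 k (by linarith)
  refine ⟨fun i => C * A ^ (-k) * (‖a i‖ * N i ^ (-k)), (summable_coef h ha hk).mul_left _,
    fun i => mul_nonneg (by positivity) (coef_nonneg h ha _ i), fun i x hx => ?_⟩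
  by_cases h0 : a i = 0
  · simp [h0]
  have hn := N_pos h ha h0
  rw [norm_mul]
  refine (mul_le_mul_of_nonneg_left (hb _ (by positivity)) (norm_nonneg _)).trans (le_of_eq ?_)
  rw [Real.mul_rpow (by positivity) hx.le, Real.mul_rpow hA.le hn.le]
  ring

theorem norm_fS_le (h : Cnt P N C₀) (ha : PB P N a H 1) (hU : UOK U) (hA : 0 < A) {k : ℝ}
    (hk : 2 < k) : ∃ C : ℝ, ∀ x, 0 < x → ‖fS U N a A x‖ ≤ C * x ^ (-k) := by
  obtain ⟨u, hu, -, h⟩ := term_le h ha hU hA hk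
  exact ⟨∑' n, u n, fun x hx => tsum_of_norm_bounded (hu.hasSum.mul_right _) fun n => h n x hx⟩

theorem continuousOn_fS (h : Cnt P N C₀) (ha : PB P N a H 1) (hU : UOK U) (hA : 0 < A) :
    ContinuousOn (fS U N a A) (Ioi 0) := by
  obtain ⟨u, hu, hu0, h'⟩ := term_le h ha hU hA (k := 3) (by norm_num)
  intro x hx
  have hx : 0 < x / 2 := half_pos hx
  refine ContinuousAt.continuousWithinAt (ContinuousOn.continuousAt (s := Ioi (x / 2)) ?_
    (Ioi_mem_nhds (by linarith)))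
  refine continuousOn_tsum (fun n => ?_) (hu.mul_right ((x / 2) ^ (-3 : ℝ))) fun n y hy => ?_
  · by_cases h0 : a n = 0
    · simp only [h0, zero_mul]
      exact continuousOn_const
    have hn := N_pos h ha h0
    refine continuousOn_const.mul (hU.1.comp (by fun_prop) fun y hy => ?_)
    have : 0 < y := hx.trans hy
    exact mem_Ioi.2 (by positivity)
  · exact (h' n y (hx.trans hy)).trans (mul_le_mul_of_nonneg_left
      (Real.rpow_le_rpow_of_nonpos hx (le_of_lt hy) (by norm_num)) (hu0 n))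

theorem mellin_fS [Countable ι] (h : Cnt P N C₀) (ha : PB P N a H 1) (hU : UOK U) (hA : 0 < A)
    {s : ℂ} (hs : 2 < s.re) : mellin (fS U N a A) s = mellin U s * (A : ℂ) ^ (-s) * dD N a s := by
  have h1 := hU.conv (s := s) (by linarith)
  have hi : ∀ n : ι, Integrable (fun t : ℝ => (t : ℂ) ^ (s - 1) • (a n * U (A * N n * t)))
      (volume.restrict (Ioi 0)) := by
    intro n
    by_cases h0 : a n = 0
    · simp [h0]
    exact ((MellinConvergent.comp_mul_left (mul_pos hA (N_pos h ha h0))).2 h1).const_smul (a n)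
  have hn : ∀ n : ι, ∫ t in Ioi (0 : ℝ), ‖(t : ℂ) ^ (s - 1) • (a n * U (A * N n * t))‖ =
      A ^ (-s.re) * (‖a n‖ * N n ^ (-s.re)) *
        ∫ t in Ioi (0 : ℝ), ‖(t : ℂ) ^ (s - 1) • U t‖ := by
    intro n
    by_cases h0 : a n = 0
    · simp [h0]
    have hN := N_pos h ha h0
    have hc := mul_pos hA hN
    have h3 := integral_comp_mul_left_Ioi (fun t : ℝ => ‖(t : ℂ) ^ (s - 1) • U t‖) 0 hc
    rw [mul_zero] at h3
    rw [setIntegral_congr_fun (g := fun t => ‖a n‖ * (A * N n) ^ (1 - s.re) *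
      ‖((A * N n * t : ℝ) : ℂ) ^ (s - 1) • U (A * N n * t)‖) measurableSet_Ioi,
      integral_const_mul, h3, smul_eq_mul, sub_eq_add_neg, Real.rpow_add hc, Real.rpow_one,
      Real.mul_rpow hA.le hN.le]
    · have := hA.ne'
      have := hN.ne'
      field_simp
    · intro t ht
      have ht : 0 < t := ht
      simp only [norm_smul, norm_mul]
      rw [Complex.norm_cpow_eq_rpow_re_of_pos ht,
        Complex.norm_cpow_eq_rpow_re_of_pos (mul_pos hc ht), Real.mul_rpow hc.le ht.le, sub_re,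
        one_re, show 1 - s.re = -(s.re - 1) by ring, Real.rpow_neg hc.le]
      have := (Real.rpow_pos_of_pos hc (s.re - 1)).ne'
      field_simp
  have h4 := integral_tsum_of_summable_integral_norm hi (by
    simp only [hn]
    exact ((summable_coef h ha hs).mul_left _).mul_right _)
  rw [mellin]
  simp only [fS, smul_eq_mul] at h4 ⊢
  simp only [← tsum_mul_left]
  rw [← h4, dD, ← tsum_mul_left]
  refine tsum_congr fun n => ?_
  by_cases h0 : a n = 0
  · simp [h0]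
  have hN := N_pos h ha h0
  have h5 := mellin_comp_mul_left U s (mul_pos hA hN)
  rw [ofReal_mul, mul_cpow_ofReal_nonneg hA.le hN.le, mellin] at h5
  simp only [smul_eq_mul] at h5
  simp only [mul_left_comm _ (a n)]
  rw [integral_const_mul, h5]
  ring

theorem tsum_kernel [Countable ι] {Kr : ℂ → ℂ → ℂ} {V : ℝ → ℂ → ℂ} (hK : KernelOK Kr V)
    (h : Cnt P N C₀) (hb : PB P N b H 1) {c : ℝ} (hc : 0 < c) (s : ℂ) :
    ∑' n, b n * V (c * N n) s = ∫ u : ℝ, Kr (3 + u * I) s *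
      ((c : ℂ) ^ (-(3 + (u : ℂ) * I)) * dD N b (3 + u * I)) := by
  obtain ⟨C, J, h'⟩ := hK 3 |s.re|
  obtain ⟨h1, -, h2⟩ := h' s le_rfl
  simp only [Nat.cast_ofNat] at h1 h2
  have hn : ∀ (n : ι) (u : ℝ), ‖(c : ℂ) ^ (-(3 + (u : ℂ) * I)) *
      (b n * (N n : ℂ) ^ (-(3 + (u : ℂ) * I)))‖ = c ^ (-3 : ℝ) * (‖b n‖ * N n ^ (-3 : ℝ)) := by
    intro n u
    by_cases h0 : b n = 0
    · simp [h0]
    rw [norm_mul, norm_mul, Complex.norm_cpow_eq_rpow_re_of_pos hc,
      Complex.norm_cpow_eq_rpow_re_of_pos (N_pos h hb h0)]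
    simp
  have hi : ∀ n : ι, Integrable fun u : ℝ => Kr (3 + u * I) s * ((c : ℂ) ^ (-(3 + (u : ℂ) * I)) *
      (b n * (N n : ℂ) ^ (-(3 + (u : ℂ) * I)))) := by
    intro n
    by_cases h0 : b n = 0
    · simp [h0]
    refine h1.mul_bdd (Continuous.aestronglyMeasurable ?_)
      (Eventually.of_forall fun u => (hn n u).le)
    exact (Continuous.const_cpow (by fun_prop) (Or.inl (ofReal_ne_zero.2 hc.ne'))).mul
      (continuous_const.mul (Continuous.const_cpow (by fun_prop)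
        (Or.inl (ofReal_ne_zero.2 (N_pos h hb h0).ne'))))
  simp only [dD, ← tsum_mul_left]
  rw [← integral_tsum_of_summable_integral_norm hi]
  · refine tsum_congr fun n => ?_
    by_cases h0 : b n = 0
    · simp [h0]
    rw [h2 _ (mul_pos hc (N_pos h hb h0)), ← integral_const_mul]
    congr 1
    funext u
    rw [ofReal_mul, mul_cpow_ofReal_nonneg hc.le (N_pos h hb h0).le]
    ring
  · simp only [norm_mul (Kr _ _), hn, integral_mul_const]
    exact ((summable_coef h hb (by norm_num)).mul_left _).mul_left _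

/-- The function whose line of integration is shifted. -/
def FF (r : ℕ) (c : ℂ) (L : ℂ → ℂ) (Y : ℝ) (s w : ℂ) : ℂ :=
  Wm (w + s) * (Y : ℂ) ^ w * L w * (c⁻¹ * Complex.exp (-((w - 1 / 2) ^ 2 / 8))) *
    ((Gamma (w + 1 / 3))⁻¹ * (Gamma (w + 2 / 3))⁻¹) ^ r

theorem FF_diff (r : ℕ) (c : ℂ) {L : ℂ → ℂ} {Y : ℝ} (hY : 0 < Y) (s : ℂ) {w : ℂ}
    (hL : DifferentiableAt ℂ L w) : DifferentiableAt ℂ (FF r c L Y s) w := by
  have h1 := differentiable_Wm
  have h2 := Complex.differentiable_one_div_Gamma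
  refine ((((h1 _).comp w (by fun_prop : DifferentiableAt ℂ (fun w => w + s) w)).mul
    (differentiableAt_id.const_cpow (Or.inl (ofReal_ne_zero.2 hY.ne')))).mul hL).mul
    (by fun_prop) |>.mul
    ((((h2 _).comp w (by fun_prop : DifferentiableAt ℂ (fun w => w + 1 / 3) w)).mul
    ((h2 _).comp w (by fun_prop : DifferentiableAt ℂ (fun w => w + 2 / 3) w))).pow r)

theorem FF_le (r : ℕ) (c : ℂ) {L : ℂ → ℂ} {Y K C : ℝ} (hY : 0 < Y) (s : ℂ)
    (hG : ∀ z : ℂ, -2 ≤ z.re → z.re ≤ 4 → ‖(Gamma z)⁻¹‖ ≤ C * Real.exp (4 * |z.im|))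
    {w : ℂ} (h1 : -2 ≤ w.re) (h2 : w.re ≤ 3) (hL : ‖L w‖ ≤ K) :
    ‖FF r c L Y s w‖ ≤ Real.sqrt Real.pi *
      Real.exp ((3 + |s.re|) ^ 2 / 4 + 2 * (|s.im| / 2 + 8 * r + 1) ^ 2) *
      (Y ^ (-2 : ℝ) + Y ^ (3 : ℝ)) * K * ‖c⁻¹‖ * (C * C) ^ r * Real.exp (-1 * |w.im|) := by
  have g1 := hG (w + 1 / 3) (by norm_num; linarith) (by norm_num; linarith)
  have g2 := hG (w + 2 / 3) (by norm_num; linarith) (by norm_num; linarith)
  have hC : 0 ≤ C := (mul_nonneg_iff_of_pos_right (Real.exp_pos _)).1 ((norm_nonneg _).trans g1)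
  have hK : 0 ≤ K := (norm_nonneg _).trans hL
  have hr := Nat.cast_nonneg (α := ℝ) r
  rw [show (w + 1 / 3).im = w.im by norm_num] at g1
  rw [show (w + 2 / 3).im = w.im by norm_num] at g2
  have g3 : ‖(Y : ℂ) ^ w‖ ≤ Y ^ (-2 : ℝ) + Y ^ (3 : ℝ) := by
    rw [Complex.norm_cpow_eq_rpow_re_of_pos hY]
    exact R17.MelN2.rpow_le_add hY h1 h2
  have g4 : ‖Wm (w + s)‖ ≤ Real.sqrt Real.pi *
      Real.exp ((3 + |s.re|) ^ 2 / 4 + 2 * (|s.im| / 2 + 8 * r + 1) ^ 2 +
        (-(8 * r + 1) * |w.im| - w.im ^ 2 / 8)) := by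
    rw [norm_Wm, add_re, add_im]
    refine mul_le_mul_of_nonneg_left (Real.exp_le_exp.2 ?_) (Real.sqrt_nonneg _)
    have e1 : (w.re + s.re) ^ 2 ≤ (3 + |s.re|) ^ 2 :=
      sq_le_sq' (by linarith [neg_abs_le s.re]) (by linarith [le_abs_self s.re])
    have e2 : -(w.im * s.im) ≤ |w.im| * |s.im| := by
      rw [← abs_mul]
      exact neg_le_abs _
    nlinarith [sq_nonneg (|w.im| - 4 * (|s.im| / 2 + 8 * r + 1)), sq_abs w.im, sq_nonneg s.im]
  have g5 : ‖c⁻¹ * Complex.exp (-((w - 1 / 2) ^ 2 / 8))‖ ≤ ‖c⁻¹‖ * Real.exp (w.im ^ 2 / 8) := by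
    rw [norm_mul, Complex.norm_exp]
    refine mul_le_mul_of_nonneg_left (Real.exp_le_exp.2 ?_) (norm_nonneg _)
    have : (-((w - 1 / 2) ^ 2 / 8)).re = (w.im ^ 2 - (w.re - 1 / 2) ^ 2) / 8 := by
      simp [sq]
      ring
    rw [this]
    nlinarith [sq_nonneg (w.re - 1 / 2)]
  have g6 : ‖((Gamma (w + 1 / 3))⁻¹ * (Gamma (w + 2 / 3))⁻¹) ^ r‖ ≤
      (C * C) ^ r * Real.exp (r * (8 * |w.im|)) := by
    rw [norm_pow, norm_mul, Real.exp_nat_mul, ← mul_pow]
    refine pow_le_pow_left₀ (by positivity) ((mul_le_mul g1 g2 (norm_nonneg _)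
      (by positivity)).trans (le_of_eq ?_)) r
    rw [show 8 * |w.im| = 4 * |w.im| + 4 * |w.im| by ring, Real.exp_add]
    ring
  rw [FF, norm_mul, norm_mul, norm_mul, norm_mul]
  refine (mul_le_mul (mul_le_mul (mul_le_mul (mul_le_mul g4 g3 (norm_nonneg _) (by positivity)) hL
    (norm_nonneg _) (by positivity)) g5 (norm_nonneg _) (by positivity)) g6 (norm_nonneg _)
    (by positivity)).trans (le_of_eq ?_)
  rw [show -1 * |w.im| = (-(8 * r + 1) * |w.im| - w.im ^ 2 / 8) + w.im ^ 2 / 8 +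
    r * (8 * |w.im|) by ring]
  simp only [Real.exp_add]
  ring

theorem transfer [Countable ι] (r : ℕ) (h : Cnt P N C₀) (ha : PB P N a Ha 1) (hb : PB P N b Hb 1)
    (hU : UOK U) {c : ℂ} (hc : c ≠ 0) (hM : ∀ s : ℂ, 0 < s.re → mellin U s =
      c * Complex.exp ((s - 1 / 2) ^ 2 / 8) * (Gamma (s + 1 / 3) * Gamma (s + 2 / 3)) ^ r)
    (hA : 0 < A) (hB : 0 < B) {ω : ℂ}
    (hfe : ∀ x : ℝ, 0 < x → fS U N a A x = ω * (x : ℂ)⁻¹ * fS U N b B x⁻¹) {X : ℝ} (hX : 0 < X)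
    (s : ℂ) : Sm N a X s = ω * ((A * X : ℝ) : ℂ) * ∑' n, b n * Vq r (A * B * X * N n) s := by
  obtain ⟨C, -, hG⟩ := norm_inv_Gamma_le (-2) 4
  obtain ⟨C1, h1⟩ := norm_fS_le h ha hU hA (k := 4) (by norm_num)
  obtain ⟨C2, h2⟩ := norm_fS_le h hb hU hB (k := 4) (by norm_num)
  obtain ⟨K, hL⟩ := R17.MelN2.mellin_strip (continuousOn_fS h ha hU hA) h1 (C' := ‖ω‖ * C2)
    fun x hx => by
      rw [hfe x hx, norm_mul, norm_mul, norm_inv, Complex.norm_real, Real.norm_of_nonneg hx.le]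
      refine (mul_le_mul_of_nonneg_left (h2 _ (inv_pos.2 hx)) (by positivity)).trans (le_of_eq ?_)
      rw [Real.inv_rpow hx.le, Real.rpow_neg hx.le, inv_inv, show (4 : ℝ) = 3 + 1 by norm_num,
        Real.rpow_add hx, Real.rpow_one]
      field_simp
  have hY := mul_pos hA hX
  have hA' : (A : ℂ) ≠ 0 := ofReal_ne_zero.2 hA.ne'
  have h3 := integral_vertical_shift (F := FF r c (mellin (fS U N a A)) (A * X) s) (a := -2)
    (b := 3) (by norm_num)
    (fun w hw => (FF_diff r c hY s (hL w hw.1 hw.2).1).differentiableWithinAt) one_pos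
    fun w hw hw' => FF_le r c hY s hG hw hw' (hL w hw hw').2
  have h4 : ∀ u : ℝ, Wm ((3 : ℝ) + u * I + s) * (X : ℂ) ^ (((3 : ℝ) : ℂ) + u * I) *
      dD N a ((3 : ℝ) + u * I) = FF r c (mellin (fS U N a A)) (A * X) s ((3 : ℝ) + u * I) := by
    intro u
    have e : (((3 : ℝ) : ℂ) + u * I).re = 3 := by simp
    generalize ((3 : ℝ) : ℂ) + u * I = w at e
    have g1 : Gamma (w + 1 / 3) ≠ 0 := Gamma_ne_zero_of_re_pos (by norm_num [e])
    have g2 : Gamma (w + 2 / 3) ≠ 0 := Gamma_ne_zero_of_re_pos (by norm_num [e])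
    have g3 : (A : ℂ) ^ w ≠ 0 := fun h => hA' ((cpow_eq_zero_iff _ _).1 h).1
    have g4 := Complex.exp_ne_zero ((w - 1 / 2) ^ 2 / 8)
    rw [FF, mellin_fS h ha hU hA (by rw [e]; norm_num), hM w (by rw [e]; norm_num), ofReal_mul,
      mul_cpow_ofReal_nonneg hA.le hX.le, cpow_neg, Complex.exp_neg, ← mul_inv (Gamma _), inv_pow]
    have g5 := pow_ne_zero r (mul_ne_zero g1 g2)
    generalize (Gamma (w + 1 / 3) * Gamma (w + 2 / 3)) ^ r = G1 at g5 ⊢
    generalize Complex.exp ((w - 1 / 2) ^ 2 / 8) = G2 at g4 ⊢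
    field_simp
  have h5 : ∀ u : ℝ, (1 / (2 * Real.pi) : ℂ) *
      FF r c (mellin (fS U N a A)) (A * X) s ((-2 : ℝ) + (-u : ℝ) * I) = ω * ((A * X : ℝ) : ℂ) *
        (Kq r (3 + u * I) s * (((A * B * X : ℝ) : ℂ) ^ (-(3 + (u : ℂ) * I)) *
          dD N b (3 + u * I))) := by
    intro u
    have e : ((3 : ℂ) + u * I).re = 3 := by simp
    rw [show (((-2 : ℝ) : ℂ) + (-u : ℝ) * I) = 1 - (3 + u * I) by push_cast; ring]
    generalize (3 : ℂ) + u * I = t at e
    have g4 := Complex.exp_ne_zero ((t - 1 / 2) ^ 2 / 8)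
    rw [FF, R17.MelN2.mellin_refl hfe, sub_sub_cancel, mellin_fS h hb hU hB (by rw [e]; norm_num),
      hM t (by rw [e]; norm_num), Kq, gF,
      show A * B * X = A * X * B by ring, ofReal_mul (A * X), mul_cpow_ofReal_nonneg hY.le hB.le,
      show (1 - t - 1 / 2) ^ 2 = (t - 1 / 2) ^ 2 by ring, Complex.exp_neg,
      sub_eq_add_neg 1 t, cpow_add _ _ (ofReal_ne_zero.2 hY.ne'), cpow_one,
      show 1 + -t + 1 / 3 = 4 / 3 - t by ring, show 1 + -t + 2 / 3 = 5 / 3 - t by ring,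
      add_comm t, add_comm t, div_eq_mul_inv (Gamma _ * Gamma _), mul_inv, mul_pow (Gamma _ * _)]
    generalize Complex.exp ((t - 1 / 2) ^ 2 / 8) = G2 at g4 ⊢
    generalize (Gamma (1 / 3 + t) * Gamma (2 / 3 + t)) ^ r = G1
    generalize ((Gamma (4 / 3 - t))⁻¹ * (Gamma (5 / 3 - t))⁻¹) ^ r = G3
    field_simp
  rw [Sm_eq_integral h ha hX (σ := 3) (by norm_num), tsum_kernel (kernelOK_Kq r) h hb
    (by positivity), ← integral_const_mul ((ω * ((A * X : ℝ) : ℂ)))]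
  simp only [← h5]
  rw [integral_const_mul, integral_neg_eq_self
    (fun u : ℝ => FF r c (mellin (fS U N a A)) (A * X) s ((-2 : ℝ) + u * I)), h3]
  simp only [← h4]
  rfl

theorem transfer' [Countable ι] (r : ℕ) (h : Cnt P N C₀) (ha : PB P N a Ha 1) (hb : PB P N b Hb 1)
    {T : ℝ → ℝ} (hT : Continuous T) (hT' : ∀ k : ℝ, 0 < k → ∃ C, ∀ x, |T x| ≤ C * Real.exp (-k * x))
    {c : ℂ} (hc : c ≠ 0) (hM : ∀ s : ℂ, 0 < s.re → ∫ x : ℝ, (T x : ℂ) * Complex.exp (s * x) =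
      c * Complex.exp ((s - 1 / 2) ^ 2 / 8) * (Gamma (s + 1 / 3) * Gamma (s + 2 / 3)) ^ r)
    (hA : 0 < A) (hB : 0 < B) {ω : ℂ}
    (hfe : ∀ x : ℝ, ∑' i, a i * (T (Real.log (A * N i) + x) : ℂ) =
      ω * (Real.exp (-x) : ℂ) * ∑' i, b i * (T (Real.log (B * N i) - x) : ℂ))
    {X : ℝ} (hX : 0 < X) (s : ℂ) :
    Sm N a X s = ω * ((A * X : ℝ) : ℂ) * ∑' n, b n * Vq r (A * B * X * N n) s := by
  refine transfer (U := fun y => (T (Real.log y) : ℂ)) r h ha hb ⟨?_, fun k hk => ?_⟩ hc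
    (fun s hs => ?_) hA hB (fun x hx => ?_) hX s
  · exact (continuous_ofReal.comp hT).comp_continuousOn
      (Real.continuousOn_log.mono fun x hx => (ne_of_gt hx : x ≠ 0))
  · obtain ⟨C, hC⟩ := hT' k hk
    refine ⟨|C|, abs_nonneg _, fun y hy => ?_⟩
    rw [Complex.norm_real, Real.norm_eq_abs, Real.rpow_def_of_pos hy, mul_comm (Real.log y)]
    exact (hC _).trans (mul_le_mul_of_nonneg_right (le_abs_self C) (Real.exp_pos _).le)
  · rw [mellin_eq_exp, ← hM s hs]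
    simp only [Real.log_exp]
  · have h1 := hfe (Real.log x)
    rw [Real.exp_neg, Real.exp_log hx, ofReal_inv] at h1
    have h2 : fS (fun y => (T (Real.log y) : ℂ)) N a A x =
        ∑' i, a i * (T (Real.log (A * N i) + Real.log x) : ℂ) := tsum_congr fun i => by
      by_cases h0 : a i = 0
      · simp [h0]
      simp only
      rw [Real.log_mul (mul_pos hA (N_pos h ha h0)).ne' hx.ne']
    have h3 : fS (fun y => (T (Real.log y) : ℂ)) N b B x⁻¹ =
        ∑' i, b i * (T (Real.log (B * N i) - Real.log x) : ℂ) := tsum_congr fun i => by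
      by_cases h0 : b i = 0
      · simp [h0]
      simp only
      rw [Real.log_mul (mul_pos hB (N_pos h hb h0)).ne' (inv_pos.2 hx).ne', Real.log_inv,
        sub_eq_add_neg]
    rw [h2, h3, h1]

end Sums

/-! ## The Voronoi transfer -/

section Vor

open NumberField

variable {E : Type} [Field E] [NumberField E] [Fr E]

theorem cnt_Fd {j : ℕ} (hj : 1 ≤ j) {D : E} (hD : D ≠ 0) : ∃ C : ℝ,
    Cnt (fun ν : E => Fd j ν ∧ IsIntegral ℤ (D * ν)) (fun ν => nr D * nr ν) C := by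
  classical
  obtain ⟨C₀, hC₀⟩ := exists_balanced (E := E) (N := mm E ^ j) (pow_ne_zero _ Fr.m_ne)
  obtain ⟨C₁, hC₁, h₁⟩ := card_box_le (E := E)
  have hD' := nr_pos hD
  refine ⟨C₁ * Real.exp (rk E * C₀), fun ν hν => ?_, fun X S hX hS => ?_⟩
  · exact (one_le_nr (mul_ne_zero hD hν.1.1) hν.2).trans_eq (nr_mul _ _)
  rcases hX.eq_or_lt with rfl | hX
  · rw [Finset.eq_empty_of_forall_notMem (s := S) fun k hk => ?_]
    · simp
    · exact absurd (hS k hk).2 (not_le.2 (mul_pos hD' (nr_pos (hS k hk).1.1.1)))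
  choose v hv hv' using hC₀
  have hV : ∀ η, V j ((v η : 𝓞 E) : E) := fun η => (V_iff hj).2 ⟨v η, rfl, hv η⟩
  set φ : E → E := fun k => ((v (lg k) : 𝓞 E) : E) * k with hφ
  have hinj : Set.InjOn φ S := by
    intro k hk l hl hkl
    have h4 := (hV (lg k)).ne_zero hj
    refine Fd.eq hj (hS l hl).1.1 (hS k hk).1.1 ((hV (lg l)).mul ((hV (lg k)).inv hj)) ?_
    simp only [hφ] at hkl
    refine mul_left_cancel₀ h4 ?_
    rw [hkl]
    field_simp
  have hr : (0 : ℝ) < rk E := Nat.cast_pos.2 rk_pos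
  have h5 := h₁ D (fun _ => Real.log (X / nr D) / rk E + C₀) (S.image φ) hD
    fun x hx => by
      obtain ⟨k, hk, rfl⟩ := Finset.mem_image.1 hx
      have hk0 : k ≠ 0 := (hS k hk).1.1.1
      have hv0 := (hV (lg k)).ne_zero hj
      refine ⟨mul_ne_zero hv0 hk0, ?_, fun σ => ?_⟩
      · simp only [hφ]
        rw [mul_left_comm]
        exact (RingOfIntegers.isIntegral_coe _).mul (hS k hk).1.2
      · have h6 := (abs_le.1 (hv' (lg k) σ)).2
        rw [sum_lg hk0] at h6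
        have h7 : nr k ≤ X / nr D := by
          rw [le_div_iff₀' hD']
          exact (hS k hk).2
        have h12 : Real.log (nr k) / rk E ≤ Real.log (X / nr D) / rk E :=
          div_le_div_of_nonneg_right (Real.log_le_log (nr_pos hk0) h7) hr.le
        simp only [hφ]
        rw [lg_mul hv0 hk0, Pi.add_apply]
        linarith
  rw [Finset.card_image_of_injOn hinj, Finset.sum_const, Finset.card_univ,
    nsmul_eq_mul, mul_add, mul_div_cancel₀ _ hr.ne', Real.exp_add,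
    Real.exp_log (by positivity)] at h5
  exact h5.trans_eq (by field_simp)

open Classical in
theorem pb_Fd {j : ℕ} {a : E → ℂ} {D D' : ℕ} {H : ℝ} (hD : D ≠ 0) (hD' : D' ≠ 0)
    (ha : ∀ ν, a ν ≠ 0 → ν ≠ 0 ∧ IsIntegral ℤ ((D : E) * ν) ∧ ‖a ν‖ ≤ H * nr ν) {D'' : E}
    (h : D'' = D' * D) :
    PB (fun ν : E => Fd j ν ∧ IsIntegral ℤ (D'' * ν)) (fun ν => nr D'' * nr ν)
      (fun ν => if Fd j ν then a ν else 0) |H| 1 := by
  have hint : ∀ n : ℕ, IsIntegral ℤ (n : E) := fun n => by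
    exact_mod_cast isIntegral_algebraMap (x := (n : ℤ))
  have h1 : 1 ≤ nr D'' := by
    rw [h]
    exact one_le_nr (mul_ne_zero (Nat.cast_ne_zero.2 hD') (Nat.cast_ne_zero.2 hD))
      ((hint _).mul (hint _))
  refine ⟨abs_nonneg _, fun ν hν => ?_, fun ν hν => ?_⟩
  · by_contra h0
    have h2 : Fd j ν := by
      by_contra h2
      exact h0 (if_neg h2)
    simp only [if_pos h2] at h0
    refine hν ⟨h2, ?_⟩
    rw [h, mul_assoc]
    exact (hint _).mul (ha ν h0).2.1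
  · have h2 := nr_nonneg ν
    simp only [if_pos hν.1, Real.rpow_one]
    by_cases h0 : a ν = 0
    · rw [h0, norm_zero]
      positivity
    · exact (ha ν h0).2.2.trans (mul_le_mul (le_abs_self H) (le_mul_of_one_le_left h2 h1) h2
        (abs_nonneg _))

theorem mellin_F {c : ℝ} (hc : 0 < c) {s : ℂ} (hs : 0 < s.re) :
    ∫ v : ℝ, (U1 (c * Real.exp v) : ℂ) * Complex.exp (s * v) =
      (c : ℂ) ^ (-s) * (Gamma (s + 1 / 3) * Gamma (s + 2 / 3)) := by
  rw [← (R17.MelN2.mellin_U (s := s) (by linarith)).2, ← smul_eq_mul,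
    ← mellin_comp_mul_left _ s hc, mellin_eq_exp]

theorem mellin_T {c : ℝ} (hc : 0 < c) {s : ℂ} (hs : 0 < s.re) :
    ∫ x : ℝ, (tav E (fun v => U1 (c * Real.exp v)) (x - rk E * Real.log c) : ℂ) *
      Complex.exp (s * x) = (Real.sqrt (Real.pi / 2) : ℂ) * Complex.exp ((s - 1 / 2) ^ 2 / 8) *
        (Gamma (s + 1 / 3) * Gamma (s + 2 / 3)) ^ rk E := by
  have h1 := ((kerOK_U1 hc).mellin_tav (E := E) hs).2
  rw [mellin_F hc hs] at h1
  rw [← integral_add_right_eq_self _ (rk E * Real.log c)]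
  simp only [add_sub_cancel_right, ofReal_add, mul_add, Complex.exp_add, ← mul_assoc]
  rw [integral_mul_const, h1, mul_pow, cpow_def_of_ne_zero (ofReal_ne_zero.2 hc.ne'),
    ← ofReal_log hc.le, ← Complex.exp_nat_mul]
  have h2 : Complex.exp (rk E * ((Real.log c : ℂ) * -s)) *
      Complex.exp (s * ((rk E * Real.log c : ℝ) : ℂ)) = 1 := by
    rw [← Complex.exp_add, ← Complex.exp_zero]
    congr 1
    push_cast
    ring
  linear_combination (Real.sqrt (Real.pi / 2) : ℂ) * Complex.exp ((s - 1 / 2) ^ 2 / 8) *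
    (Gamma (s + 1 / 3) * Gamma (s + 2 / 3)) ^ rk E * h2

open Classical in
theorem vt {j : ℕ} (hj : 1 ≤ j) {a b : E → ℂ} {Da Db : ℕ} {Ha Hb : ℝ} (hDa : Da ≠ 0) (hDb : Db ≠ 0)
    (ha : ∀ ν, a ν ≠ 0 → ν ≠ 0 ∧ IsIntegral ℤ ((Da : E) * ν) ∧ ‖a ν‖ ≤ Ha * nr ν)
    (hb : ∀ ν, b ν ≠ 0 → ν ≠ 0 ∧ IsIntegral ℤ ((Db : E) * ν) ∧ ‖b ν‖ ≤ Hb * nr ν)
    (ha' : Inv j a) (hb' : Inv j b) {ω : ℂ} {γ : Pl E → ℝ} {c : ℝ} (hc : 0 < c)
    (h : ∀ η : Pl E → ℝ,
      ∑' ν, a ν * ((∏ σ, U1 (c * Real.exp (lg ν σ + η σ)) : ℝ) : ℂ) =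
        ω * (Real.exp (-∑ σ, η σ) : ℂ) *
          ∑' ν, b ν * ((∏ σ, U1 (c * Real.exp (lg ν σ - η σ + γ σ)) : ℝ) : ℂ))
    {X : ℝ} (hX : 0 < X) (s : ℂ) :
    ∑' ν, (if Fd j ν then a ν * Wc (nr ν / X) s else 0) =
      ω * ((c ^ rk E * X : ℝ) : ℂ) * ∑' ν, if Fd j ν then
        b ν * Vq (rk E) (c ^ (2 * rk E) * Real.exp (∑ σ, γ σ) * X * nr ν) s else 0 := by
  obtain ⟨κ, -, hTA⟩ := TA (E := E) hj
  have hF := kerOK_U1 hc
  have h1 := hTA (fun v => U1 (c * Real.exp v)) a b 0 0 ω γ hF ha' hb'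
    ⟨Da, Ha, 1, hDa, zero_le_one, fun ν hν => by simpa only [Real.rpow_one] using ha ν hν⟩
    ⟨Db, Hb, 1, hDb, zero_le_one, fun ν hν => by simpa only [Real.rpow_one] using hb ν hν⟩
    fun η => by simpa only [zero_add] using h η
  simp only [mul_zero, zero_add] at h1
  set D : E := (Da : E) * Db with hDdef
  have hD : D ≠ 0 := mul_ne_zero (Nat.cast_ne_zero.2 hDa) (Nat.cast_ne_zero.2 hDb)
  have hD' := nr_pos hD
  obtain ⟨C, hC⟩ := cnt_Fd hj hD
  have h2 := transfer' (A := c ^ rk E / nr D) (B := c ^ rk E * Real.exp (∑ σ, γ σ) / nr D)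
    (rk E) hC (pb_Fd hDa hDb ha (mul_comm _ _)) (pb_Fd hDb hDa hb rfl)
    (T := fun x => tav E (fun v => U1 (c * Real.exp v)) (x - rk E * Real.log c))
    (hF.continuous_tav.comp (by fun_prop)) (fun k hk => ?_)
    (c := (Real.sqrt (Real.pi / 2) : ℂ))
    (ofReal_ne_zero.2 (Real.sqrt_pos.2 (by positivity)).ne') (fun s hs => mellin_T hc hs)
    (by positivity) (by positivity) (ω := ω) (fun x => ?_) (X := X * nr D) (by positivity) s
  · have e1 : c ^ rk E / nr D * (X * nr D) = c ^ rk E * X := by field_simp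
    have e2 : ∀ ν : E, nr D * nr ν / (X * nr D) = nr ν / X := fun ν => by field_simp
    have e3 : ∀ ν : E, c ^ rk E / nr D * (c ^ rk E * Real.exp (∑ σ, γ σ) / nr D) * (X * nr D) *
        (nr D * nr ν) = c ^ (2 * rk E) * Real.exp (∑ σ, γ σ) * X * nr ν := fun ν => by
      field_simp
      ring
    simpa only [Sm, e1, e2, e3, ite_mul, zero_mul] using h2
  · obtain ⟨C', hC'⟩ := hF.tav_le (E := E) hk
    refine ⟨C' * Real.exp (k * (rk E * Real.log c)), fun x => (hC' _).trans_eq ?_⟩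
    rw [mul_assoc, ← Real.exp_add]
    congr 2
    ring
  · simp only [ite_mul, zero_mul]
    have e1 : ∀ ν : E, ν ≠ 0 → Real.log (c ^ rk E / nr D * (nr D * nr ν)) + x -
        rk E * Real.log c = Real.log (nr ν) + x := fun ν hν => by
      rw [show c ^ rk E / nr D * (nr D * nr ν) = c ^ rk E * nr ν by field_simp,
        Real.log_mul (by positivity) (nr_pos hν).ne', Real.log_pow]
      ring
    have e2 : ∀ ν : E, ν ≠ 0 → Real.log (c ^ rk E * Real.exp (∑ σ, γ σ) / nr D * (nr D * nr ν)) - x -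
        rk E * Real.log c = Real.log (nr ν) + ∑ σ, γ σ - x := fun ν hν => by
      rw [show c ^ rk E * Real.exp (∑ σ, γ σ) / nr D * (nr D * nr ν) =
        c ^ rk E * Real.exp (∑ σ, γ σ) * nr ν by field_simp,
        Real.log_mul (by positivity) (nr_pos hν).ne', Real.log_mul (by positivity) (by positivity),
        Real.log_pow, Real.log_exp]
      ring
    refine Eq.trans (tsum_congr fun ν => ?_) ((h1 x).trans ?_)
    · split_ifs with hν
      · rw [e1 ν hν.1]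
      · rfl
    · congr 1
      refine tsum_congr fun ν => ?_
      split_ifs with hν
      · rw [e2 ν hν.1]
      · rfl

end Vor

end Crest.Agent.R312.PPB
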