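import Crest.Agent.R312.Tav
import Crest.Agent.R312.Pois
import Crest.Agent.R312.Count
import Crest.Agent.R312.Wt
import Crest.Agent.R312.PPAuxA
import Crest.Agent.R17.ReflMel
import Crest.Agent.R312.PPAuxB

/-!
# Row 312: one-dimensional Poisson and Voronoi formulas
-/

set_option autoImplicit false

noncomputable section

namespace Crest.Agent.R312

open NumberField
open scoped ComplexConjugate

open MeasureTheory
open Crest.Agent.R17 (Wc Wm U1 gamF KernelOK)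

variable {E : Type} [Field E] [NumberField E] [Fr E]

/-- `|disc E|`. -/
abbrev dE (E : Type) [Field E] [NumberField E] : ℝ := |(discr E : ℝ)|

theorem one_le_dE : 1 ≤ dE E := PPA.one_le_dE

/-! ## part A: Poisson summation on the lattices `R ∩ t OS` modulo units -/

/-- `PS` for the indicator function of `𝓞` and `tendsto_gz` for its dual `R ∩ δ⁻¹ OS`. -/
theorem absS_dS : absS (dS E) = (dE E)⁻¹ := PPA.absS_dS

theorem cnt_Cls {j : ℕ} (hj : 1 ≤ j) : ∃ C : ℝ, 0 < C ∧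
    ∀ t : E, Cnt (Cls j t) (fun n : R E => nf (n : E)) C := PPA.cnt_Cls hj
theorem cnt_Lat {j : ℕ} (hj : 1 ≤ j) : ∃ C : ℝ, 0 < C ∧
    ∀ t : E, t ≠ 0 → Cnt (Lat j t) (szl t) C := PPA.cnt_Lat hj
theorem cnt_Nm : ∃ C : ℝ, 0 < C ∧ Cnt Nm (fun n : R E => nf (n : E)) C := PPA.cnt_Nm
theorem Lat_congr {j : ℕ} {t t' : E} (ht : t ≠ 0) (ht' : t' ≠ 0) (h : t / t' ∈ OS E)
    (h' : t' / t ∈ OS E) : Lat j t = Lat j t' ∧ szl t = szl t' := PPA.Lat_congr ht ht' h h'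
theorem Ty.Lat_eq {i j : ℕ} (hi : 1 ≤ i) {t t' : E} (h : Ty i t t') :
    Lat j t = Lat j t' ∧ szl t = szl t' :=   Lat_congr (h.ne_zero hi).1 (h.ne_zero hi).2 (h.symm hi).div_mem_OS h.div_mem_OS
theorem szl_mul {t : E} (ht : t ≠ 0) {g : R E} (hg : g ≠ 0) (k : R E) :
    szl t (g * k) = nf (g : E) * szl (t / g) k := PPA.szl_mul ht hg k
theorem InvR.ft {j : ℕ} (hj : 1 ≤ j) {c : R E} (hc : c ≠ 0) {f : R E → ℂ}
    (hf : ∀ x y, c ∣ x - y → f x = f y) (h : InvR j f) : InvR j (ft c f) := PPA.invR_ft hj hc hf h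

open Classical in
theorem summable_Gw {j : ℕ} (hj : 1 ≤ j) {t : E} (ht : t ≠ 0) {f : R E → ℂ} {H : ℝ}
    (hf : ∀ k, ‖f k‖ ≤ H) {X : ℝ} (hX : 0 < X) :
    Summable fun k : R E => ‖if Lat j t k then f k * (Gw E (szl t k / X) : ℂ) else 0‖ :=   PPA.summable_Gw hj ht hf hX

open Classical in
/-- **Poisson summation modulo units** (`PS` with `φ = 1_{R ∩ t OS} f`, `Mn_crt`, `IS_lat_eS`,
the frequencies are `ν = k / c`; then `TA` with `γ = -lg c`, `e^x = absS t / X`). -/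
theorem PP1 {j : ℕ} (hj : 1 ≤ j) : ∃ κ : ℝ, 0 < κ ∧
    ∀ (t : E) (c : R E) (f : R E → ℂ) (X : ℝ), t ≠ 0 → c ≠ 0 →
      (∀ x y, c ∣ x - y → f x = f y) → InvR j f → 0 < X →
      κ * f 0 + ∑' k : R E, (if Lat j t k then f k * (Gw E (szl t k / X) : ℂ) else 0) =
        ((X / (Real.sqrt (dE E) * nf (c : E)) : ℝ) : ℂ) * (κ * ft c f 0 +
          ∑' k : R E, if Lat j (c / (t * dS E)) k then
            ft c f k * (Gw E (X * szl (c / (t * dS E)) k / (dE E * nf (c : E))) : ℂ) else 0) :=   PPA.PP1 hj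

open Classical in
/-- Size and tails of the sums of `Gw`. -/
theorem tsum_Gw_le {j : ℕ} (hj : 1 ≤ j) (A : ℝ) : ∃ C : ℝ, 0 < C ∧
    ∀ (t : E) (X : ℝ), t ≠ 0 → 0 < X →
      ∑' k : R E, (if Lat j t k then Gw E (szl t k / X) else 0) ≤ C * min X (X ^ (1 + |A|)) :=   PPA.tsum_Gw_le hj A
open Classical in
theorem tsum_Gw_tail {j : ℕ} (hj : 1 ≤ j) (A : ℝ) : ∃ C : ℝ, 0 < C ∧
    ∀ (t : E) (X L : ℝ), t ≠ 0 → 0 < X → 1 ≤ L →
      ∑' k : R E, (if Lat j t k ∧ X * L ≤ szl t k then Gw E (szl t k / X) else 0) ≤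
        C * X * L ^ (-A) := PPA.tsum_Gw_tail hj A

/-! ## part B: Mellin transfer (port of `R17/ReflMel*.lean`) -/

/-- The density of the reflected kernel. -/
def KrR (r : ℕ) (t s : ℂ) : ℂ := (1 / (2 * Real.pi) : ℂ) * Wm (1 - t + s) * gamF t ^ r

/-- The reflected kernel. -/
def VrR (r : ℕ) (x : ℝ) (s : ℂ) : ℂ :=
  ∫ u : ℝ, KrR r (u * Complex.I) s * (x : ℂ) ^ (-((u : ℂ) * Complex.I))

theorem kernelOK_KrR (r : ℕ) : KernelOK (KrR r) (VrR r) := PPB.kernelOK_Kq r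

/-- Abstract Mellin transfer: `T` is a kernel with the Mellin transform
`G(s) (Γ(s + 1/3) Γ(s + 2/3))^r`, `G(s) = c exp((s - 1/2)²/8) = G(1 - s)`.  The function
`f(x) = ∑ a T(N x)` decays rapidly at `∞` and (by the functional equation) at `0`, so that its
Mellin transform `L` is entire and bounded in strips.  Dividing by `G` costs `exp(u²/8)`, which
`Wm` (decay `exp(-u²/4)`) absorbs. -/
theorem mellin_transfer (r : ℕ) {ι : Type} [Countable ι] {P : ι → Prop} {N : ι → ℝ} {C : ℝ}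
    (h : Cnt P N C) {a b : ι → ℂ} {Ha Hb : ℝ} (ha : PB P N a Ha 1) (hb : PB P N b Hb 1)
    {T : ℝ → ℝ} (hT : Continuous T) (hT' : ∀ k : ℝ, 0 < k → ∃ C, ∀ x, |T x| ≤ C * Real.exp (-k * x))
    {c : ℂ} (hc : c ≠ 0) (hM : ∀ s : ℂ, 0 < s.re → ∫ x : ℝ, (T x : ℂ) * Complex.exp (s * x) =
      c * Complex.exp ((s - 1 / 2) ^ 2 / 8) *
        (Complex.Gamma (s + 1 / 3) * Complex.Gamma (s + 2 / 3)) ^ r)
    {A B : ℝ} (hA : 0 < A) (hB : 0 < B) {ω : ℂ}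
    (hfe : ∀ x : ℝ, ∑' i, a i * (T (Real.log (A * N i) + x) : ℂ) =
      ω * (Real.exp (-x) : ℂ) * ∑' i, b i * (T (Real.log (B * N i) - x) : ℂ))
    {X : ℝ} (hX : 0 < X) (s : ℂ) :
    ∑' i, a i * Wc (N i / X) s = ω * ((A * X : ℝ) : ℂ) * ∑' i, b i * VrR r (A * B * X * N i) s :=
  PPB.transfer' r h ha hb hT hT' hc hM hA hB hfe hX s

/-- Coefficients of size `O(nr)` on a lattice. -/
def LatB1 (a : E → ℂ) : Prop := ∃ (D : ℕ) (H : ℝ), D ≠ 0 ∧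
  ∀ ν, a ν ≠ 0 → ν ≠ 0 ∧ IsIntegral ℤ ((D : E) * ν) ∧ ‖a ν‖ ≤ H * nr ν

open Classical in
/-- **Voronoi transfer**: `TA` with `F v = U1 (4π² e^v)`, then `mellin_transfer` with
`T x = tav F (x - r log (4π²))`, `P ν = Fd j ν ∧ D ν ∈ 𝓞`, `N = nr D · nr`. -/
theorem VT {j : ℕ} (hj : 1 ≤ j) {a b : E → ℂ} (ha : LatB1 a) (hb : LatB1 b) (ha' : Inv j a)
    (hb' : Inv j b) {ω : ℂ} {γ : Pl E → ℝ}
    (h : ∀ η : Pl E → ℝ,
      ∑' ν, a ν * ((∏ σ, U1 (4 * Real.pi ^ 2 * Real.exp (lg ν σ + η σ)) : ℝ) : ℂ) =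
        ω * (Real.exp (-∑ σ, η σ) : ℂ) *
          ∑' ν, b ν * ((∏ σ, U1 (4 * Real.pi ^ 2 * Real.exp (lg ν σ - η σ + γ σ)) : ℝ) : ℂ))
    {X : ℝ} (hX : 0 < X) (s : ℂ) :
    ∑' ν, (if Fd j ν then a ν * Wc (nr ν / X) s else 0) =
      ω * (((4 * Real.pi ^ 2) ^ rk E * X : ℝ) : ℂ) * ∑' ν, if Fd j ν then
        b ν * VrR (rk E) ((4 * Real.pi ^ 2) ^ (2 * rk E) * Real.exp (∑ σ, γ σ) * X * nr ν) s
        else 0 := by
  obtain ⟨Da, Ha, hDa, ha⟩ := ha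
  obtain ⟨Db, Hb, hDb, hb⟩ := hb
  exact PPB.vt hj hDa hDb ha hb ha' hb' (by positivity) h hX s

end Crest.Agent.R312
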