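import Crest.Agent.R312.Recip
import Crest.Agent.R312.PP

/-!
# Row 312, modules DP / T1 (owner helper50): definitions and elementary facts

Rows are normalised elements (`nms A`), columns are the squarefree elements of one ray class.
One Poisson step in the rows (`P1F` for finite sums, `P1W` for smooth sums) maps the coefficients
`c` to the dual coefficients `dc c g e h`; it exchanges the Möbius sums `Mob` and the Gauss-sum sums
`Gs` (`dc_mu`, `dc_gam`).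
DO NOT change a definition of this file.
-/

set_option autoImplicit false

noncomputable section

namespace Crest.Agent.R312

open NumberField
open scoped ComplexConjugate
open Crest.Agent.R17 (Wc Wm)

variable {E : Type} [Field E] [NumberField E] [Fr E]

open Classical in
/-- Smooth sum over the squarefree elements of a ray class, in the row `a`. -/
def Sc (j : ℕ) (τ : E) (c : R E → ℂ) (a : R E) (X : ℝ) (s : ℂ) : ℂ :=
  ∑' n : R E, if Cls j τ n ∧ Squarefree n then c n * conj (sym n a) * Wc (nf (n : E) / X) s else 0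

/-- The sum with the coefficients `μ(n) conj γ₅(n)`. -/
def Gs (j : ℕ) (τ : E) (k : R E) (X : ℝ) (s : ℂ) : ℂ :=
  Sc j τ (fun n => mu n * conj (gam 5 n)) k X s

/-- Finite sum over the squarefree elements of a ray class, in the row `a`. -/
def Sr (j : ℕ) (τ : E) (L : ℝ) (β : R E → ℂ) (a : R E) : ℂ :=
  ∑ n ∈ Col j τ L, β n * conj (sym n a)

open Classical in
/-- The dual coefficients. -/
def dc (c : R E → ℂ) (g e h m : R E) : ℂ :=
  if IsCoprime m (g * h) then conj (c (g * h * m)) * conj (gam 5 (h * m)) * sym m e else 0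

open Classical in
/-- The triples `(g, e, h)`: `g` the common factor, `e ∣ g`, `h` prime to `g`. -/
def Tri (Q : ℝ) : Finset (R E × R E × R E) :=
  (sqs Q ×ˢ sqs Q ×ˢ sqs Q).filter fun i => i.2.1 ∣ i.1 ∧ IsCoprime i.2.2 i.1

/-- The length of the dual rows. -/
def Kd (Λ A D : ℝ) (i : R E × R E × R E) : ℝ := Λ * nf (i.2.1 : E) * (D / nf (i.1 : E)) ^ 2 / A

/-- The off-diagonal dual sum (finite version). -/
def ODf (j : ℕ) (τ : E) (β : R E → ℂ) (A L Q Λ : ℝ) (w : ℂ) : ℝ :=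
  ∑ i ∈ Tri Q, A / (nf (i.2.1 : E) * nf (i.2.2 : E)) * ∑ k ∈ nms (Kd Λ A L i),
    ‖Sr j (τ / (i.1 * i.2.2 : R E)) (L / (nf (i.1 : E) * nf (i.2.2 : E)))
      (fun m => dc β i.1 i.2.1 i.2.2 m * (nf (m : E) : ℂ) ^ w) k‖ ^ 2

/-- The off-diagonal dual sum (smooth version). -/
def OD (j : ℕ) (τ : E) (c : R E → ℂ) (A D Q Λ κ y : ℝ) : ℝ :=
  ∑ i ∈ Tri Q, A * nf (i.1 : E) / (nf (i.2.1 : E) * D) * ∑ k ∈ nms (Kd Λ A D i),
    ‖Sc j (τ / (i.1 * i.2.2 : R E)) (dc c i.1 i.2.1 i.2.2) k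
      (κ * D / (nf (i.1 : E) * nf (i.2.2 : E))) (y * Complex.I)‖ ^ 2

/-- The twist of the dual row after the first Poisson step. -/
def tw (i : R E × R E × R E) : R E := (i.2.1 * i.2.2 ^ 2) ^ 5 * i.1 ^ 6

/-- The maximal function over the classes and the scales `D ≤ Dm`. -/
def msup (j : ℕ) (a : R E) (Dm y : ℝ) : ℝ :=
  sSup {x | ∃ (τ : E) (D : ℝ), 0 < D ∧ D ≤ Dm ∧ x = ‖Mob j τ a D (y * Complex.I)‖ ^ 2 / D}

/-- The mean value bound for all the scales `D ≤ D₀` and rows `A ≤ Q`. -/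
def IH (E : Type) [Field E] [NumberField E] [Fr E] (j : ℕ) (Q D₀ B : ℝ) (J : ℕ) : Prop :=
  ∀ (τ : E) (A D y : ℝ), 0 ≤ A → A ≤ Q → 0 < D → D ≤ D₀ →
    ∑ a ∈ nms A, ‖Mob j τ a D (y * Complex.I)‖ ^ 2 ≤ B * (1 + |y|) ^ J * ((A + D) * D)

open Classical in
/-- The family `(g, e, h, d)` to which the second Poisson step is applied. -/
def Fam (E : Type) [Field E] [NumberField E] [Fr E] (Q Y : ℝ) :
    Finset ((R E × R E × R E) × R E) :=
  (Tri (Q ^ 2) ×ˢ nms Q).filter fun i => Y < nf (i.1.1 : E) * nf (i.1.2.2 : E) * nf (i.2 : E) ^ 3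

/-- Weight of a member of the family. -/
def wF (A D : ℝ) (i : (R E × R E × R E) × R E) : ℝ :=
  A * nf (i.1.1 : E) / (nf (i.1.2.1 : E) * D) * nf (i.2 : E) ^ 2

/-- Class of a member of the family. -/
def tFm (τ : E) (i : (R E × R E × R E) × R E) : E := τ / (i.1.1 * i.1.2.2 : R E) / (i.2 : E) ^ 3

/-- Scale of a member of the family. -/
def DF (κ D : ℝ) (i : (R E × R E × R E) × R E) : ℝ :=
  κ * D / (nf (i.1.1 : E) * nf (i.1.2.2 : E)) / nf (i.2 : E) ^ 3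

/-- The terms which are sent back by the second Poisson step. -/
def BK (j : ℕ) (τ : E) (Q A D Y Λ κ y : ℝ) : ℝ :=
  ∑ i ∈ Fam E Q Y, wF A D i * ∑ k ∈ nms (Kd Λ A D i.1),
    ‖Gs j (tFm τ i) (k * tw i.1) (DF κ D i) (y * Complex.I)‖ ^ 2

/-! ## part A: elementary facts -/

theorem mem_Tri {Q : ℝ} {i : R E × R E × R E} : i ∈ Tri Q ↔
    (i.1 ∈ sqs Q ∧ i.2.1 ∈ sqs Q ∧ i.2.2 ∈ sqs Q) ∧ i.2.1 ∣ i.1 ∧ IsCoprime i.2.2 i.1 := by
  classical
  simp only [Tri, Finset.mem_filter, Finset.mem_product]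
theorem mem_Fam {Q Y : ℝ} {i : (R E × R E × R E) × R E} : i ∈ Fam E Q Y ↔
    (i.1 ∈ Tri (Q ^ 2) ∧ i.2 ∈ nms Q) ∧
      Y < nf (i.1.1 : E) * nf (i.1.2.2 : E) * nf (i.2 : E) ^ 3 := by
  classical
  simp only [Fam, Finset.mem_filter, Finset.mem_product]
open Classical in
theorem sum_Tri {M : Type} [AddCommMonoid M] (Q : ℝ) (f : R E × R E × R E → M) :
    ∑ i ∈ Tri Q, f i =
      ∑ g ∈ sqs Q, ∑ e ∈ dvs g, ∑ h ∈ (sqs Q).filter (IsCoprime · g), f (g, e, h) := by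
  rw [Tri, Finset.sum_filter, Finset.sum_product]
  refine Finset.sum_congr rfl fun g hg => ?_
  obtain ⟨g1, g2, g3⟩ := mem_sqs.1 hg
  have e1 : dvs g = (sqs Q).filter (· ∣ g) := by
    ext e
    rw [mem_dvs g1.1, Finset.mem_filter, mem_sqs]
    exact ⟨fun h => ⟨⟨h.1, g2.squarefree_of_dvd h.2, (nf_le_of_dvd h.2 g1.1).trans g3⟩, h.2⟩,
      fun h => ⟨h.1.1, h.2⟩⟩
  rw [e1, Finset.sum_product, Finset.sum_filter]
  refine Finset.sum_congr rfl fun e _ => ?_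
  split_ifs with he
  · rw [Finset.sum_filter]
    simp only [he, true_and]
  · simp only [he, false_and, if_false, Finset.sum_const_zero]
theorem card_dvs_le_nf : ∃ C : ℝ, 0 < C ∧ ∀ n : R E, n ≠ 0 → ((dvs n).card : ℝ) ≤ C * nf (n : E) := by
  simpa only [Real.rpow_one] using card_dvs_le (E := E) one_pos
theorem ODf_nonneg (j : ℕ) (τ : E) (β : R E → ℂ) {A : ℝ} (hA : 0 ≤ A) (L Q Λ : ℝ) (w : ℂ) :
    0 ≤ ODf j τ β A L Q Λ w := by
  refine Finset.sum_nonneg fun i _ => mul_nonneg (div_nonneg hA ?_) (by positivity)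
  exact mul_nonneg (nf_nonneg _) (nf_nonneg _)
theorem OD_nonneg (j : ℕ) (τ : E) (c : R E → ℂ) {A D : ℝ} (hA : 0 ≤ A) (hD : 0 ≤ D)
    (Q Λ κ y : ℝ) : 0 ≤ OD j τ c A D Q Λ κ y := by
  refine Finset.sum_nonneg fun i _ => mul_nonneg (div_nonneg ?_ ?_) (by positivity)
  exacts [mul_nonneg hA (nf_nonneg _), mul_nonneg (nf_nonneg _) hD]
theorem BK_nonneg (j : ℕ) (τ : E) (Q : ℝ) {A D : ℝ} (hA : 0 ≤ A) (hD : 0 ≤ D) (Y Λ κ y : ℝ) :
    0 ≤ BK j τ Q A D Y Λ κ y := by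
  refine Finset.sum_nonneg fun i _ => mul_nonneg (mul_nonneg (div_nonneg ?_ ?_) (sq_nonneg _))
    (by positivity)
  exacts [mul_nonneg hA (nf_nonneg _), mul_nonneg (nf_nonneg _) hD]

theorem Mob_eq_Sc (j : ℕ) (τ : E) (a : R E) (X : ℝ) (s : ℂ) : Mob j τ a X s = Sc j τ mu a X s := by
  refine tsum_congr fun n => ?_
  by_cases h : Squarefree n
  · by_cases h' : Cls j τ n
    · rw [if_pos h', if_pos ⟨h', h⟩]
    · rw [if_neg h', if_neg fun h2 => h' h2.1]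
  · simp [h, mu_of_not h]
theorem Sc_twist (j : ℕ) (τ : E) (c : R E → ℂ) (a r : R E) (X : ℝ) (s : ℂ) :
    Sc j τ (fun n => c n * conj (sym n r)) a X s = Sc j τ c (a * r) X s := by
  refine tsum_congr fun n => ?_
  split_ifs
  · rw [sym_mul_right, map_mul]; ring
  · rfl
theorem Sc_congr_row (j : ℕ) (τ : E) (c : R E → ℂ) {a a' : R E}
    (h : ∀ n : R E, n ≠ 0 → sym n a = sym n a') (X : ℝ) (s : ℂ) :
    Sc j τ c a X s = Sc j τ c a' X s := by
  refine tsum_congr fun n => ?_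
  split_ifs with hn
  · rw [h n hn.2.ne_zero]
  · rfl
/-- Two coefficient sequences which are proportional on the class. -/
theorem norm_Sc_le_of_eq (j : ℕ) (τ : E) {c c' : R E → ℂ} {a a' : R E} {κ : ℂ} (hκ : ‖κ‖ ≤ 1)
    (h : ∀ n : R E, Ty j τ (n : E) → Squarefree n →
      c n * conj (sym n a) = κ * (c' n * conj (sym n a'))) (X : ℝ) (s : ℂ) :
    ‖Sc j τ c a X s‖ ≤ ‖Sc j τ c' a' X s‖ := by
  have e : Sc j τ c a X s = κ * Sc j τ c' a' X s := by
    rw [Sc, Sc, ← tsum_mul_left]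
    refine tsum_congr fun n => ?_
    split_ifs with hn
    · rw [h n hn.1.2 hn.2, mul_assoc]
    · rw [mul_zero]
  rw [e, norm_mul]
  exact mul_le_of_le_one_left (norm_nonneg _) hκ
open Classical in
theorem Sc_eq_Sm (j : ℕ) (τ : E) (c : R E → ℂ) (a : R E) (X : ℝ) (s : ℂ) :
    Sc j τ c a X s = Sm (fun n : R E => nf (n : E))
      (fun n => if Cls j τ n ∧ Squarefree n then c n * conj (sym n a) else 0) X s := by
  refine tsum_congr fun n => ?_
  dsimp only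
  split_ifs
  · rfl
  · rw [zero_mul]
open Classical in
theorem PB_Sc (j : ℕ) (τ : E) {c : R E → ℂ} (hc : ∀ n, Squarefree n → ‖c n‖ ≤ 1) (a : R E) :
    PB (Cls j τ) (fun n : R E => nf (n : E))
      (fun n => if Cls j τ n ∧ Squarefree n then c n * conj (sym n a) else 0) 1 0 := by
  refine ⟨zero_le_one, fun n hn => if_neg fun h => hn h.1, fun n _ => ?_⟩
  dsimp only
  rw [Real.rpow_zero, mul_one]
  split_ifs with h
  · rw [norm_mul, Complex.norm_conj]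
    exact mul_le_one₀ (hc n h.2) (norm_nonneg _) (norm_sym_le _ _)
  · simp
/-- The trivial bound (`tsum_norm_Sm_le`, `cnt_Cls`). -/
theorem norm_Sc_le {j : ℕ} (hj : 1 ≤ j) : ∃ C : ℝ, 0 < C ∧
    ∀ (τ : E) (c : R E → ℂ) (a : R E) (X : ℝ) (s : ℂ), (∀ n, Squarefree n → ‖c n‖ ≤ 1) → 0 < X →
      |s.re| ≤ 3 → ‖Sc j τ c a X s‖ ≤ C * X := by
  obtain ⟨C, -, h₁⟩ := cnt_Cls (E := E) hj
  obtain ⟨C', hC', h₂⟩ := tsum_norm_Sm_le C 0 0 3 le_rfl
  refine ⟨C', hC', fun τ c a X s hc hX hs => ?_⟩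
  have h3 := h₂ _ _ _ _ X s (h₁ τ) (PB_Sc j τ hc a) hX hs
  rw [Sc_eq_Sm]
  refine (norm_tsum_le_tsum_norm (summable_Sm (h₁ τ) (PB_Sc j τ hc a) hX s)).trans (h3.trans ?_)
  simp
theorem sum_Col_Wc_le {j : ℕ} (hj : 1 ≤ j) : ∃ C : ℝ, 0 < C ∧
    ∀ (τ : E) (X L : ℝ) (s : ℂ), 0 < X → |s.re| ≤ 3 →
      ∑ n ∈ Col j τ L, ‖Wc (nf (n : E) / X) s‖ ≤ C * X := by
  classical
  obtain ⟨C, -, h₁⟩ := cnt_Cls (E := E) hj
  obtain ⟨C', hC', h₂⟩ := tsum_norm_Sm_le C 0 0 3 le_rfl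
  refine ⟨C', hC', fun τ X L s hX hs => ?_⟩
  have hb : PB (Cls j τ) (fun n : R E => nf (n : E)) (fun n => if Cls j τ n then 1 else 0) 1 0 :=
    ⟨zero_le_one, fun n hn => if_neg hn, fun n hn => by simp [hn]⟩
  have h3 := h₂ _ _ _ _ X s (h₁ τ) hb hX hs
  have h4 := (summable_Sm (h₁ τ) hb hX s).sum_le_tsum (Col j τ L) fun _ _ => norm_nonneg _
  refine le_trans (le_of_eq (Finset.sum_congr rfl fun n hn => ?_)) (h4.trans (h3.trans ?_))
  · rw [if_pos ((mem_Col hj).1 hn).1, one_mul]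
  · simp
/-- Truncation (`tsum_norm_Sm_tail_le`). -/
theorem norm_Sc_sub_Sr_le {j : ℕ} (hj : 1 ≤ j) (B : ℝ) : ∃ C : ℝ, 0 < C ∧
    ∀ (τ : E) (c : R E → ℂ) (a : R E) (X Λ : ℝ) (s : ℂ), (∀ n, Squarefree n → ‖c n‖ ≤ 1) → 0 < X →
      1 ≤ Λ → |s.re| ≤ 3 →
      ‖Sc j τ c a X s - Sr j τ (X * Λ) (fun n => c n * Wc (nf (n : E) / X) s) a‖ ≤
        C * X * Λ ^ (-B) := by
  classical
  obtain ⟨C, -, h₁⟩ := cnt_Cls (E := E) hj
  obtain ⟨C', hC', h₂⟩ := tsum_norm_Sm_tail_le C B 0 3 le_rfl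
  refine ⟨C', hC', fun τ c a X Λ s hc hX hΛ hs => ?_⟩
  have h3 := h₂ _ _ _ _ X Λ s (h₁ τ) (PB_Sc j τ hc a) hX hΛ hs
  have h4 := summable_Sm (h₁ τ) (PB_Sc j τ hc a) hX s
  rw [mul_one, zero_add, Real.rpow_one] at h3
  rw [Sc_eq_Sm, Sm]
  set f : R E → ℂ := fun n => (if Cls j τ n ∧ Squarefree n then c n * conj (sym n a) else 0) *
    Wc (nf (n : E) / X) s with hf
  have e1 : Sr j τ (X * Λ) (fun n => c n * Wc (nf (n : E) / X) s) a =
      ∑' n, if n ∈ Col j τ (X * Λ) then f n else 0 := by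
    rw [tsum_eq_sum (s := Col j τ (X * Λ)) fun n hn => if_neg hn, Sr]
    refine Finset.sum_congr rfl fun n hn => ?_
    obtain ⟨a1, a2, -⟩ := (mem_Col hj).1 hn
    simp only [hf]
    rw [if_pos hn, if_pos ⟨a1, a2⟩, mul_right_comm]
  have h5 : Summable fun n => if n ∈ Col j τ (X * Λ) then f n else 0 :=
    summable_of_ne_finset_zero (s := Col j τ (X * Λ)) fun n hn => if_neg hn
  have h6 : Summable fun n : R E =>
      if X / Λ ≤ nf (n : E) ∧ nf (n : E) ≤ X * Λ then 0 else ‖f n‖ :=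
    Summable.of_nonneg_of_le (fun n => by positivity)
      (fun n => by split_ifs; exacts [norm_nonneg _, le_rfl]) (f := fun n => ‖f n‖) h4
  rw [e1, ← h4.of_norm.tsum_sub h5]
  refine le_trans (tsum_of_norm_bounded h6.hasSum fun n => ?_) h3
  change ‖f n - _‖ ≤ _
  by_cases hn : n ∈ Col j τ (X * Λ)
  · rw [if_pos hn, sub_self, norm_zero]
    positivity
  · rw [if_neg hn, sub_zero]
    split_ifs with h7
    · have : ¬ (Cls j τ n ∧ Squarefree n) := fun h => hn ((mem_Col hj).2 ⟨h.1, h.2, h7.2⟩)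
      simp only [hf, if_neg this, zero_mul, norm_zero, le_refl]
    · exact le_rfl
/-- Real parts go into the scale (`Sm_shift`). -/
theorem norm_Sc_shift (j : ℕ) (τ : E) (c : R E → ℂ) (a : R E) {X : ℝ} (hX : 0 < X) (σ y : ℝ) :
    ‖Sc j τ c a X (σ + y * Complex.I)‖ =
      Real.exp (σ ^ 2 / 4) * ‖Sc j τ c a (X * Real.exp (σ / 2)) (y * Complex.I)‖ := by
  rw [Sc_eq_Sm, Sc_eq_Sm, add_comm, Sm_shift (fun n hn => ?_) hX, norm_mul, Complex.norm_exp]
  · congr 2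
    simp [pow_two]
  · by_contra h
    refine hn (if_neg fun h' => h (nf_pos h'.1.1.1))
theorem norm_dc_le {c : R E → ℂ} (hc : ∀ n, Squarefree n → ‖c n‖ ≤ 1) {g h : R E}
    (hgh : Squarefree (g * h)) (e : R E) {m : R E} (hm : Squarefree m) : ‖dc c g e h m‖ ≤ 1 := by
  unfold dc
  split_ifs with hco
  · have h1 : Squarefree (g * h * m) := squarefree_mul_iff.2 ⟨hco.symm.isRelPrime, hgh, hm⟩
    have h2 : Squarefree (h * m) := h1.squarefree_of_dvd ⟨g, by ring⟩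
    rw [norm_mul, norm_mul, Complex.norm_conj, Complex.norm_conj, norm_gam (by norm_num) h2,
      mul_one]
    exact mul_le_one₀ (hc _ h1) (norm_nonneg _) (norm_sym_le _ _)
  · simp
/-- On a ray class the row only matters up to units (`Lev.exists_sym_unit`). -/
theorem norm_Sr_unit_row {j : ℕ} (hj : Lev E j) (τ : E) (L : ℝ) (β : R E → ℂ) {u : R E}
    (hu : IsUnit u) (a : R E) : ‖Sr j τ L β (u * a)‖ = ‖Sr j τ L β a‖ := by
  obtain ⟨κ, h1, h2⟩ := hj.exists_sym_unit τ hu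
  have e : Sr j τ L β (u * a) = conj κ * Sr j τ L β a := by
    rw [Sr, Sr, Finset.mul_sum]
    refine Finset.sum_congr rfl fun n hn => ?_
    rw [sym_mul_right, h2 n ((mem_Col hj.1).1 hn).1.2, map_mul]
    ring
  rw [e, norm_mul, Complex.norm_conj, h1, one_mul]
theorem norm_Sr_nrm {j : ℕ} (hj : Lev E j) (τ : E) (L : ℝ) (β : R E → ℂ) {a : R E} (ha : a ≠ 0) :
    ‖Sr j τ L β (nrm a)‖ = ‖Sr j τ L β a‖ := by
  obtain ⟨u, hu, e⟩ := exists_unit_nrm ha
  rw [← norm_Sr_unit_row hj τ L β hu, ← e]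
theorem norm_Sr_le (j : ℕ) (τ : E) (L : ℝ) (β : R E → ℂ) (a : R E) :
    ‖Sr j τ L β a‖ ≤ ∑ n ∈ Col j τ L, ‖β n‖ := by
  refine (norm_sum_le _ _).trans (Finset.sum_le_sum fun n _ => ?_)
  rw [norm_mul, Complex.norm_conj]
  exact mul_le_of_le_one_right (norm_nonneg _) (norm_sym_le _ _)

/-! ## part B: the two specialisations -/

private theorem dpB_unit {j : ℕ} (hj : 1 ≤ j) {u : R E} (hu : V j (u : E)) : IsUnit u :=
  IsUnit.of_mul_eq_one ⟨_, hu.2.2⟩ (Subtype.ext (mul_inv_cancel₀ (hu.ne_zero hj)))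
private theorem dpB_pow (n a : R E) {j : ℕ} (hj : j ≠ 0) (m : ℕ) :
    sym n a ^ (j + 6 * m) = sym n a ^ j := by
  induction m with
  | zero => rfl
  | succ m ih => rw [mul_add, mul_one, ← add_assoc, sym_pow_add_six _ _ (by omega), ih]
private theorem dpB_conj5 (n a : R E) : conj (sym n a ^ 5) = sym n a := by
  rw [← conj_sym, Complex.conj_conj]
private theorem dpB_const {j : ℕ} (hj : Lev E j) (τ : E) {g : R E} (hg : g ≠ 0) :
    ∃ ρ : ℂ, ‖ρ‖ ≤ 1 ∧ ∀ n : R E, Ty j τ (n : E) → sym g n = ρ * sym n g := by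
  by_cases h : ∃ n : R E, Ty j τ (n : E)
  · obtain ⟨n₀, h₀⟩ := h
    refine ⟨R6 g n₀, (norm_R6 hg (Rec_ne (h₀.ne_zero hj.one_le).2)).le, fun n hn => ?_⟩
    rw [sym_recip hg (Rec_ne (hn.ne_zero hj.one_le).2),
      hj.R6_congr (Ty.refl j (Rec_coe_ne hg)) ((h₀.symm hj.one_le).trans hj.one_le hn)]
  · exact ⟨0, by simp, fun n hn => absurd ⟨n, hn⟩ h⟩
private theorem dpB_zero {m g h : R E} (hm : m ≠ 0) (hc : ¬ IsCoprime m (g * h)) :
    sym m g = 0 ∨ sym m h = 0 := by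
  rw [← mul_eq_zero, ← sym_mul_right]
  exact (sym_eq_zero_iff hm).2 hc
theorem invR_mu (j : ℕ) (hj : 1 ≤ j) : InvR j (mu (E := E)) := fun _ x hu =>
  mu_of_associated (associated_unit_mul_left x _ (dpB_unit hj hu))
theorem Lev.invR_muGam {j : ℕ} (hj : Lev E j) (r : R E) :
    InvR j fun n : R E => mu n * conj (gam 5 n) * conj (sym n r) := by
  intro u x hu
  simp only
  rw [invR_mu j hj.one_le u x hu, hj.invR_gam 5 u x hu,
    sym_of_associated (associated_unit_mul_left x _ (dpB_unit hj.one_le hu))]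
/-- `gam_mul`, `sym_recip`, `Lev.R6_congr`: on the class, `dc mu g e h m` is
`conj (μ(g h) γ₅(h)) R6 h m₀ · μ(m) conj γ₅(m) χ_m(e h²) 1_{(m, g) = 1}`. -/
theorem dc_mu {j : ℕ} (hj : Lev E j) (τ : E) {g e h : R E} (hgh : Squarefree (g * h)) (k : R E)
    (X : ℝ) (s : ℂ) : ‖Sc j τ (dc mu g e h) k X s‖ ≤ ‖Gs j τ (k * tw (g, e, h)) X s‖ := by
  have hh := hgh.of_mul_right
  obtain ⟨ρ, hρ, h1⟩ := dpB_const hj τ hh.ne_zero
  refine norm_Sc_le_of_eq j τ (κ := mu (g * h) * conj (gam 5 h) * ρ) ?_ (fun m hm hs => ?_) X s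
  · rw [norm_mul, norm_mul, Complex.norm_conj, norm_gam (by norm_num) hh, mul_one]
    exact mul_le_one₀ (norm_mu_le _) (norm_nonneg _) hρ
  have e1 : conj (sym m (k * tw (g, e, h))) =
      conj (sym m k) * (sym m e * sym m h ^ 2) * conj (sym m g ^ 6) := by
    rw [tw, sym_mul_right, sym_mul_right, sym_pow_right, sym_pow_right, map_mul, map_mul, dpB_conj5,
      sym_mul_right, sym_pow_right, ← mul_assoc]
  rw [e1, dc]
  split_ifs with hc
  · rw [mu_mul hc.symm, map_mul, conj_mu, conj_mu, gam_mul 5 hh.ne_zero hs.ne_zero hc.of_mul_right_right.symm,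
      map_mul, map_mul, map_mul, dpB_conj5, dpB_conj5, h1 m hm,
      sym_pow_six hc.of_mul_right_left, map_one]
    ring
  · rcases dpB_zero hs.ne_zero hc with h0 | h0 <;> simp [h0]
/-- `γ₅(g · h m) conj γ₅(h m) = γ₅(g) conj (χ_g(h m) χ_{h m}(g))`. -/
theorem dc_gam {j : ℕ} (hj : Lev E j) (τ : E) (r : R E) {g e h : R E} (hgh : Squarefree (g * h))
    (k : R E) (X : ℝ) (s : ℂ) :
    ‖Sc j τ (dc (fun n => mu n * conj (gam 5 n) * conj (sym n r)) g e h) k X s‖ ≤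
      ‖Mob j τ (k * g ^ 2 * (r * e) ^ 5 * h ^ 6) X s‖ := by
  have hg := hgh.of_mul_left
  have hh := hgh.of_mul_right
  have hgh' : IsCoprime g h := (IsRelPrime.of_squarefree_mul hgh).isCoprime
  obtain ⟨ρ, hρ, h1⟩ := dpB_const hj τ hg.ne_zero
  rw [Mob_eq_Sc]
  refine norm_Sc_le_of_eq j τ
    (κ := mu (g * h) * (sym g h * sym h g * ρ) ^ 5 * gam 5 g * sym (g * h) r) ?_
    (fun m hm hs => ?_) X s
  · rw [norm_mul, norm_mul, norm_mul, norm_gam (by norm_num) hg, mul_one, norm_pow, norm_mul,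
      norm_mul]
    exact mul_le_one₀ (mul_le_one₀ (norm_mu_le _) (by positivity) (pow_le_one₀ (by positivity)
      (mul_le_one₀ (mul_le_one₀ (norm_sym_le _ _) (norm_nonneg _) (norm_sym_le _ _))
        (norm_nonneg _) hρ))) (norm_nonneg _) (norm_sym_le _ _)
  have e1 : conj (sym m (k * g ^ 2 * (r * e) ^ 5 * h ^ 6)) =
      conj (sym m k) * (sym m g ^ 5) ^ 2 * (sym m r * sym m e) * conj (sym m h ^ 6) := by
    rw [sym_mul_right, sym_mul_right, sym_mul_right, sym_pow_right, sym_pow_right, sym_pow_right,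
      map_mul, map_mul, map_mul, dpB_conj5, sym_mul_right, map_pow, conj_sym m g]
  rw [e1, dc]
  split_ifs with hc
  · have hhm : IsCoprime h m := hc.of_mul_right_right.symm
    have hs' : Squarefree (h * m) := squarefree_mul_iff.2 ⟨hhm.isRelPrime, hh, hs⟩
    have e2 := Rec_mul_conj (norm_gam (j := 5) (by norm_num) hs')
    have e3 : gam 5 (g * h * m) = (sym g h * (ρ * sym m g)) ^ 5 * (sym h g * sym m g) ^ 5 *
        gam 5 g * gam 5 (h * m) := by
      rw [mul_assoc g, gam_mul 5 hg.ne_zero hs'.ne_zero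
        (hgh'.mul_right hc.of_mul_right_left.symm), sym_mul_right, h1 m hm,
        sym_mul_left hh.ne_zero hs.ne_zero]
    rw [map_mul, map_mul, Complex.conj_conj, Complex.conj_conj, conj_mu, mu_mul hc.symm, e3,
      sym_mul_left hgh.ne_zero hs.ne_zero, sym_pow_six hc.of_mul_right_right, map_one]
    linear_combination (mu (g * h) * mu m * (sym g h * (ρ * sym m g)) ^ 5 *
      (sym h g * sym m g) ^ 5 * gam 5 g * (sym (g * h) r * sym m r) * sym m e *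
      conj (sym m k)) * e2
  · rcases dpB_zero hs.ne_zero hc with h0 | h0 <;> simp [h0]
/-- The row which comes back after two Poisson steps. -/
theorem sym_row (n k e g' h e₂ g₂ h₂ : R E) :
    sym n (k * (e₂ * g₂) ^ 2 * (tw (e * g', e, h) * e₂) ^ 5 * h₂ ^ 6) =
      sym n (k * e * h ^ 2 * e₂ * g₂ ^ 2 * (g' * h₂) ^ 6) := by
  have h1 := dpB_pow n e₂ one_ne_zero 1
  have h2 := dpB_pow n e one_ne_zero 9
  have h3 := dpB_pow n h two_ne_zero 8
  have h4 := dpB_pow n g' (show 6 ≠ 0 by norm_num) 4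
  simp only [tw, sym_mul_right, sym_pow_right]
  calc _ = sym n k * sym n e ^ (1 + 6 * 9) * sym n h ^ (2 + 6 * 8) * sym n e₂ ^ (1 + 6 * 1) *
        sym n g₂ ^ 2 * (sym n g' ^ (6 + 6 * 4) * sym n h₂ ^ 6) := by ring
    _ = _ := by
      rw [h1, h2, h3, h4]
      ring

end Crest.Agent.R312
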