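import Crest.Agent.R312.DPPair

/-!
# Row 312, module DP: auxiliary lemmas for part A of `DPFin`
-/

set_option autoImplicit false

noncomputable section

namespace Crest.Agent.R312.DPA

open NumberField
open scoped ComplexConjugate

variable {E : Type} [Field E] [NumberField E] [Fr E]

theorem mem_Cg {j : ℕ} (hj : 1 ≤ j) {τ : E} {L : ℝ} {g a : R E} : a ∈ Cg j τ L g ↔
    (Cls j (τ / g) a ∧ Squarefree a ∧ nf (a : E) ≤ L / nf (g : E)) ∧ IsCoprime a g := by
  classical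
  rw [Cg, Finset.mem_filter, mem_Col hj]

theorem assoc_V {j : ℕ} (hj : 1 ≤ j) {u : R E} (hu : V j (u : E)) (x : R E) :
    Associated (u * x) x := associated_unit_mul_left _ _ ((V_iff_isUnit hj).1 hu).1

theorem lt_ne {j : ℕ} (hj : 1 ≤ j) {τ : E} {g e a : R E} (ha : Cls j (τ / g) a) (he : e ≠ 0) :
    lt τ g e ≠ 0 :=
  div_ne_zero (mul_ne_zero (pow_ne_zero _ (ha.2.ne_zero hj).1) fun h => he (Subtype.ext h))
    dS_ne_zero

open Classical in
theorem sum_gcd_real {j : ℕ} (hj : 1 ≤ j) (τ : E) {L Q : ℝ} (hL : L ≤ Q) (G : R E → R E → ℝ)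
    (h1 : ∀ y, InvR j fun x => G x y) (h2 : ∀ x, InvR j (G x)) :
    ∑ x ∈ Col j τ L, ∑ y ∈ Col j τ L, G x y =
      ∑ g ∈ sqs Q, ∑ a ∈ Cg j τ L g, ∑ b ∈ Cg j τ L g,
        if IsCoprime a b then G (g * a) (g * b) else 0 := by
  apply Complex.ofReal_injective
  simp only [Complex.ofReal_sum, apply_ite Complex.ofReal, Complex.ofReal_zero]
  exact sum_gcd hj τ hL (fun x y => (G x y : ℂ))
    (fun y u x hu => congrArg Complex.ofReal (h1 y u x hu))
    fun x u y hu => congrArg Complex.ofReal (h2 x u y hu)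

theorem sq_Sr (j : ℕ) (τ : E) (L : ℝ) (β : R E → ℂ) (x : R E) :
    ((‖Sr j τ L β x‖ ^ 2 : ℝ) : ℂ) = ∑ n ∈ Col j τ L, ∑ n' ∈ Col j τ L,
      β n * conj (β n') * (conj (sym n x) * sym n' x) := by
  rw [Complex.ofReal_pow, ← Complex.mul_conj', Sr, map_sum, Finset.sum_mul_sum]
  refine Finset.sum_congr rfl fun n _ => Finset.sum_congr rfl fun n' _ => ?_
  rw [map_mul, Complex.conj_conj]
  ring

theorem Pm_zero (X : ℝ) (e : R E) {a b : R E} (ha : a ≠ 0) (hb : b ≠ 0)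
    (h : ¬ (IsUnit a ∧ IsUnit b)) : Pm X e a b 0 = 0 := by
  have key : ∀ c : R E, c ≠ 0 → ¬ IsUnit c → Aa e 0 c = 0 := fun c hc hu => by
    rw [Aa, (sym_eq_zero_iff hc).2 fun h => hu (isCoprime_zero_right.1 h), mul_zero]
  rcases not_and_or.1 h with h | h
  · rw [Pm, key a ha h, zero_mul, mul_zero]
  · rw [Pm, key b hb h, map_zero, mul_zero, mul_zero]

theorem Pm_diag {X : ℝ} (hX : 0 ≤ X) {g a : R E} (hg : Squarefree g) (ha : IsUnit a) :
    ‖∑ e ∈ dvs g, Pm X e a a 0‖ ≤ X := by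
  have h : ∀ e : R E, Pm X e a a 0 = ((X / Real.sqrt (dE E) : ℝ) : ℂ) * conj (R6 a a) *
      (mu e * (((nf (e : E))⁻¹ : ℝ) : ℂ)) := fun e => by
    simp only [Pm, Aa, gam_unit 5 ha, sym_unit_left ha, nf_eq_one_iff.2 ha, Real.sqrt_one, mul_one,
      map_one]
    push_cast
    ring
  have h1 : 1 ≤ Real.sqrt (dE E) := Real.one_le_sqrt.2 one_le_dE
  simp only [h]
  rw [← Finset.mul_sum, norm_mul, norm_mul, Complex.norm_conj, norm_R6 ha.ne_zero ha.ne_zero,
    mul_one, Complex.norm_real, Real.norm_of_nonneg (by positivity)]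
  exact (mul_le_of_le_one_right (by positivity) (diag_factor hg)).trans (div_le_self hX h1)

open Classical in
theorem summable_G {j : ℕ} (hj : 1 ≤ j) {t : E} (ht : t ≠ 0) {Y : ℝ} (hY : 0 < Y)
    (P : R E → Prop) :
    Summable fun k : R E => if Lat j t k ∧ P k then Gw E (szl t k / Y) else 0 := by
  refine Summable.of_nonneg_of_le (fun k => ?_) (fun k => ?_)
    (summable_Gw hj ht (f := fun _ => 1) (H := 1) (fun _ => norm_one.le) hY)
  · split_ifs
    exacts [(Gw_pos _).le, le_rfl]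
  · by_cases h : Lat j t k ∧ P k
    · rw [if_pos h, if_pos h.1, one_mul, Complex.norm_real, Real.norm_of_nonneg (Gw_pos _).le]
    · rw [if_neg h]
      exact norm_nonneg _

open Classical in
theorem tail_G {j : ℕ} (hj : 1 ≤ j) {B : ℝ} (hB : 0 ≤ B) : ∃ C : ℝ, 0 < C ∧
    ∀ (t : E) (Y Λ K : ℝ), t ≠ 0 → 0 < Y → 1 ≤ Λ → Y * (Λ / dE E) ≤ K →
      ∑' k : R E, (if Lat j t k ∧ K < szl t k then Gw E (szl t k / Y) else 0) ≤
        C * Y * Λ ^ (-B) := by
  obtain ⟨C₁, hC₁, h₁⟩ := tsum_Gw_tail (E := E) hj B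
  obtain ⟨C₂, hC₂, h₂⟩ := tsum_Gw_le (E := E) hj 0
  have hd : 0 < dE E := one_pos.trans_le one_le_dE
  refine ⟨(C₁ + C₂) * dE E ^ B, by positivity, fun t Y Λ K ht hY hΛ hK => ?_⟩
  have hΛ0 : 0 < Λ := one_pos.trans_le hΛ
  have e : (C₁ + C₂) * dE E ^ B * Y * Λ ^ (-B) = (C₁ + C₂) * Y * (Λ / dE E) ^ (-B) := by
    rw [Real.div_rpow hΛ0.le hd.le, Real.rpow_neg hd.le, div_inv_eq_mul]
    ring
  have hp : 0 < (Λ / dE E) ^ (-B) := by positivity
  rw [e]
  by_cases h : dE E ≤ Λ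
  · refine le_trans ((summable_G hj ht hY _).tsum_le_tsum (fun k => ?_) (summable_G hj ht hY
      fun k => Y * (Λ / dE E) ≤ szl t k)) ((h₁ t Y _ ht hY ((one_le_div hd).2 h)).trans ?_)
    · split_ifs with a b
      exacts [le_rfl, absurd ⟨a.1, hK.trans a.2.le⟩ b, (Gw_pos _).le, le_rfl]
    · gcongr
      linarith
  · have h3 : 1 ≤ (Λ / dE E) ^ (-B) := Real.one_le_rpow_of_pos_of_le_one_of_nonpos (by positivity)
      ((div_le_one hd).2 (not_le.1 h).le) (by linarith)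
    have h4 := summable_G hj ht hY fun _ => True
    simp only [and_true] at h4
    refine le_trans ((summable_G hj ht hY _).tsum_le_tsum (fun k => ?_) h4)
      ((h₂ t Y ht hY).trans ?_)
    · split_ifs with a b
      exacts [le_rfl, absurd a.1 b, (Gw_pos _).le, le_rfl]
    · calc C₂ * min Y (Y ^ (1 + |(0 : ℝ)|)) ≤ C₂ * Y := by gcongr; exact min_le_left _ _
        _ ≤ (C₁ + C₂) * Y * 1 := by nlinarith
        _ ≤ _ := by gcongr

open Classical in
theorem tail_one {j : ℕ} (hj : 1 ≤ j) {B : ℝ} (hB : 0 ≤ B) : ∃ C : ℝ, 0 < C ∧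
    ∀ (τ : E) (L A X Λ : ℝ) (g e a b : R E), 0 < A → A ≤ X → 1 ≤ Λ → e ≠ 0 → a ∈ Cg j τ L g →
      b ∈ Cg j τ L g →
      ‖∑' k : R E, if Lat j (lt τ g e) k ∧ Kd Λ A L (g, e, 1) < szl (lt τ g e) k then
        Pm X e a b k * (Gk τ X g e a b k : ℂ) else 0‖ ≤ C * (L / nf (g : E)) * Λ ^ (-B) := by
  obtain ⟨C, hC, h⟩ := tail_G (E := E) hj hB
  have hd : 0 < dE E := one_pos.trans_le one_le_dE
  refine ⟨C * dE E, by positivity, fun τ L A X Λ g e a b hA hAX hΛ he ha hb => ?_⟩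
  obtain ⟨⟨a1, a2, a3⟩, -⟩ := (mem_Cg hj).1 ha
  obtain ⟨⟨-, b2, b3⟩, -⟩ := (mem_Cg hj).1 hb
  have hX : 0 < X := hA.trans_le hAX
  have na := one_le_nf a2.ne_zero
  have nb := one_le_nf b2.ne_zero
  have ne := one_le_nf he
  have ht := lt_ne hj a1 he
  generalize hl : L / nf (g : E) = l at a3 b3 ⊢
  have hab : nf (a : E) * nf (b : E) ≤ l ^ 2 := by
    rw [sq]
    exact mul_le_mul a3 b3 (by linarith) (by linarith)
  set Y := dE E * (nf (e : E) * nf (a : E) * nf (b : E)) / X with hY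
  have hY0 : 0 < Y := by positivity
  have hK : Y * (Λ / dE E) ≤ Kd Λ A L (g, e, 1) := by
    calc Y * (Λ / dE E) = Λ * nf (e : E) * (nf (a : E) * nf (b : E)) / X := by
          rw [hY]
          field_simp
      _ ≤ Λ * nf (e : E) * l ^ 2 / A := by gcongr
      _ = _ := by rw [Kd, hl]
  set c := X / (nf (e : E) * Real.sqrt (nf (a : E)) * Real.sqrt (nf (b : E))) with hc
  have hc0 : 0 ≤ c := by positivity
  refine (tsum_of_norm_bounded ((summable_G hj ht hY0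
    fun k => Kd Λ A L (g, e, 1) < szl (lt τ g e) k).mul_left c).hasSum fun k => ?_).trans ?_
  · split_ifs
    · rw [norm_mul, Complex.norm_real, Gk, Real.norm_of_nonneg (Gw_pos _).le, hY,
        div_div_eq_mul_div, mul_comm (szl _ _)]
      exact mul_le_mul_of_nonneg_right (norm_Pm_le hX.le e a2 b2 k) (Gw_pos _).le
    · simp
  rw [tsum_mul_left]
  have e1 : c * Y = dE E * Real.sqrt (nf (a : E) * nf (b : E)) := by
    rw [hc, hY, Real.sqrt_mul (by linarith)]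
    have sa : 0 < Real.sqrt (nf (a : E)) := by positivity
    have sb : 0 < Real.sqrt (nf (b : E)) := by positivity
    nth_rewrite 2 [← Real.mul_self_sqrt (show 0 ≤ nf (a : E) by linarith),
      ← Real.mul_self_sqrt (show 0 ≤ nf (b : E) by linarith)]
    field_simp
  have e2 : Real.sqrt (nf (a : E) * nf (b : E)) ≤ l := Real.sqrt_le_iff.2 ⟨by linarith, hab⟩
  calc _ ≤ c * (C * Y * Λ ^ (-B)) := mul_le_mul_of_nonneg_left (h _ Y Λ _ ht hY0 hΛ hK) hc0
    _ = C * (c * Y) * Λ ^ (-B) := by ring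
    _ ≤ C * (dE E * l) * Λ ^ (-B) := by rw [e1]; gcongr
    _ = _ := by ring

end Crest.Agent.R312.DPA
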