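import Crest.Agent.R312.DPPair

/-!
# Row 312, module DP: the main term of one Poisson step (auxiliary file of `DPFin`, part B)
-/

set_option autoImplicit false

noncomputable section

namespace Crest.Agent.R312.DPFB

open NumberField
open scoped ComplexConjugate

variable {E : Type} [Field E] [NumberField E] [Fr E]

open MeasureTheory

theorem conj_cpow {x : ℝ} (hx : 0 < x) (s : ℂ) : conj ((x : ℂ) ^ s) = (x : ℂ) ^ conj s := by
  rw [Complex.cpow_conj _ _ (by
    rw [Complex.arg_ofReal_of_nonneg hx.le]; exact Real.pi_ne_zero.symm), Complex.conj_ofReal]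

theorem cpow_neg_half {x : ℝ} (hx : 0 ≤ x) :
    (x : ℂ) ^ (-(1 / 2) : ℂ) = (((Real.sqrt x)⁻¹ : ℝ) : ℂ) := by
  rw [Real.sqrt_eq_rpow, ← Real.rpow_neg hx, Complex.ofReal_cpow hx]
  norm_num

theorem nf_pos_of_mem {j : ℕ} (hj : 1 ≤ j) {t : E} {L : ℝ} {a : R E} (ha : a ∈ Col j t L) :
    0 < nf (a : E) := nf_pos (Rec_coe_ne ((mem_Col hj).1 ha).2.1.ne_zero)

/-- The coefficients of the Dirichlet polynomial. -/
def pp (c : R E → ℂ) (k m : R E) : ℂ := c m * conj (sym m k) * (((Real.sqrt (nf (m : E)))⁻¹ : ℝ) : ℂ)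

theorem Sr_eq {j : ℕ} (hj : 1 ≤ j) (t : E) (L : ℝ) (c : R E → ℂ) (k : R E) (s : ℂ) :
    Sr j t L (fun m => c m * (nf (m : E) : ℂ) ^ (-(1 / 2) + s)) k =
      DPo (Col j t L) (fun m => nf (m : E)) (pp c k) s := by
  refine Finset.sum_congr rfl fun m hm => ?_
  have h := nf_pos_of_mem hj hm
  dsimp only
  rw [Complex.cpow_add _ _ (by exact_mod_cast h.ne'), cpow_neg_half h.le, pp]
  ring

theorem norm_DPo_conj {α : Type} {S : Finset α} {N : α → ℝ} (hN : ∀ a ∈ S, 0 < N a) (p : α → ℂ)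
    (s : ℂ) : ‖DPo S N (fun a => conj (p a)) s‖ = ‖DPo S N p (conj s)‖ := by
  rw [← Complex.norm_conj, DPo, DPo, map_sum]
  congr 1
  refine Finset.sum_congr rfl fun a ha => ?_
  rw [map_mul, Complex.conj_conj, conj_cpow (hN a ha)]

/-- The integrand attached to one dual row. -/
def II (j : ℕ) (τ : E) (β : R E → ℂ) (L σ : ℝ) (g e h k : R E) (u : ℝ) : ℝ :=
  ‖KG E (σ + u * Complex.I)‖ *
    (‖Sr j (τ / (g * h : R E)) (L / (nf (g : E) * nf (h : E)))
        (fun m => dc β g e h m * (nf (m : E) : ℂ) ^ (-(1 / 2) + σ + u * Complex.I)) k‖ ^ 2 +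
      ‖Sr j (τ / (g * h : R E)) (L / (nf (g : E) * nf (h : E)))
        (fun m => dc β g e h m * (nf (m : E) : ℂ) ^ (-(1 / 2) + σ - u * Complex.I)) k‖ ^ 2)

theorem II_eq {j : ℕ} (hj : 1 ≤ j) (τ : E) (β : R E → ℂ) (L σ : ℝ) (g e h k : R E) (u : ℝ) :
    II j τ β L σ g e h k u = ‖KG E (σ + u * Complex.I)‖ *
      (‖DPo (Col j (τ / (g * h : R E)) (L / (nf (g : E) * nf (h : E)))) (fun m => nf (m : E))
          (pp (dc β g e h) k) (σ + u * Complex.I)‖ ^ 2 +
        ‖DPo (Col j (τ / (g * h : R E)) (L / (nf (g : E) * nf (h : E)))) (fun m => nf (m : E))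
          (pp (dc β g e h) k) (σ - u * Complex.I)‖ ^ 2) := by
  rw [II, add_assoc, add_sub_assoc, Sr_eq hj, Sr_eq hj]

theorem II_nonneg (j : ℕ) (τ : E) (β : R E → ℂ) (L σ : ℝ) (g e h k : R E) (u : ℝ) :
    0 ≤ II j τ β L σ g e h k u := by
  unfold II
  positivity

theorem integrable_II {j : ℕ} (hj : 1 ≤ j) (τ : E) (β : R E → ℂ) (L : ℝ) {σ : ℝ} (hσ : 0 < σ)
    (g e h k : R E) : Integrable (II j τ β L σ g e h k) := by
  have h1 := integrable_DPo (E := E)
    (S := Col j (τ / (g * h : R E)) (L / (nf (g : E) * nf (h : E)))) (N := fun m => nf (m : E))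
    (fun a ha => nf_pos_of_mem hj ha) (pp (dc β g e h) k) hσ
  refine (h1.1.add h1.2).congr (Filter.Eventually.of_forall fun u => ?_)
  rw [II_eq hj, mul_add]
  rfl

theorem II_nrm {j : ℕ} (hj : Lev E j) (τ : E) (β : R E → ℂ) (L σ : ℝ) (g e h : R E) {k : R E}
    (hk : k ≠ 0) : II j τ β L σ g e h (nrm k) = II j τ β L σ g e h k := by
  funext u
  rw [II, II, norm_Sr_nrm hj _ _ _ hk, norm_Sr_nrm hj _ _ _ hk]

theorem lt_ne_zero {τ : E} (hτ : τ ≠ 0) {g e : R E} (hg : g ≠ 0) (he : e ≠ 0) : lt τ g e ≠ 0 :=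
  div_ne_zero (mul_ne_zero (pow_ne_zero _ (div_ne_zero hτ (Rec_coe_ne hg))) (Rec_coe_ne he))
    dS_ne_zero

open Classical in
/-- The general term on the class. -/
theorem term_eq {j : ℕ} (hj : Lev E j) (τ : E) (β : R E → ℂ) (X : ℝ) {g e h : R E} (k : R E)
    (hh : h ≠ 0) (he : e ≠ 0) (hhg : IsCoprime h g) {t : E} {a₀ a b : R E} (h0 : Ty j t (a₀ : E))
    (ha : Ty j t (a : E)) (hb : Ty j t (b : E)) :
    (if IsCoprime a h then if IsCoprime b h then
      (if IsCoprime (h * a) g ∧ IsCoprime (h * b) g then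
        β (g * (h * a)) * conj (β (g * (h * b))) *
          (Pm X e (h * a) (h * b) k * (Gk τ X g e (h * a) (h * b) k : ℂ)) else 0) else 0 else 0) =
      mu e * ((X / (Real.sqrt (dE E) * (nf (e : E) * nf (h : E))) : ℝ) : ℂ) *
        (conj (R6 (h * a₀) (h * a₀)) * sym (h * a₀) (-1)) *
        (conj (sym h e) * sym h k * conj (conj (sym h e) * sym h k)) *
        ((Gw E (X * szl (lt τ g e) k / (dE E * (nf (e : E) * nf (h : E) ^ 2)) /
            (nf (a : E) * nf (b : E))) : ℂ) *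
          (conj (pp (dc β g e h) k a) * conj (conj (pp (dc β g e h) k b)))) := by
  have h1 := hj.one_le
  have ha0 : a ≠ 0 := Rec_ne (ha.ne_zero h1).2
  have hb0 : b ≠ 0 := Rec_ne (hb.ne_zero h1).2
  have hc : ∀ x : R E, IsCoprime x (g * h) ↔ IsCoprime x h ∧ IsCoprime (h * x) g := fun x => by
    rw [IsCoprime.mul_right_iff, IsCoprime.mul_left_iff]
    tauto
  by_cases ca : IsCoprime a (g * h)
  swap
  · have e1 : pp (dc β g e h) k a = 0 := by rw [pp, dc, if_neg ca, zero_mul, zero_mul]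
    rw [e1, map_zero, zero_mul, mul_zero, mul_zero]
    rw [hc] at ca
    split_ifs with c1 c2 c3
    · exact absurd ⟨c1, c3.1⟩ ca
    all_goals rfl
  by_cases cb : IsCoprime b (g * h)
  swap
  · have e1 : pp (dc β g e h) k b = 0 := by rw [pp, dc, if_neg cb, zero_mul, zero_mul]
    rw [e1, map_zero, map_zero, mul_zero, mul_zero, mul_zero]
    rw [hc] at cb
    split_ifs with c1 c2 c3
    · exact absurd ⟨c2, c3.2⟩ cb
    all_goals rfl
  have ca' := (hc a).1 ca
  have cb' := (hc b).1 cb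
  have ty : ∀ x : R E, Ty j t (x : E) → Ty j ((h * a₀ : R E) : E) ((h * x : R E) : E) :=
    fun x hx => by
      push_cast
      exact (Ty.refl j (Rec_coe_ne hh)).mul ((h0.symm h1).trans h1 hx)
  have pa := nf_pos (Rec_coe_ne ha0)
  have pb := nf_pos (Rec_coe_ne hb0)
  have ph := nf_pos (Rec_coe_ne hh)
  have pe := nf_pos (Rec_coe_ne he)
  have pd : 0 < dE E := lt_of_lt_of_le one_pos one_le_dE
  have na : nf ((h * a : R E) : E) = nf (h : E) * nf (a : E) := by
    push_cast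
    exact nf_mul _ _
  have nb : nf ((h * b : R E) : E) = nf (h : E) * nf (b : E) := by
    push_cast
    exact nf_mul _ _
  have e1 : Gk τ X g e (h * a) (h * b) k =
      Gw E (X * szl (lt τ g e) k / (dE E * (nf (e : E) * nf (h : E) ^ 2)) /
        (nf (a : E) * nf (b : E))) := by
    rw [Gk, na, nb]
    congr 1
    field_simp
  have e2 : X / (Real.sqrt (dE E) * nf (e : E) * Real.sqrt (nf ((h * a : R E) : E)) *
      Real.sqrt (nf ((h * b : R E) : E))) =
      X / (Real.sqrt (dE E) * (nf (e : E) * nf (h : E))) *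
        ((Real.sqrt (nf (a : E)))⁻¹ * (Real.sqrt (nf (b : E)))⁻¹) := by
    rw [na, nb, Real.sqrt_mul ph.le, Real.sqrt_mul ph.le]
    have s1 := Real.sqrt_pos.2 pa
    have s2 := Real.sqrt_pos.2 pb
    have s3 := Real.sqrt_pos.2 ph
    have s4 := Real.sqrt_pos.2 pd
    have s5 := Real.mul_self_sqrt ph.le
    generalize Real.sqrt (nf (h : E)) = x at s3 s5
    rw [← s5]
    field_simp
  rw [if_pos ca'.1, if_pos cb'.1, if_pos ⟨ca'.2, cb'.2⟩, e1, Pm, e2,
    hj.R6_congr (ty a ha) (ty b hb), hj.sym_unit_congr isUnit_neg_one (ty b hb), pp, pp, dc, dc,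
    if_pos ca, if_pos cb, Aa, Aa, sym_mul_left hh ha0, sym_mul_left hh ha0, sym_mul_left hh hb0,
    sym_mul_left hh hb0, ← mul_assoc g h a, ← mul_assoc g h b]
  simp only [map_mul, Complex.conj_conj, Complex.conj_ofReal]
  push_cast
  ring

open Classical in
theorem main_one {j : ℕ} (hj : Lev E j) {σ : ℝ} (hσ : 0 < σ) (hσ1 : σ ≤ 1)
    (τ : E) (β : R E → ℂ) (L Q X : ℝ) (g e h k : R E) (hQ : 1 ≤ Q) (hX : 1 ≤ X)
    (hi : (g, e, h) ∈ Tri Q) (hτ : τ ≠ 0) (hk : Lat j (lt τ g e) k) :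
    ‖∑ a ∈ Cg j (τ / g) (L / nf (g : E)) h, ∑ b ∈ Cg j (τ / g) (L / nf (g : E)) h,
        (if IsCoprime (h * a) g ∧ IsCoprime (h * b) g then
          β (g * (h * a)) * conj (β (g * (h * b))) *
            (Pm X e (h * a) (h * b) k * (Gk τ X g e (h * a) (h * b) k : ℂ)) else 0)‖ ≤
      dE E * Q ^ (3 * σ) * (X / (nf (e : E) * nf (h : E))) * ∫ u : ℝ, II j τ β L σ g e h k u := by
  have h1 := hj.one_le
  obtain ⟨⟨hg, he, hh⟩, -, hhg⟩ := mem_Tri.1 hi
  obtain ⟨hg1, -, -⟩ := mem_sqs.1 hg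
  obtain ⟨he1, -, he3⟩ := mem_sqs.1 he
  obtain ⟨hh1, -, hh3⟩ := mem_sqs.1 hh
  dsimp only at hg1 he1 he3 hh1 hh3 hhg
  have ne := one_le_nf he1.ne_zero
  have nh := one_le_nf hh1.ne_zero
  have nd : 1 ≤ dE E := one_le_dE
  have nk := one_le_szl (lt_ne_zero hτ hg1.ne_zero he1.ne_zero) hk
  have hI : 0 ≤ ∫ u : ℝ, II j τ β L σ g e h k u := integral_nonneg fun u => II_nonneg ..
  have hS : Cg j (τ / g) (L / nf (g : E)) h =
      (Col j (τ / (g * h : R E)) (L / (nf (g : E) * nf (h : E)))).filter (IsCoprime · h) := by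
    rw [Cg, div_div, div_div]
    rfl
  rw [hS]
  generalize hS' : Col j (τ / (g * h : R E)) (L / (nf (g : E) * nf (h : E))) = S
  rcases S.eq_empty_or_nonempty with rfl | ⟨a₀, ha₀⟩
  · rw [Finset.filter_empty, Finset.sum_empty, norm_zero]
    positivity
  have hty : ∀ a ∈ S, Ty j (τ / (g * h : R E)) (a : E) := fun a ha =>
    ((mem_Col h1).1 (hS' ▸ ha)).1.2
  have hN : ∀ a ∈ S, 0 < nf (a : E) := fun a ha => nf_pos_of_mem h1 (hS' ▸ ha)
  set Z := X * szl (lt τ g e) k / (dE E * (nf (e : E) * nf (h : E) ^ 2)) with hZ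
  have hZ0 : 0 < Z := by positivity
  have hZR : Z ^ (-σ) ≤ dE E * Q ^ (3 * σ) := by
    have h2 : (dE E * Q ^ 3)⁻¹ ≤ Z := by
      calc (dE E * Q ^ 3)⁻¹ = 1 * 1 / (dE E * (Q * Q ^ 2)) := by field_simp
        _ ≤ _ := by rw [hZ]; gcongr
    calc Z ^ (-σ) ≤ ((dE E * Q ^ 3)⁻¹) ^ (-σ) :=
          Real.rpow_le_rpow_of_nonpos (by positivity) h2 (by linarith)
      _ = dE E ^ σ * Q ^ (3 * σ) := by
          rw [Real.inv_rpow (by positivity), Real.rpow_neg (by positivity), inv_inv,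
            Real.mul_rpow (by positivity) (by positivity), ← Real.rpow_natCast,
            ← Real.rpow_mul (by linarith)]
          norm_num
      _ ≤ dE E ^ (1 : ℝ) * Q ^ (3 * σ) := by gcongr
      _ = _ := by rw [Real.rpow_one]
  have e1 : ∑ a ∈ S.filter (IsCoprime · h), ∑ b ∈ S.filter (IsCoprime · h),
      (if IsCoprime (h * a) g ∧ IsCoprime (h * b) g then
        β (g * (h * a)) * conj (β (g * (h * b))) *
          (Pm X e (h * a) (h * b) k * (Gk τ X g e (h * a) (h * b) k : ℂ)) else 0) =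
      mu e * ((X / (Real.sqrt (dE E) * (nf (e : E) * nf (h : E))) : ℝ) : ℂ) *
        (conj (R6 (h * a₀) (h * a₀)) * sym (h * a₀) (-1)) *
        (conj (sym h e) * sym h k * conj (conj (sym h e) * sym h k)) *
        ∑ a ∈ S, ∑ b ∈ S, (Gw E (Z / (nf (a : E) * nf (b : E))) : ℂ) *
          (conj (pp (dc β g e h) k a) * conj (conj (pp (dc β g e h) k b))) := by
    rw [Finset.sum_filter, Finset.mul_sum]
    refine Finset.sum_congr rfl fun a ha => ?_
    rw [Finset.sum_filter, Finset.mul_sum, ← Finset.sum_congr rfl fun b hb =>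
      term_eq hj τ β X k hh1.ne_zero he1.ne_zero hhg (hty a₀ ha₀) (hty a ha) (hty b hb)]
    split_ifs
    · rfl
    · rw [Finset.sum_const_zero]
  have e2 := mellin_bil (E := E) hN (fun a => conj (pp (dc β g e h) k a)) hσ hZ0
  have e3 : ∀ u : ℝ, ‖KG E (σ + u * Complex.I)‖ *
      (‖DPo S (fun a => nf (a : E)) (fun a => conj (pp (dc β g e h) k a))
          (σ + u * Complex.I)‖ ^ 2 +
        ‖DPo S (fun a => nf (a : E)) (fun a => conj (pp (dc β g e h) k a))
          (σ - u * Complex.I)‖ ^ 2) = II j τ β L σ g e h k u := fun u => by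
    rw [II_eq h1, hS', norm_DPo_conj hN, norm_DPo_conj hN]
    simp only [map_add, map_sub, map_mul, Complex.conj_ofReal, Complex.conj_I, mul_neg,
      sub_neg_eq_add, ← sub_eq_add_neg]
    ring
  simp only [e3] at e2
  have ha0 : h * a₀ ≠ 0 := mul_ne_zero hh1.ne_zero (Rec_ne ((hty a₀ ha₀).ne_zero h1).2)
  have h0 : 0 ≤ X / (Real.sqrt (dE E) * (nf (e : E) * nf (h : E))) := by positivity
  have h2 : X / (Real.sqrt (dE E) * (nf (e : E) * nf (h : E))) ≤
      X / (nf (e : E) * nf (h : E)) := by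
    have := Real.one_le_sqrt.2 nd
    gcongr _ / ?_
    exact le_mul_of_one_le_left (by positivity) this
  rw [e1]
  simp only [norm_mul, Complex.norm_conj, Complex.norm_real, Real.norm_of_nonneg h0,
    norm_R6 ha0 ha0]
  have h3 := norm_mu_le e
  have h4 := norm_sym_le (h * a₀) (-1)
  have h5 := norm_sym_le h e
  have h6 := norm_sym_le h k
  have h7 := e2.trans (mul_le_mul_of_nonneg_right hZR hI)
  calc _ ≤ 1 * (X / (nf (e : E) * nf (h : E))) * (1 * 1) * (1 * 1 * (1 * 1)) *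
        (dE E * Q ^ (3 * σ) * ∫ u : ℝ, II j τ β L σ g e h k u) := by gcongr
    _ = _ := by ring

theorem integral_OD {j : ℕ} (hj : 1 ≤ j) {σ : ℝ} (hσ : 0 < σ) (τ : E) (β : R E → ℂ)
    (A L Q Λ : ℝ) :
    (∫ u : ℝ, ‖KG E (σ + u * Complex.I)‖ *
      (ODf j τ β A L Q Λ (-(1 / 2) + σ + u * Complex.I) +
        ODf j τ β A L Q Λ (-(1 / 2) + σ - u * Complex.I))) =
      ∑ i ∈ Tri Q, A / (nf (i.2.1 : E) * nf (i.2.2 : E)) * ∑ k ∈ nms (Kd Λ A L i),
        ∫ u, II j τ β L σ i.1 i.2.1 i.2.2 k u := by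
  have h1 : ∀ u : ℝ, ‖KG E (σ + u * Complex.I)‖ *
      (ODf j τ β A L Q Λ (-(1 / 2) + σ + u * Complex.I) +
        ODf j τ β A L Q Λ (-(1 / 2) + σ - u * Complex.I)) =
      ∑ i ∈ Tri Q, A / (nf (i.2.1 : E) * nf (i.2.2 : E)) * ∑ k ∈ nms (Kd Λ A L i),
        II j τ β L σ i.1 i.2.1 i.2.2 k u := fun u => by
    simp only [ODf, II, ← Finset.sum_add_distrib, Finset.mul_sum]
    refine Finset.sum_congr rfl fun i _ => Finset.sum_congr rfl fun k _ => ?_
    ring
  simp only [h1]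
  rw [integral_finsetSum _ fun i _ =>
    (integrable_finsetSum _ fun k _ => integrable_II hj τ β L hσ _ _ _ k).const_mul _]
  refine Finset.sum_congr rfl fun i _ => ?_
  rw [integral_const_mul, integral_finsetSum _ fun k _ => integrable_II hj τ β L hσ _ _ _ k]

theorem swap22 {α β γ δ : Type*} (s : Finset α) (t : Finset β) (u : Finset γ) (v : γ → Finset δ)
    (f : α → β → γ → δ → ℂ) : ∑ a ∈ s, ∑ b ∈ t, ∑ c ∈ u, ∑ d ∈ v c, f a b c d =
      ∑ c ∈ u, ∑ d ∈ v c, ∑ a ∈ s, ∑ b ∈ t, f a b c d := by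
  rw [Finset.sum_congr rfl fun a _ => Finset.sum_comm, Finset.sum_comm]
  refine Finset.sum_congr rfl fun c _ => ?_
  rw [Finset.sum_congr rfl fun a _ => Finset.sum_comm, Finset.sum_comm]

open Classical in
/-- Removing the coprimality condition in one dual row. -/
theorem row_eq {j : ℕ} (hj : Lev E j) (τ : E) {β : R E → ℂ} (hβ : InvR j β) {L Q : ℝ} (X : ℝ)
    {g : R E} (hL : L / nf (g : E) ≤ Q) (e k : R E) :
    ∑ a ∈ Cg j τ L g, ∑ b ∈ Cg j τ L g, (if IsCoprime a b then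
        β (g * a) * conj (β (g * b)) * (Pm X e a b k * (Gk τ X g e a b k : ℂ)) else 0) =
      ∑ h ∈ (sqs Q).filter (IsCoprime · g), mu h *
        ∑ a ∈ Cg j (τ / g) (L / nf (g : E)) h, ∑ b ∈ Cg j (τ / g) (L / nf (g : E)) h,
          (if IsCoprime (h * a) g ∧ IsCoprime (h * b) g then
            β (g * (h * a)) * conj (β (g * (h * b))) *
              (Pm X e (h * a) (h * b) k * (Gk τ X g e (h * a) (h * b) k : ℂ)) else 0) := by
  have h1 := hj.one_le
  have hu : ∀ u x : R E, V j (u : E) → (IsCoprime (u * x) g ↔ IsCoprime x g) ∧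
      β (g * (u * x)) = β (g * x) ∧ nf ((u * x : R E) : E) = nf (x : E) := fun u x hu => by
    refine ⟨isCoprime_mul_unit_left_left ((V_iff_isUnit h1).1 hu).1 x g, ?_, ?_⟩
    · rw [mul_left_comm, hβ u _ hu]
    · push_cast
      rw [nf_mul, hu.nf_eq h1, one_mul]
  have key := sum_cop h1 (τ / g) hL (fun a b => if IsCoprime a g ∧ IsCoprime b g then
      β (g * a) * conj (β (g * b)) * (Pm X e a b k * (Gk τ X g e a b k : ℂ)) else 0)
    (fun y u x hV => by
      obtain ⟨a1, a2, a3⟩ := hu u x hV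
      have a4 : Pm X e (u * x) y k = Pm X e x y k := hj.invR_Pm_left X e y k u x hV
      simp only [a1, a2, a4, Gk, a3])
    (fun y u x hV => by
      obtain ⟨a1, a2, a3⟩ := hu u x hV
      have a4 : Pm X e y (u * x) k = Pm X e y x k := hj.invR_Pm_right X e y k u x hV
      simp only [a1, a2, a4, Gk, a3])
  rw [Finset.sum_filter]
  refine Eq.trans ?_ (key.trans (Finset.sum_congr rfl fun h _ => ?_))
  · rw [Cg, Finset.sum_filter]
    refine Finset.sum_congr rfl fun a _ => ?_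
    by_cases ca : IsCoprime a g
    · rw [if_pos ca, Finset.sum_filter]
      refine Finset.sum_congr rfl fun b _ => ?_
      by_cases cb : IsCoprime b g
      · rw [if_pos cb, if_pos (And.intro ca cb)]
      · rw [if_neg cb, if_neg (fun h : _ ∧ _ => cb h.2), ite_self]
    · rw [if_neg ca]
      refine (Finset.sum_eq_zero fun b _ => ?_).symm
      rw [if_neg (fun h : _ ∧ _ => ca h.1), ite_self]
  · split_ifs with ch
    · rfl
    · rw [Finset.sum_eq_zero, mul_zero]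
      intro a _
      refine Finset.sum_eq_zero fun b _ => ?_
      rw [if_neg fun h' : _ ∧ _ => ch h'.1.of_mul_left_left]

open Classical in
theorem main_le {j : ℕ} (hj : Lev E j) {σ : ℝ} (hσ : 0 < σ) (hσ1 : σ ≤ 1) : ∃ C : ℝ, 0 < C ∧
    ∀ (τ : E) (β : R E → ℂ) (L Q A X Λ : ℝ), InvR j β → 0 < L → L ≤ Q → 1 ≤ A → A ≤ X → 1 ≤ Q →
      1 ≤ Λ → Λ ≤ Q →
      ‖∑ g ∈ sqs Q, ∑ a ∈ Cg j τ L g, ∑ b ∈ Cg j τ L g,
        if IsCoprime a b then β (g * a) * conj (β (g * b)) * ∑ e ∈ dvs g,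
          ∑ k ∈ lats j (lt τ g e) (Kd Λ A L (g, e, 1)),
            Pm X e a b k * (Gk τ X g e a b k : ℂ) else 0‖ ≤
        C * Q ^ (7 * σ) * (X / A) * ∫ u : ℝ, ‖KG E (σ + u * Complex.I)‖ *
          (ODf j τ β A L Q Λ (-(1 / 2) + σ + u * Complex.I) +
            ODf j τ β A L Q Λ (-(1 / 2) + σ - u * Complex.I)) := by
  have h1 := hj.one_le
  obtain ⟨C, hC, H⟩ := sum_lats_le (E := E) h1 hσ
  have nd : 1 ≤ dE E := one_le_dE
  refine ⟨dE E * C, by positivity, fun τ β L Q A X Λ hβ hL0 hL hA hAX hQ hΛ hΛQ => ?_⟩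
  have hX : 1 ≤ X := hA.trans hAX
  have hF : ∀ g e h k : R E, 0 ≤ ∫ u : ℝ, II j τ β L σ g e h k u := fun g e h k =>
    integral_nonneg fun u => II_nonneg ..
  rw [integral_OD h1 hσ]
  by_cases hτ : τ = 0
  · rw [Finset.sum_eq_zero, norm_zero]
    · refine mul_nonneg (by positivity) (Finset.sum_nonneg fun i _ => mul_nonneg
        (div_nonneg (by linarith) (mul_nonneg (nf_nonneg _) (nf_nonneg _)))
        (Finset.sum_nonneg fun k _ => hF ..))
    · intro g _
      refine Finset.sum_eq_zero fun a ha => absurd ?_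
        (((mem_Col h1).1 (Finset.mem_filter.1 ha).1).1.2.ne_zero h1).1
      rw [hτ, zero_div]
  rw [sum_Tri, Finset.mul_sum]
  refine (norm_sum_le _ _).trans (Finset.sum_le_sum fun g hg => ?_)
  obtain ⟨hg1, hg2, hg3⟩ := mem_sqs.1 hg
  have ng := one_le_nf hg1.ne_zero
  have hLg : L / nf (g : E) ≤ Q := (div_le_self hL0.le ng).trans hL
  have e1 : (∑ a ∈ Cg j τ L g, ∑ b ∈ Cg j τ L g,
      if IsCoprime a b then β (g * a) * conj (β (g * b)) * ∑ e ∈ dvs g,
        ∑ k ∈ lats j (lt τ g e) (Kd Λ A L (g, e, 1)),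
          Pm X e a b k * (Gk τ X g e a b k : ℂ) else 0) =
      ∑ e ∈ dvs g, ∑ k ∈ lats j (lt τ g e) (Kd Λ A L (g, e, 1)),
        ∑ a ∈ Cg j τ L g, ∑ b ∈ Cg j τ L g, (if IsCoprime a b then
          β (g * a) * conj (β (g * b)) * (Pm X e a b k * (Gk τ X g e a b k : ℂ)) else 0) := by
    rw [← swap22]
    refine Finset.sum_congr rfl fun a _ => Finset.sum_congr rfl fun b _ => ?_
    split_ifs
    · simp only [Finset.mul_sum]
    · simp only [Finset.sum_const_zero]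
  rw [e1, Finset.mul_sum]
  refine (norm_sum_le _ _).trans (Finset.sum_le_sum fun e he => ?_)
  obtain ⟨he1, he2⟩ := of_mem_dvs he
  have ne := one_le_nf he1.ne_zero
  have le : nf (e : E) ≤ Q := (nf_le_of_dvd he2 hg1.ne_zero).trans hg3
  have heQ : e ∈ sqs Q := mem_sqs.2 ⟨he1, hg2.squarefree_of_dvd he2, le⟩
  have ht := lt_ne_zero hτ hg1.ne_zero he1.ne_zero
  simp only [row_eq hj τ hβ X hLg]
  rw [Finset.sum_comm, Finset.mul_sum]
  refine (norm_sum_le _ _).trans (Finset.sum_le_sum fun h hh => ?_)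
  obtain ⟨hh1, hh2⟩ := Finset.mem_filter.1 hh
  have nh := one_le_nf (mem_sqs.1 hh1).1.ne_zero
  have hi : (g, e, h) ∈ Tri Q := mem_Tri.2 ⟨⟨hg, heQ, hh1⟩, he2, hh2⟩
  have hK : Kd Λ A L (g, e, h) = Kd Λ A L (g, e, 1) := rfl
  have hK4 : Kd Λ A L (g, e, 1) ≤ Q ^ 4 := by
    have : 0 ≤ L / nf (g : E) := by positivity
    calc Λ * nf (e : E) * (L / nf (g : E)) ^ 2 / A ≤ Q * Q * Q ^ 2 / 1 := by gcongr
      _ = _ := by ring
  rw [hK]
  generalize Kd Λ A L (g, e, 1) = K at hK4 ⊢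
  have h2 : ∑ k ∈ lats j (lt τ g e) K, ∫ u : ℝ, II j τ β L σ g e h k u ≤
      C * Q ^ (4 * σ) * ∑ k ∈ nms K, ∫ u : ℝ, II j τ β L σ g e h k u := by
    have h3 : 0 ≤ ∑ k ∈ nms K, ∫ u : ℝ, II j τ β L σ g e h k u :=
      Finset.sum_nonneg fun k _ => hF ..
    by_cases hK1 : 1 ≤ K
    · calc _ = ∑ k ∈ lats j (lt τ g e) K, ∫ u : ℝ, II j τ β L σ g e h (nrm k) u := by
            refine Finset.sum_congr rfl fun k hk => ?_
            rw [II_nrm hj _ _ _ _ _ _ _ (Rec_ne ((mem_lats h1 ht).1 hk).1.1.1)]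
        _ ≤ C * K ^ σ * ∑ k ∈ nms K, ∫ u : ℝ, II j τ β L σ g e h k u :=
            H _ K (fun k => ∫ u : ℝ, II j τ β L σ g e h k u) ht hK1 fun k => hF ..
        _ ≤ C * (Q ^ 4) ^ σ * ∑ k ∈ nms K, ∫ u : ℝ, II j τ β L σ g e h k u := by gcongr
        _ = _ := by
            rw [← Real.rpow_natCast, ← Real.rpow_mul (by linarith)]
            norm_num
    · rw [Finset.sum_eq_zero]
      · positivity
      · intro k hk
        obtain ⟨k1, k2⟩ := (mem_lats h1 ht).1 hk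
        exact absurd ((one_le_szl ht k1).trans k2) hK1
  have h7 : Q ^ (7 * σ) = Q ^ (3 * σ) * Q ^ (4 * σ) := by
    rw [← Real.rpow_add (by linarith)]
    congr 1
    ring
  calc _ ≤ ∑ k ∈ lats j (lt τ g e) K, dE E * Q ^ (3 * σ) * (X / (nf (e : E) * nf (h : E))) *
        ∫ u : ℝ, II j τ β L σ g e h k u := by
        refine norm_sum_le_of_le _ fun k hk => ?_
        rw [norm_mul]
        exact (mul_le_of_le_one_left (norm_nonneg _) (norm_mu_le h)).trans
          (main_one hj hσ hσ1 τ β L Q X g e h k hQ hX hi hτ ((mem_lats h1 ht).1 hk).1)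
    _ ≤ dE E * Q ^ (3 * σ) * (X / (nf (e : E) * nf (h : E))) *
        (C * Q ^ (4 * σ) * ∑ k ∈ nms K, ∫ u : ℝ, II j τ β L σ g e h k u) := by
        rw [← Finset.mul_sum]
        gcongr
    _ = _ := by
        rw [h7]
        field_simp

end Crest.Agent.R312.DPFB
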