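import Crest.Agent.R312.DPPair
import Crest.Agent.R312.DPFinAuxB
import Crest.Agent.R312.DPFinAux1
import Crest.Agent.R17.M4P1AuxA

/-!
# Row 312, module DP: one Poisson step for finite sums (port of `R17/M4P1.lean`, without characters)
-/

set_option autoImplicit false

noncomputable section

namespace Crest.Agent.R312

open NumberField
open scoped ComplexConjugate
open Crest.Agent.R17 (Wc Wm)

variable {E : Type} [Field E] [NumberField E] [Fr E]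

open MeasureTheory

open Classical in
/-- The sum over all pairs of columns of a function of `(g, e, a, b)`. -/
def Prs (j : ℕ) (τ : E) (L Q : ℝ) (β : R E → ℂ) (F : R E → R E → R E → R E → ℂ) : ℂ :=
  ∑ g ∈ sqs Q, ∑ a ∈ Cg j τ L g, ∑ b ∈ Cg j τ L g,
    if IsCoprime a b then β (g * a) * conj (β (g * b)) * ∑ e ∈ dvs g, F g e a b else 0

theorem Prs_add (j : ℕ) (τ : E) (L Q : ℝ) (β : R E → ℂ) (F G : R E → R E → R E → R E → ℂ) :
    Prs j τ L Q β (fun g e a b => F g e a b + G g e a b) = Prs j τ L Q β F + Prs j τ L Q β G := by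
  simp only [Prs, ← Finset.sum_add_distrib]
  refine Finset.sum_congr rfl fun g _ => Finset.sum_congr rfl fun a _ =>
    Finset.sum_congr rfl fun b _ => ?_
  split_ifs
  · rw [Finset.sum_add_distrib, mul_add]
  · rw [add_zero]

theorem DPA.norm_Prs {j : ℕ} (hj : 1 ≤ j) (τ : E) {L Q : ℝ} (hL : L ≤ Q) (β : R E → ℂ)
    (F : R E → R E → R E → R E → ℂ) (G : R E → R E → ℝ)
    (h1 : ∀ y, InvR j fun x => G x y) (h2 : ∀ x, InvR j (G x))
    (h : ∀ g ∈ sqs Q, ∀ a ∈ Cg j τ L g, ∀ b ∈ Cg j τ L g,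
      ‖β (g * a)‖ * ‖β (g * b)‖ * ‖∑ e ∈ dvs g, F g e a b‖ ≤ G (g * a) (g * b)) :
    ‖Prs j τ L Q β F‖ ≤ ∑ x ∈ Col j τ L, ∑ y ∈ Col j τ L, G x y := by
  rw [DPA.sum_gcd_real hj τ hL G h1 h2, Prs]
  refine norm_sum_le_of_le _ fun g hg => norm_sum_le_of_le _ fun a ha =>
    norm_sum_le_of_le _ fun b hb => ?_
  split_ifs
  · rw [norm_mul, norm_mul, Complex.norm_conj]
    exact h g hg a ha b hb
  · rw [norm_zero]

/-! ## part A: opening the square, the diagonal, the tail -/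

open Classical in
/-- Open the square, `sum_gcd`, `pair_poisson`. -/
theorem Dq_eq {j : ℕ} (hj : Lev E j) : ∃ κ : ℝ, 0 < κ ∧
    ∀ (τ : E) (β : R E → ℂ) (L Q X : ℝ), InvR j β → L ≤ Q → 0 < X →
      ((κ * ‖Sr j τ L β 0‖ ^ 2 + ∑' x : R E, (if Lat j (1 : E) x then
          ‖Sr j τ L β x‖ ^ 2 * Gw E (szl (1 : E) x / X) else 0) : ℝ) : ℂ) =
        Prs j τ L Q β fun g e a b => κ * Pm X e a b 0 +
          ∑' k : R E, if Lat j (lt τ g e) k then Pm X e a b k * (Gk τ X g e a b k : ℂ) else 0 := by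
  obtain ⟨κ, hκ, h⟩ := pair_poisson hj
  refine ⟨κ, hκ, fun τ β L Q X hβ hL hX => ?_⟩
  have hs : ∀ n n' : R E, Summable fun x : R E => if Lat j (1 : E) x then
      conj (sym n x) * sym n' x * (Gw E (szl (1 : E) x / X) : ℂ) else 0 := fun n n' =>
    (summable_Gw hj.one_le one_ne_zero (f := fun x => conj (sym n x) * sym n' x) (H := 1)
      (fun x => by
        rw [norm_mul, Complex.norm_conj]
        exact mul_le_one₀ (norm_sym_le _ _) (norm_nonneg _) (norm_sym_le _ _)) hX).of_norm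
  have e1 : ∀ x : R E, ((if Lat j (1 : E) x then
      ‖Sr j τ L β x‖ ^ 2 * Gw E (szl (1 : E) x / X) else 0 : ℝ) : ℂ) =
      ∑ n ∈ Col j τ L, ∑ n' ∈ Col j τ L, β n * conj (β n') * if Lat j (1 : E) x then
        conj (sym n x) * sym n' x * (Gw E (szl (1 : E) x / X) : ℂ) else 0 := by
    intro x
    split_ifs
    · simp only [Complex.ofReal_mul, DPA.sq_Sr, Finset.sum_mul, mul_assoc]
    · simp
  rw [Complex.ofReal_add, Complex.ofReal_mul, Complex.ofReal_tsum, tsum_congr e1,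
    Summable.tsum_finsetSum fun n _ => summable_sum fun n' _ => (hs n n').mul_left _,
    DPA.sq_Sr, Finset.mul_sum, ← Finset.sum_add_distrib]
  rw [Finset.sum_congr rfl fun n _ => show _ = ∑ n' ∈ Col j τ L, β n * conj (β n') *
      (κ * (conj (sym n 0) * sym n' 0) + ∑' x : R E, if Lat j (1 : E) x then
        conj (sym n x) * sym n' x * (Gw E (szl (1 : E) x / X) : ℂ) else 0) by
    rw [Summable.tsum_finsetSum fun n' _ => (hs n n').mul_left _, Finset.mul_sum,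
      ← Finset.sum_add_distrib]
    exact Finset.sum_congr rfl fun n' _ => by rw [tsum_mul_left]; ring]
  rw [sum_gcd hj.one_le τ hL (fun n n' => β n * conj (β n') *
      (κ * (conj (sym n 0) * sym n' 0) + ∑' x : R E, if Lat j (1 : E) x then
        conj (sym n x) * sym n' x * (Gw E (szl (1 : E) x / X) : ℂ) else 0))
    (fun y u x hu => by
      simp only [hβ u x hu, sym_of_associated (DPA.assoc_V hj.one_le hu x)])
    (fun x u y hu => by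
      simp only [hβ u y hu, sym_of_associated (DPA.assoc_V hj.one_le hu y)]), Prs]
  refine Finset.sum_congr rfl fun g hg => Finset.sum_congr rfl fun a ha =>
    Finset.sum_congr rfl fun b hb => ?_
  obtain ⟨⟨a1, a2, -⟩, a3⟩ := (DPA.mem_Cg hj.one_le).1 ha
  obtain ⟨⟨b1, b2, -⟩, b3⟩ := (DPA.mem_Cg hj.one_le).1 hb
  have g2 := (mem_sqs.1 hg).2.1
  split_ifs with hc
  · rw [h τ g a b X (squarefree_mul_iff.2 ⟨a3.symm.isRelPrime, g2, a2⟩)
      (squarefree_mul_iff.2 ⟨b3.symm.isRelPrime, g2, b2⟩) hc a1.2 b1.2 hX]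
  · rfl

/-- `Pm X e a b 0 ≠ 0` forces `a`, `b` to be units, hence equal (`Cls.eq_of_associated`);
`diag_factor`; go back by `sum_gcd` with `G x y = if Associated x y then ‖β x‖² else 0`. -/
theorem diag_le {j : ℕ} (hj : Lev E j) (τ : E) {β : R E → ℂ} (hβ : InvR j β) {L Q X : ℝ}
    (hL : L ≤ Q) (hX : 0 < X) :
    ‖Prs j τ L Q β fun _ e a b => Pm X e a b 0‖ ≤ X * ∑ n ∈ Col j τ L, ‖β n‖ ^ 2 := by
  classical
  have h1 := hj.one_le
  refine (DPA.norm_Prs h1 τ hL β _ (fun x y => if Associated x y then X * ‖β x‖ ^ 2 else 0)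
    (fun y u x hu => ?_) (fun x u y hu => ?_) fun g hg a ha b hb => ?_).trans (le_of_eq ?_)
  · simp only [hβ u x hu]
    exact if_congr ⟨(DPA.assoc_V h1 hu x).symm.trans, (DPA.assoc_V h1 hu x).trans⟩ rfl rfl
  · exact if_congr ⟨fun h => h.trans (DPA.assoc_V h1 hu y),
      fun h => h.trans (DPA.assoc_V h1 hu y).symm⟩ rfl rfl
  · obtain ⟨⟨a1, a2, -⟩, -⟩ := (DPA.mem_Cg h1).1 ha
    obtain ⟨⟨b1, b2, -⟩, -⟩ := (DPA.mem_Cg h1).1 hb
    by_cases hu : IsUnit a ∧ IsUnit b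
    · obtain rfl : a = b := a1.eq_of_associated h1 b1
        ((associated_one_iff_isUnit.2 hu.1).trans (associated_one_iff_isUnit.2 hu.2).symm)
      rw [if_pos (Associated.refl _), ← sq, mul_comm]
      exact mul_le_mul_of_nonneg_right (DPA.Pm_diag hX.le (mem_sqs.1 hg).2.1 hu.1) (sq_nonneg _)
    · simp only [DPA.Pm_zero X _ a2.ne_zero b2.ne_zero hu, Finset.sum_const_zero, norm_zero,
        mul_zero]
      split_ifs
      exacts [by positivity, le_rfl]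
  · rw [Finset.mul_sum]
    refine Finset.sum_congr rfl fun x hx => ?_
    rw [Finset.sum_eq_single_of_mem x hx, if_pos (Associated.refl _)]
    exact fun y hy hne => if_neg fun h =>
      hne (((mem_Col h1).1 hx).1.eq_of_associated h1 ((mem_Col h1).1 hy).1 h).symm

open Classical in
/-- `norm_Pm_le`, `tsum_Gw_tail` with `L = Λ / dE` if `dE ≤ Λ` and `tsum_Gw_le` otherwise
(scale `dE N e N a N b / X`), `card_dvs_le_nf`; go back by `sum_gcd` with `G x y = ‖β x‖ ‖β y‖`. -/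
theorem tail_le {j : ℕ} (hj : Lev E j) {B : ℝ} (hB : 0 ≤ B) : ∃ C : ℝ, 0 < C ∧
    ∀ (τ : E) (β : R E → ℂ) (L Q A X Λ : ℝ), InvR j β → 0 < L → L ≤ Q → 0 < A → A ≤ X → 1 ≤ Λ →
      ‖Prs j τ L Q β fun g e a b => ∑' k : R E,
          if Lat j (lt τ g e) k ∧ Kd Λ A L (g, e, 1) < szl (lt τ g e) k then
            Pm X e a b k * (Gk τ X g e a b k : ℂ) else 0‖ ≤
        C * Q ^ 2 * Λ ^ (-B) * (∑ n ∈ Col j τ L, ‖β n‖) ^ 2 := by
  have h1 := hj.one_le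
  obtain ⟨C₁, hC₁, H₁⟩ := DPA.tail_one (E := E) h1 hB
  obtain ⟨C₂, hC₂, H₂⟩ := card_dvs_le_nf (E := E)
  refine ⟨C₂ * C₁, by positivity, fun τ β L Q A X Λ hβ hL0 hL hA hAX hΛ => ?_⟩
  have hΛ' : 0 ≤ Λ ^ (-B) := by positivity
  refine (DPA.norm_Prs h1 τ hL β _ (fun x y => ‖β x‖ * ‖β y‖ * (C₂ * C₁ * Q ^ 2 * Λ ^ (-B)))
    (fun y u x hu => by simp only [hβ u x hu]) (fun x u y hu => by simp only [hβ u y hu])
    fun g hg a ha b hb => ?_).trans (le_of_eq ?_)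
  · obtain ⟨g1, -, g3⟩ := mem_sqs.1 hg
    have ng := one_le_nf g1.ne_zero
    refine mul_le_mul_of_nonneg_left ((norm_sum_le _ _).trans ((Finset.sum_le_card_nsmul _ _ _
      fun e he => H₁ τ L A X Λ g e a b hA hAX hΛ (of_mem_dvs he).1.ne_zero ha hb).trans ?_))
      (by positivity)
    rw [nsmul_eq_mul]
    calc _ ≤ C₂ * nf (g : E) * (C₁ * (L / nf (g : E)) * Λ ^ (-B)) :=
          mul_le_mul_of_nonneg_right (H₂ g g1.ne_zero) (by positivity)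
      _ = C₂ * C₁ * L * Λ ^ (-B) := by field_simp
      _ ≤ _ := by
          gcongr
          nlinarith
  · simp only [← Finset.sum_mul, ← Finset.mul_sum]
    ring

/-! ## part B: the main term -/

open Classical in
/-- One dual row: `R6 (h a) (h b)` and `sym (h b) (-1)` are constant on the class,
`Aa e k (h a) = γ₅(h a) conj χ_a(e) χ_a(k) · conj χ_h(e) χ_h(k)`, `mellin_bil` with
`p a = conj (dc β g e h a conj χ_a(k)) N a^{-1/2}`, `Z = X szl k / (dE N e N h²) ≥ 1 / (dE Q³)`. -/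
theorem main_one {j : ℕ} (hj : Lev E j) {σ : ℝ} (hσ : 0 < σ) (hσ1 : σ ≤ 1) : ∃ C : ℝ, 0 < C ∧
    ∀ (τ : E) (β : R E → ℂ) (L Q X : ℝ) (g e h k : R E), 1 ≤ Q → 1 ≤ X → (g, e, h) ∈ Tri Q →
      τ ≠ 0 → Lat j (lt τ g e) k →
      ‖∑ a ∈ Cg j (τ / g) (L / nf (g : E)) h, ∑ b ∈ Cg j (τ / g) (L / nf (g : E)) h,
          (if IsCoprime (h * a) g ∧ IsCoprime (h * b) g then
            β (g * (h * a)) * conj (β (g * (h * b))) *
              (Pm X e (h * a) (h * b) k * (Gk τ X g e (h * a) (h * b) k : ℂ)) else 0)‖ ≤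
        C * Q ^ (3 * σ) * (X / (nf (e : E) * nf (h : E))) *
          ∫ u : ℝ, ‖KG E (σ + u * Complex.I)‖ *
            (‖Sr j (τ / (g * h : R E)) (L / (nf (g : E) * nf (h : E)))
                (fun m => dc β g e h m * (nf (m : E) : ℂ) ^ (-(1 / 2) + σ + u * Complex.I)) k‖ ^ 2 +
              ‖Sr j (τ / (g * h : R E)) (L / (nf (g : E) * nf (h : E)))
                (fun m => dc β g e h m * (nf (m : E) : ℂ) ^ (-(1 / 2) + σ - u * Complex.I)) k‖ ^ 2) :=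
  ⟨dE E, lt_of_lt_of_le one_pos one_le_dE, fun τ β L Q X g e h k hQ hX hi hτ hk =>
    DPFB.main_one hj hσ hσ1 τ β L Q X g e h k hQ hX hi hτ hk⟩

/-- `sum_cop` (class `τ / g`), `main_one`, `sum_lats_le` with `norm_Sr_nrm` (inside the integral;
`Kd ≤ Q⁴`), `sum_Tri`. -/
theorem main_le {j : ℕ} (hj : Lev E j) {σ : ℝ} (hσ : 0 < σ) (hσ1 : σ ≤ 1) : ∃ C : ℝ, 0 < C ∧
    ∀ (τ : E) (β : R E → ℂ) (L Q A X Λ : ℝ), InvR j β → 0 < L → L ≤ Q → 1 ≤ A → A ≤ X → 1 ≤ Q →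
      1 ≤ Λ → Λ ≤ Q →
      ‖Prs j τ L Q β fun g e a b => ∑ k ∈ lats j (lt τ g e) (Kd Λ A L (g, e, 1)),
          Pm X e a b k * (Gk τ X g e a b k : ℂ)‖ ≤
        C * Q ^ (7 * σ) * (X / A) * ∫ u : ℝ, ‖KG E (σ + u * Complex.I)‖ *
          (ODf j τ β A L Q Λ (-(1 / 2) + σ + u * Complex.I) +
            ODf j τ β A L Q Λ (-(1 / 2) + σ - u * Complex.I)) := DPFB.main_le hj hσ hσ1

/-! ## part C: the inequality -/

theorem DPFC.Prs_congr (j : ℕ) (τ : E) (L Q : ℝ) (β : R E → ℂ)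
    {F G : R E → R E → R E → R E → ℂ}
    (h : ∀ g ∈ sqs Q, ∀ a ∈ Cg j τ L g, ∀ b ∈ Cg j τ L g, ∀ e ∈ dvs g, F g e a b = G g e a b) :
    Prs j τ L Q β F = Prs j τ L Q β G := by
  unfold Prs
  refine Finset.sum_congr rfl fun g hg => Finset.sum_congr rfl fun a ha =>
    Finset.sum_congr rfl fun b hb => ?_
  rw [Finset.sum_congr rfl fun e he => h g hg a ha b hb e he]

theorem DPFC.Prs_const_mul (j : ℕ) (τ : E) (L Q : ℝ) (β : R E → ℂ) (c : ℂ)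
    (F : R E → R E → R E → R E → ℂ) :
    Prs j τ L Q β (fun g e a b => c * F g e a b) = c * Prs j τ L Q β F := by
  unfold Prs
  simp only [Finset.mul_sum]
  refine Finset.sum_congr rfl fun g _ => Finset.sum_congr rfl fun a _ =>
    Finset.sum_congr rfl fun b _ => ?_
  split_ifs
  · rw [Finset.mul_sum]
    exact Finset.sum_congr rfl fun e _ => by ring
  · rw [mul_zero]

theorem DPFC.of_mem_Cg {j : ℕ} (hj : 1 ≤ j) {τ : E} {L : ℝ} {g a : R E} (ha : a ∈ Cg j τ L g) :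
    τ ≠ 0 ∧ Squarefree a := by
  classical
  obtain ⟨h1, h2, -⟩ := (mem_Col hj).1 (Finset.mem_filter.1 ha).1
  exact ⟨(div_ne_zero_iff.1 (h1.2.ne_zero hj).1).1, h2⟩

/-- One Poisson step with the Mellin integral kept. -/
theorem DPFC.step {j : ℕ} (hj : Lev E j) {σ : ℝ} (hσ : 0 < σ) (hσ1 : σ ≤ 1) {B : ℝ} (hB : 0 ≤ B) :
    ∃ C : ℝ, 0 < C ∧ ∀ (τ : E) (β : R E → ℂ) (A L Q Λ : ℝ), InvR j β → 1 ≤ A → 0 < L → L ≤ Q →
      1 ≤ Q → 1 ≤ Λ → Λ ≤ Q →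
      ∑ a ∈ nms A, ‖Sr j τ L β a‖ ^ 2 ≤
        C * (A * ∑ n ∈ Col j τ L, ‖β n‖ ^ 2 +
          Q ^ (7 * σ) * (∫ u : ℝ, ‖KG E (σ + u * Complex.I)‖ *
            (ODf j τ β A L Q Λ (-(1 / 2) + σ + u * Complex.I) +
              ODf j τ β A L Q Λ (-(1 / 2) + σ - u * Complex.I))) +
          Q ^ 2 * Λ ^ (-B) * (∑ n ∈ Col j τ L, ‖β n‖) ^ 2) := by
  classical
  obtain ⟨C₀, C₁, hC₀, hC₁, Hm⟩ := maj (E := E) hj.1
  obtain ⟨κ, hκ, Hq⟩ := Dq_eq hj
  obtain ⟨C₂, hC₂, H2⟩ := main_le hj hσ hσ1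
  obtain ⟨C₃, hC₃, H3⟩ := tail_le hj hB
  refine ⟨C₁ * (κ * C₀ + C₂ * C₀ + C₃), by positivity, ?_⟩
  intro τ β A L Q Λ hβ hA hL hLQ hQ hΛ hΛQ
  have hA0 : 0 < A := by linarith
  have hX : 0 < C₀ * A := by positivity
  have hAX : A ≤ C₀ * A := le_mul_of_one_le_left hA0.le hC₀
  have h0 := Hm A ((∑ n ∈ Col j τ L, ‖β n‖) ^ 2) (fun a => ‖Sr j τ L β a‖ ^ 2) hA0
    (fun a => by positivity)
    (fun a => pow_le_pow_left₀ (norm_nonneg _) (norm_Sr_le j τ L β a) 2)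
    (fun a ha => by rw [norm_Sr_nrm hj τ L β ha])
  have h1 := diag_le hj τ hβ hLQ hX
  have h2 := H2 τ β L Q A (C₀ * A) Λ hβ hL hLQ hA hAX hQ hΛ hΛQ
  have h3 := H3 τ β L Q A (C₀ * A) Λ hβ hL hLQ hA0 hAX hΛ
  have h4 := Hq τ β L Q (C₀ * A) hβ hLQ hX
  rw [mul_div_assoc, div_self hA0.ne', mul_one] at h2
  have h5 : (Prs j τ L Q β fun g e a b => κ * Pm (C₀ * A) e a b 0 +
      ∑' k : R E, if Lat j (lt τ g e) k then
        Pm (C₀ * A) e a b k * (Gk τ (C₀ * A) g e a b k : ℂ) else 0) =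
      κ * (Prs j τ L Q β fun _ e a b => Pm (C₀ * A) e a b 0) +
        ((Prs j τ L Q β fun g e a b => ∑ k ∈ lats j (lt τ g e) (Kd Λ A L (g, e, 1)),
          Pm (C₀ * A) e a b k * (Gk τ (C₀ * A) g e a b k : ℂ)) +
        Prs j τ L Q β fun g e a b => ∑' k : R E,
          if Lat j (lt τ g e) k ∧ Kd Λ A L (g, e, 1) < szl (lt τ g e) k then
            Pm (C₀ * A) e a b k * (Gk τ (C₀ * A) g e a b k : ℂ) else 0) := by
    rw [← DPFC.Prs_const_mul, ← Prs_add, ← Prs_add]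
    refine DPFC.Prs_congr j τ L Q β fun g hg a ha b hb e he => ?_
    have hg0 : g ≠ 0 := (mem_sqs.1 hg).1.1
    have he0 : e ≠ 0 := ((mem_dvs hg0).1 he).1.1
    obtain ⟨hτ, hsa⟩ := DPFC.of_mem_Cg hj.1 ha
    have hsb := (DPFC.of_mem_Cg hj.1 hb).2
    have hlt : lt τ g e ≠ 0 := by
      have hg' : (g : E) ≠ 0 := fun h => hg0 (Subtype.ext h)
      have he' : (e : E) ≠ 0 := fun h => he0 (Subtype.ext h)
      exact div_ne_zero (mul_ne_zero (pow_ne_zero _ (div_ne_zero hτ hg')) he') dS_ne_zero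
    rw [tsum_Lat_split hj.1 hlt (summable_Pm hj.1 hτ hX hg0 he0 hsa hsb) (Kd Λ A L (g, e, 1))]
  rw [h5] at h4
  have h6 := (Real.le_norm_self _).trans ((Complex.norm_real _).symm.le.trans
    ((congrArg norm h4).le.trans ((norm_add_le _ _).trans (add_le_add_right (norm_add_le _ _) _))))
  rw [norm_mul, Complex.norm_real, Real.norm_of_nonneg hκ.le] at h6
  have h7 : 0 ≤ κ * ‖Sr j τ L β 0‖ ^ 2 := by positivity
  have hI : 0 ≤ ∫ u : ℝ, ‖KG E (σ + u * Complex.I)‖ *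
      (ODf j τ β A L Q Λ (-(1 / 2) + σ + u * Complex.I) +
        ODf j τ β A L Q Λ (-(1 / 2) + σ - u * Complex.I)) :=
    integral_nonneg fun u => mul_nonneg (norm_nonneg _)
      (add_nonneg (ODf_nonneg _ _ _ hA0.le _ _ _ _) (ODf_nonneg _ _ _ hA0.le _ _ _ _))
  have h1' := mul_le_mul_of_nonneg_left h1 hκ.le
  refine h0.trans ?_
  rw [mul_assoc C₁]
  refine mul_le_mul_of_nonneg_left ?_ hC₁.le
  set x := ∑ n ∈ Col j τ L, ‖β n‖ ^ 2 with hx
  set y := ∫ u : ℝ, ‖KG E (σ + u * Complex.I)‖ *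
      (ODf j τ β A L Q Λ (-(1 / 2) + σ + u * Complex.I) +
        ODf j τ β A L Q Λ (-(1 / 2) + σ - u * Complex.I)) with hy
  set z := (∑ n ∈ Col j τ L, ‖β n‖) ^ 2 with hz
  have hx0 : 0 ≤ A * x := by positivity
  have hy0 : 0 ≤ Q ^ (7 * σ) * y := by positivity
  have hz0 : 0 ≤ Q ^ 2 * Λ ^ (-B) * z := by positivity
  have e1 : 0 ≤ κ * C₀ := by positivity
  have e2 : 0 ≤ C₂ * C₀ := by positivity
  have e3 := mul_nonneg (add_nonneg e2 hC₃.le) hx0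
  have e4 := mul_nonneg (add_nonneg e1 hC₃.le) hy0
  have e5 := mul_nonneg (add_nonneg e1 e2) hz0
  linarith

/-- **One Poisson step, finite sums, family version** (`maj`, `Dq_eq`, `tsum_Lat_split`, `Prs_add`,
`diag_le`, `main_le`, `tail_le`, `R17.M4A.sum_integral_le`, `integrable_KG`). -/
theorem P1F {j : ℕ} (hj : Lev E j) {σ : ℝ} (hσ : 0 < σ) (hσ1 : σ ≤ 1) (J : ℕ) {B : ℝ} (hB : 0 ≤ B) :
    ∃ C : ℝ, 0 < C ∧ ∀ {I : Type} (S : Finset I) (w : I → ℝ) (τ : I → E) (β : I → R E → ℂ)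
      (A L : I → ℝ) (Q Λ E₀ : ℝ), 1 ≤ Q → 1 ≤ Λ → Λ ≤ Q →
      (∀ i ∈ S, 0 ≤ w i ∧ InvR j (β i) ∧ 1 ≤ A i ∧ 0 < L i ∧ L i ≤ Q) → 0 ≤ E₀ →
      (∀ u : ℝ, ∑ i ∈ S, w i * ODf j (τ i) (β i) (A i) (L i) Q Λ (-(1 / 2) + σ + u * Complex.I) ≤
        E₀ * (1 + |u|) ^ J) →
      ∑ i ∈ S, w i * ∑ a ∈ nms (A i), ‖Sr j (τ i) (L i) (β i) a‖ ^ 2 ≤
        C * (∑ i ∈ S, w i * (A i * ∑ n ∈ Col j (τ i) (L i), ‖β i n‖ ^ 2) + Q ^ (7 * σ) * E₀ +
          Q ^ 2 * Λ ^ (-B) * ∑ i ∈ S, w i * (∑ n ∈ Col j (τ i) (L i), ‖β i n‖) ^ 2) := by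
  obtain ⟨C, hC, H⟩ := DPFC.step hj hσ hσ1 hB
  set K : ℝ := ∫ u : ℝ, ‖KG E (σ + u * Complex.I)‖ * (1 + |u|) ^ J with hK
  have hK0 : 0 ≤ K := integral_nonneg fun u => by positivity
  refine ⟨C * (1 + 2 * K), by positivity, fun {I} S w τ β A L Q Λ E₀ hQ hΛ hΛQ hS hE0 hE => ?_⟩
  have hw : ∀ i ∈ S, 0 ≤ w i := fun i hi => (hS i hi).1
  have hA : ∀ i ∈ S, 0 ≤ A i := fun i hi => zero_le_one.trans (hS i hi).2.2.1
  have key : ∑ i ∈ S, w i * (∫ u : ℝ, ‖KG E (σ + u * Complex.I)‖ *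
      (ODf j (τ i) (β i) (A i) (L i) Q Λ (-(1 / 2) + σ + u * Complex.I) +
        ODf j (τ i) (β i) (A i) (L i) Q Λ (-(1 / 2) + σ - u * Complex.I))) ≤ 2 * K * E₀ := by
    refine (R17.M4A.sum_integral_le S w _
      (fun u : ℝ => 2 * E₀ * (‖KG E (σ + u * Complex.I)‖ * (1 + |u|) ^ J)) hw
      (fun i hi u => mul_nonneg (norm_nonneg _) (add_nonneg (ODf_nonneg _ _ _ (hA i hi) _ _ _ _)
        (ODf_nonneg _ _ _ (hA i hi) _ _ _ _)))
      ((integrable_KG hσ J).const_mul _) fun u => ?_).trans_eq ?_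
    · have h1 := hE u
      have h2 := hE (-u)
      rw [abs_neg, Complex.ofReal_neg, neg_mul, ← sub_eq_add_neg] at h2
      calc _ = ‖KG E (σ + u * Complex.I)‖ *
            (∑ i ∈ S, w i * ODf j (τ i) (β i) (A i) (L i) Q Λ (-(1 / 2) + σ + u * Complex.I) +
            ∑ i ∈ S, w i * ODf j (τ i) (β i) (A i) (L i) Q Λ (-(1 / 2) + σ - u * Complex.I)) := by
            rw [← Finset.sum_add_distrib, Finset.mul_sum]
            exact Finset.sum_congr rfl fun i _ => by ring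
        _ ≤ ‖KG E (σ + u * Complex.I)‖ * (E₀ * (1 + |u|) ^ J + E₀ * (1 + |u|) ^ J) :=
            mul_le_mul_of_nonneg_left (add_le_add h1 h2) (norm_nonneg _)
        _ = _ := by ring
    · rw [integral_const_mul, ← hK]; ring
  have h1 : ∑ i ∈ S, w i * ∑ a ∈ nms (A i), ‖Sr j (τ i) (L i) (β i) a‖ ^ 2 ≤
      C * (∑ i ∈ S, w i * (A i * ∑ n ∈ Col j (τ i) (L i), ‖β i n‖ ^ 2) +
        Q ^ (7 * σ) * ∑ i ∈ S, w i * (∫ u : ℝ, ‖KG E (σ + u * Complex.I)‖ *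
          (ODf j (τ i) (β i) (A i) (L i) Q Λ (-(1 / 2) + σ + u * Complex.I) +
            ODf j (τ i) (β i) (A i) (L i) Q Λ (-(1 / 2) + σ - u * Complex.I))) +
        Q ^ 2 * Λ ^ (-B) * ∑ i ∈ S, w i * (∑ n ∈ Col j (τ i) (L i), ‖β i n‖) ^ 2) := by
    rw [Finset.mul_sum, Finset.mul_sum, ← Finset.sum_add_distrib, ← Finset.sum_add_distrib,
      Finset.mul_sum]
    refine Finset.sum_le_sum fun i hi => ?_
    obtain ⟨a0, a1, a2, a3, a4⟩ := hS i hi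
    refine (mul_le_mul_of_nonneg_left (H (τ i) (β i) (A i) (L i) Q Λ a1 a2 a3 a4 hQ hΛ hΛQ)
      a0).trans_eq ?_
    ring
  have hx0 : 0 ≤ ∑ i ∈ S, w i * (A i * ∑ n ∈ Col j (τ i) (L i), ‖β i n‖ ^ 2) :=
    Finset.sum_nonneg fun i hi => mul_nonneg (hw i hi) (mul_nonneg (hA i hi) (by positivity))
  have hz0 : 0 ≤ Q ^ 2 * Λ ^ (-B) * ∑ i ∈ S, w i * (∑ n ∈ Col j (τ i) (L i), ‖β i n‖) ^ 2 :=
    mul_nonneg (by positivity) (Finset.sum_nonneg fun i hi => mul_nonneg (hw i hi) (by positivity))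
  have hQ7 : 0 ≤ Q ^ (7 * σ) := by positivity
  have h2 := mul_le_mul_of_nonneg_left key hQ7
  refine h1.trans ?_
  rw [mul_assoc C]
  refine mul_le_mul_of_nonneg_left ?_ hC.le
  have e1 := mul_nonneg hK0 hx0
  have e2 := mul_nonneg hK0 hz0
  have e3 := mul_nonneg hQ7 hE0
  linarith

end Crest.Agent.R312
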