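import Crest.Agent.R312.DPDefs

/-!
# Row 312, module DP: rearrangements of double sums over a ray class (part B of `DPPair`)
-/

set_option autoImplicit false

noncomputable section

namespace Crest.Agent.R312

open NumberField
open scoped ComplexConjugate

variable {E : Type} [Field E] [NumberField E] [Fr E]

namespace DPB

open Classical in
theorem sum_dvd2 {j : ℕ} (hj : 1 ≤ j) (τ : E) (L : ℝ) {g : R E} (hg : Squarefree g)
    (G : R E → R E → ℂ) (h1 : ∀ y, InvR j fun x => G x y) (h2 : ∀ x, InvR j (G x)) :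
    ∑ x ∈ Col j τ L, ∑ y ∈ Col j τ L, (if g ∣ x ∧ g ∣ y then G x y else 0) =
      ∑ a ∈ (Col j (τ / g) (L / nf (g : E))).filter (IsCoprime · g),
        ∑ b ∈ (Col j (τ / g) (L / nf (g : E))).filter (IsCoprime · g), G (g * a) (g * b) := by
  have e1 : ∑ x ∈ Col j τ L, ∑ y ∈ Col j τ L, (if g ∣ x ∧ g ∣ y then G x y else 0) =
      ∑ x ∈ (Col j τ L).filter (g ∣ ·), ∑ y ∈ (Col j τ L).filter (g ∣ ·), G x y := by
    rw [Finset.sum_filter]
    refine Finset.sum_congr rfl fun x _ => ?_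
    rw [Finset.sum_filter]
    by_cases h : g ∣ x <;> simp [h]
  rw [e1, sum_Col_dvd hj τ L hg (f := fun x => ∑ y ∈ (Col j τ L).filter (g ∣ ·), G x y)
    fun u x hu => Finset.sum_congr rfl fun y _ => h1 y u x hu]
  exact Finset.sum_congr rfl fun a _ => sum_Col_dvd hj τ L hg (h2 _)

theorem ngcd_unit_left {u : R E} (hu : IsUnit u) (x y : R E) : ngcd (u * x) y = ngcd x y := by
  unfold ngcd
  rw [Ideal.span_insert, Ideal.span_insert, Ideal.span_singleton_mul_left_unit hu]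

theorem ngcd_unit_right {u : R E} (hu : IsUnit u) (x y : R E) : ngcd x (u * y) = ngcd x y := by
  unfold ngcd
  rw [Ideal.span_insert, Ideal.span_insert, Ideal.span_singleton_mul_left_unit hu]

theorem mem_sqs_of_dvd {j : ℕ} (hj : 1 ≤ j) {τ : E} {L Q : ℝ} (hL : L ≤ Q) {x d : R E}
    (hx : x ∈ Col j τ L) (hd : Nm d) (h : d ∣ x) : d ∈ sqs Q := by
  obtain ⟨-, h1, h2⟩ := (mem_Col hj).1 hx
  exact mem_sqs.2 ⟨hd, h1.squarefree_of_dvd h, (nf_le_of_dvd h h1.ne_zero).trans (h2.trans hL)⟩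

open Classical in
theorem sum_gcd {j : ℕ} (hj : 1 ≤ j) (τ : E) {L Q : ℝ} (hL : L ≤ Q) (G : R E → R E → ℂ)
    (h1 : ∀ y, InvR j fun x => G x y) (h2 : ∀ x, InvR j (G x)) :
    ∑ x ∈ Col j τ L, ∑ y ∈ Col j τ L, G x y =
      ∑ g ∈ (sqs Q : Finset (R E)), ∑ a ∈ (Col j (τ / g) (L / nf (g : E))).filter (IsCoprime · g),
        ∑ b ∈ (Col j (τ / g) (L / nf (g : E))).filter (IsCoprime · g),
          if IsCoprime a b then G (g * a) (g * b) else 0 := by
  have h3 : ∀ x ∈ Col j τ L, ∀ y ∈ Col j τ L, G x y = ∑ g ∈ sqs Q,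
      if g ∣ x ∧ g ∣ y then (if ngcd x y = g then G x y else 0) else 0 := by
    intro x hx y _
    have hx0 := ((mem_Col hj).1 hx).2.1.ne_zero
    have hd := (dvd_ngcd_iff hx0 y _).1 dvd_rfl
    rw [Finset.sum_eq_single (ngcd x y)]
    · rw [if_pos hd, if_pos rfl]
    · intro g _ hg
      rw [if_neg (Ne.symm hg), ite_self]
    · intro hn
      exact absurd (mem_sqs_of_dvd hj hL hx (nm_ngcd hx0 y) hd.1) hn
  rw [Finset.sum_congr rfl fun x hx => Finset.sum_congr rfl fun y hy => h3 x hx y hy]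
  rw [Finset.sum_congr rfl fun x _ => Finset.sum_comm, Finset.sum_comm]
  refine Finset.sum_congr rfl fun g hg => ?_
  obtain ⟨g1, g2, -⟩ := mem_sqs.1 hg
  rw [sum_dvd2 hj τ L g2 (fun x y => if ngcd x y = g then G x y else 0)]
  · refine Finset.sum_congr rfl fun a ha => Finset.sum_congr rfl fun b _ => ?_
    have ha0 := ((mem_Col hj).1 (Finset.mem_filter.1 ha).1).2.1.ne_zero
    rw [ngcd_mul_left g1 ha0]
    refine if_congr ?_ rfl rfl
    rw [← ngcd_eq_one_iff ha0]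
    exact mul_eq_left₀ g1.ne_zero
  · intro y u x hu
    have h4 : G (u * x) y = G x y := h1 y u x hu
    simp only [ngcd_unit_left ((V_iff_isUnit hj).1 hu).1, h4]
  · intro x u y hu
    simp only [ngcd_unit_right ((V_iff_isUnit hj).1 hu).1, h2 x u y hu]

open Classical in
theorem sum_cop {j : ℕ} (hj : 1 ≤ j) (τ : E) {L Q : ℝ} (hL : L ≤ Q) (H : R E → R E → ℂ)
    (h1 : ∀ y, InvR j fun x => H x y) (h2 : ∀ x, InvR j (H x)) :
    ∑ a ∈ Col j τ L, ∑ b ∈ Col j τ L, (if IsCoprime a b then H a b else 0) =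
      ∑ h ∈ (sqs Q : Finset (R E)),
        mu h * ∑ a ∈ (Col j (τ / h) (L / nf (h : E))).filter (IsCoprime · h),
        ∑ b ∈ (Col j (τ / h) (L / nf (h : E))).filter (IsCoprime · h), H (h * a) (h * b) := by
  have h3 : ∀ a ∈ Col j τ L, ∀ b ∈ Col j τ L, (if IsCoprime a b then H a b else 0) =
      ∑ h ∈ sqs Q, if h ∣ a ∧ h ∣ b then mu h * H a b else 0 := by
    intro a ha b _
    have ha0 := ((mem_Col hj).1 ha).2.1.ne_zero
    have e1 : (dvs a).filter (· ∣ b) = (sqs Q).filter (fun h => h ∣ a ∧ h ∣ b) := by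
      ext h
      simp only [Finset.mem_filter, mem_dvs ha0]
      constructor
      · rintro ⟨⟨h1, h2⟩, h3⟩
        exact ⟨mem_sqs_of_dvd hj hL ha h1 h2, h2, h3⟩
      · rintro ⟨h1, h2, h3⟩
        exact ⟨⟨(mem_sqs.1 h1).1, h2⟩, h3⟩
    rw [← Finset.sum_filter, ← Finset.sum_mul, ← e1, sum_mu_coprime ha0 b]
    split_ifs <;> simp
  rw [Finset.sum_congr rfl fun a ha => Finset.sum_congr rfl fun b hb => h3 a ha b hb]
  rw [Finset.sum_congr rfl fun x _ => Finset.sum_comm, Finset.sum_comm]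
  refine Finset.sum_congr rfl fun h hh => ?_
  rw [sum_dvd2 hj τ L (mem_sqs.1 hh).2.1 (fun x y => mu h * H x y)]
  · simp only [Finset.mul_sum]
  · intro y u x hu
    exact congrArg (mu h * ·) (h1 y u x hu)
  · intro x u y hu
    exact congrArg (mu h * ·) (h2 x u y hu)

open Classical in
theorem tsum_Lat_split {j : ℕ} (hj : 1 ≤ j) {t : E} (ht : t ≠ 0) {F : R E → ℂ}
    (hF : Summable fun k => if Lat j t k then F k else 0) (K : ℝ) :
    ∑' k, (if Lat j t k then F k else 0) =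
      ∑ k ∈ lats j t K, F k + ∑' k, if Lat j t k ∧ K < szl t k then F k else 0 := by
  rw [← hF.sum_add_tsum_compl (s := lats j t K), tsum_subtype _ fun k =>
    if Lat j t k then F k else 0]
  congr 1
  · exact Finset.sum_congr rfl fun k hk => if_pos ((mem_lats hj ht).1 hk).1
  · refine tsum_congr fun k => ?_
    rw [Set.indicator_apply]
    simp only [Set.mem_compl_iff, Finset.mem_coe, mem_lats hj ht]
    by_cases h : Lat j t k <;> simp [h]

open Classical in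
theorem maj {j : ℕ} (hj : 1 ≤ j) : ∃ C₀ C : ℝ, 1 ≤ C₀ ∧ 0 < C ∧
    ∀ (A H : ℝ) (F : R E → ℝ), 0 < A → (∀ a, 0 ≤ F a) → (∀ a, F a ≤ H) →
      (∀ a, a ≠ 0 → F (nrm a) = F a) →
      ∑ a ∈ nms A, F a ≤
        C * ∑' a : R E, if Lat j (1 : E) a then F a * Gw E (szl (1 : E) a / (C₀ * A)) else 0 := by
  obtain ⟨C₀, hC₀, h₀⟩ := sum_nms_le (E := E) hj
  obtain ⟨c, hc, h₁⟩ := Gw_antitoneOn_aux (E := E)
  refine ⟨C₀, c⁻¹, hC₀, inv_pos.2 hc, fun A H F hA hF hH hn => (h₀ A F hF).trans ?_⟩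
  have hX : 0 < C₀ * A := by positivity
  have h0 : ∀ a : R E, 0 ≤ if Lat j (1 : E) a then F a * Gw E (szl (1 : E) a / (C₀ * A)) else 0 :=
    fun a => by
      split_ifs
      · exact mul_nonneg (hF a) (Gw_pos _).le
      · exact le_rfl
  have hs : Summable fun a : R E =>
      if Lat j (1 : E) a then F a * Gw E (szl (1 : E) a / (C₀ * A)) else 0 := by
    refine (summable_Gw hj (one_ne_zero (α := E)) (f := fun a => (F a : ℂ)) (H := H)
      (fun k => by rw [Complex.norm_real, Real.norm_of_nonneg (hF k)]; exact hH k) hX).congr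
      fun a => ?_
    split_ifs
    · rw [← Complex.ofReal_mul, Complex.norm_real,
        Real.norm_of_nonneg (mul_nonneg (hF a) (Gw_pos _).le)]
    · exact norm_zero
  rw [le_inv_mul_iff₀ hc, Finset.mul_sum]
  refine le_trans (Finset.sum_le_sum fun k hk => ?_) (hs.sum_le_tsum (lats j 1 (C₀ * A))
    fun a _ => h0 a)
  obtain ⟨k1, k2⟩ := (mem_lats hj one_ne_zero).1 hk
  have k3 := one_le_szl one_ne_zero k1
  rw [if_pos k1, hn k (fun h => k1.1.1 (by rw [h]; rfl)), mul_comm]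
  exact mul_le_mul_of_nonneg_left (h₁ _ (by positivity) ((div_le_one hX).2 k2)) (hF k)

theorem diag_factor {g : R E} (hg : Squarefree g) :
    ‖∑ e ∈ dvs g, mu e * (((nf (e : E))⁻¹ : ℝ) : ℂ)‖ ≤ 1 := by
  have h1 : ∑ e ∈ dvs g, mu e * (((nf (e : E))⁻¹ : ℝ) : ℂ) =
      ∏ p ∈ pf g, (1 + (-(((nf (p : E))⁻¹ : ℝ) : ℂ))) := by
    rw [sum_dvs_sqfree hg fun e => mu e * (((nf (e : E))⁻¹ : ℝ) : ℂ), Finset.prod_one_add]
    refine Finset.sum_congr rfl fun S hS => ?_
    have h2 := squarefree_prod_primes (s := S) fun q hq =>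
      ⟨(of_mem_pf (Finset.mem_powerset.1 hS hq)).1, (of_mem_pf (Finset.mem_powerset.1 hS hq)).2.1⟩
    rw [mu_of_squarefree h2.1, h2.2.2, nf_prod, Finset.prod_neg, ← Finset.prod_inv_distrib,
      Complex.ofReal_prod]
  rw [h1, norm_prod]
  refine Finset.prod_le_one (fun _ _ => norm_nonneg _) fun p hp => ?_
  have h3 : 1 ≤ nf (p : E) := one_le_nf (of_mem_pf hp).1.ne_zero
  have h4 : (nf (p : E))⁻¹ ≤ 1 := inv_le_one_of_one_le₀ h3
  have h5 : 0 ≤ (nf (p : E))⁻¹ := by positivity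
  have : (1 + (-(((nf (p : E))⁻¹ : ℝ) : ℂ))) = ((1 - (nf (p : E))⁻¹ : ℝ) : ℂ) := by
    push_cast; ring
  rw [this, Complex.norm_real, Real.norm_of_nonneg (by linarith)]
  linarith

end DPB

end Crest.Agent.R312
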