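import Crest.Agent.R312.DPDefs
import Crest.Agent.R312.DPPairAuxB

/-!
# Row 312, module DP: Poisson summation for a pair of columns, rearrangements, Mellin separation
(port of `R17/M4P1AuxA.lean`, `R17/M4P1AuxB.lean`)
-/

set_option autoImplicit false

noncomputable section

namespace Crest.Agent.R312

open NumberField
open scoped ComplexConjugate
open Crest.Agent.R17 (Wc Wm)

variable {E : Type} [Field E] [NumberField E] [Fr E]

open MeasureTheory

/-- The arithmetic factor of a column. -/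
def Aa (e k m : R E) : ℂ := gam 5 m * conj (sym m e) * sym m k

/-- The type of the dual lattice. -/
def lt (τ : E) (g e : R E) : E := (τ / g) ^ 2 * e / dS E

open Classical in
/-- The cofactors of `g`. -/
def Cg (j : ℕ) (τ : E) (L : ℝ) (g : R E) : Finset (R E) :=
  (Col j (τ / g) (L / nf (g : E))).filter (IsCoprime · g)

/-- The arithmetic part of the general term after Poisson summation. -/
def Pm (X : ℝ) (e a b k : R E) : ℂ :=
  mu e * ((X / (Real.sqrt (dE E) * nf (e : E) * Real.sqrt (nf (a : E)) * Real.sqrt (nf (b : E))) :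
    ℝ) : ℂ) * (conj (R6 a b) * sym b (-1)) * (Aa e k a * conj (Aa e k b))

/-- The weight of the dual variable. -/
def Gk (τ : E) (X : ℝ) (g e a b k : R E) : ℝ :=
  Gw E (X * szl (lt τ g e) k / (dE E * (nf (e : E) * nf (a : E) * nf (b : E))))

/-! ## part A: the exact formula for a pair -/

/-- `ft_crt`, `gs_sqfree`, `conj_gs` (or `gam_mul_gam`), `sym_recip`. -/
theorem ft_pair {a b : R E} (ha : Squarefree a) (hb : Squarefree b) (h : IsCoprime a b) (k : R E) :
    ft (a * b) (fun x => conj (sym a x) * sym b x) k =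
      (Real.sqrt (nf (a : E)) : ℂ) * (Real.sqrt (nf (b : E)) : ℂ) * (conj (R6 a b) * sym b (-1)) *
        (gam 5 a * sym a k * conj (gam 5 b * sym b k)) := by
  have ha0 := ha.ne_zero
  have hb0 := hb.ne_zero
  have e1 : ft a (fun x => conj (sym a x)) k =
      sym a k * ((Real.sqrt (nf (a : E)) : ℂ) * gam 5 a) := by
    simp only [conj_sym]
    rw [ft_pow_eq_gs a (by norm_num), gs_sqfree (by norm_num) ha, gs_one_eq 5 ha0, ← conj_sym,
      Complex.conj_conj]
  have e2 : ft b (fun x => sym b x) k =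
      conj (sym b k) * ((Real.sqrt (nf (b : E)) : ℂ) * gam 1 b) := by
    have := ft_pow_eq_gs b one_ne_zero k
    rw [gs_sqfree (by norm_num) hb, gs_one_eq 1 hb0] at this
    simpa only [pow_one] using this
  have e3 := gam_mul_gam (j := 1) (by norm_num) hb
  have e4 := Rec_mul_conj (norm_gam (j := 5) (by norm_num) hb)
  have e5 := Rec_mul_conj (norm_sym h.symm)
  rw [mul_one, pow_one] at e3
  rw [ft_crt (f := fun x => conj (sym a x)) (g := fun x => sym b x) ha0 hb0 h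
    (fun x y hxy => by rw [sym_congr hxy]) (fun x y hxy => sym_congr hxy)
    (fun x y => by rw [sym_mul_right, map_mul]) (sym_mul_right b), e1, e2, sym_recip ha0 hb0,
    map_mul, map_mul, ← e3]
  linear_combination (conj (R6 a b) * sym a k * (Real.sqrt (nf (a : E)) : ℂ) * gam 5 a *
    conj (sym b k) * (Real.sqrt (nf (b : E)) : ℂ) * gam 1 b) * (e5 - e4)

open Classical in
theorem DPPairA_split {g a b : R E} (hg : g ≠ 0) (ha : a ≠ 0) (hb : b ≠ 0) (x : R E) :
    conj (sym (g * a) x) * sym (g * b) x =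
      ∑ e ∈ dvs g, if e ∣ x then mu e * (conj (sym a x) * sym b x) else 0 := by
  rw [← Finset.sum_filter, ← Finset.sum_mul, sum_mu_coprime hg, sym_mul_left hg ha,
    sym_mul_left hg hb, map_mul]
  split_ifs with h
  · linear_combination conj (sym a x) * sym b x * Rec_mul_conj (norm_sym h)
  · rw [(sym_eq_zero_iff hg).2 h]
    ring

open Classical in
/-- `1_{(x, g) = 1} = ∑_{e ∣ g, e ∣ x} μ(e)` (`sum_mu_coprime`, also for `x = 0`), `tsum_Lat_dvd`,
`szl_mul`, `PP1` with `t = 1 / e`, `c = a b`, `X / N e`; the dual lattice only depends on the type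
(`Ty.Lat_eq`). -/
theorem pair_poisson {j : ℕ} (hj : Lev E j) : ∃ κ : ℝ, 0 < κ ∧
    ∀ (τ : E) (g a b : R E) (X : ℝ), Squarefree (g * a) → Squarefree (g * b) → IsCoprime a b →
      Ty j (τ / g) (a : E) → Ty j (τ / g) (b : E) → 0 < X →
      κ * (conj (sym (g * a) 0) * sym (g * b) 0) +
        ∑' x : R E, (if Lat j (1 : E) x then
          conj (sym (g * a) x) * sym (g * b) x * (Gw E (szl (1 : E) x / X) : ℂ) else 0) =
      ∑ e ∈ dvs g, (κ * Pm X e a b 0 +
        ∑' k : R E, if Lat j (lt τ g e) k then Pm X e a b k * (Gk τ X g e a b k : ℂ) else 0) := by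
  obtain ⟨κ, hκ, H⟩ := PP1 (E := E) hj.1
  refine ⟨κ, hκ, fun τ g a b X hga hgb hab ta tb hX => ?_⟩
  have sa := hga.of_mul_right
  have sb := hgb.of_mul_right
  have hg := hga.of_mul_left.ne_zero
  have ha := sa.ne_zero
  have hb := sb.ne_zero
  obtain ⟨f, hf⟩ : ∃ f : R E → ℂ, f = fun x => conj (sym a x) * sym b x := ⟨_, rfl⟩
  have f1 : ∀ x, ‖f x‖ ≤ 1 := fun x => by
    rw [hf, norm_mul, RCLike.norm_conj]
    exact mul_le_one₀ (norm_sym_le _ _) (norm_nonneg _) (norm_sym_le _ _)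
  have f2 : ∀ x y, f (x * y) = f x * f y := fun x y => by
    simp only [hf, sym_mul_right, map_mul]
    ring
  have f3 : ∀ x y, a * b ∣ x - y → f x = f y := fun x y h => by
    simp only [hf]
    rw [sym_congr ((dvd_mul_right a b).trans h), sym_congr ((dvd_mul_left b a).trans h)]
  have f4 : InvR j f := fun u x hu => by
    simp only [hf]
    rw [hj.invR_sym a u x hu, hj.invR_sym b u x hu]
  have e1 : ∀ x : R E, conj (sym (g * a) x) * sym (g * b) x =
      ∑ e ∈ dvs g, if e ∣ x then mu e * f x else 0 := fun x => hf ▸ DPPairA_split hg ha hb x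
  have e2 : ∀ x : R E, (if Lat j (1 : E) x then
      conj (sym (g * a) x) * sym (g * b) x * (Gw E (szl (1 : E) x / X) : ℂ) else 0) =
      ∑ e ∈ dvs g, if Lat j (1 : E) x ∧ e ∣ x then
        mu e * f x * (Gw E (szl (1 : E) x / X) : ℂ) else 0 := fun x => by
    by_cases h : Lat j (1 : E) x
    · simp only [h, e1, true_and, if_true, Finset.sum_mul, ite_mul, zero_mul]
    · simp only [h, false_and, if_false, Finset.sum_const_zero]
  rw [tsum_congr e2, Summable.tsum_finsetSum, e1, Finset.mul_sum, ← Finset.sum_add_distrib]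
  swap
  · intro e _
    refine Summable.of_norm_bounded (summable_Gw hj.1 (one_ne_zero (α := E)) f1 hX) fun x => ?_
    by_cases h : Lat j (1 : E) x ∧ e ∣ x
    · rw [if_pos h, if_pos h.1, mul_assoc, norm_mul]
      exact mul_le_of_le_one_left (norm_nonneg _) (norm_mu_le e)
    · rw [if_neg h, norm_zero]
      exact norm_nonneg _
  refine Finset.sum_congr rfl fun e he => ?_
  have he0 := (of_mem_dvs he).1.ne_zero
  have he1 := Rec_coe_ne he0
  have ne := nf_pos he1
  have na := nf_pos (Rec_coe_ne ha)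
  have nb := nf_pos (Rec_coe_ne hb)
  have nd : 0 < dE E := one_pos.trans_le one_le_dE
  have h1 := H (1 / e) (a * b) (fun x => mu e * f e * f x) (X / nf (e : E)) (one_div_ne_zero he1)
    (mul_ne_zero ha hb) (fun x y h => by rw [f3 x y h])
    (fun u x hu => by simp only [f4 u x hu]) (div_pos hX ne)
  have ty : Ty j (lt τ g e) (((a * b : R E) : E) / (1 / e * dS E)) := by
    have := (ta.mul tb).mul (Ty.refl j (div_ne_zero he1 (dS_ne_zero (E := E))))
    convert this using 1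
    · rw [lt]; ring
    · push_cast; field_simp
  obtain ⟨l1, l2⟩ := Ty.Lat_eq (j := j) hj.1 ty
  have e3 : ∀ k, ((X / nf (e : E) / (Real.sqrt (dE E) * nf ((a * b : R E) : E)) : ℝ) : ℂ) *
      ft (a * b) (fun x => mu e * f e * f x) k = Pm X e a b k := fun k => by
    have a1 : ft (a * b) (fun x => mu e * f e * f x) k = mu e * f e * ft (a * b) f k := by
      simp only [ft, Finset.mul_sum, mul_assoc]
    have a2 : X / (Real.sqrt (dE E) * nf (e : E) * Real.sqrt (nf (a : E)) * Real.sqrt (nf (b : E))) =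
        X / nf (e : E) / (Real.sqrt (dE E) * nf ((a * b : R E) : E)) *
          (Real.sqrt (nf (a : E)) * Real.sqrt (nf (b : E))) := by
      have b1 := Real.sqrt_pos.2 na
      have b2 := Real.sqrt_pos.2 nb
      have b3 := Real.sqrt_pos.2 nd
      rw [Subring.coe_mul, nf_mul]
      nth_rewrite 2 [← Real.mul_self_sqrt na.le, ← Real.mul_self_sqrt nb.le]
      field_simp
    rw [a1, hf, ft_pair sa sb hab, Pm, a2]
    simp only [Aa, map_mul, Complex.conj_conj, Complex.ofReal_mul]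
    ring
  rw [tsum_Lat_dvd hj.1 1 he0 (f := fun x => mu e * f x * (Gw E (szl (1 : E) x / X) : ℂ))
    fun u x hu => by
      simp only [f4 u x hu, szl, Subring.coe_mul, nr_mul, V.nr_eq hj.1 hu, one_mul]]
  rw [← l1, ← l2, mul_add, mul_left_comm _ (κ : ℂ), e3, ← tsum_mul_left] at h1
  convert h1 using 2
  · rw [if_pos (dvd_zero e), mul_assoc, ← f2, mul_zero]
  · refine tsum_congr fun k => ?_
    rw [szl_mul one_ne_zero he0, f2, ← mul_assoc, div_div_eq_mul_div, mul_comm (nf (e : E))]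
  · refine tsum_congr fun k => ?_
    rw [mul_ite, mul_zero, ← mul_assoc, e3, Gk, Subring.coe_mul, nf_mul]
    congr 4
    field_simp

theorem norm_Pm_le {X : ℝ} (hX : 0 ≤ X) (e : R E) {a b : R E} (ha : Squarefree a)
    (hb : Squarefree b) (k : R E) :
    ‖Pm X e a b k‖ ≤ X / (nf (e : E) * Real.sqrt (nf (a : E)) * Real.sqrt (nf (b : E))) := by
  have h1 : ∀ m : R E, Squarefree m → ‖Aa e k m‖ ≤ 1 := fun m hm => by
    rw [Aa, norm_mul, norm_mul, norm_gam (by norm_num) hm, one_mul, RCLike.norm_conj]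
    exact mul_le_one₀ (norm_sym_le _ _) (norm_nonneg _) (norm_sym_le _ _)
  have h2 := nf_nonneg (e : E)
  have h3 : 1 ≤ Real.sqrt (dE E) := Real.one_le_sqrt.2 one_le_dE
  rw [Pm, norm_mul, norm_mul, norm_mul, norm_mul, norm_mul, RCLike.norm_conj, RCLike.norm_conj,
    norm_R6 ha.ne_zero hb.ne_zero, one_mul, Complex.norm_real, Real.norm_of_nonneg (by positivity)]
  refine (mul_le_of_le_one_right (by positivity)
    (mul_le_one₀ (h1 a ha) (norm_nonneg _) (h1 b hb))).trans ?_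
  refine (mul_le_of_le_one_right (by positivity) (norm_sym_le _ _)).trans ?_
  refine (mul_le_of_le_one_left (by positivity) (norm_mu_le e)).trans ?_
  rw [mul_assoc, mul_assoc, mul_comm, ← div_div, ← mul_assoc]
  exact div_le_self (by positivity) h3
theorem DPPairA_Ty {j : ℕ} {u x : R E} (hu : V j (u : E)) (hx : x ≠ 0) :
    Ty j (x : E) ((u * x : R E) : E) := by
  rw [Ty, Subring.coe_mul, mul_div_cancel_right₀ _ (Rec_coe_ne hx)]
  exact hu.1
theorem DPPairA_Aa {j : ℕ} (hj : Lev E j) (e k : R E) : InvR j (Aa e k) := fun u x hu => by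
  have h := associated_unit_mul_left x u ((V_iff_isUnit hj.1).1 hu).1
  rw [Aa, Aa, hj.invR_gam 5 u x hu, sym_of_associated h, sym_of_associated h]
theorem Lev.invR_Pm_left {j : ℕ} (hj : Lev E j) (X : ℝ) (e b k : R E) :
    InvR j fun a => Pm X e a b k := by
  intro u x hu
  by_cases hx : x = 0
  · rw [hx, mul_zero]
  by_cases hb : b = 0
  · simp [hb, Pm]
  simp only [Pm]
  rw [DPPairA_Aa hj e k u x hu, hj.R6_congr (DPPairA_Ty hu hx) (Ty.refl j (Rec_coe_ne hb)),
    Subring.coe_mul, nf_mul, V.nf_eq hj.1 hu, one_mul]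
theorem Lev.invR_Pm_right {j : ℕ} (hj : Lev E j) (X : ℝ) (e a k : R E) :
    InvR j fun b => Pm X e a b k := by
  intro u x hu
  by_cases hx : x = 0
  · rw [hx, mul_zero]
  by_cases ha : a = 0
  · simp [ha, Pm]
  simp only [Pm]
  rw [DPPairA_Aa hj e k u x hu, hj.R6_congr (Ty.refl j (Rec_coe_ne ha)) (DPPairA_Ty hu hx),
    Subring.coe_mul, nf_mul, V.nf_eq hj.1 hu, one_mul,
    sym_of_associated (associated_unit_mul_left x u ((V_iff_isUnit hj.1).1 hu).1)]
open Classical in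
theorem summable_Pm {j : ℕ} (hj : 1 ≤ j) {τ : E} (hτ : τ ≠ 0) {X : ℝ} (hX : 0 < X) {g e a b : R E}
    (hg : g ≠ 0) (he : e ≠ 0) (ha : Squarefree a) (hb : Squarefree b) :
    Summable fun k : R E =>
      if Lat j (lt τ g e) k then Pm X e a b k * (Gk τ X g e a b k : ℂ) else 0 := by
  have ne := nf_pos (Rec_coe_ne he)
  have na := nf_pos (Rec_coe_ne ha.ne_zero)
  have nb := nf_pos (Rec_coe_ne hb.ne_zero)
  have nd : 0 < dE E := one_pos.trans_le one_le_dE
  have ht : lt τ g e ≠ 0 := div_ne_zero (mul_ne_zero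
    (pow_ne_zero 2 (div_ne_zero hτ (Rec_coe_ne hg))) (Rec_coe_ne he)) dS_ne_zero
  refine (summable_Gw hj ht (norm_Pm_le hX.le e ha hb)
    (X := dE E * (nf (e : E) * nf (a : E) * nf (b : E)) / X) (by positivity)).of_norm.congr
    fun k => ?_
  rw [Gk, div_div_eq_mul_div, mul_comm X]

/-! ## part B: rearrangements -/

open Classical in
/-- Freeze `g = ngcd x y` (`sum_Col_dvd` in each variable, `ngcd_mul_left`). -/
theorem sum_gcd {j : ℕ} (hj : 1 ≤ j) (τ : E) {L Q : ℝ} (hL : L ≤ Q) (G : R E → R E → ℂ)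
    (h1 : ∀ y, InvR j fun x => G x y) (h2 : ∀ x, InvR j (G x)) :
    ∑ x ∈ Col j τ L, ∑ y ∈ Col j τ L, G x y =
      ∑ g ∈ sqs Q, ∑ a ∈ Cg j τ L g, ∑ b ∈ Cg j τ L g,
        if IsCoprime a b then G (g * a) (g * b) else 0 := DPB.sum_gcd hj τ hL G h1 h2
open Classical in
theorem sum_cop {j : ℕ} (hj : 1 ≤ j) (τ : E) {L Q : ℝ} (hL : L ≤ Q) (H : R E → R E → ℂ)
    (h1 : ∀ y, InvR j fun x => H x y) (h2 : ∀ x, InvR j (H x)) :
    ∑ a ∈ Col j τ L, ∑ b ∈ Col j τ L, (if IsCoprime a b then H a b else 0) =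
      ∑ h ∈ sqs Q, mu h * ∑ a ∈ Cg j τ L h, ∑ b ∈ Cg j τ L h, H (h * a) (h * b) :=
  DPB.sum_cop hj τ hL H h1 h2
open Classical in
theorem tsum_Lat_split {j : ℕ} (hj : 1 ≤ j) {t : E} (ht : t ≠ 0) {F : R E → ℂ}
    (hF : Summable fun k => if Lat j t k then F k else 0) (K : ℝ) :
    ∑' k, (if Lat j t k then F k else 0) =
      ∑ k ∈ lats j t K, F k + ∑' k, if Lat j t k ∧ K < szl t k then F k else 0 :=
  DPB.tsum_Lat_split hj ht hF K
open Classical in
/-- The sharp sum over ideals is majorised by the smooth sum over the lattice (`sum_nms_le`,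
`Gw_antitoneOn_aux`, `summable_Gw`). -/
theorem maj {j : ℕ} (hj : 1 ≤ j) : ∃ C₀ C : ℝ, 1 ≤ C₀ ∧ 0 < C ∧
    ∀ (A H : ℝ) (F : R E → ℝ), 0 < A → (∀ a, 0 ≤ F a) → (∀ a, F a ≤ H) →
      (∀ a, a ≠ 0 → F (nrm a) = F a) →
      ∑ a ∈ nms A, F a ≤
        C * ∑' a : R E, if Lat j (1 : E) a then F a * Gw E (szl (1 : E) a / (C₀ * A)) else 0 :=
  DPB.maj hj
theorem diag_factor {g : R E} (hg : Squarefree g) :
    ‖∑ e ∈ dvs g, mu e * (((nf (e : E))⁻¹ : ℝ) : ℂ)‖ ≤ 1 := DPB.diag_factor hg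

/-! ## part C: Mellin separation -/

/-- A Dirichlet polynomial. -/
def DPo {α : Type} (S : Finset α) (N : α → ℝ) (p : α → ℂ) (s : ℂ) : ℂ := ∑ a ∈ S, p a * (N a : ℂ) ^ s

theorem DPC.cpow_eq {y : ℝ} (hy : 0 < y) (t : ℂ) :
    (y : ℂ) ^ t = Complex.exp (t * (Real.log y : ℂ)) := by
  rw [Complex.cpow_def_of_ne_zero (by exact_mod_cast hy.ne'), Complex.ofReal_log hy.le, mul_comm]

theorem DPC.continuous_DPo {α : Type} {S : Finset α} {N : α → ℝ} (hN : ∀ a ∈ S, 0 < N a)
    (p : α → ℂ) {s : ℝ → ℂ} (hs : Continuous s) : Continuous fun u => DPo S N p (s u) :=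
  continuous_finsetSum _ fun a ha => continuous_const.mul
    (Continuous.const_cpow hs (Or.inl (Complex.ofReal_ne_zero.2 (hN a ha).ne')))

theorem DPC.norm_DPo_le {α : Type} {S : Finset α} {N : α → ℝ} (hN : ∀ a ∈ S, 0 < N a)
    (p : α → ℂ) (s : ℂ) : ‖DPo S N p s‖ ≤ ∑ a ∈ S, ‖p a‖ * N a ^ s.re := by
  refine (norm_sum_le _ _).trans (Finset.sum_le_sum fun a ha => ?_)
  rw [norm_mul, Complex.norm_cpow_eq_rpow_re_of_pos (hN a ha)]

theorem DPC.integrable_norm_KG {σ : ℝ} (hσ : 0 < σ) :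
    Integrable fun u : ℝ => ‖KG E (σ + u * Complex.I)‖ := by
  simpa using integrable_KG (E := E) hσ 0

theorem DPC.integrable_aux {α : Type} {S : Finset α} {N : α → ℝ} (hN : ∀ a ∈ S, 0 < N a)
    (p : α → ℂ) {σ : ℝ} (hσ : 0 < σ) {s : ℝ → ℂ} (hs : Continuous s) (hre : ∀ u, (s u).re = σ) :
    Integrable fun u : ℝ => ‖KG E (σ + u * Complex.I)‖ * ‖DPo S N p (s u)‖ ^ 2 := by
  refine (DPC.integrable_norm_KG hσ).mul_bdd (c := (∑ a ∈ S, ‖p a‖ * N a ^ σ) ^ 2)
    ((DPC.continuous_DPo hN p hs).norm.pow 2).aestronglyMeasurable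
    (Filter.Eventually.of_forall fun u => ?_)
  rw [Real.norm_of_nonneg (by positivity), ← hre u]
  exact pow_le_pow_left₀ (norm_nonneg _) (DPC.norm_DPo_le hN p _) 2

theorem integrable_DPo {α : Type} {S : Finset α} {N : α → ℝ} (hN : ∀ a ∈ S, 0 < N a) (p : α → ℂ)
    {σ : ℝ} (hσ : 0 < σ) :
    (Integrable fun u : ℝ => ‖KG E (σ + u * Complex.I)‖ * ‖DPo S N p (σ + u * Complex.I)‖ ^ 2) ∧
    Integrable fun u : ℝ => ‖KG E (σ + u * Complex.I)‖ * ‖DPo S N p (σ - u * Complex.I)‖ ^ 2 :=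
  ⟨DPC.integrable_aux hN p hσ (by fun_prop) (fun u => by simp),
    DPC.integrable_aux hN p hσ (by fun_prop) (fun u => by simp)⟩

theorem DPC.conj_cpow {x : ℝ} (hx : 0 < x) (σ u : ℝ) :
    conj ((x : ℂ) ^ ((σ : ℂ) - u * Complex.I)) = (x : ℂ) ^ ((σ : ℂ) + u * Complex.I) := by
  rw [DPC.cpow_eq hx, DPC.cpow_eq hx, ← Complex.exp_conj]
  congr 1
  simp

theorem DPC.cpow_split {Z x y : ℝ} (hZ : 0 < Z) (hx : 0 < x) (hy : 0 < y) (s : ℂ) :
    ((Z / (x * y) : ℝ) : ℂ) ^ (-s) = (Z : ℂ) ^ (-s) * ((x : ℂ) ^ s * (y : ℂ) ^ s) := by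
  rw [DPC.cpow_eq (by positivity), DPC.cpow_eq hZ, DPC.cpow_eq hx, DPC.cpow_eq hy,
    ← Complex.exp_add, ← Complex.exp_add, Real.log_div hZ.ne' (by positivity),
    Real.log_mul hx.ne' hy.ne']
  congr 1
  push_cast
  ring

/-- `Gw_eq_integral`, `|x y| ≤ x² + y²`. -/
theorem mellin_bil {α : Type} {S : Finset α} {N : α → ℝ} (hN : ∀ a ∈ S, 0 < N a) (p : α → ℂ)
    {σ Z : ℝ} (hσ : 0 < σ) (hZ : 0 < Z) :
    ‖∑ a ∈ S, ∑ b ∈ S, (Gw E (Z / (N a * N b)) : ℂ) * (p a * conj (p b))‖ ≤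
      Z ^ (-σ) * ∫ u : ℝ, ‖KG E (σ + u * Complex.I)‖ *
        (‖DPo S N p (σ + u * Complex.I)‖ ^ 2 + ‖DPo S N p (σ - u * Complex.I)‖ ^ 2) := by
  set T : α → α → ℝ → ℂ := fun a b u => KG E (σ + u * Complex.I) *
    ((Z : ℂ) ^ (-((σ : ℂ) + u * Complex.I)) *
      ((p a * (N a : ℂ) ^ ((σ : ℂ) + u * Complex.I)) *
        conj (p b * (N b : ℂ) ^ ((σ : ℂ) - u * Complex.I)))) with hT
  have hneg : ∀ u : ℝ, ‖(Z : ℂ) ^ (-((σ : ℂ) + u * Complex.I))‖ = Z ^ (-σ) := by
    intro u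
    rw [Complex.norm_cpow_eq_rpow_re_of_pos hZ]; simp
  have hc : ∀ {x : ℝ}, 0 < x → ∀ {s : ℝ → ℂ}, Continuous s → Continuous fun u => (x : ℂ) ^ s u :=
    fun hx _ hs => Continuous.const_cpow hs (Or.inl (Complex.ofReal_ne_zero.2 hx.ne'))
  have hK : Integrable fun u : ℝ => KG E (σ + u * Complex.I) :=
    (integrable_norm_iff (continuous_KG hσ).aestronglyMeasurable).1 (DPC.integrable_norm_KG hσ)
  have hTi : ∀ a ∈ S, ∀ b ∈ S, Integrable (T a b) := by
    intro a ha b hb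
    refine hK.mul_bdd (c := Z ^ (-σ) * ((‖p a‖ * N a ^ σ) * (‖p b‖ * N b ^ σ))) ?_
      (Filter.Eventually.of_forall fun u => ?_)
    · exact ((hc hZ (by fun_prop)).mul ((continuous_const.mul (hc (hN a ha) (by fun_prop))).mul
        (Complex.continuous_conj.comp (continuous_const.mul
          (hc (hN b hb) (by fun_prop)))))).aestronglyMeasurable
    · rw [norm_mul, norm_mul, Complex.norm_conj, norm_mul, norm_mul, hneg,
        Complex.norm_cpow_eq_rpow_re_of_pos (hN a ha),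
        Complex.norm_cpow_eq_rpow_re_of_pos (hN b hb)]
      simp
  have h1 : ∀ a ∈ S, ∀ b ∈ S, (Gw E (Z / (N a * N b)) : ℂ) * (p a * conj (p b)) =
      (1 / (2 * Real.pi) : ℂ) * ∫ u, T a b u := by
    intro a ha b hb
    have ha' := hN a ha
    have hb' := hN b hb
    rw [Gw_eq_integral (by positivity) hσ, mul_assoc, ← integral_mul_const]
    congr 1
    refine integral_congr_ae (Filter.Eventually.of_forall fun u => ?_)
    simp only [hT]
    rw [DPC.cpow_split hZ ha' hb', map_mul, DPC.conj_cpow hb']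
    ring
  rw [Finset.sum_congr rfl fun a ha => Finset.sum_congr rfl fun b hb => h1 a ha b hb]
  simp only [← Finset.mul_sum]
  rw [Finset.sum_congr rfl fun a ha => (integral_finsetSum S fun b hb => hTi a ha b hb).symm,
    ← integral_finsetSum S fun a ha => integrable_finsetSum S fun b hb => hTi a ha b hb]
  have h2 : ∀ u : ℝ, ∑ a ∈ S, ∑ b ∈ S, T a b u = KG E (σ + u * Complex.I) *
      ((Z : ℂ) ^ (-((σ : ℂ) + u * Complex.I)) *
        (DPo S N p (σ + u * Complex.I) * conj (DPo S N p (σ - u * Complex.I)))) := by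
    intro u
    rw [DPo, DPo, map_sum, Finset.sum_mul_sum]
    simp only [hT, Finset.mul_sum]
  simp only [h2]
  have hpi : ‖(1 / (2 * Real.pi) : ℂ)‖ ≤ 1 := by
    rw [norm_div, norm_one, norm_mul, Complex.norm_real, Real.norm_of_nonneg Real.pi_pos.le]
    have := Real.pi_gt_three
    rw [div_le_one (by simp; positivity)]
    simp; linarith
  have hI : Integrable fun u : ℝ => ‖KG E (σ + u * Complex.I)‖ *
      (‖DPo S N p (σ + u * Complex.I)‖ ^ 2 + ‖DPo S N p (σ - u * Complex.I)‖ ^ 2) := by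
    simp only [mul_add]
    exact (integrable_DPo hN p hσ).1.add (integrable_DPo hN p hσ).2
  rw [norm_mul, ← integral_const_mul]
  refine (mul_le_of_le_one_left (norm_nonneg _) hpi).trans ?_
  refine norm_integral_le_of_norm_le (hI.const_mul _) (Filter.Eventually.of_forall fun u => ?_)
  rw [norm_mul, norm_mul, norm_mul, Complex.norm_conj, hneg]
  have hz : 0 ≤ Z ^ (-σ) := by positivity
  have hx := norm_nonneg (DPo S N p (σ + u * Complex.I))
  have hy := norm_nonneg (DPo S N p (σ - u * Complex.I))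
  have hg := norm_nonneg (KG E (σ + u * Complex.I))
  set x := ‖DPo S N p (σ + u * Complex.I)‖
  set y := ‖DPo S N p (σ - u * Complex.I)‖
  set g := ‖KG E (σ + u * Complex.I)‖
  calc g * (Z ^ (-σ) * (x * y)) ≤ g * (Z ^ (-σ) * (x ^ 2 + y ^ 2)) := by
        gcongr
        nlinarith [sq_nonneg (x - y), mul_nonneg hx hy]
    _ = _ := by ring

end Crest.Agent.R312
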