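import Crest.Agent.R312.DPDefs

/-!
# Row 312, module DP: completion of the dual sums
-/

set_option autoImplicit false

noncomputable section

namespace Crest.Agent.R312.DPSmA

open NumberField
open scoped ComplexConjugate
open Crest.Agent.R17 (Wc Wm)

variable {E : Type} [Field E] [NumberField E] [Fr E]

theorem dc_mul (c : R E → ℂ) {g h : R E} (hg : g ≠ 0) (hh : h ≠ 0) (e : R E) {m : R E}
    (hm : m ≠ 0) {D : ℝ} (hD : 0 < D) (y : ℝ) (w : ℂ) :
    dc (fun n => c n * Wc (nf (n : E) / D) (y * Complex.I)) g e h m * (nf (m : E) : ℂ) ^ w =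
      ((D / (nf (g : E) * nf (h : E)) : ℝ) : ℂ) ^ w * (dc c g e h m *
        Wc (nf (m : E) / (D / (nf (g : E) * nf (h : E)))) (-(y * Complex.I) + w)) := by
  have h1 := one_le_nf hg
  have h2 := one_le_nf hh
  have h3 := one_le_nf hm
  have hX : 0 < D / (nf (g : E) * nf (h : E)) := by positivity
  have hx : 0 < nf (m : E) / (D / (nf (g : E) * nf (h : E))) := by positivity
  unfold dc
  split_ifs with hc
  · have e1 : nf ((g * h * m : R E) : E) / D = nf (m : E) / (D / (nf (g : E) * nf (h : E))) := by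
      rw [Subring.coe_mul, Subring.coe_mul, nf_mul, nf_mul]
      field_simp
    have e2 : (nf (m : E) : ℂ) ^ w = ((D / (nf (g : E) * nf (h : E)) : ℝ) : ℂ) ^ w *
        ((nf (m : E) / (D / (nf (g : E) * nf (h : E))) : ℝ) : ℂ) ^ w := by
      rw [← Complex.mul_cpow_ofReal_nonneg hX.le hx.le, ← Complex.ofReal_mul,
        mul_div_cancel₀ _ hX.ne']
    have e3 : conj ((y : ℂ) * Complex.I) = -(y * Complex.I) := by simp
    beta_reduce
    rw [e1, e2, map_mul, R17.conj_Wc, e3, R17.Wc_add hx]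
    ring
  · simp

theorem row_le {j : ℕ} (hj : 1 ≤ j) (B : ℝ) : ∃ C : ℝ, 0 < C ∧
    ∀ (τ : E) (c : R E → ℂ) (g e h k : R E) (D Λ₁ σ y u : ℝ),
      (∀ n, Squarefree n → ‖c n‖ ≤ 1) → Squarefree (g * h) → 0 < D → 1 ≤ Λ₁ → 0 ≤ σ → σ ≤ 1 / 2 →
      ‖Sr j τ (D * Λ₁ / (nf (g : E) * nf (h : E)))
        (fun m => dc (fun n => c n * Wc (nf (n : E) / D) (y * Complex.I)) g e h m *
          (nf (m : E) : ℂ) ^ (-(1 / 2) + σ + u * Complex.I)) k‖ ^ 2 ≤
        C * (D / (nf (g : E) * nf (h : E))) ^ (2 * σ) / (D / (nf (g : E) * nf (h : E))) *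
          (‖Sc j τ (dc c g e h) k (Real.exp ((σ - 1 / 2) / 2) * D / (nf (g : E) * nf (h : E)))
            (((u - y : ℝ) : ℂ) * Complex.I)‖ ^ 2 +
          (D / (nf (g : E) * nf (h : E))) ^ 2 * Λ₁ ^ (-B)) := by
  obtain ⟨C, hC, H⟩ := norm_Sc_sub_Sr_le (E := E) hj (B / 2)
  refine ⟨2 * Real.exp 1 ^ 2 + 2 * C ^ 2, by positivity,
    fun τ c g e h k D Λ₁ σ y u hc hgh hD hΛ hσ hσ' => ?_⟩
  have hg : g ≠ 0 := left_ne_zero_of_mul hgh.ne_zero
  have hh : h ≠ 0 := right_ne_zero_of_mul hgh.ne_zero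
  have h1 := one_le_nf hg
  have h2 := one_le_nf hh
  have e0 : Sr j τ (D * Λ₁ / (nf (g : E) * nf (h : E)))
        (fun m => dc (fun n => c n * Wc (nf (n : E) / D) (y * Complex.I)) g e h m *
          (nf (m : E) : ℂ) ^ (-(1 / 2) + σ + u * Complex.I)) k =
      ((D / (nf (g : E) * nf (h : E)) : ℝ) : ℂ) ^ (-(1 / 2) + σ + u * Complex.I) *
        Sr j τ (D / (nf (g : E) * nf (h : E)) * Λ₁) (fun m => dc c g e h m *
          Wc (nf (m : E) / (D / (nf (g : E) * nf (h : E))))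
            (((σ - 1 / 2 : ℝ) : ℂ) + ((u - y : ℝ) : ℂ) * Complex.I)) k := by
    rw [Sr, Sr, Finset.mul_sum, mul_div_right_comm]
    refine Finset.sum_congr rfl fun m hm => ?_
    have e1 : -((y : ℂ) * Complex.I) + (-(1 / 2) + σ + u * Complex.I) =
        ((σ - 1 / 2 : ℝ) : ℂ) + ((u - y : ℝ) : ℂ) * Complex.I := by
      push_cast
      ring
    rw [dc_mul c hg hh e ((mem_Col hj).1 hm).2.1.ne_zero hD, e1, mul_assoc]
  rw [e0, mul_div_assoc (Real.exp _)]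
  have hX : 0 < D / (nf (g : E) * nf (h : E)) := by positivity
  generalize D / (nf (g : E) * nf (h : E)) = X at hX ⊢
  have a1 := H τ (dc c g e h) k X Λ₁ (((σ - 1 / 2 : ℝ) : ℂ) + ((u - y : ℝ) : ℂ) * Complex.I)
    (fun n hn => norm_dc_le hc hgh e hn) hX hΛ (by
      simp only [Complex.add_re, Complex.ofReal_re, Complex.mul_re, Complex.I_re, Complex.ofReal_im,
        Complex.I_im, mul_zero, zero_mul, sub_zero, add_zero]
      rw [abs_le]
      constructor <;> linarith)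
  have a2 := norm_Sc_shift j τ (dc c g e h) k hX (σ - 1 / 2) (u - y)
  rw [mul_comm X] at a2
  have a3 : Real.exp ((σ - 1 / 2) ^ 2 / 4) ≤ Real.exp 1 := Real.exp_le_exp.2 (by nlinarith)
  have a4 : ‖(X : ℂ) ^ (-(1 / 2) + σ + u * Complex.I)‖ ^ 2 = X ^ (2 * σ) / X := by
    rw [Complex.norm_cpow_eq_rpow_re_of_pos hX, ← Real.rpow_natCast, ← Real.rpow_mul hX.le,
      ← Real.rpow_sub_one hX.ne']
    congr 1
    simp
    ring
  have a5 : (Λ₁ ^ (-(B / 2))) ^ 2 = Λ₁ ^ (-B) := by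
    rw [← Real.rpow_natCast, ← Real.rpow_mul (by linarith)]
    congr 1
    push_cast
    ring
  rw [norm_mul, mul_pow, a4, ← a5, mul_div_assoc, mul_comm (_ + _), mul_assoc]
  refine mul_le_mul_of_nonneg_left ?_ (by positivity)
  have a6 := norm_sub_norm_le
    (Sr j τ (X * Λ₁) (fun m => dc c g e h m * Wc (nf (m : E) / X)
      (((σ - 1 / 2 : ℝ) : ℂ) + ((u - y : ℝ) : ℂ) * Complex.I)) k)
    (Sc j τ (dc c g e h) k X (((σ - 1 / 2 : ℝ) : ℂ) + ((u - y : ℝ) : ℂ) * Complex.I))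
  rw [norm_sub_rev, a2] at a6
  have a7 := mul_le_mul_of_nonneg_right a3 (norm_nonneg (Sc j τ (dc c g e h) k
    (Real.exp ((σ - 1 / 2) / 2) * X) (((u - y : ℝ) : ℂ) * Complex.I)))
  have a8 := pow_le_pow_left₀ (norm_nonneg _) ((sub_le_iff_le_add.1 (a6.trans a1)).trans
    (add_le_add le_rfl a7)) 2
  refine a8.trans ?_
  generalize ‖Sc j τ (dc c g e h) k (Real.exp ((σ - 1 / 2) / 2) * X)
    (((u - y : ℝ) : ℂ) * Complex.I)‖ = S
  generalize Λ₁ ^ (-(B / 2)) = Z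
  generalize Real.exp 1 = a
  nlinarith [sq_nonneg (C * X * Z - a * S), sq_nonneg (C * S), sq_nonneg (a * X * Z)]

theorem card_Tri_le : ∃ C : ℝ, 0 < C ∧ ∀ Q : ℝ, 0 ≤ Q →
    ((Tri Q : Finset (R E × R E × R E)).card : ℝ) ≤ C * Q ^ 3 := by
  classical
  obtain ⟨C, hC, H⟩ := card_nms_le (E := E)
  refine ⟨C ^ 3, by positivity, fun Q hQ => ?_⟩
  have h1 : ((sqs Q : Finset (R E)).card : ℝ) ≤ C * Q :=
    (Nat.cast_le.2 (Finset.card_le_card (sqs_subset Q))).trans (H Q hQ)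
  have h2 : (Tri Q : Finset (R E × R E × R E)).card ≤ (sqs Q : Finset (R E)).card ^ 3 := by
    refine (Finset.card_filter_le _ _).trans (le_of_eq ?_)
    rw [Finset.card_product, Finset.card_product]
    ring
  calc ((Tri Q : Finset (R E × R E × R E)).card : ℝ) ≤ ((sqs Q : Finset (R E)).card : ℝ) ^ 3 := by
        exact_mod_cast h2
    _ ≤ (C * Q) ^ 3 := pow_le_pow_left₀ (Nat.cast_nonneg _) h1 3
    _ = _ := by ring

theorem ODf_le_OD {j : ℕ} (hj : 1 ≤ j) (B : ℝ) : ∃ C : ℝ, 0 < C ∧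
    ∀ (τ : E) (c : R E → ℂ) (A D Q Λ Λ₁ σ y u : ℝ), (∀ n, Squarefree n → ‖c n‖ ≤ 1) → 1 ≤ A →
      1 ≤ D → D ≤ Q → 1 ≤ Λ₁ → 0 ≤ Λ → Λ ≤ Q → 0 ≤ σ → σ ≤ 1 / 2 →
      ODf j τ (fun n => c n * Wc (nf (n : E) / D) (y * Complex.I)) A (D * Λ₁) (Q ^ 2) (Λ / Λ₁ ^ 2)
          (-(1 / 2) + σ + u * Complex.I) ≤
        C * (Q ^ (2 * σ) * OD j τ c A D (Q ^ 2) Λ (Real.exp ((σ - 1 / 2) / 2)) (u - y) +
          Q ^ 11 * Λ₁ ^ (-B)) := by
  obtain ⟨C, hC, H⟩ := row_le (E := E) hj B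
  obtain ⟨C₁, hC₁, H₁⟩ := card_nms_le (E := E)
  obtain ⟨C₂, hC₂, H₂⟩ := card_Tri_le (E := E)
  refine ⟨C * (1 + C₁ * C₂), by positivity,
    fun τ c A D Q Λ Λ₁ σ y u hc hA hD hDQ hΛ₁ hΛ hΛQ hσ hσ' => ?_⟩
  have hQ : 1 ≤ Q := hD.trans hDQ
  have hZ : 0 ≤ Λ₁ ^ (-B) := by positivity
  have hO := OD_nonneg j τ c (zero_le_one.trans hA) (zero_le_one.trans hD) (Q ^ 2) Λ
    (Real.exp ((σ - 1 / 2) / 2)) (u - y)
  have hQσ : Q ^ (2 * σ) ≤ Q := by
    conv_rhs => rw [← Real.rpow_one Q]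
    exact Real.rpow_le_rpow_of_exponent_le hQ (by linarith)
  have key : ODf j τ (fun n => c n * Wc (nf (n : E) / D) (y * Complex.I)) A (D * Λ₁) (Q ^ 2)
      (Λ / Λ₁ ^ 2) (-(1 / 2) + σ + u * Complex.I) ≤
      C * Q ^ (2 * σ) * OD j τ c A D (Q ^ 2) Λ (Real.exp ((σ - 1 / 2) / 2)) (u - y) +
        ∑ _i ∈ (Tri (Q ^ 2) : Finset (R E × R E × R E)), C * C₁ * Q ^ 5 * Λ₁ ^ (-B) := by
    rw [ODf, OD, Finset.mul_sum, ← Finset.sum_add_distrib]
    refine Finset.sum_le_sum fun i hi => ?_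
    obtain ⟨g, e, h⟩ := i
    obtain ⟨⟨hg, he, hh⟩, -, hgh⟩ := mem_Tri.1 hi
    dsimp only at hg he hh hgh ⊢
    have hsq : Squarefree (g * h) :=
      squarefree_mul_iff.2 ⟨hgh.symm.isRelPrime, (mem_sqs.1 hg).2.1, (mem_sqs.1 hh).2.1⟩
    have h1 := one_le_nf (mem_sqs.1 hg).1.ne_zero
    have h2 := one_le_nf (mem_sqs.1 hh).1.ne_zero
    have h3 := one_le_nf (mem_sqs.1 he).1.ne_zero
    have eK : Kd (Λ / Λ₁ ^ 2) A (D * Λ₁) (g, e, h) = Kd Λ A D (g, e, h) := by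
      unfold Kd
      field_simp
    have hK := H₁ (Kd Λ A D (g, e, h)) (by unfold Kd; positivity)
    rw [eK]
    refine (mul_le_mul_of_nonneg_left (Finset.sum_le_sum fun k _ =>
      H _ c g e h k D Λ₁ σ y u hc hsq (by linarith) hΛ₁ hσ hσ') (by positivity)).trans ?_
    rw [← Finset.mul_sum, Finset.sum_add_distrib, Finset.sum_const, nsmul_eq_mul]
    have hS : 0 ≤ ∑ k ∈ nms (Kd Λ A D (g, e, h)), ‖Sc j (τ / (g * h : R E)) (dc c g e h) k
        (Real.exp ((σ - 1 / 2) / 2) * D / (nf (g : E) * nf (h : E)))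
          (((u - y : ℝ) : ℂ) * Complex.I)‖ ^ 2 := by positivity
    generalize ∑ k ∈ nms (Kd Λ A D (g, e, h)), ‖Sc j (τ / (g * h : R E)) (dc c g e h) k
        (Real.exp ((σ - 1 / 2) / 2) * D / (nf (g : E) * nf (h : E)))
          (((u - y : ℝ) : ℂ) * Complex.I)‖ ^ 2 = S at hS ⊢
    have hN : (0 : ℝ) ≤ (nms (Kd Λ A D (g, e, h)) : Finset (R E)).card := Nat.cast_nonneg _
    generalize ((nms (Kd Λ A D (g, e, h)) : Finset (R E)).card : ℝ) = N at hK hN ⊢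
    unfold Kd at hK
    dsimp only at hK
    generalize nf (g : E) = a at h1 hK ⊢
    generalize nf (h : E) = b at h2 hK ⊢
    generalize nf (e : E) = d at h3 hK ⊢
    generalize Λ₁ ^ (-B) = Z at hZ ⊢
    have hXD : D / (a * b) ≤ Q :=
      (div_le_self (by linarith) (one_le_mul_of_one_le_of_one_le h1 h2)).trans hDQ
    have hP : (D / (a * b)) ^ (2 * σ) ≤ Q ^ (2 * σ) :=
      Real.rpow_le_rpow (by positivity) hXD (by linarith)
    have hP0 : 0 ≤ Q ^ (2 * σ) := by positivity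
    generalize (D / (a * b)) ^ (2 * σ) = P at hP ⊢
    generalize Q ^ (2 * σ) = P' at hP hP0 hQσ ⊢
    have hDa : D / a ≤ Q := (div_le_self (by linarith) h1).trans hDQ
    calc A / (d * b) * (C * P / (D / (a * b)) * (S + N * ((D / (a * b)) ^ 2 * Z)))
        ≤ A / (d * b) * (C * P' / (D / (a * b)) *
          (S + C₁ * (Λ * d * (D / a) ^ 2 / A) * ((D / (a * b)) ^ 2 * Z))) := by
          gcongr
      _ = C * P' * (A * a / (d * D) * S) +
          C * C₁ * (P' * Λ * (D / a) ^ 2 * (D / (a * b)) / b) * Z := by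
          field_simp
      _ ≤ _ := by
          refine add_le_add le_rfl ?_
          have : P' * Λ * (D / a) ^ 2 * (D / (a * b)) / b ≤ Q ^ 5 := by
            refine (div_le_self (by positivity) h2).trans ?_
            calc _ ≤ Q * Q * Q ^ 2 * Q := by gcongr
              _ = _ := by ring
          gcongr
  rw [Finset.sum_const, nsmul_eq_mul] at key
  have h4 := H₂ (Q ^ 2) (by positivity)
  have h5 : 0 ≤ Q ^ (2 * σ) * OD j τ c A D (Q ^ 2) Λ (Real.exp ((σ - 1 / 2) / 2)) (u - y) := by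
    positivity
  refine key.trans ((add_le_add le_rfl (mul_le_mul_of_nonneg_right h4 (by positivity))).trans ?_)
  rw [mul_assoc C]
  generalize Q ^ (2 * σ) * OD j τ c A D (Q ^ 2) Λ (Real.exp ((σ - 1 / 2) / 2)) (u - y) = S at h5 ⊢
  have h6 : 0 ≤ C * (C₁ * C₂) * S := by positivity
  have h7 : 0 ≤ C * (Q ^ 11 * Λ₁ ^ (-B)) := by positivity
  nlinarith

end Crest.Agent.R312.DPSmA
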