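import Crest.Agent.R312.DPFin
import Crest.Agent.R312.DPSmAuxA

/-!
# Row 312, module DP: one Poisson step for smooth sums
-/

set_option autoImplicit false

noncomputable section

namespace Crest.Agent.R312

open NumberField
open scoped ComplexConjugate
open Crest.Agent.R17 (Wc Wm)

variable {E : Type} [Field E] [NumberField E] [Fr E]

/-- Completion of the dual sums.  With `X' = D / (N g N h)`, `β n = c n Wc(N n / D, i y)`:
`dc β g e h m N m^w = X'^w dc c g e h m Wc(N m / X', w - i y)` (`conj_Wc`, `Wc_add`),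
`norm_Sc_sub_Sr_le`, `norm_Sc_shift` with `σ - 1/2`; `Kd (Λ / Λ₁²) A (D Λ₁) = Kd Λ A D`;
the error is summed trivially (`card_nms_le`, at most `C Q⁶` triples). -/
theorem ODf_le_OD {j : ℕ} (hj : 1 ≤ j) (B : ℝ) : ∃ C : ℝ, 0 < C ∧
    ∀ (τ : E) (c : R E → ℂ) (A D Q Λ Λ₁ σ y u : ℝ), (∀ n, Squarefree n → ‖c n‖ ≤ 1) → 1 ≤ A →
      1 ≤ D → D ≤ Q → 1 ≤ Λ₁ → 0 ≤ Λ → Λ ≤ Q → 0 ≤ σ → σ ≤ 1 / 2 →
      ODf j τ (fun n => c n * Wc (nf (n : E) / D) (y * Complex.I)) A (D * Λ₁) (Q ^ 2) (Λ / Λ₁ ^ 2)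
          (-(1 / 2) + σ + u * Complex.I) ≤
        C * (Q ^ (2 * σ) * OD j τ c A D (Q ^ 2) Λ (Real.exp ((σ - 1 / 2) / 2)) (u - y) +
          Q ^ 11 * Λ₁ ^ (-B)) := DPSmA.ODf_le_OD hj B

theorem P1W_col {j : ℕ} (hj : 1 ≤ j) : ∃ C : ℝ, 0 < C ∧
    ∀ (τ : E) (c : R E → ℂ) (D L y : ℝ), (∀ n, Squarefree n → ‖c n‖ ≤ 1) → 0 < D →
      ∑ n ∈ Col j τ L, ‖c n * Wc (nf (n : E) / D) (y * Complex.I)‖ ≤ C * D ∧
      ∑ n ∈ Col j τ L, ‖c n * Wc (nf (n : E) / D) (y * Complex.I)‖ ^ 2 ≤ C * D := by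
  obtain ⟨C, hC, h⟩ := sum_Col_Wc_le (E := E) hj
  refine ⟨C, hC, fun τ c D L y hc hD => ?_⟩
  have h1 : ∀ n ∈ Col j τ L, ‖c n * Wc (nf (n : E) / D) (y * Complex.I)‖ ≤
      ‖Wc (nf (n : E) / D) (y * Complex.I)‖ := fun n hn => by
    rw [norm_mul]
    exact mul_le_of_le_one_left (norm_nonneg _) (hc n ((mem_Col hj).1 hn).2.1)
  have h2 := (Finset.sum_le_sum h1).trans (h τ D L _ hD (by simp))
  refine ⟨h2, le_trans (Finset.sum_le_sum fun n hn => ?_) h2⟩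
  rw [sq]
  refine mul_le_of_le_one_left (norm_nonneg _) ((h1 n hn).trans ?_)
  simpa using R17.norm_Wc_le (nf (n : E) / D) (y * Complex.I)

/-- The truncated sums. -/
theorem P1W_fin {j : ℕ} (hj : Lev E j) {ε : ℝ} (hε : 0 < ε) (hε1 : ε ≤ 1) (J : ℕ) :
    ∃ C : ℝ, 0 < C ∧ ∀ {I : Type} (S : Finset I) (w : I → ℝ) (τ : I → E) (c : I → R E → ℂ)
      (A D : I → ℝ) (Q E₀ y : ℝ), 1 ≤ Q → 0 ≤ E₀ →
      (∀ i ∈ S, 0 ≤ w i ∧ InvR j (c i) ∧ (∀ n, Squarefree n → ‖c i n‖ ≤ 1) ∧ 1 ≤ A i ∧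
        1 ≤ D i ∧ D i ≤ Q) →
      (∀ κ y' : ℝ, 1 / 2 ≤ κ → κ ≤ 1 →
        ∑ i ∈ S, w i * OD j (τ i) (c i) (A i) (D i) (Q ^ 2) (Q ^ ε) κ y' ≤ E₀ * (1 + |y'|) ^ J) →
      ∑ i ∈ S, w i * ∑ a ∈ nms (A i), ‖Sr j (τ i) (D i * Q ^ (ε / 4))
          (fun n => c i n * Wc (nf (n : E) / D i) (y * Complex.I)) a‖ ^ 2 ≤
        C * Q ^ ε * (∑ i ∈ S, w i * (A i * D i) + E₀ * (1 + |y|) ^ J) := by
  obtain ⟨C₃, hC₃, h₃⟩ := ODf_le_OD (E := E) hj.1 (44 / ε)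
  obtain ⟨C₄, hC₄, h₄⟩ := P1F hj (σ := ε / 16) (by positivity) (by linarith) J
    (B := 10 / ε) (by positivity)
  obtain ⟨C₅, hC₅, h₅⟩ := P1W_col (E := E) hj.1
  refine ⟨C₄ * (C₅ + C₃ + C₅ ^ 2), by positivity, fun S w τ c A D Q E₀ y hQ hE hS hO => ?_⟩
  have hQ0 : 0 < Q := one_pos.trans_le hQ
  set M := ∑ i ∈ S, w i * (A i * D i) with hM
  have hAD : ∀ i ∈ S, 1 ≤ A i * D i := fun i hi =>
    one_le_mul_of_one_le_of_one_le (hS i hi).2.2.2.1 (hS i hi).2.2.2.2.1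
  have hM0 : 0 ≤ M := Finset.sum_nonneg fun i hi =>
    mul_nonneg (hS i hi).1 (zero_le_one.trans (hAD i hi))
  have hw : ∑ i ∈ S, w i ≤ M := Finset.sum_le_sum fun i hi =>
    le_mul_of_one_le_right (hS i hi).1 (hAD i hi)
  have q1 : ∀ {t : ℝ}, 0 ≤ t → 1 ≤ Q ^ t := fun ht => Real.one_le_rpow hQ ht
  have q2 : ∀ {t : ℝ}, t ≤ 1 → Q ^ t ≤ Q := fun ht => Real.rpow_le_self_of_one_le hQ ht
  have e1 : Q ^ ε / (Q ^ (ε / 4)) ^ 2 = Q ^ (ε / 2) := by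
    rw [← Real.rpow_natCast, ← Real.rpow_mul hQ0.le, ← Real.rpow_sub hQ0]
    congr 1; push_cast; ring
  have e2 : Q ^ 11 * (Q ^ (ε / 4)) ^ (-(44 / ε)) = 1 := by
    rw [← Real.rpow_natCast, ← Real.rpow_mul hQ0.le, ← Real.rpow_add hQ0, ← Real.rpow_zero Q]
    congr 1; field_simp; norm_num
  have e3 : (Q ^ 2) ^ 2 * (Q ^ (ε / 2)) ^ (-(10 / ε)) * Q = 1 := by
    rw [← pow_mul, ← Real.rpow_natCast, ← Real.rpow_mul hQ0.le, ← Real.rpow_add hQ0,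
      ← Real.rpow_add_one hQ0.ne', ← Real.rpow_zero Q]
    congr 1; field_simp; norm_num
  have e4 : (Q ^ 2) ^ (7 * (ε / 16)) * Q ^ (2 * (ε / 16)) = Q ^ ε := by
    rw [← Real.rpow_natCast, ← Real.rpow_mul hQ0.le, ← Real.rpow_add hQ0]
    congr 1; push_cast; ring
  have h := h₄ S w τ (fun i n => c i n * Wc (nf (n : E) / D i) (y * Complex.I)) A
    (fun i => D i * Q ^ (ε / 4)) (Q ^ 2) (Q ^ (ε / 2))
    (C₃ * (Q ^ (2 * (ε / 16)) * (M + E₀ * (1 + |y|) ^ J))) (one_le_pow₀ hQ) (q1 (by positivity))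
    ((q2 (by linarith)).trans (le_self_pow₀ hQ two_ne_zero)) (fun i hi => ?_) (by positivity)
    fun u => ?_
  · refine h.trans ?_
    have a1 : ∑ i ∈ S, w i * (A i * ∑ n ∈ Col j (τ i) (D i * Q ^ (ε / 4)),
        ‖c i n * Wc (nf (n : E) / D i) (y * Complex.I)‖ ^ 2) ≤ C₅ * M := by
      rw [hM, Finset.mul_sum]
      refine Finset.sum_le_sum fun i hi => ?_
      obtain ⟨b1, -, b3, b4, b5, -⟩ := hS i hi
      have := (h₅ (τ i) (c i) (D i) (D i * Q ^ (ε / 4)) y b3 (one_pos.trans_le b5)).2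
      calc _ ≤ w i * (A i * (C₅ * D i)) := by gcongr
        _ = _ := by ring
    have a2 : ∑ i ∈ S, w i * (∑ n ∈ Col j (τ i) (D i * Q ^ (ε / 4)),
        ‖c i n * Wc (nf (n : E) / D i) (y * Complex.I)‖) ^ 2 ≤ Q * (C₅ ^ 2 * M) := by
      rw [hM, Finset.mul_sum, Finset.mul_sum]
      refine Finset.sum_le_sum fun i hi => ?_
      obtain ⟨b1, -, b3, b4, b5, b6⟩ := hS i hi
      have := (h₅ (τ i) (c i) (D i) (D i * Q ^ (ε / 4)) y b3 (one_pos.trans_le b5)).1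
      calc _ ≤ w i * (C₅ * D i) ^ 2 := by gcongr
        _ = w i * (C₅ ^ 2 * (D i * (1 * D i))) := by ring
        _ ≤ w i * (C₅ ^ 2 * (Q * (A i * D i))) := by gcongr
        _ = _ := by ring
    have a3 : M ≤ Q ^ ε * (M + E₀ * (1 + |y|) ^ J) :=
      (le_add_of_nonneg_right (by positivity)).trans
        (le_mul_of_one_le_left (by positivity) (q1 hε.le))
    calc _ ≤ C₄ * (C₅ * M + (Q ^ 2) ^ (7 * (ε / 16)) *
          (C₃ * (Q ^ (2 * (ε / 16)) * (M + E₀ * (1 + |y|) ^ J))) +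
          (Q ^ 2) ^ 2 * (Q ^ (ε / 2)) ^ (-(10 / ε)) * (Q * (C₅ ^ 2 * M))) := by gcongr
      _ = C₄ * (C₅ * M + C₃ * (Q ^ ε * (M + E₀ * (1 + |y|) ^ J)) + C₅ ^ 2 * M) := by
          rw [← mul_assoc _ Q, e3, ← e4]; ring
      _ ≤ C₄ * (C₅ * (Q ^ ε * (M + E₀ * (1 + |y|) ^ J)) + C₃ * (Q ^ ε * (M + E₀ * (1 + |y|) ^ J)) +
          C₅ ^ 2 * (Q ^ ε * (M + E₀ * (1 + |y|) ^ J))) := by gcongr
      _ = _ := by ring
  · obtain ⟨b1, b2, -, b4, b5, b6⟩ := hS i hi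
    refine ⟨b1, fun u x hu => ?_, b4, by positivity, ?_⟩
    · beta_reduce
      rw [b2 u x hu, Subring.coe_mul, nf_mul, hu.nf_eq hj.1, one_mul]
    · rw [sq]
      exact mul_le_mul b6 (q2 (by linarith)) (by positivity) hQ0.le
  · have k1 : 1 / 2 ≤ Real.exp ((ε / 16 - 1 / 2) / 2) :=
      le_trans (by linarith) (Real.add_one_le_exp _)
    have a1 := hO _ (u - y) k1 (Real.exp_le_one_iff.2 (by linarith))
    have a2 : (1 + |u - y|) ^ J ≤ (1 + |y|) ^ J * (1 + |u|) ^ J := by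
      rw [← mul_pow]
      refine pow_le_pow_left₀ (by positivity) ?_ _
      nlinarith [abs_sub u y, abs_nonneg u, abs_nonneg y, mul_nonneg (abs_nonneg u) (abs_nonneg y)]
    have a3 : 1 ≤ (1 + |u|) ^ J := one_le_pow₀ (by linarith [abs_nonneg u])
    have a4 : 1 ≤ Q ^ (2 * (ε / 16)) := q1 (by positivity)
    calc _ ≤ ∑ i ∈ S, w i * (C₃ * (Q ^ (2 * (ε / 16)) * OD j (τ i) (c i) (A i) (D i) (Q ^ 2)
          (Q ^ ε) (Real.exp ((ε / 16 - 1 / 2) / 2)) (u - y) + 1)) := by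
          refine Finset.sum_le_sum fun i hi => ?_
          obtain ⟨b1, -, b3, b4, b5, b6⟩ := hS i hi
          have := h₃ (τ i) (c i) (A i) (D i) Q (Q ^ ε) (Q ^ (ε / 4)) (ε / 16) y u b3 b4 b5 b6
            (q1 (by positivity)) (by positivity) (q2 hε1) (by positivity) (by linarith)
          rw [e1, e2] at this
          exact mul_le_mul_of_nonneg_left this b1
      _ = C₃ * (Q ^ (2 * (ε / 16)) * ∑ i ∈ S, w i * OD j (τ i) (c i) (A i) (D i) (Q ^ 2)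
          (Q ^ ε) (Real.exp ((ε / 16 - 1 / 2) / 2)) (u - y) + ∑ i ∈ S, w i) := by
          rw [Finset.mul_sum, ← Finset.sum_add_distrib, Finset.mul_sum]
          exact Finset.sum_congr rfl fun i _ => by ring
      _ ≤ C₃ * (Q ^ (2 * (ε / 16)) * (E₀ * ((1 + |y|) ^ J * (1 + |u|) ^ J)) +
          Q ^ (2 * (ε / 16)) * (M * (1 + |u|) ^ J)) := by
          have a5 := a1.trans (mul_le_mul_of_nonneg_left a2 hE)
          have a6 := hw.trans ((le_mul_of_one_le_right hM0 a3).trans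
            (le_mul_of_one_le_left (by positivity) a4))
          gcongr
      _ = _ := by ring

/-- **One Poisson step, smooth sums, family version.**  The `i` with `A i < 1` have no rows, those
with `D i ≤ 1` are trivial (`norm_Sc_le`, `card_nms_le`); for the others truncate at
`L i = D i Λ₁`, `Λ₁ = Q^{ε/4}` (`norm_Sc_sub_Sr_le`) and apply `P1F` with `Q²`, `Λ = Q^{ε/2}`,
`σ = ε / 16`, `ODf_le_OD`, `sum_Col_Wc_le`; all errors are `≤ w i ≤ w i A i D i`. -/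
theorem P1W {j : ℕ} (hj : Lev E j) {ε : ℝ} (hε : 0 < ε) (hε1 : ε ≤ 1) (J : ℕ) :
    ∃ C : ℝ, 0 < C ∧ ∀ {I : Type} (S : Finset I) (w : I → ℝ) (τ : I → E) (c : I → R E → ℂ)
      (A D : I → ℝ) (Q E₀ y : ℝ), 1 ≤ Q → 0 ≤ E₀ →
      (∀ i ∈ S, 0 ≤ w i ∧ InvR j (c i) ∧ (∀ n, Squarefree n → ‖c i n‖ ≤ 1) ∧ 0 < A i ∧
        0 < D i ∧ D i ≤ Q) →
      (∀ κ y' : ℝ, 1 / 2 ≤ κ → κ ≤ 1 →
        ∑ i ∈ S, w i * OD j (τ i) (c i) (A i) (D i) (Q ^ 2) (Q ^ ε) κ y' ≤ E₀ * (1 + |y'|) ^ J) →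
      ∑ i ∈ S, w i * ∑ a ∈ nms (A i), ‖Sc j (τ i) (c i) a (D i) (y * Complex.I)‖ ^ 2 ≤
        C * Q ^ ε * (∑ i ∈ S, w i * (A i * D i) + E₀ * (1 + |y|) ^ J) := by
  classical
  obtain ⟨C₀, hC₀, h₀⟩ := card_nms_le (E := E)
  obtain ⟨C₁, hC₁, h₁⟩ := norm_Sc_le (E := E) hj.1
  obtain ⟨C₂, hC₂, h₂⟩ := norm_Sc_sub_Sr_le (E := E) hj.1 (4 / ε)
  obtain ⟨C, hC, h⟩ := P1W_fin hj hε hε1 J
  refine ⟨2 * C + C₀ * (C₁ ^ 2 + 2 * C₂ ^ 2), by positivity,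
    fun S w τ c A D Q E₀ y hQ hE hS hO => ?_⟩
  have hQ0 : 0 < Q := one_pos.trans_le hQ
  have hQε : 1 ≤ Q ^ ε := Real.one_le_rpow hQ hε.le
  have e1 : (Q ^ (ε / 4)) ^ (-(4 / ε)) = Q⁻¹ := by
    rw [← Real.rpow_mul hQ0.le, ← Real.rpow_neg_one]
    congr 1; field_simp
  have hm : ∀ i ∈ S, 0 ≤ w i * (A i * D i) := fun i hi => by
    obtain ⟨b1, -, -, b4, b5, -⟩ := hS i hi
    positivity
  have h1 := h (S.filter fun i => 1 ≤ A i ∧ 1 ≤ D i) w τ c A D Q E₀ y hQ hE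
    (fun i hi => by
      obtain ⟨hi, a1, a2⟩ := Finset.mem_filter.1 hi
      obtain ⟨b1, b2, b3, -, -, b6⟩ := hS i hi
      exact ⟨b1, b2, b3, a1, a2, b6⟩)
    fun κ y' k1 k2 => le_trans (Finset.sum_le_sum_of_subset_of_nonneg (Finset.filter_subset _ _)
      fun i hi _ => mul_nonneg (hS i hi).1 (OD_nonneg _ _ _ (hS i hi).2.2.2.1.le
        (hS i hi).2.2.2.2.1.le _ _ _ _)) (hO κ y' k1 k2)
  have h2 := Finset.sum_le_sum_of_subset_of_nonneg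
    (Finset.filter_subset (fun i => 1 ≤ A i ∧ 1 ≤ D i) S) fun i hi _ => hm i hi
  have h3 := Finset.sum_nonneg hm
  rw [Finset.sum_filter] at h1
  calc _ ≤ ∑ i ∈ S, (2 * (if 1 ≤ A i ∧ 1 ≤ D i then w i * ∑ a ∈ nms (A i),
        ‖Sr j (τ i) (D i * Q ^ (ε / 4))
          (fun n => c i n * Wc (nf (n : E) / D i) (y * Complex.I)) a‖ ^ 2 else 0) +
        C₀ * (C₁ ^ 2 + 2 * C₂ ^ 2) * (w i * (A i * D i))) := Finset.sum_le_sum fun i hi => ?_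
    _ ≤ 2 * (C * Q ^ ε * (∑ i ∈ S, w i * (A i * D i) + E₀ * (1 + |y|) ^ J)) +
        C₀ * (C₁ ^ 2 + 2 * C₂ ^ 2) *
          (Q ^ ε * (∑ i ∈ S, w i * (A i * D i) + E₀ * (1 + |y|) ^ J)) := by
        rw [Finset.sum_add_distrib, ← Finset.mul_sum, ← Finset.mul_sum]
        gcongr
        · exact h1.trans (by gcongr)
        · exact (le_add_of_nonneg_right (by positivity)).trans
            (le_mul_of_one_le_left (by positivity) hQε)
    _ = _ := by ring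
  obtain ⟨b1, -, b3, b4, b5, b6⟩ := hS i hi
  have a0 := h₀ (A i) b4.le
  split_ifs with hc
  · have a1 : ∀ a ∈ nms (A i), ‖Sc j (τ i) (c i) a (D i) (y * Complex.I)‖ ^ 2 ≤
        2 * ‖Sr j (τ i) (D i * Q ^ (ε / 4))
          (fun n => c i n * Wc (nf (n : E) / D i) (y * Complex.I)) a‖ ^ 2 + 2 * C₂ ^ 2 := by
      intro a _
      have a2 := h₂ (τ i) (c i) a (D i) (Q ^ (ε / 4)) (y * Complex.I) b3 b5
        (Real.one_le_rpow hQ (by positivity)) (by simp)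
      rw [e1, mul_assoc] at a2
      have a3 := (norm_le_norm_add_norm_sub' _ _).trans (add_le_add_right (a2.trans
        (mul_le_of_le_one_right hC₂.le ((mul_inv_le_iff₀ hQ0).2 (by rwa [one_mul])))) _)
      refine (pow_le_pow_left₀ (norm_nonneg _) a3 2).trans ?_
      rw [← mul_add]
      exact add_sq_le
    refine (mul_le_mul_of_nonneg_left (Finset.sum_le_sum a1) b1).trans ?_
    rw [Finset.sum_add_distrib, ← Finset.mul_sum, Finset.sum_const, nsmul_eq_mul, mul_add,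
      mul_left_comm]
    refine add_le_add_right ?_ _
    calc _ ≤ w i * (C₀ * (A i * D i) * (C₁ ^ 2 + 2 * C₂ ^ 2)) := by
          gcongr
          · exact a0.trans (by gcongr; exact le_mul_of_one_le_right b4.le hc.2)
          · exact le_add_of_nonneg_left (by positivity)
      _ = _ := by ring
  · rw [mul_zero, zero_add]
    by_cases hA : A i < 1
    · rw [nms_eq_empty hA, Finset.sum_empty, mul_zero]
      positivity
    have hD : D i ≤ 1 := le_of_not_ge fun h' => hc ⟨not_lt.1 hA, h'⟩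
    have a1 : ∑ a ∈ nms (A i), ‖Sc j (τ i) (c i) a (D i) (y * Complex.I)‖ ^ 2 ≤
        (nms (A i) : Finset (R E)).card * (C₁ * D i) ^ 2 := by
      rw [← nsmul_eq_mul]
      exact Finset.sum_le_card_nsmul _ _ _ fun a _ =>
        pow_le_pow_left₀ (norm_nonneg _) (h₁ _ _ _ _ _ b3 b5 (by simp)) 2
    calc _ ≤ w i * (C₀ * A i * (C₁ * D i) ^ 2) := by
          gcongr
          exact a1.trans (by gcongr)
      _ = C₀ * (C₁ ^ 2 * D i) * (w i * (A i * D i)) := by ring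
      _ ≤ _ := by
          gcongr
          exact (mul_le_of_le_one_right (by positivity) hD).trans
            (le_add_of_nonneg_right (by positivity))

end Crest.Agent.R312
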