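import Crest.Agent.R312.Iface

/-!
# Row 312, analytic half: basic definitions

`E` is a number field with a primitive cube root of unity `om` (class `Om`); `Pl E` is the set of the
complex embeddings with `om ↦ omC` (one for each infinite place).  The class `Fr` adds an integer `m`
(`6 ∣ m`, `disc ∣ m`) such that `R = 𝓞[1/m]` is a principal ideal domain; `S` is the set of the primes
dividing `m`, `OS` the semi-local ring at `S`, `U j = 1 + m^j OS`.
An element `x ≠ 0` has the archimedean norm `nr x`, the `S`-adic absolute value `absS x` and the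
norm away from `S`, `nf x = nr x * absS x` (`= #(R / x)` for `x ∈ R`).
`V j` is the group of the units of `𝓞` in `U j`, `Fd j` a system of representatives of `Eˣ / V j`.
Sums over ideals of `R` are sums over the normalised generators (`Nm`, `nms`, `dvs`, `pf`); sums over a
ray class are sums over the elements of `Fd j` of a given type (`Cls`, `Col`); sums over a lattice
modulo units are sums over `Lat j t`.
DO NOT change a definition of this file (add new files instead).
-/

set_option autoImplicit false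

noncomputable section

namespace Crest.Agent.R312

open NumberField
open scoped ComplexConjugate

export Crest.Agent.R17 (omC)

/-- A primitive cube root of unity. -/
class Om (E : Type) [Field E] where
  om : E
  hom : om ^ 2 + om + 1 = 0

export Om (om)

/-- The frame: `𝓞[1/m]` is principal. -/
class Fr (E : Type) [Field E] [NumberField E] extends Om E where
  m : ℕ
  m_ne : m ≠ 0
  six_dvd : 6 ∣ m
  discr_dvd : (discr E).natAbs ∣ m
  pid : ∀ I : Ideal (𝓞 E), ∃ x ∈ I, ∃ k : ℕ, ∀ y ∈ I, x ∣ (m : 𝓞 E) ^ k * y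

/-! ## Archimedean notions (class `Om` only) -/

section Arch

/-- The embeddings which send `om` to `omC`. -/
def Pl (E : Type) [Field E] [Om E] : Type := {σ : E →+* ℂ // σ om = omC}

instance (E : Type) [Field E] [NumberField E] [Om E] : Fintype (Pl E) := by
  classical
  unfold Pl
  infer_instance

instance (E : Type) [Field E] [Om E] : DecidableEq (Pl E) := Classical.decEq _

variable {E : Type} [Field E] [NumberField E] [Om E]

/-- The number of places, `r = [E : ℚ] / 2`. -/
abbrev rk (E : Type) [Field E] [NumberField E] [Om E] : ℕ := Fintype.card (Pl E)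

/-- The embedding in `ℂ^r`. -/
def em (x : E) : Pl E → ℂ := fun σ => σ.1 x

/-- Logarithmic coordinates `log |σ x|²`. -/
def lg (x : E) : Pl E → ℝ := fun σ => Real.log (‖σ.1 x‖ ^ 2)

/-- `|N_{E/ℚ} x|`. -/
def nr (x : E) : ℝ := ∏ σ : Pl E, ‖σ.1 x‖ ^ 2

/-- The argument of `N_{E/ℚ(ω)} x`. -/
def al (x : E) : ℂ := ∏ σ : Pl E, σ.1 x / (‖σ.1 x‖ : ℂ)

/-- `e(Tr (ν z))` for `ν, z ∈ ℂ^r`. -/
def ez (ν z : Pl E → ℂ) : ℂ :=
  Complex.exp (2 * Real.pi * Complex.I * ((∑ σ, 2 * (ν σ * z σ).re : ℝ) : ℂ))

/-- The Gaussian `exp(-2π ∑ |z_σ|² e^{-α_σ})`. -/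
def gz (z : Pl E → ℂ) (α : Pl E → ℝ) : ℝ :=
  Real.exp (-(2 * Real.pi) * ∑ σ, ‖z σ‖ ^ 2 * Real.exp (-α σ))

/-- Average of a product kernel over the norm-one torus (smoothed in the direction of the norm). -/
def tav (E : Type) [Field E] [NumberField E] [Om E] (F : ℝ → ℝ) (x : ℝ) : ℝ :=
  ∫ v : Pl E → ℝ, (∏ σ, F (v σ)) * Real.exp (-2 * (∑ σ, v σ - x) ^ 2 + (∑ σ, v σ - x) / 2)

/-- The self-dual weight on norms which replaces the Gaussian. -/
def Gw (E : Type) [Field E] [NumberField E] [Om E] (y : ℝ) : ℝ :=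
  tav E (fun v => Real.exp (-(2 * Real.pi) * Real.exp v)) (Real.log y)

end Arch

/-! ## Periodic functions and their mean value (no extra class) -/

section Mean

variable {E : Type} [Field E] [NumberField E]

/-- `e(Tr x)`. -/
def eT (x : E) : ℂ := Complex.exp (2 * Real.pi * Complex.I * ((Algebra.trace ℚ E x : ℚ) : ℂ))

/-- `φ` is supported on `D⁻¹ 𝓞` and periodic modulo `D 𝓞`. -/
def PerD (D : ℕ) (φ : E → ℂ) : Prop :=
  D ≠ 0 ∧ (∀ x, φ x ≠ 0 → IsIntegral ℤ ((D : E) * x)) ∧
    ∀ x y, IsIntegral ℤ y → φ (x + D * y) = φ x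

/-- Periodic functions supported on a lattice. -/
def Per (φ : E → ℂ) : Prop := ∃ D, PerD D φ

/-- The mean value computed at the level `D`. -/
def MnL (D : ℕ) (φ : E → ℂ) : ℂ :=
  (((Real.sqrt |(discr E : ℝ)| * (D : ℝ) ^ Module.finrank ℚ E)⁻¹ : ℝ) : ℂ) *
    ∑ᶠ q : 𝓞 E ⧸ Ideal.span {((D : 𝓞 E)) ^ 2}, φ (((Quotient.out q : 𝓞 E) : E) / D)

/-- The mean value (density with respect to the self-dual measure `∏ 2 dx dy`). -/
def Mn (φ : E → ℂ) : ℂ := Filter.limUnder Filter.atTop fun k : ℕ => MnL k.factorial φ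

end Mean

/-! ## `S`-integers -/

section Frame

/-- The integer `m` of the frame. -/
abbrev mm (E : Type) [Field E] [NumberField E] [Fr E] : ℕ := Fr.m (E := E)

/-- `R = 𝓞[1/m]`. -/
def RR (E : Type) [Field E] [NumberField E] [Fr E] : Subring E where
  carrier := {x | ∃ k : ℕ, IsIntegral ℤ ((mm E : E) ^ k * x)}
  mul_mem' := by
    rintro a b ⟨k, hk⟩ ⟨l, hl⟩
    refine ⟨k + l, ?_⟩
    have := hk.mul hl
    rwa [show (mm E : E) ^ k * a * ((mm E : E) ^ l * b) = (mm E : E) ^ (k + l) * (a * b) by ring]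
      at this
  one_mem' := ⟨0, by simpa using isIntegral_one⟩
  add_mem' := by
    rintro a b ⟨k, hk⟩ ⟨l, hl⟩
    have hm : IsIntegral ℤ (mm E : E) := by exact_mod_cast isIntegral_algebraMap (x := (mm E : ℤ))
    refine ⟨k + l, ?_⟩
    have := ((hm.pow l).mul hk).add ((hm.pow k).mul hl)
    rwa [show (mm E : E) ^ l * ((mm E : E) ^ k * a) + (mm E : E) ^ k * ((mm E : E) ^ l * b) =
      (mm E : E) ^ (k + l) * (a + b) by ring] at this
  zero_mem' := ⟨0, by simpa using isIntegral_zero⟩
  neg_mem' := by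
    rintro a ⟨k, hk⟩
    exact ⟨k, by simpa using hk.neg⟩

/-- The ring of `S`-integers as a type. -/
abbrev R (E : Type) [Field E] [NumberField E] [Fr E] : Type := RR E

/-- The semi-local ring at `S`. -/
def OS (E : Type) [Field E] [NumberField E] [Fr E] : Subring E where
  carrier := {x | ∃ b : ℕ, b.Coprime (mm E) ∧ IsIntegral ℤ ((b : E) * x)}
  mul_mem' := by
    rintro a b ⟨k, hk, hk'⟩ ⟨l, hl, hl'⟩
    refine ⟨k * l, Nat.Coprime.mul_left hk hl, ?_⟩
    have := hk'.mul hl'
    rwa [show (k : E) * a * ((l : E) * b) = ((k * l : ℕ) : E) * (a * b) by push_cast; ring] at this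
  one_mem' := ⟨1, by simp, by simpa using isIntegral_one⟩
  add_mem' := by
    rintro a b ⟨k, hk, hk'⟩ ⟨l, hl, hl'⟩
    have h : ∀ n : ℕ, IsIntegral ℤ (n : E) := fun n => by
      exact_mod_cast isIntegral_algebraMap (x := (n : ℤ))
    refine ⟨k * l, Nat.Coprime.mul_left hk hl, ?_⟩
    have := ((h l).mul hk').add ((h k).mul hl')
    rwa [show (l : E) * ((k : E) * a) + (k : E) * ((l : E) * b) = ((k * l : ℕ) : E) * (a + b) by
      push_cast; ring] at this
  zero_mem' := ⟨1, by simp, by simpa using isIntegral_zero⟩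
  neg_mem' := by
    rintro a ⟨k, hk, hk'⟩
    exact ⟨k, hk, by simpa using hk'.neg⟩

variable {E : Type} [Field E] [NumberField E] [Fr E]

theorem mm_ne_zero : (mm E : E) ≠ 0 := Nat.cast_ne_zero.2 Fr.m_ne

theorem mem_RR_of_isIntegral {x : E} (h : IsIntegral ℤ x) : x ∈ RR E := ⟨0, by simpa using h⟩

theorem mm_inv_mem : (mm E : E)⁻¹ ∈ RR E :=
  ⟨1, by rw [pow_one, mul_inv_cancel₀ mm_ne_zero]; exact isIntegral_one⟩

/-- The inclusion `𝓞 → R`. -/
def toR : 𝓞 E →+* R E :=
  (algebraMap (𝓞 E) E).codRestrict (RR E) fun x => mem_RR_of_isIntegral x.isIntegral_coe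

instance : IsPrincipalIdealRing (R E) := ⟨fun I => by
  obtain ⟨x, hx, k, hk⟩ := Fr.pid (E := E) (I.comap toR)
  refine ⟨toR x, le_antisymm (fun y hy => ?_) ?_⟩
  · obtain ⟨l, hl⟩ := y.2
    let y' : 𝓞 E := ⟨(mm E : E) ^ l * y, hl⟩
    have hy' : y' ∈ I.comap toR := by
      have : toR y' = (mm E : R E) ^ l * y := by ext; simp [toR, y']
      rw [Ideal.mem_comap, this]
      exact I.mul_mem_left _ hy
    obtain ⟨z, hz⟩ := hk y' hy'
    have hz' : (mm E : E) ^ k * ((mm E : E) ^ l * y) = (x : E) * (z : E) := by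
      have := congrArg (algebraMap (𝓞 E) E) hz
      simpa [y'] using this
    refine Ideal.mem_span_singleton'.2
      ⟨toR z * (⟨_, mm_inv_mem⟩ : R E) ^ (k + l), Subtype.ext ?_⟩
    have hm := mm_ne_zero (E := E)
    have h1 : ((toR z : R E) : E) = (z : E) := rfl
    have h2 : ((toR x : R E) : E) = (x : E) := rfl
    push_cast
    rw [h1, h2]
    rw [inv_pow, mul_right_comm, ← div_eq_mul_inv, div_eq_iff (pow_ne_zero _ hm)]
    linear_combination -hz'
  · rw [Submodule.span_le, Set.singleton_subset_iff]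
    exact hx⟩

/-- `om` as an element of `R`. -/
def omR : R E :=
  ⟨om, mem_RR_of_isIntegral ⟨Polynomial.X ^ 2 + Polynomial.X + 1, by monicity!, by
    simpa using Om.hom (E := E)⟩⟩

/-- `U j = 1 + m^j OS` (a subgroup of `Eˣ` for `j ≥ 1`). -/
def U (j : ℕ) (u : E) : Prop := ∃ y ∈ OS E, u = 1 + (mm E : E) ^ j * y

/-- `x` has the type `t` at the level `j`. -/
def Ty (j : ℕ) (t x : E) : Prop := U j (x / t)

/-- The `S`-adic absolute value. -/
def absS (x : E) : ℝ :=
  ∏ p ∈ (mm E).primeFactors, (p : ℝ) ^ (-padicValRat p (Algebra.norm ℚ x))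

/-- The norm away from `S`. -/
def nf (x : E) : ℝ := nr x * absS x

/-- The units of `R` in `U j` (they are units of `𝓞` when `j ≥ 1`). -/
def V (j : ℕ) (u : E) : Prop := U j u ∧ u ∈ RR E ∧ u⁻¹ ∈ RR E

/-- The chosen representative of `x` modulo `V j`. -/
def rep (j : ℕ) (x : E) : E := Classical.epsilon fun y : E => ∃ u, V j u ∧ y = u * x

/-- A system of representatives of `Eˣ / V j`. -/
def Fd (j : ℕ) (x : E) : Prop := x ≠ 0 ∧ rep j x = x

/-- Functions which are invariant under `V j`. -/
def Inv (j : ℕ) {β : Type} (f : E → β) : Prop := ∀ u x, V j u → f (u * x) = f x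

/-- The same for functions on `R`. -/
def InvR (j : ℕ) {β : Type} (f : R E → β) : Prop :=
  ∀ u x : R E, V j (u : E) → f (u * x) = f x

/-- The prime-to-`m` component of `e(q)`. -/
def efQ (m : ℕ) (q : ℚ) : ℂ :=
  Complex.exp (2 * Real.pi * Complex.I * (((m : ℚ) ^ q.den.factorial * q : ℚ) : ℂ))

/-- The component of `e(Tr x)` away from `S` (trivial on `R`). -/
def eF (x : E) : ℂ := efQ (mm E) (Algebra.trace ℚ E x)

/-- The component of `e(Tr x)` at `S` (trivial on `OS`). -/
def eS (x : E) : ℂ := eT x * conj (eF x)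

/-- A generator of the different at `S`: `eS (y OS) = 1 ↔ δ y ∈ OS`. -/
def dS (E : Type) [Field E] [NumberField E] [Fr E] : E :=
  Classical.epsilon fun δ : E => δ ≠ 0 ∧ ∀ y : E, (∀ x ∈ OS E, eS (y * x) = 1) ↔ δ * y ∈ OS E

/-- The chosen generator of a non-zero ideal: the product of the chosen generators of its prime
factors (so that `gen` is multiplicative). -/
def gen (I : Ideal (R E)) : R E :=
  ((UniqueFactorizationMonoid.normalizedFactors I).map
    fun P : Ideal (R E) => Submodule.IsPrincipal.generator P).prod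

/-- Normalised elements: exactly one for each non-zero ideal of `R`, closed under products (they
play the role of the primary elements of row 17). -/
def Nm (g : R E) : Prop := g ≠ 0 ∧ gen (Ideal.span {g}) = g

/-- The normalised element associated with `n ≠ 0`. -/
def nrm (n : R E) : R E := gen (Ideal.span {n})

open Classical in
/-- A finite set as a finset. -/
def fin {α : Type} (S : Set α) : Finset α := if h : S.Finite then h.toFinset else ∅

/-- The normalised elements of norm at most `X`. -/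
def nms (X : ℝ) : Finset (R E) := fin {g : R E | Nm g ∧ nf (g : E) ≤ X}

/-- The normalised divisors of `n ≠ 0`. -/
def dvs (n : R E) : Finset (R E) := fin {g : R E | Nm g ∧ g ∣ n}

/-- The normalised prime divisors of `n ≠ 0`. -/
def pf (n : R E) : Finset (R E) := fin {p : R E | Nm p ∧ Prime p ∧ p ∣ n}

/-- The valuation. -/
def vp (p n : R E) : ℕ := multiplicity p n

/-- The radical. -/
def rad (n : R E) : R E := ∏ p ∈ pf n, p

/-- The Möbius function. -/
def mu (n : R E) : ℂ := ((UniqueFactorizationMonoid.moebius n : ℤ) : ℂ)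

/-- `#(R / c)`. -/
def nN (c : R E) : ℕ := Nat.card (R E ⧸ Ideal.span {c})

/-- A complete residue system modulo `c ≠ 0`. -/
def res (c : R E) : Finset (R E) :=
  fin (Set.range fun q : R E ⧸ Ideal.span {c} => (Quotient.out q : R E))

/-- The normalised squarefree elements of norm at most `X`. -/
def sqs (X : ℝ) : Finset (R E) := fin {g : R E | Nm g ∧ Squarefree g ∧ nf (g : E) ≤ X}

/-- The non-zero points of the lattice `R ∩ t OS` modulo `V j`. -/
def Lat (j : ℕ) (t : E) (k : R E) : Prop := Fd j (k : E) ∧ (k : E) / t ∈ OS E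

/-- The size of a point of the lattice `R ∩ t OS` (it is at least `nf k`). -/
def szl (t : E) (k : R E) : ℝ := nr (k : E) * absS t

/-- The points of size at most `X`. -/
def lats (j : ℕ) (t : E) (X : ℝ) : Finset (R E) := fin {k : R E | Lat j t k ∧ szl t k ≤ X}

/-- The ray class of `t` at the level `j`: one generator of type `t` for each ideal of the class. -/
def Cls (j : ℕ) (t : E) (n : R E) : Prop := Fd j (n : E) ∧ Ty j t (n : E)

/-- The squarefree elements of the ray class of `t` of norm at most `L`. -/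
def Col (j : ℕ) (t : E) (L : ℝ) : Finset (R E) :=
  fin {n : R E | Cls j t n ∧ Squarefree n ∧ nf (n : E) ≤ L}

/-! ## Residue symbols and Gauss sums -/

open Classical in
/-- Cubic residue character modulo a prime `p`. -/
def cub1 (p a : R E) : ℂ :=
  ∑ k ∈ Finset.range 3, if p ∣ a ^ ((nN p - 1) / 3) - omR ^ k then omC ^ k else 0

open Classical in
/-- Quadratic residue character modulo a prime `p`. -/
def quad1 (p a : R E) : ℂ :=
  if p ∣ a then 0 else if p ∣ a ^ ((nN p - 1) / 2) - 1 then 1 else -1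

/-- The cubic residue symbol `(a / n)₃` (it is `1` for `n = 0`). -/
def cub (n a : R E) : ℂ := ∏ p ∈ pf n, cub1 p a ^ vp p n

/-- The quadratic residue symbol `(a / n)₂`. -/
def quad (n a : R E) : ℂ := ∏ p ∈ pf n, quad1 p a ^ vp p n

/-- The sextic residue symbol `χ_n(a)`: `χ² = cub`, `χ³ = quad`. -/
def sym (n a : R E) : ℂ := quad n a * conj (cub n a)

/-- `e_♭(x / c)`. -/
def ef (x c : R E) : ℂ := eF ((x : E) / (c : E))

/-- The finite Fourier transform modulo `c`. -/
def ft (c : R E) (f : R E → ℂ) (k : R E) : ℂ := ∑ x ∈ res c, f x * ef (k * x) c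

/-- Normalised Gauss sum of the `j`-th power of the sextic symbol. -/
def gam (j : ℕ) (n : R E) : ℂ :=
  ft n (fun x => sym n x ^ (j + 6)) 1 / (Real.sqrt (nf (n : E)) : ℂ)

/-- Cubic Gauss sum. -/
def gc (n k : R E) : ℂ := ft n (cub n) k

/-- The character of `ℤ/3`. -/
def chi (k : ZMod 3) : ℂ := omC ^ k.val

open Classical in
/-- The index of the cubic character: `cub1 p a = chi (ind p a)` for `p ∤ a`. -/
def ind (p a : R E) : ZMod 3 :=
  ∑ k ∈ Finset.range 3, if p ∣ a ^ ((nN p - 1) / 3) - omR ^ k then (k : ZMod 3) else 0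

/-- The prime-to-`p` part. -/
def up (p a : R E) : R E := Classical.epsilon fun c : R E => a = p ^ vp p a * c

/-- The sum of the tame symbols away from `S`. -/
def rho0 (a b : R E) : ZMod 3 :=
  ∑ p ∈ pf (a * b), ((vp p b : ZMod 3) * ind p (up p a) - (vp p a : ZMod 3) * ind p (up p b))

/-- An `S`-integer in the class of `x` modulo cubes. -/
def cl (x : E) : R E := Classical.epsilon fun a : R E => ∃ y : E, y ≠ 0 ∧ (a : E) = x * y ^ 3

/-- The cubic Hilbert pairing at `S`: `(x / y)₃ = chi (rho x y) (y / x)₃` for coprime `x, y`. -/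
def rho (x y : E) : ZMod 3 := rho0 (cl x) (cl y)

/-- The normalised quadratic exponential sum. -/
def g2 (c : R E) : ℂ := (∑ x ∈ res c, ef (x ^ 2) c) / (Real.sqrt (nf (c : E)) : ℂ)

/-- The sign in the quadratic reciprocity law. -/
def Rs (a b : R E) : ℂ := g2 (a * b) * conj (g2 a) * conj (g2 b)

/-- The root of unity in the sextic reciprocity law `sym a b = R6 a b * sym b a`. -/
def R6 (a b : R E) : ℂ := Rs a b * chi (rho (a : E) (b : E))

/-- The level `j` is large enough for the reciprocity laws. -/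
def Lev (E : Type) [Field E] [NumberField E] [Fr E] (j : ℕ) : Prop :=
  1 ≤ j ∧ (∀ x u : E, x ≠ 0 → U j u → rho x u = 0) ∧
    ∀ n n' : R E, n ≠ 0 → Ty j (n : E) (n' : E) → g2 n' = g2 n

open Classical in
/-- The cubic theta coefficient: `th (n d³) = γ₂(n) √(nf d) conj α(n d³)` for squarefree `n`, and `0`
on all the other elements. -/
def th (c : R E) : ℂ :=
  if h : ∃ q : R E × R E, Squarefree q.1 ∧ c = q.1 * q.2 ^ 3 then
    gam 2 h.choose.1 * (Real.sqrt (nf (h.choose.2 : E)) : ℂ) * conj (al (c : E))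
  else 0

open Classical in
/-- Möbius sum over the ray class of `t` in the row `a`. -/
def Mob (j : ℕ) (t : E) (a : R E) (X : ℝ) (s : ℂ) : ℂ :=
  ∑' n : R E, if Cls j t n then mu n * conj (sym n a) * R17.Wc (nf (n : E) / X) s else 0

open Classical in
/-- The completed cubic-theta sum over the ray class of `t` in the dual row `k`. -/
def Tc (j : ℕ) (t : E) (k : R E) (X : ℝ) (s : ℂ) : ℂ :=
  ∑' c : R E, if Cls j t c then th c * sym c k * R17.Wc (nf (c : E) / X) s else 0

end Frame

end Crest.Agent.R312
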