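import Crest.Agent.R312.LSDefs

/-!
# Row 312, module LS: auxiliary lemmas for `PL_bound` and `exists_Zt`
-/

set_option autoImplicit false

noncomputable section

namespace Crest.Agent.R312.LS2

open NumberField
open scoped ComplexConjugate
open Classical

variable {E : Type} [Field E] [NumberField E] [Fr E]

theorem thB_re_sq (w : ℂ) : ((w - 1 / 2) ^ 2).re = (w.re - 1 / 2) ^ 2 - w.im ^ 2 := by
  have : (1 / 2 : ℂ) = ((1 / 2 : ℝ) : ℂ) := by push_cast; ring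
  rw [this, sq, Complex.mul_re]
  simp only [Complex.sub_re, Complex.sub_im, Complex.ofReal_re, Complex.ofReal_im, sub_zero]
  ring

theorem thB_norm_exp8 (w : ℂ) : ‖Complex.exp (-(w - 1 / 2) ^ 2 / 8)‖ =
    Real.exp (-((w.re - 1 / 2) ^ 2 - w.im ^ 2) / 8) := by
  rw [Complex.norm_exp, ← thB_re_sq]
  congr 1
  simp

theorem thB_norm_exp200 (w : ℂ) : ‖Complex.exp ((w - 1 / 2) ^ 2 / 200)‖ =
    Real.exp (((w.re - 1 / 2) ^ 2 - w.im ^ 2) / 200) := by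
  rw [Complex.norm_exp, ← thB_re_sq]
  congr 1
  simp

theorem thB_norm_le {w : ℂ} (h1 : -1 ≤ w.re) (h2 : w.re ≤ 2) : 1 + ‖w‖ ≤ 3 + |w.im| := by
  have := Complex.norm_le_abs_re_add_abs_im w
  have : |w.re| ≤ 2 := abs_le.2 ⟨by linarith, h2⟩
  linarith

theorem thB_poly (t : ℝ) : (3 + |t|) ^ 2 ≤ 400 * Real.exp (t ^ 2 / 200) := by
  have := Real.add_one_le_exp (t ^ 2 / 200)
  nlinarith [sq_abs t, sq_nonneg (|t| - 3)]

theorem thB_growth (t : ℝ) :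
    (3 + |t|) ^ 2 * Real.exp (t ^ 2 / 8) ≤ Real.exp (5 * Real.exp (1 * |t|)) := by
  have h0 := abs_nonneg t
  have h1 := Real.quadratic_le_exp_of_nonneg h0
  have h2 : 3 + |t| ≤ Real.exp (2 + |t|) := by linarith [Real.add_one_le_exp (2 + |t|)]
  calc (3 + |t|) ^ 2 * Real.exp (t ^ 2 / 8)
      ≤ Real.exp (2 + |t|) ^ 2 * Real.exp (t ^ 2 / 8) := by gcongr
    _ = Real.exp (2 * (2 + |t|) + t ^ 2 / 8) := by
        rw [Real.exp_add (2 * _), ← Real.exp_nat_mul]; norm_num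
    _ ≤ _ := by
        rw [one_mul]
        exact Real.exp_le_exp.2 (by nlinarith [sq_abs t])

theorem thB_PL {Λ : ℂ → ℂ} {B B' : ℝ} (hd : Differentiable ℂ Λ) (hs : ∀ w, Λ (1 - w) = Λ w)
    (h1 : ∀ w : ℂ, -1 ≤ w.re → w.re ≤ 2 → ‖Λ w‖ ≤ B * (1 + ‖w‖) ^ 2)
    (h2 : ∀ w : ℂ, w.re = 2 →
      ‖Λ w * Complex.exp (-(w - 1 / 2) ^ 2 / 8)‖ ≤ B' * (1 + ‖w‖) ^ 2) :
    ∃ K : ℝ, ∀ w : ℂ, -1 ≤ w.re → w.re ≤ 2 →
      ‖Λ w * Complex.exp (-(w - 1 / 2) ^ 2 / 8)‖ ≤ K * Real.exp (w.im ^ 2 / 200) := by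
  set H : ℂ → ℂ := fun w => Λ w * Complex.exp (-(w - 1 / 2) ^ 2 / 8) *
    Complex.exp ((w - 1 / 2) ^ 2 / 200) with hH
  have hHd : Differentiable ℂ H := by simp only [hH]; fun_prop
  have hHs : ∀ w, H (1 - w) = H w := fun w => by
    simp only [hH, hs, show (1 - w - 1 / 2) ^ 2 = (w - 1 / 2) ^ 2 by ring]
  have hb : ∀ w : ℂ, w.re = 2 → ‖H w‖ ≤ |B'| * 400 * Real.exp 1 := fun w hw => by
    simp only [hH]
    rw [norm_mul, thB_norm_exp200, hw]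
    have a1 : (1 + ‖w‖) ^ 2 ≤ 400 * Real.exp (w.im ^ 2 / 200) :=
      (pow_le_pow_left₀ (by positivity) (thB_norm_le (by rw [hw]; norm_num) hw.le) 2).trans
        (thB_poly _)
    calc _ ≤ |B'| * (400 * Real.exp (w.im ^ 2 / 200)) *
          Real.exp (((2 - 1 / 2) ^ 2 - w.im ^ 2) / 200) := by
          refine mul_le_mul_of_nonneg_right ((h2 w hw).trans ?_) (Real.exp_pos _).le
          exact mul_le_mul (le_abs_self _) a1 (by positivity) (abs_nonneg _)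
      _ = |B'| * 400 * Real.exp (w.im ^ 2 / 200 + ((2 - 1 / 2) ^ 2 - w.im ^ 2) / 200) := by
          rw [Real.exp_add]; ring
      _ ≤ _ := by
          gcongr
          linarith
  have key : ∀ w : ℂ, -1 ≤ w.re → w.re ≤ 2 → ‖H w‖ ≤ |B'| * 400 * Real.exp 1 := fun w ha hc => by
    refine PhragmenLindelof.vertical_strip (a := -1) (b := 2) hHd.diffContOnCl
      ⟨1, ?_, 5, ?_⟩ (fun z hz => ?_) hb ha hc
    · rw [lt_div_iff₀ (by norm_num)]
      linarith [Real.pi_gt_three]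
    · refine Asymptotics.IsBigO.of_bound (|B| * Real.exp 1) ?_
      refine Filter.Eventually.filter_mono inf_le_right (Filter.eventually_principal.2 ?_)
      intro z hz
      have z1 : -1 ≤ z.re := hz.1.le
      have z2 : z.re ≤ 2 := hz.2.le
      simp only [hH]
      rw [norm_mul, norm_mul, thB_norm_exp8, thB_norm_exp200, Real.norm_eq_abs, Real.abs_exp]
      have a1 : ‖Λ z‖ ≤ |B| * (3 + |z.im|) ^ 2 := (h1 z z1 z2).trans
        (mul_le_mul (le_abs_self _) (pow_le_pow_left₀ (by positivity) (thB_norm_le z1 z2) 2)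
          (by positivity) (abs_nonneg _))
      calc _ ≤ |B| * (3 + |z.im|) ^ 2 * Real.exp (z.im ^ 2 / 8) * Real.exp 1 := by
            gcongr
            · nlinarith [sq_nonneg (z.re - 1 / 2)]
            · nlinarith [sq_nonneg z.im]
        _ = |B| * Real.exp 1 * ((3 + |z.im|) ^ 2 * Real.exp (z.im ^ 2 / 8)) := by ring
        _ ≤ _ := mul_le_mul_of_nonneg_left (thB_growth _) (by positivity)
    · rw [← hHs]
      exact hb _ (by rw [Complex.sub_re, hz]; norm_num)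
  refine ⟨|B'| * 400 * Real.exp 1, fun w ha hc => ?_⟩
  have h := key w ha hc
  simp only [hH] at h
  rw [norm_mul, thB_norm_exp200] at h
  calc _ = ‖Λ w * Complex.exp (-(w - 1 / 2) ^ 2 / 8)‖ *
        Real.exp (((w.re - 1 / 2) ^ 2 - w.im ^ 2) / 200) *
        Real.exp (-(((w.re - 1 / 2) ^ 2 - w.im ^ 2) / 200)) := by
        rw [mul_assoc, ← Real.exp_add, add_neg_cancel, Real.exp_zero, mul_one]
    _ ≤ _ := by
        gcongr
        nlinarith [sq_nonneg (w.re - 1 / 2)]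

theorem thB_norm_sum {ι : Type} {P : ι → Prop} {N : ι → ℝ} {C : ℝ} (h : Cnt P N C) {w : ℂ}
    (hw : w.re = 2) : ‖∑' i, if P i then (N i : ℂ) ^ (-w) else 0‖ ≤
      ∑' i, if P i then N i ^ (-(2 : ℝ)) else 0 := by
  refine tsum_of_norm_bounded (h.summable_rpow (by norm_num)).hasSum fun i => ?_
  split_ifs with hi
  · rw [Complex.norm_cpow_eq_rpow_re_of_pos (one_pos.trans_le (h.1 i hi)), Complex.neg_re, hw]
  · simp

/-- The factor which turns `Λ w exp(-(w - 1/2)²/8)` into `Z w`. -/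
def thB_fac (r : ℕ) (D : ℝ) (w : ℂ) : ℂ :=
  w⁻¹ * (D : ℂ) ^ (-w) * ((Real.sqrt (Real.pi / 2) : ℝ) : ℂ)⁻¹ *
    (((2 * Real.pi : ℝ) : ℂ) ^ w * (Complex.Gamma w)⁻¹) ^ r

theorem thB_fac_diff (r : ℕ) {D : ℝ} (hD : 0 < D) :
    DifferentiableOn ℂ (thB_fac r D) {w | 0 < w.re} := by
  intro w hw
  have hw0 : w ≠ 0 := fun h => by simp [h] at hw
  have h1 : DifferentiableAt ℂ (fun w : ℂ => (D : ℂ) ^ (-w)) w :=
    differentiableAt_id.neg.const_cpow (Or.inl (by exact_mod_cast hD.ne'))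
  have h2 : DifferentiableAt ℂ (fun w : ℂ => ((2 * Real.pi : ℝ) : ℂ) ^ w) w :=
    differentiableAt_id.const_cpow (Or.inl (by exact_mod_cast Real.two_pi_pos.ne'))
  exact ((((differentiableAt_inv hw0).mul h1).mul_const _).mul
    ((h2.mul (Complex.differentiable_one_div_Gamma w)).pow r)).differentiableWithinAt

theorem thB_fac_le (r : ℕ) {D a : ℝ} (hD : 0 < D) (ha : 0 < a) : ∃ K : ℝ, 0 < K ∧
    ∀ w : ℂ, a ≤ w.re → w.re ≤ 2 → ‖thB_fac r D w‖ ≤ K * Real.exp (w.im ^ 2 / 200) := by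
  obtain ⟨C, hC, hG⟩ := Crest.Agent.R17.norm_inv_Gamma_le a 2
  have hs : 0 < Real.sqrt (Real.pi / 2) := Real.sqrt_pos.2 (by positivity)
  refine ⟨a⁻¹ * Real.exp (2 * |Real.log D|) * (Real.sqrt (Real.pi / 2))⁻¹ *
    ((2 * Real.pi) ^ (2 : ℝ) * C) ^ r * Real.exp (800 * (r : ℝ) ^ 2), by positivity,
    fun w h1 h2 => ?_⟩
  have b1 : ‖w‖⁻¹ ≤ a⁻¹ := inv_anti₀ ha (h1.trans (Complex.re_le_norm w))
  have b2 : D ^ (-w.re) ≤ Real.exp (2 * |Real.log D|) := by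
    rw [Real.rpow_def_of_pos hD]
    refine Real.exp_le_exp.2 ?_
    have := neg_abs_le (Real.log D)
    have := abs_nonneg (Real.log D)
    nlinarith
  have b3 : (2 * Real.pi) ^ w.re ≤ (2 * Real.pi) ^ (2 : ℝ) :=
    Real.rpow_le_rpow_of_exponent_le (by linarith [Real.pi_gt_three]) h2
  have b4 : Real.exp (4 * |w.im|) ^ r ≤
      Real.exp (800 * (r : ℝ) ^ 2) * Real.exp (w.im ^ 2 / 200) := by
    rw [← Real.exp_nat_mul, ← Real.exp_add]
    exact Real.exp_le_exp.2 (by nlinarith [sq_nonneg (|w.im| - 400 * r), sq_abs w.im])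
  rw [thB_fac, norm_mul, norm_mul, norm_mul, norm_pow, norm_mul, norm_inv, norm_inv,
    Complex.norm_cpow_eq_rpow_re_of_pos hD, Complex.norm_cpow_eq_rpow_re_of_pos Real.two_pi_pos,
    Complex.neg_re, Complex.norm_real, Real.norm_eq_abs, abs_of_pos hs]
  calc _ ≤ a⁻¹ * Real.exp (2 * |Real.log D|) * (Real.sqrt (Real.pi / 2))⁻¹ *
        ((2 * Real.pi) ^ (2 : ℝ) * (C * Real.exp (4 * |w.im|))) ^ r := by
        gcongr
        exact hG w h1 h2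
    _ = a⁻¹ * Real.exp (2 * |Real.log D|) * (Real.sqrt (Real.pi / 2))⁻¹ *
        ((2 * Real.pi) ^ (2 : ℝ) * C) ^ r * Real.exp (4 * |w.im|) ^ r := by
        rw [← mul_assoc _ C, mul_pow _ (Real.exp _)]; ring
    _ ≤ _ := by
        rw [mul_assoc _ (Real.exp (800 * _))]
        exact mul_le_mul_of_nonneg_left b4 (by positivity)

theorem thB_cancel {D : ℝ} (hD : 0 < D) {w : ℂ} (hw : 0 < w.re) :
    w * ((D : ℂ) ^ w * KG E w) * Complex.exp (-(w - 1 / 2) ^ 2 / 8) * thB_fac (rk E) D w = 1 := by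
  have hw0 : w ≠ 0 := fun h => by simp [h] at hw
  have h1 : (D : ℂ) ^ w ≠ 0 := Complex.cpow_ne_zero_iff.2 (Or.inl (by exact_mod_cast hD.ne'))
  have h2 : ((2 * Real.pi : ℝ) : ℂ) ^ w ≠ 0 :=
    Complex.cpow_ne_zero_iff.2 (Or.inl (by exact_mod_cast Real.two_pi_pos.ne'))
  have h3 : ((Real.sqrt (Real.pi / 2) : ℝ) : ℂ) ≠ 0 := by
    exact_mod_cast (Real.sqrt_pos.2 (by positivity : 0 < Real.pi / 2)).ne'
  have h4 := Complex.Gamma_ne_zero_of_re_pos hw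
  have h5 := Complex.exp_ne_zero ((w - 1 / 2) ^ 2 / 8)
  rw [KG, thB_fac, neg_div, Complex.exp_neg, Complex.cpow_neg, Complex.cpow_neg]
  simp only [mul_pow, inv_pow]
  field_simp

theorem thB_line {D : ℝ} (hD : 0 < D) : ∃ K : ℝ, 0 ≤ K ∧ ∀ w : ℂ, w.re = 2 →
    ‖(D : ℂ) ^ w * KG E w * Complex.exp (-(w - 1 / 2) ^ 2 / 8)‖ ≤ K := by
  have hG := Real.Gamma_pos_of_pos (s := 2) two_pos
  refine ⟨D ^ (2 : ℝ) * Real.sqrt (Real.pi / 2) *
    ((2 * Real.pi) ^ (-2 : ℝ) * Real.Gamma 2) ^ rk E, by positivity, fun w hw => ?_⟩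
  have h5 := Complex.exp_ne_zero ((w - 1 / 2) ^ 2 / 8)
  have e : (D : ℂ) ^ w * KG E w * Complex.exp (-(w - 1 / 2) ^ 2 / 8) =
      (D : ℂ) ^ w * (Real.sqrt (Real.pi / 2) : ℂ) *
        (((2 * Real.pi : ℝ) : ℂ) ^ (-w) * Complex.Gamma w) ^ rk E := by
    rw [KG, neg_div, Complex.exp_neg]
    field_simp
  have hg := Crest.Agent.R17.WA.norm_Gamma_le (s := w) (by rw [hw]; norm_num)
  rw [e, norm_mul, norm_mul, norm_pow, norm_mul, Complex.norm_cpow_eq_rpow_re_of_pos hD,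
    Complex.norm_cpow_eq_rpow_re_of_pos Real.two_pi_pos, Complex.neg_re, Complex.norm_real,
    Real.norm_eq_abs, abs_of_nonneg (Real.sqrt_nonneg _)]
  rw [hw] at hg ⊢
  gcongr

theorem thB_Zt {Λ S : ℂ → ℂ} {B S₀ D : ℝ} (hD : 0 < D) (hd : Differentiable ℂ Λ)
    (hs : ∀ w, Λ (1 - w) = Λ w)
    (h1 : ∀ w : ℂ, -1 ≤ w.re → w.re ≤ 2 → ‖Λ w‖ ≤ B * (1 + ‖w‖) ^ 2)
    (h2 : ∀ w : ℂ, 1 < w.re → Λ w = w * (w - 1) * ((D : ℂ) ^ w * KG E w) * S w)
    (hS : ∀ w : ℂ, w.re = 2 → ‖S w‖ ≤ S₀) :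
    ∃ Z : ℂ → ℂ, DifferentiableOn ℂ Z {w | 0 < w.re} ∧
      (∀ w : ℂ, w.re = 2 → Z w = (w - 1) * S w) ∧
      ∀ a : ℝ, 0 < a → ∃ K : ℝ, ∀ w : ℂ, a ≤ w.re → w.re ≤ 2 →
        ‖Z w‖ ≤ K * Real.exp (w.im ^ 2 / 100) := by
  obtain ⟨K₀, hK₀, hl⟩ := thB_line (E := E) hD
  obtain ⟨K₁, hK₁⟩ := thB_PL (B' := K₀ * S₀) hd hs h1 fun w hw => by
    rw [h2 w (by rw [hw]; norm_num), show w * (w - 1) * ((D : ℂ) ^ w * KG E w) * S w *
      Complex.exp (-(w - 1 / 2) ^ 2 / 8) = (D : ℂ) ^ w * KG E w *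
      Complex.exp (-(w - 1 / 2) ^ 2 / 8) * S w * (w * (w - 1)) by ring, norm_mul, norm_mul,
      norm_mul w]
    have a1 : ‖w - 1‖ ≤ 1 + ‖w‖ := by
      simpa [add_comm] using norm_sub_le w 1
    have a2 := (norm_nonneg _).trans (hS w hw)
    rw [sq (1 + ‖w‖)]
    gcongr
    · exact hl w hw
    · exact hS w hw
    · linarith
  refine ⟨fun w => Λ w * Complex.exp (-(w - 1 / 2) ^ 2 / 8) * thB_fac (rk E) D w, ?_,
    fun w hw => ?_, fun a ha => ?_⟩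
  · exact (Differentiable.differentiableOn (by fun_prop)).mul (thB_fac_diff _ hD)
  · have := thB_cancel (E := E) hD (w := w) (by rw [hw]; norm_num)
    dsimp only
    rw [h2 w (by rw [hw]; norm_num)]
    linear_combination (w - 1) * S w * this
  · obtain ⟨K₂, hK₂, hf⟩ := thB_fac_le (rk E) hD ha
    refine ⟨K₁ * K₂, fun w ha1 ha2 => ?_⟩
    have b1 := hK₁ w (by linarith) ha2
    dsimp only
    rw [norm_mul]
    calc _ ≤ K₁ * Real.exp (w.im ^ 2 / 200) * (K₂ * Real.exp (w.im ^ 2 / 200)) :=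
          mul_le_mul b1 (hf w ha1 ha2) (norm_nonneg _) ((norm_nonneg _).trans b1)
      _ = K₁ * K₂ * Real.exp (w.im ^ 2 / 200 + w.im ^ 2 / 200) := by rw [Real.exp_add]; ring
      _ = _ := by congr 2; ring

end Crest.Agent.R312.LS2
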