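import Mathlib

/-!
# Row 312 (B): auxiliary analysis for `ZMel` (Laplace transform, invariant measures on `ℝ`)
-/

set_option autoImplicit false

noncomputable section

namespace Crest.Agent.R312

open MeasureTheory Filter
open scoped Topology ENNReal NNReal

theorem zmel_exp_le {a b t y : ℝ} (hat : a ≤ t) (htb : t ≤ b) :
    Real.exp (t * y) ≤ Real.exp (a * y) + Real.exp (b * y) := by
  rcases le_total 0 y with hy | hy
  · have : Real.exp (t * y) ≤ Real.exp (b * y) :=
      Real.exp_le_exp.2 (mul_le_mul_of_nonneg_right htb hy)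
    linarith [Real.exp_pos (a * y)]
  · have : Real.exp (t * y) ≤ Real.exp (a * y) :=
      Real.exp_le_exp.2 (mul_le_mul_of_nonpos_right hat hy)
    linarith [Real.exp_pos (b * y)]

theorem zmel_abs_exp_le {a b t y δ : ℝ} (hδ : 0 < δ) (hat : a ≤ t - δ) (htb : t + δ ≤ b) :
    |y| * Real.exp (t * y) ≤ (Real.exp (a * y) + Real.exp (b * y)) / δ := by
  rw [le_div_iff₀ hδ]
  have h1 : |y| * δ ≤ Real.exp (δ * |y|) := by
    have := Real.add_one_le_exp (δ * |y|)
    nlinarith
  have h2 : Real.exp (δ * |y|) * Real.exp (t * y) ≤ Real.exp (a * y) + Real.exp (b * y) := by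
    rw [← Real.exp_add]
    rcases le_total 0 y with hy | hy
    · rw [abs_of_nonneg hy]
      have : δ * y + t * y = (t + δ) * y := by ring
      rw [this]
      exact zmel_exp_le (by linarith) htb
    · rw [abs_of_nonpos hy]
      have : δ * -y + t * y = (t - δ) * y := by ring
      rw [this]
      exact zmel_exp_le hat (by linarith)
  calc |y| * Real.exp (t * y) * δ = (|y| * δ) * Real.exp (t * y) := by ring
    _ ≤ Real.exp (δ * |y|) * Real.exp (t * y) :=
        mul_le_mul_of_nonneg_right h1 (Real.exp_pos _).le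
    _ ≤ _ := h2

theorem zmel_differentiableOn_laplace {X : Type} [MeasurableSpace X] {μ : Measure X} {w : X → ℝ}
    (hw : Measurable w) {R : X → ℂ} (hR : AEStronglyMeasurable R μ) {a b : ℝ}
    (ha : Integrable (fun x => ‖R x‖ * Real.exp (a * w x)) μ)
    (hb : Integrable (fun x => ‖R x‖ * Real.exp (b * w x)) μ) :
    DifferentiableOn ℂ (fun s : ℂ => ∫ x, R x * Complex.exp (s * w x) ∂μ)
      {s | a < s.re ∧ s.re < b} := by
  intro s₀ hs₀
  obtain ⟨h1, h2⟩ := hs₀
  set δ : ℝ := min (s₀.re - a) (b - s₀.re) / 2 with hδ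
  have hδ0 : 0 < δ := by
    have : 0 < min (s₀.re - a) (b - s₀.re) := lt_min (by linarith) (by linarith)
    positivity
  have hδa : 2 * δ ≤ s₀.re - a := by
    have := min_le_left (s₀.re - a) (b - s₀.re)
    linarith
  have hδb : 2 * δ ≤ b - s₀.re := by
    have := min_le_right (s₀.re - a) (b - s₀.re)
    linarith
  have hwm : AEStronglyMeasurable (fun x => ((w x : ℝ) : ℂ)) μ :=
    (Complex.measurable_ofReal.comp hw).aestronglyMeasurable
  have hmeas : ∀ s : ℂ, AEStronglyMeasurable (fun x => R x * Complex.exp (s * w x)) μ := by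
    intro s
    refine hR.mul ?_
    exact (Complex.measurable_exp.comp
      (measurable_const.mul (Complex.measurable_ofReal.comp hw))).aestronglyMeasurable
  have hnorm : ∀ (s : ℂ) (x : X), ‖Complex.exp (s * w x)‖ = Real.exp (s.re * w x) := by
    intro s x
    rw [Complex.norm_exp]
    simp
  have hab := ha.add hb
  have key := hasDerivAt_integral_of_dominated_loc_of_deriv_le (μ := μ)
    (F := fun (s : ℂ) (x : X) => R x * Complex.exp (s * w x))
    (F' := fun (s : ℂ) (x : X) => R x * (Complex.exp (s * w x) * w x))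
    (x₀ := s₀) (s := Metric.ball s₀ δ)
    (bound := fun x => (‖R x‖ * Real.exp (a * w x) + ‖R x‖ * Real.exp (b * w x)) / δ)
    (Metric.ball_mem_nhds s₀ hδ0) (Eventually.of_forall hmeas) ?_ ?_ ?_ ?_ ?_
  · exact key.2.differentiableAt.differentiableWithinAt
  · refine hab.mono' (hmeas s₀) (Eventually.of_forall fun x => ?_)
    simp only [Pi.add_apply]
    rw [norm_mul, hnorm, ← mul_add]
    exact mul_le_mul_of_nonneg_left (zmel_exp_le h1.le h2.le) (norm_nonneg _)
  · have := (hmeas s₀).mul hwm
    refine this.congr (Eventually.of_forall fun x => ?_)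
    simp only [Pi.mul_apply]
    ring
  · refine Eventually.of_forall fun x s hs => ?_
    have hs' : |s.re - s₀.re| < δ := by
      have h3 : |(s - s₀).re| ≤ ‖s - s₀‖ := Complex.abs_re_le_norm _
      rw [Metric.mem_ball, dist_eq_norm] at hs
      rw [Complex.sub_re] at h3
      linarith
    rw [abs_lt] at hs'
    rw [norm_mul, norm_mul, hnorm, Complex.norm_real, Real.norm_eq_abs, ← mul_add,
      mul_div_assoc, mul_comm (Real.exp _)]
    exact mul_le_mul_of_nonneg_left
      (zmel_abs_exp_le hδ0 (by linarith [hs'.1]) (by linarith [hs'.2])) (norm_nonneg _)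
  · exact hab.div_const δ
  · refine Eventually.of_forall fun x s _ => ?_
    have h3 : HasDerivAt (fun s : ℂ => s * (w x : ℂ)) (w x : ℂ) s := by
      simpa using (hasDerivAt_id s).mul_const (w x : ℂ)
    exact h3.cexp.const_mul (R x)

theorem zmel_lint :
    ∫⁻ x in Set.Iio (0 : ℝ), ENNReal.ofReal (Real.exp (3 * x) - Real.exp (4 * x)) =
      ENNReal.ofReal (1 / 12) := by
  rw [setLIntegral_congr Iio_ae_eq_Iic]
  have h3 := integrableOn_exp_mul_Iic (a := 3) (by norm_num) 0
  have h4 := integrableOn_exp_mul_Iic (a := 4) (by norm_num) 0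
  have h34 : Integrable (fun x => Real.exp (3 * x) - Real.exp (4 * x))
      (volume.restrict (Set.Iic (0 : ℝ))) := h3.sub h4
  rw [← ofReal_integral_eq_lintegral_ofReal h34]
  · congr 1
    rw [integral_sub h3 h4, integral_exp_mul_Iic (by norm_num), integral_exp_mul_Iic (by norm_num)]
    norm_num
  · refine (ae_restrict_iff' measurableSet_Iic).2 (Eventually.of_forall fun x hx => ?_)
    have hx' : x ≤ 0 := hx
    have : Real.exp (4 * x) ≤ Real.exp (3 * x) := Real.exp_le_exp.2 (by linarith)
    simpa using this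

theorem zmel_eq_smul_volume {ν : Measure ℝ} (hinv : ∀ c : ℝ, ν.map (fun x => x + c) = ν) {B : ℝ}
    (hB0 : 0 ≤ B)
    (hB : ∫⁻ x in Set.Iio (0 : ℝ), ENNReal.ofReal (Real.exp (3 * x) - Real.exp (4 * x)) ∂ν ≤
      ENNReal.ofReal B) :
    ∃ V : ℝ≥0, ν = V • (volume : Measure ℝ) ∧ (V : ℝ) ≤ 12 * B := by
  -- the measure of `[-2, -1]` is finite
  have hc : 0 < Real.exp (-6) * (1 - Real.exp (-1)) := by
    have : Real.exp (-1) < 1 := Real.exp_lt_one_iff.2 (by norm_num)
    have h2 := Real.exp_pos (-6)
    positivity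
  have hfin : ν (Set.Icc (-2) (-1)) < ⊤ := by
    have h1 : ENNReal.ofReal (Real.exp (-6) * (1 - Real.exp (-1))) * ν (Set.Icc (-2) (-1)) ≤
        ENNReal.ofReal B := by
      refine le_trans ?_ hB
      rw [← setLIntegral_const]
      refine le_trans (setLIntegral_mono' measurableSet_Icc fun x hx => ?_)
        (lintegral_mono_set (fun x hx => ?_))
      · refine ENNReal.ofReal_le_ofReal ?_
        have e1 : Real.exp (4 * x) = Real.exp (3 * x) * Real.exp x := by
          rw [← Real.exp_add]; ring_nf
        have e2 : Real.exp (-6) ≤ Real.exp (3 * x) := Real.exp_le_exp.2 (by linarith [hx.1])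
        have e3 : Real.exp x ≤ Real.exp (-1) := Real.exp_le_exp.2 hx.2
        have e4 : Real.exp (-1) < 1 := Real.exp_lt_one_iff.2 (by norm_num)
        rw [e1]
        have e5 : Real.exp (3 * x) - Real.exp (3 * x) * Real.exp x =
            Real.exp (3 * x) * (1 - Real.exp x) := by ring
        rw [e5]
        exact mul_le_mul e2 (by linarith) (by linarith) (Real.exp_pos _).le
      · have : x ≤ -1 := hx.2
        show x < 0
        linarith
    by_contra hcon
    have htop : ν (Set.Icc (-2) (-1)) = ⊤ := by simpa using hcon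
    rw [htop, ENNReal.mul_top (by simpa using hc)] at h1
    exact absurd h1 (by simp)
  have : IsLocallyFiniteMeasure ν := by
    refine ⟨fun x => ⟨Set.Icc (x - 1 / 2) (x + 1 / 2), Icc_mem_nhds (by linarith) (by linarith), ?_⟩⟩
    rw [← hinv (x + 3 / 2), Measure.map_apply (measurable_add_const _) measurableSet_Icc]
    have : (fun y => y + (x + 3 / 2)) ⁻¹' Set.Icc (x - 1 / 2) (x + 1 / 2) = Set.Icc (-2) (-1) := by
      ext y
      simp only [Set.mem_preimage, Set.mem_Icc]
      constructor <;> rintro ⟨h1, h2⟩ <;> constructor <;> linarith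
    rw [this]
    exact hfin
  have : ν.IsAddLeftInvariant := by
    refine ⟨fun c => ?_⟩
    have : (fun x : ℝ => c + x) = fun x => x + c := by
      funext x; ring
    rw [this]
    exact hinv c
  have hν := Measure.isAddLeftInvariant_eq_smul ν (volume : Measure ℝ)
  refine ⟨_, hν, ?_⟩
  set V := Measure.addHaarScalarFactor ν (volume : Measure ℝ) with hV
  rw [hν, Measure.restrict_smul, lintegral_smul_measure, zmel_lint] at hB
  have h2 : ENNReal.ofReal ((V : ℝ) * (1 / 12)) ≤ ENNReal.ofReal B := by
    rw [ENNReal.ofReal_mul V.coe_nonneg, ENNReal.ofReal_coe_nnreal]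
    simpa [ENNReal.smul_def] using hB
  have h3 := (ENNReal.ofReal_le_ofReal_iff hB0).1 h2
  linarith

end Crest.Agent.R312
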