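import Crest.Agent.R312.LSDefs
import Crest.Agent.R312.ZMelAux1
import Crest.Agent.R312.LSThAAuxB

/-!
# Row 312, module LS (quadratic large sieve): continuation of a Dirichlet series with a theta inversion formula
-/

set_option autoImplicit false

noncomputable section

namespace Crest.Agent.R312.LS2

open NumberField
open scoped ComplexConjugate
open Classical

variable {E : Type} [Field E] [NumberField E] [Fr E]

open MeasureTheory

theorem lamA_norm (t : ℝ) (s : ℂ) (x : ℝ) :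
    ‖(t : ℂ) * Complex.exp (s * x)‖ = |t| * Real.exp (s.re * x) := by
  rw [norm_mul, Complex.norm_exp, Complex.norm_real, Real.norm_eq_abs]; simp

/-- The abstract continuation. -/
theorem lamA_abs {T : ℝ → ℝ} {κ : ℝ} (hm : Measurable T)
    (hb : ∀ σ : ℝ, 1 < σ → ∃ K : ℝ, ∀ x, |T x| ≤ K * Real.exp (-σ * x))
    (hfe : ∀ x, κ + T (-x) = Real.exp x * (κ + T x)) :
    ∃ (Λ : ℂ → ℂ) (B : ℝ), Differentiable ℂ Λ ∧ (∀ w, Λ (1 - w) = Λ w) ∧
      (∀ w : ℂ, -1 ≤ w.re → w.re ≤ 2 → ‖Λ w‖ ≤ B * (1 + ‖w‖) ^ 2) ∧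
      ∀ w : ℂ, 1 < w.re → Λ w = w * (w - 1) * ∫ x : ℝ, (T x : ℂ) * Complex.exp (w * x) := by
  have hb' : ∀ σ a : ℝ, 1 < σ → ∃ K : ℝ, ∀ x,
      |T x| * Real.exp (a * x) ≤ K * Real.exp ((a - σ) * x) := fun σ a hσ => by
    obtain ⟨K, hK⟩ := hb σ hσ
    refine ⟨K, fun x => (mul_le_mul_of_nonneg_right (hK x) (Real.exp_pos _).le).trans_eq ?_⟩
    rw [mul_assoc, ← Real.exp_add]; congr 2; ring
  have hI : ∀ a : ℝ, IntegrableOn (fun x => |T x| * Real.exp (a * x)) (Set.Ioi 0) := fun a => by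
    obtain ⟨K, hK⟩ := hb' (max a 1 + 1) a (by linarith [le_max_right a 1])
    refine ((integrableOn_exp_mul_Ioi (a := a - (max a 1 + 1))
      (by linarith [le_max_left a 1]) 0).const_mul K).mono'
      (Measurable.aestronglyMeasurable (by fun_prop)) (Filter.Eventually.of_forall fun x => ?_)
    rw [Real.norm_of_nonneg (by positivity)]
    exact hK x
  have hM : ∀ s : ℂ, Measurable fun x : ℝ => (T x : ℂ) * Complex.exp (s * x) := fun s => by
    fun_prop
  have hI' : ∀ s : ℂ, IntegrableOn (fun x : ℝ => (T x : ℂ) * Complex.exp (s * x)) (Set.Ioi 0) :=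
    fun s => (hI s.re).mono' (hM s).aestronglyMeasurable
      (Filter.Eventually.of_forall fun x => (lamA_norm _ _ _).le)
  set L : ℂ → ℂ := fun s => ∫ x in Set.Ioi (0 : ℝ), (T x : ℂ) * Complex.exp (s * x) with hL
  have hd : Differentiable ℂ L := fun s => by
    have h := zmel_differentiableOn_laplace (μ := volume.restrict (Set.Ioi (0 : ℝ)))
      (w := fun x => x) measurable_id (R := fun x => (T x : ℂ))
      (Measurable.aestronglyMeasurable (by fun_prop)) (a := s.re - 1) (b := s.re + 1)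
      (by simpa only [Complex.norm_real, Real.norm_eq_abs] using (hI _).integrable)
      (by simpa only [Complex.norm_real, Real.norm_eq_abs] using (hI _).integrable)
    refine h.differentiableAt (IsOpen.mem_nhds ?_ ⟨by linarith, by linarith⟩)
    exact (isOpen_lt continuous_const Complex.continuous_re).inter
      (isOpen_lt Complex.continuous_re continuous_const)
  set A := ∫ x in Set.Ioi (0 : ℝ), |T x| * Real.exp (2 * x) with hA
  have hA0 : 0 ≤ A := integral_nonneg fun x => by positivity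
  have hle : ∀ s : ℂ, s.re ≤ 2 → ‖L s‖ ≤ A := fun s hs => by
    refine norm_integral_le_of_norm_le (hI 2)
      ((ae_restrict_iff' measurableSet_Ioi).2 (Filter.Eventually.of_forall fun x hx => ?_))
    rw [lamA_norm]
    have : 0 < x := hx
    gcongr
  refine ⟨fun w => w * (w - 1) * (L w + L (1 - w)) + κ, 2 * A + |κ|, ?_, fun w => ?_,
    fun w h1 h2 => ?_, fun w hw => ?_⟩
  · have : Differentiable ℂ fun w => L (1 - w) := hd.comp (by fun_prop)
    fun_prop
  · simp only [sub_sub_cancel]; ring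
  · have h3 : ‖L w + L (1 - w)‖ ≤ 2 * A := by
      have := hle (1 - w) (by simp only [Complex.sub_re, Complex.one_re]; linarith)
      linarith [norm_add_le (L w) (L (1 - w)), hle w h2]
    have h4 : ‖w - 1‖ ≤ 1 + ‖w‖ := by simpa [add_comm] using norm_sub_le w 1
    have h0 := norm_nonneg w
    calc _ ≤ ‖w‖ * ‖w - 1‖ * ‖L w + L (1 - w)‖ + |κ| * 1 := by
          refine (norm_add_le _ _).trans_eq ?_
          rw [norm_mul, norm_mul, Complex.norm_real, Real.norm_eq_abs, mul_one]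
      _ ≤ (1 + ‖w‖) * (1 + ‖w‖) * (2 * A) + |κ| * (1 + ‖w‖) ^ 2 := by
          gcongr
          · linarith
          · nlinarith
      _ = _ := by ring
  · have h1 : IntegrableOn (fun x : ℝ => (T x : ℂ) * Complex.exp (w * x)) (Set.Iic 0) := by
      obtain ⟨K, hK⟩ := hb' ((1 + w.re) / 2) w.re (by linarith)
      exact ((integrableOn_exp_mul_Iic (a := w.re - (1 + w.re) / 2) (by linarith) 0).const_mul
        K).mono' (hM w).aestronglyMeasurable
        (Filter.Eventually.of_forall fun x => (lamA_norm _ _ _).le.trans (hK x))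
    have hw1 : (1 - w).re < 0 := by simp only [Complex.sub_re, Complex.one_re]; linarith
    have hw2 : (-w).re < 0 := by simp only [Complex.neg_re]; linarith
    have h2 : ∀ x : ℝ, (T (-x) : ℂ) * Complex.exp (w * (-x : ℝ)) =
        (T x : ℂ) * Complex.exp ((1 - w) * x) +
          (κ * Complex.exp ((1 - w) * x) - κ * Complex.exp (-w * x)) := fun x => by
      have e := congrArg Complex.ofReal (hfe x)
      push_cast at e ⊢
      rw [sub_mul, one_mul, sub_eq_add_neg (x : ℂ), Complex.exp_add, mul_neg, neg_mul]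
      linear_combination Complex.exp (-(w * x)) * e
    have i1 := (integrableOn_exp_mul_complex_Ioi hw1 0).const_mul (κ : ℂ)
    have i2 := (integrableOn_exp_mul_complex_Ioi hw2 0).const_mul (κ : ℂ)
    have h3 := integral_comp_neg_Ioi 0 fun x : ℝ => (T x : ℂ) * Complex.exp (w * x)
    rw [neg_zero] at h3
    rw [← intervalIntegral.integral_Iic_add_Ioi h1 (hI' w), ← h3]
    simp only [h2]
    have i3 : Integrable (fun x : ℝ => κ * Complex.exp ((1 - w) * x) - κ * Complex.exp (-w * x))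
      (volume.restrict (Set.Ioi 0)) := i1.sub i2
    rw [integral_add (hI' _) i3, integral_sub i1 i2, integral_const_mul,
      integral_const_mul, integral_exp_mul_complex_Ioi hw1, integral_exp_mul_complex_Ioi hw2]
    have n1 : 1 - w ≠ 0 := fun h => by simp [h] at hw1
    have n2 : w ≠ 0 := fun h => by simp [h] at hw2
    simp only [hL, Complex.ofReal_zero, mul_zero, Complex.exp_zero]
    field_simp
    ring

theorem lamA_shift {s : ℂ} (hs : 0 < s.re) {c : ℝ} (hc : 0 < c) :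
    Integrable (fun x : ℝ => (Gw E (Real.exp x * c) : ℂ) * Complex.exp (s * x)) ∧
      ∫ x : ℝ, (Gw E (Real.exp x * c) : ℂ) * Complex.exp (s * x) = (c : ℂ) ^ (-s) * KG E s := by
  obtain ⟨h1, h2⟩ := (kerOK_gauss.mellin_tav (E := E) hs)
  rw [TavB.integral_gauss hs] at h2
  have e : ∀ x : ℝ, (Gw E (Real.exp x * c) : ℂ) * Complex.exp (s * x) = (c : ℂ) ^ (-s) *
      ((tav E (fun v => Real.exp (-(2 * Real.pi) * Real.exp v)) (x + Real.log c) : ℂ) *
        Complex.exp (s * (x + Real.log c : ℝ))) := fun x => by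
    rw [Gw, Real.log_mul (Real.exp_pos _).ne' hc.ne', Real.log_exp,
      Complex.cpow_def_of_ne_zero (Complex.ofReal_ne_zero.2 hc.ne'), ← Complex.ofReal_log hc.le,
      mul_left_comm, ← Complex.exp_add]
    congr 2
    push_cast; ring
  simp only [e]
  refine ⟨(h1.comp_add_right (Real.log c)).const_mul _, ?_⟩
  rw [integral_const_mul, integral_add_right_eq_self (fun x : ℝ =>
    (tav E (fun v => Real.exp (-(2 * Real.pi) * Real.exp v)) x : ℂ) * Complex.exp (s * x)), h2, KG]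

/-- Put `T x = ∑ Gw (N e^x / D)`, `Λ₀ w = ∫_{x > 0} T x (e^{w x} + e^{(1-w) x})` (entire:
`zmel_differentiableOn_laplace`; bounded for `-1 ≤ Re w ≤ 2`), `Λ w = w (w - 1) Λ₀ w + κ = Λ (1 - w)`.
For `Re w > 1`, `Λ w = w (w - 1) D^w KG w ∑ N^{-w}` (`kerOK_gauss.mellin_tav`,
`TavB.integral_gauss`, split the integral at `x = 0` and use `hfe`). -/
theorem exists_Lam {ι : Type} [Countable ι] {P : ι → Prop} {N : ι → ℝ} {C : ℝ} (h : Cnt P N C)
    {D κ : ℝ} (hD : 0 < D)
    (hfe : ∀ X : ℝ, 0 < X → κ + ∑' i, (if P i then Gw E (N i / X / D) else 0) =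
      X * (κ + ∑' i, if P i then Gw E (X * N i / D) else 0)) :
    ∃ (Λ : ℂ → ℂ) (B : ℝ), Differentiable ℂ Λ ∧ (∀ w, Λ (1 - w) = Λ w) ∧
      (∀ w : ℂ, -1 ≤ w.re → w.re ≤ 2 → ‖Λ w‖ ≤ B * (1 + ‖w‖) ^ 2) ∧
      ∀ w : ℂ, 1 < w.re → Λ w =
        w * (w - 1) * ((D : ℂ) ^ w * KG E w) * ∑' i, if P i then (N i : ℂ) ^ (-w) else 0 := by
  have hN : ∀ i, P i → 0 < N i := fun i hi => one_pos.trans_le (h.1 i hi)
  have hb : ∀ σ : ℝ, 1 < σ → ∃ K : ℝ, ∀ x i, (if P i then Gw E (Real.exp x * N i / D) else 0) ≤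
      K * Real.exp (-σ * x) * if P i then N i ^ (-σ) else 0 := fun σ hσ => by
    obtain ⟨K, -, hK⟩ := Gw_le_rpow (E := E) (one_pos.trans hσ)
    refine ⟨K * D ^ σ, fun x i => ?_⟩
    split_ifs with hi
    · refine (hK _ (div_pos (mul_pos (Real.exp_pos x) (hN i hi)) hD)).trans_eq ?_
      rw [Real.div_rpow (mul_pos (Real.exp_pos x) (hN i hi)).le hD.le,
        Real.mul_rpow (Real.exp_pos x).le (hN i hi).le, ← Real.exp_mul, Real.rpow_neg hD.le,
        div_inv_eq_mul, mul_comm x]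
      ring
    · rw [mul_zero]
  have h0 : ∀ x i, 0 ≤ if P i then Gw E (Real.exp x * N i / D) else 0 := fun x i => by
    split_ifs
    · exact (Gw_pos _).le
    · exact le_rfl
  have hs : ∀ x, Summable fun i => if P i then Gw E (Real.exp x * N i / D) else 0 := fun x => by
    obtain ⟨K, hK⟩ := hb 2 one_lt_two
    exact Summable.of_nonneg_of_le (h0 x) (hK x) ((h.summable_rpow one_lt_two).mul_left _)
  have hG : Measurable (Gw E) :=
    (kerOK_gauss.continuous_tav (E := E)).measurable.comp Real.measurable_log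
  obtain ⟨Λ, B, h1, h2, h3, h4⟩ := lamA_abs (κ := κ)
    (T := fun x => ∑' i, if P i then Gw E (Real.exp x * N i / D) else 0)
    (Measurable.tsum fun i => by split_ifs <;> fun_prop) (fun σ hσ => by
      obtain ⟨K, hK⟩ := hb σ hσ
      refine ⟨K * ∑' i, if P i then N i ^ (-σ) else 0, fun x => ?_⟩
      rw [abs_of_nonneg (tsum_nonneg (h0 x)), mul_right_comm, ← tsum_mul_left]
      exact (hs x).tsum_le_tsum (hK x) ((h.summable_rpow hσ).mul_left _)) (fun x => by
      rw [← hfe _ (Real.exp_pos x)]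
      simp only [Real.exp_neg, inv_mul_eq_div])
  refine ⟨Λ, B, h1, h2, h3, fun w hw => ?_⟩
  have hw0 : 0 < w.re := one_pos.trans hw
  have e : ∀ i (s : ℂ) (x : ℝ), ((if P i then Gw E (Real.exp x * N i / D) else 0 : ℝ) : ℂ) *
      Complex.exp (s * x) =
        if P i then (Gw E (Real.exp x * (N i / D)) : ℂ) * Complex.exp (s * x) else 0 :=
    fun i s x => by split_ifs <;> simp [mul_div_assoc]
  have key : ∀ i (s : ℂ), 0 < s.re → Integrable (fun x : ℝ =>
      ((if P i then Gw E (Real.exp x * N i / D) else 0 : ℝ) : ℂ) * Complex.exp (s * x)) ∧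
      ∫ x : ℝ, ((if P i then Gw E (Real.exp x * N i / D) else 0 : ℝ) : ℂ) * Complex.exp (s * x) =
        (D : ℂ) ^ s * KG E s * if P i then (N i : ℂ) ^ (-s) else 0 := fun i s hs => by
    simp only [e]
    split_ifs with hi
    · obtain ⟨k1, k2⟩ := lamA_shift (E := E) hs (div_pos (hN i hi) hD)
      refine ⟨k1, ?_⟩
      rw [k2, div_eq_mul_inv, Complex.ofReal_mul,
        Complex.mul_cpow_ofReal_nonneg (hN i hi).le (inv_pos.2 hD).le, Complex.ofReal_inv,
        Complex.inv_cpow _ _ (by rw [Complex.arg_ofReal_of_nonneg hD.le]; exact Real.pi_ne_zero.symm),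
        Complex.cpow_neg (D : ℂ), inv_inv]
      ring
    · simp
  rw [h4 w hw, mul_assoc (w * (w - 1)), ← tsum_mul_left]
  congr 1
  simp only [Complex.ofReal_tsum, ← tsum_mul_right]
  rw [← integral_tsum_of_summable_integral_norm (fun i => (key i w hw0).1) ?_]
  · exact tsum_congr fun i => (key i w hw0).2
  · refine ((h.summable_rpow hw).mul_left ‖(D : ℂ) ^ (w.re : ℂ) * KG E w.re‖).congr fun i => ?_
    have k := congrArg norm (key i w.re (by simpa using hw0)).2
    simp only [← Complex.ofReal_mul, ← Complex.ofReal_exp] at k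
    rw [integral_complex_ofReal, Complex.norm_real, Real.norm_of_nonneg
      (integral_nonneg fun x => mul_nonneg (h0 x i) (Real.exp_pos _).le), norm_mul] at k
    simp only [lamA_norm, abs_of_nonneg (h0 _ i)]
    rw [k]
    congr 1
    split_ifs with hi
    · rw [Complex.norm_cpow_eq_rpow_re_of_pos (hN i hi)]; simp
    · simp

/-- Phragmén-Lindelöf (`PhragmenLindelof.vertical_strip` on `-1 ≤ Re w ≤ 2`) for
`H w = Λ w exp(-(w - 1/2)²/8) exp((w - 1/2)²/200)`, which is symmetric and bounded on `Re w = 2`. -/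
theorem PL_bound {Λ : ℂ → ℂ} {B B' : ℝ} (hd : Differentiable ℂ Λ) (hs : ∀ w, Λ (1 - w) = Λ w)
    (h1 : ∀ w : ℂ, -1 ≤ w.re → w.re ≤ 2 → ‖Λ w‖ ≤ B * (1 + ‖w‖) ^ 2)
    (h2 : ∀ w : ℂ, w.re = 2 →
      ‖Λ w * Complex.exp (-(w - 1 / 2) ^ 2 / 8)‖ ≤ B' * (1 + ‖w‖) ^ 2) :
    ∃ K : ℝ, ∀ w : ℂ, -1 ≤ w.re → w.re ≤ 2 →
      ‖Λ w * Complex.exp (-(w - 1 / 2) ^ 2 / 8)‖ ≤ K * Real.exp (w.im ^ 2 / 200) :=
  thB_PL hd hs h1 h2

/-- `Z w = Λ w / (w D^w KG w)`; `R17.norm_inv_Gamma_le`. -/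
theorem exists_Zt {ι : Type} [Countable ι] {P : ι → Prop} {N : ι → ℝ} {C : ℝ} (h : Cnt P N C)
    {D κ : ℝ} (hD : 0 < D)
    (hfe : ∀ X : ℝ, 0 < X → κ + ∑' i, (if P i then Gw E (N i / X / D) else 0) =
      X * (κ + ∑' i, if P i then Gw E (X * N i / D) else 0)) :
    ∃ Z : ℂ → ℂ, DifferentiableOn ℂ Z {w | 0 < w.re} ∧
      (∀ w : ℂ, w.re = 2 → Z w = (w - 1) * ∑' i, if P i then (N i : ℂ) ^ (-w) else 0) ∧
      ∀ a : ℝ, 0 < a → ∃ K : ℝ, ∀ w : ℂ, a ≤ w.re → w.re ≤ 2 →
        ‖Z w‖ ≤ K * Real.exp (w.im ^ 2 / 100) := by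
  obtain ⟨Λ, B, hd, hs, h1, h2⟩ := exists_Lam (E := E) h hD hfe
  exact thB_Zt (S := fun w => ∑' i, if P i then (N i : ℂ) ^ (-w) else 0) hD hd hs h1 h2
    fun w hw => thB_norm_sum h hw

end Crest.Agent.R312.LS2
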