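import Crest.Agent.R312.LSLat
import Crest.Agent.R312.LSThA
import Crest.Agent.R17.Contour

/-!
# Row 312, module LS (quadratic large sieve): the sum `th2`
-/

set_option autoImplicit false

noncomputable section

namespace Crest.Agent.R312.LS2

open NumberField
open scoped ComplexConjugate
open Classical

variable {E : Type} [Field E] [NumberField E] [Fr E]

open MeasureTheory

theorem ThBA_mellin {ι : Type} [Countable ι] {P : ι → Prop} {N : ι → ℝ} {C : ℝ} (h : Cnt P N C)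
    {Y : ℝ} (hY : 0 < Y) :
    ((∑' i, (if P i then Gw E (Y * N i ^ 2) else 0) : ℝ) : ℂ) = (1 / (2 * Real.pi) : ℂ) *
      ∫ u : ℝ, KG E ((1 : ℝ) + u * Complex.I) * (Y : ℂ) ^ (-(((1 : ℝ) : ℂ) + u * Complex.I)) *
        ∑' i, if P i then (N i : ℂ) ^ (-(2 * (((1 : ℝ) : ℂ) + u * Complex.I))) else 0 := by
  have hW : Integrable fun u : ℝ => ‖KG E ((1 : ℝ) + u * Complex.I)‖ := by
    simpa only [pow_zero, mul_one] using integrable_KG (E := E) one_pos 0
  have hn : ∀ (n : ι) (u : ℝ), ‖KG E ((1 : ℝ) + u * Complex.I) *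
      (Y : ℂ) ^ (-(((1 : ℝ) : ℂ) + u * Complex.I)) *
      (if P n then (N n : ℂ) ^ (-(2 * (((1 : ℝ) : ℂ) + u * Complex.I))) else 0)‖ =
      Y ^ (-1 : ℝ) * (if P n then N n ^ (-2 : ℝ) else 0) * ‖KG E ((1 : ℝ) + u * Complex.I)‖ := by
    intro n u
    by_cases h0 : P n
    swap
    · simp [h0]
    · rw [if_pos h0, if_pos h0, norm_mul, norm_mul, Complex.norm_cpow_eq_rpow_re_of_pos hY,
        Complex.norm_cpow_eq_rpow_re_of_pos (WtA.N_pos h h0)]
      have e1 : (-(((1 : ℝ) : ℂ) + u * Complex.I)).re = -1 := by simp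
      have e2 : (-(2 * (((1 : ℝ) : ℂ) + u * Complex.I))).re = -2 := by simp
      rw [e1, e2]
      ring
  have hi : ∀ n : ι, Integrable fun u : ℝ => KG E ((1 : ℝ) + u * Complex.I) *
      (Y : ℂ) ^ (-(((1 : ℝ) : ℂ) + u * Complex.I)) *
      (if P n then (N n : ℂ) ^ (-(2 * (((1 : ℝ) : ℂ) + u * Complex.I))) else 0) := by
    intro n
    refine (hW.const_mul _).mono' (Continuous.aestronglyMeasurable ?_)
      (Filter.Eventually.of_forall fun u => (hn n u).le)
    refine ((continuous_KG one_pos).mul (Continuous.const_cpow (by fun_prop)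
      (Or.inl (Complex.ofReal_ne_zero.2 hY.ne')))).mul ?_
    by_cases h0 : P n
    · simp only [if_pos h0]
      exact Continuous.const_cpow (by fun_prop)
        (Or.inl (Complex.ofReal_ne_zero.2 (WtA.N_pos h h0).ne'))
    · simp only [if_neg h0]
      exact continuous_const
  simp only [← tsum_mul_left]
  rw [← integral_tsum_of_summable_integral_norm hi, ← tsum_mul_left, Complex.ofReal_tsum]
  · refine tsum_congr fun n => ?_
    by_cases h0 : P n
    swap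
    · simp [h0]
    have hN := WtA.N_pos h h0
    simp only [if_pos h0]
    rw [Gw_eq_integral (by positivity) one_pos]
    congr 2
    funext u
    rw [sq, Complex.ofReal_mul, Complex.ofReal_mul, ← Complex.ofReal_mul (N n),
      Complex.mul_cpow_ofReal_nonneg hY.le (by positivity), Complex.ofReal_mul,
      Complex.mul_cpow_ofReal_nonneg hN.le hN.le,
      ← Complex.cpow_add _ _ (Complex.ofReal_ne_zero.2 hN.ne'), mul_assoc]
    congr 3
    ring
  · simp only [hn, integral_const_mul]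
    exact ((h.summable_rpow (σ := 2) (by norm_num)).mul_left _).mul_right _

theorem ThBA_KG {σ : ℝ} (hσ : 0 < σ) : ∃ A : ℝ, 0 ≤ A ∧ ∀ w ∈ R17.strip σ 1,
    ‖KG E w‖ ≤ A * Real.exp (-(w.im ^ 2) / 8) := by
  have hc : ContinuousOn (fun a : ℝ => Real.sqrt (Real.pi / 2) * Real.exp ((a - 1 / 2) ^ 2 / 8) *
      ((2 * Real.pi) ^ (-a) * Real.Gamma a) ^ rk E) (Set.Icc σ 1) := by
    refine ContinuousOn.mul (by fun_prop) (ContinuousOn.pow (ContinuousOn.mul ?_ ?_) _)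
    · exact (continuous_const.rpow continuous_neg fun _ => Or.inl (by positivity)).continuousOn
    · refine fun a ha => (Real.differentiableAt_Gamma fun m hm => ?_).continuousAt.continuousWithinAt
      have := Nat.cast_nonneg (α := ℝ) m
      linarith [ha.1]
  obtain ⟨A, hA⟩ := isCompact_Icc.exists_bound_of_continuousOn hc
  refine ⟨max A 0, le_max_right _ _, fun w hw => ?_⟩
  obtain ⟨a, u, rfl⟩ : ∃ a u : ℝ, w = a + u * Complex.I := ⟨_, _, (Complex.re_add_im w).symm⟩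
  have h1 : σ ≤ a := by simpa using hw.1
  have h2 : a ≤ 1 := by simpa using hw.2
  have h3 := ((le_abs_self _).trans (hA a ⟨h1, h2⟩)).trans (le_max_left A 0)
  have e : ((a : ℂ) + u * Complex.I).im = u := by simp
  rw [e, KG, norm_mul, norm_mul, norm_pow, TavB.norm_exp_line, Complex.norm_real,
    Real.norm_of_nonneg (Real.sqrt_nonneg _),
    show ((a - 1 / 2) ^ 2 - u ^ 2) / 8 = (a - 1 / 2) ^ 2 / 8 + -(u ^ 2) / 8 by ring, Real.exp_add]
  calc _ ≤ Real.sqrt (Real.pi / 2) *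
        (Real.exp ((a - 1 / 2) ^ 2 / 8) * Real.exp (-(u ^ 2) / 8)) *
        ((2 * Real.pi) ^ (-a) * Real.Gamma a) ^ rk E :=
        mul_le_mul_of_nonneg_left
          (pow_le_pow_left₀ (norm_nonneg _) (TavB.norm_fac_le (hσ.trans_le h1) u) _) (by positivity)
    _ = Real.sqrt (Real.pi / 2) * Real.exp ((a - 1 / 2) ^ 2 / 8) *
        ((2 * Real.pi) ^ (-a) * Real.Gamma a) ^ rk E * Real.exp (-(u ^ 2) / 8) := by ring
    _ ≤ _ := mul_le_mul_of_nonneg_right h3 (Real.exp_pos _).le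

theorem ThBA_diff {σ : ℝ} (hσ : 0 < σ) : DifferentiableOn ℂ (KG E) (R17.strip σ 1) := by
  intro w hw
  refine DifferentiableAt.differentiableWithinAt ?_
  unfold KG
  refine DifferentiableAt.mul (by fun_prop) (DifferentiableAt.pow (DifferentiableAt.mul ?_ ?_) _)
  · exact differentiableAt_id.neg.const_cpow
      (Or.inl (Complex.ofReal_ne_zero.2 (by positivity)))
  · refine Complex.differentiableAt_Gamma w fun m hm => ?_
    have h1 := hw.1
    rw [hm] at h1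
    have := Nat.cast_nonneg (α := ℝ) m
    simp only [Complex.neg_re, Complex.natCast_re] at h1
    linarith

theorem ThBA_F {Z : ℂ → ℂ} (h3 : ∀ a : ℝ, 0 < a → ∃ K : ℝ, ∀ w : ℂ, a ≤ w.re → w.re ≤ 2 →
      ‖Z w‖ ≤ K * Real.exp (w.im ^ 2 / 100)) {σ : ℝ} (hσ : 0 < σ) :
    ∃ B : ℝ, 0 ≤ B ∧ ∀ w ∈ R17.strip σ 1, ‖KG E w * (Z (2 * w) / 2)‖ ≤ B / (1 + w.im ^ 2) := by
  obtain ⟨A, hA, h₁⟩ := ThBA_KG (E := E) hσ
  obtain ⟨K, h₂⟩ := h3 (2 * σ) (by linarith)
  refine ⟨12 * (A * max K 0), by positivity, fun w hw => ?_⟩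
  have h4 := h₂ (2 * w) (by simpa using hw.1) (by simpa using hw.2)
  have e : (2 * w).im ^ 2 / 100 = w.im ^ 2 / 25 := by
    simp only [Complex.mul_im, Complex.re_ofNat, Complex.im_ofNat]
    ring
  rw [e] at h4
  have h5 : ‖Z (2 * w) / 2‖ ≤ max K 0 * Real.exp (w.im ^ 2 / 25) := by
    rw [norm_div, Complex.norm_ofNat]
    have := mul_le_mul_of_nonneg_right (le_max_left K 0) (Real.exp_pos (w.im ^ 2 / 25)).le
    linarith [norm_nonneg (Z (2 * w))]
  have h6 : Real.exp (-(w.im ^ 2) / 8) * Real.exp (w.im ^ 2 / 25) ≤ 12 / (1 + w.im ^ 2) := by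
    rw [← Real.exp_add, le_div_iff₀ (by positivity)]
    have h7 := Real.add_one_le_exp (-(-(w.im ^ 2) / 8 + w.im ^ 2 / 25))
    have h8 : Real.exp (-(w.im ^ 2) / 8 + w.im ^ 2 / 25) *
        Real.exp (-(-(w.im ^ 2) / 8 + w.im ^ 2 / 25)) = 1 := by
      rw [← Real.exp_add, add_neg_cancel, Real.exp_zero]
    have h9 := Real.exp_pos (-(w.im ^ 2) / 8 + w.im ^ 2 / 25)
    have h10 := mul_le_mul_of_nonneg_left h7 h9.le
    nlinarith [mul_nonneg h9.le (sq_nonneg w.im)]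
  rw [norm_mul]
  calc _ ≤ A * Real.exp (-(w.im ^ 2) / 8) * (max K 0 * Real.exp (w.im ^ 2 / 25)) :=
        mul_le_mul (h₁ w hw) h5 (norm_nonneg _) (by positivity)
    _ = A * max K 0 * (Real.exp (-(w.im ^ 2) / 8) * Real.exp (w.im ^ 2 / 25)) := by ring
    _ ≤ A * max K 0 * (12 / (1 + w.im ^ 2)) := mul_le_mul_of_nonneg_left h6 (by positivity)
    _ = _ := by ring

/-- `Gw_eq_integral` on `Re s = 1`, then `R17.contour_shift_pole` (pole `s = 1/2`) for
`G s = KG s Y^{-s} Z (2 s) / 2`; `‖KG s‖ ≤ C exp(-u²/8)` for `σ ≤ Re s ≤ 1`. -/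
theorem exists_main {ι : Type} [Countable ι] {P : ι → Prop} {N : ι → ℝ} {C : ℝ} (h : Cnt P N C)
    {Z : ℂ → ℂ} (h1 : DifferentiableOn ℂ Z {w | 0 < w.re})
    (h2 : ∀ w : ℂ, w.re = 2 → Z w = (w - 1) * ∑' i, if P i then (N i : ℂ) ^ (-w) else 0)
    (h3 : ∀ a : ℝ, 0 < a → ∃ K : ℝ, ∀ w : ℂ, a ≤ w.re → w.re ≤ 2 →
      ‖Z w‖ ≤ K * Real.exp (w.im ^ 2 / 100)) :
    ∃ κ : ℝ, ∀ σ : ℝ, 0 < σ → σ < 1 / 2 → ∃ K : ℝ, ∀ Y : ℝ, 0 < Y →
      |∑' i, (if P i then Gw E (Y * N i ^ 2) else 0) - κ / Real.sqrt Y| ≤ K * Y ^ (-σ) := by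
  refine ⟨(KG E (1 / 2) * (Z 1 / 2)).re, fun σ hσ hσ' => ?_⟩
  obtain ⟨B, hB, hF⟩ := ThBA_F (E := E) h3 hσ
  refine ⟨B / (1 / 2 - σ), fun Y hY => ?_⟩
  have hY' : (Y : ℂ) ≠ 0 := Complex.ofReal_ne_zero.2 hY.ne'
  have hπ := Real.pi_pos
  have hd : DifferentiableOn ℂ (fun w => KG E w * (Z (2 * w) / 2) * (Y : ℂ) ^ (-w))
      (R17.strip σ 1) := by
    refine ((ThBA_diff hσ).mul (DifferentiableOn.div_const ?_ _)).mul
      (differentiable_id.neg.const_cpow (Or.inl hY')).differentiableOn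
    refine h1.comp (by fun_prop) fun w hw => ?_
    have := hw.1
    simp only [Set.mem_ofPred_eq, Complex.mul_re, Complex.re_ofNat, Complex.im_ofNat]
    linarith
  have hs := R17.contour_shift_pole (G := fun w => KG E w * (Z (2 * w) / 2) * (Y : ℂ) ^ (-w))
    (σ₀ := σ) (σ₁ := 1) (ρ := 1 / 2) (K := B * (Y ^ (-σ) + Y ^ (-1 : ℝ))) (T := 0)
    (by simpa using hσ') (by norm_num) hd fun w hw _ => by
      have h5 : Y ^ (-w.re) ≤ Y ^ (-σ) + Y ^ (-1 : ℝ) := by
        rcases le_total 1 Y with h6 | h6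
        · exact (Real.rpow_le_rpow_of_exponent_le h6 (by linarith [hw.1])).trans
            (le_add_of_nonneg_right (by positivity))
        · exact (Real.rpow_le_rpow_of_exponent_ge hY h6 (by linarith [hw.2])).trans
            (le_add_of_nonneg_left (by positivity))
      rw [norm_mul, Complex.norm_cpow_eq_rpow_re_of_pos hY, Complex.neg_re, mul_div_right_comm]
      exact mul_le_mul (hF w hw) h5 (by positivity) (by positivity)
  have hm := ThBA_mellin (E := E) h hY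
  have e1 : ∀ u : ℝ, KG E ((1 : ℝ) + u * Complex.I) *
      (Y : ℂ) ^ (-(((1 : ℝ) : ℂ) + u * Complex.I)) *
        (∑' i, if P i then (N i : ℂ) ^ (-(2 * (((1 : ℝ) : ℂ) + u * Complex.I))) else 0) =
      KG E ((1 : ℝ) + u * Complex.I) * (Z (2 * ((1 : ℝ) + u * Complex.I)) / 2) *
        (Y : ℂ) ^ (-(((1 : ℝ) : ℂ) + u * Complex.I)) / ((1 : ℝ) + u * Complex.I - 1 / 2) := by
    intro u
    have h5 : ((1 : ℝ) : ℂ) + u * Complex.I - 1 / 2 ≠ 0 := fun h6 => by
      have := congrArg Complex.re h6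
      norm_num at this
    rw [h2 _ (by simp), eq_div_iff h5]
    ring
  simp only [e1] at hm
  rw [hs] at hm
  obtain ⟨J, hJ⟩ : ∃ J : ℂ, J = ∫ u : ℝ, KG E (σ + u * Complex.I) *
      (Z (2 * (σ + u * Complex.I)) / 2) * (Y : ℂ) ^ (-((σ : ℂ) + u * Complex.I)) /
        (σ + u * Complex.I - 1 / 2) := ⟨_, rfl⟩
  rw [← hJ] at hm
  have hJ' : ‖J‖ ≤ B / (1 / 2 - σ) * Y ^ (-σ) * Real.pi := by
    rw [hJ, ← integral_univ_inv_one_add_sq, ← integral_const_mul]
    refine norm_integral_le_of_norm_le (integrable_inv_one_add_sq.const_mul _)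
      (Filter.Eventually.of_forall fun u => ?_)
    have h5 := hF _ (R17.Contour.line_mem le_rfl (by linarith : σ ≤ 1) u)
    have h6 : 1 / 2 - σ ≤ ‖(σ : ℂ) + u * Complex.I - 1 / 2‖ := by
      refine le_trans ?_ (Complex.abs_re_le_norm _)
      refine le_trans (le_of_eq ?_) (neg_le_abs _)
      simp
    have e2 : ((σ : ℂ) + u * Complex.I).im = u := by simp
    have e3 : (-((σ : ℂ) + u * Complex.I)).re = -σ := by simp
    rw [e2] at h5
    rw [norm_div, norm_mul, Complex.norm_cpow_eq_rpow_re_of_pos hY, e3]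
    calc _ ≤ B / (1 + u ^ 2) * Y ^ (-σ) / (1 / 2 - σ) :=
          div_le_div₀ (by positivity) (mul_le_mul_of_nonneg_right h5 (by positivity))
            (by linarith) h6
      _ = _ := by ring
  have e4 : (Y : ℂ) ^ (-(1 / 2 : ℂ)) = ((Real.sqrt Y)⁻¹ : ℝ) := by
    rw [Real.sqrt_eq_rpow, ← Real.rpow_neg hY.le, Complex.ofReal_cpow hY.le]
    push_cast
    rfl
  have e5 : ((∑' i, (if P i then Gw E (Y * N i ^ 2) else 0) : ℝ) : ℂ) -
      KG E (1 / 2) * (Z 1 / 2) * ((Real.sqrt Y)⁻¹ : ℝ) = (1 / (2 * Real.pi) : ℝ) * J := by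
    have : (Real.pi : ℂ) ≠ 0 := Complex.ofReal_ne_zero.2 hπ.ne'
    rw [hm, e4, show (2 : ℂ) * (1 / 2) = 1 by norm_num]
    push_cast
    field_simp
    ring
  have e6 := congrArg Complex.re e5
  rw [Complex.sub_re, Complex.ofReal_re, Complex.re_mul_ofReal, ← div_eq_mul_inv] at e6
  rw [e6]
  refine (Complex.abs_re_le_norm _).trans ?_
  rw [norm_mul, Complex.norm_real, Real.norm_of_nonneg (by positivity)]
  have h7 : 0 ≤ B / (1 / 2 - σ) * Y ^ (-σ) :=
    mul_nonneg (div_nonneg hB (by linarith)) (by positivity)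
  calc _ ≤ 1 / (2 * Real.pi) * (B / (1 / 2 - σ) * Y ^ (-σ) * Real.pi) :=
        mul_le_mul_of_nonneg_left hJ' (by positivity)
    _ = B / (1 / 2 - σ) * Y ^ (-σ) / 2 := by field_simp
    _ ≤ _ := by linarith

theorem ThB_summable {ι : Type} {P : ι → Prop} {N : ι → ℝ} {C : ℝ} (h : Cnt P N C) {Y : ℝ}
    (hY : 0 < Y) {φ : ℝ → ℝ} (hφ : ∀ x, 1 ≤ x → Y * x ≤ φ x) :
    Summable fun i => if P i then gw E (φ (N i)) else 0 := by
  obtain ⟨K, hK, hb⟩ := gw_le_rpow (E := E) (σ := 2) two_pos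
  refine Summable.of_nonneg_of_le (fun i => ?_) (fun i => ?_)
    ((h.summable_rpow one_lt_two).mul_left (K * Y ^ (-(2 : ℝ))))
  · split_ifs
    exacts [(gw_pos _).le, le_rfl]
  · split_ifs with hi
    · have h1 := h.1 i hi
      have h2 : 0 < Y * N i := by positivity
      refine (gw_anti h2 (hφ _ h1)).trans ((hb _ h2).trans_eq ?_)
      rw [Real.mul_rpow hY.le (by positivity), mul_assoc]
    · rw [mul_zero]

theorem ThB_cnt {j : ℕ} (hj : 1 ≤ j) : ∃ C : ℝ,
    Cnt (fun i : Cl E × R E => Lat j i.1.1 i.2) (fun i => szl i.1.1 i.2) C := by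
  obtain ⟨C, -, h⟩ := cnt_Lat (E := E) hj
  refine ⟨(Cl E).card * C, fun i hi => (h _ (Cl_spec.1 _ i.1.2)).1 _ hi, fun X S hX hS => ?_⟩
  rw [Finset.card_eq_sum_card_fiberwise (f := Prod.fst) (t := Finset.univ)
    fun _ _ => Finset.mem_univ _, Nat.cast_sum, mul_assoc, ← Fintype.card_coe, ← nsmul_eq_mul]
  refine Finset.sum_le_card_nsmul _ _ _ fun y _ => ?_
  rw [← Finset.card_image_of_injOn (f := Prod.snd) fun a ha b hb hab => Prod.ext
    ((Finset.mem_filter.1 ha).2.trans (Finset.mem_filter.1 hb).2.symm) hab]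
  refine (h _ (Cl_spec.1 _ y.2)).2 X _ hX fun c hc => ?_
  obtain ⟨i, hi, rfl⟩ := Finset.mem_image.1 hc
  obtain ⟨h1, rfl⟩ := Finset.mem_filter.1 hi
  exact hS i h1

theorem ThB_tsum {j : ℕ} (hj : 1 ≤ j) {Y : ℝ} (hY : 0 < Y) {φ : ℝ → ℝ}
    (hφ : ∀ x, 1 ≤ x → Y * x ≤ φ x) :
    ∑' i : Cl E × R E, (if Lat j i.1.1 i.2 then gw E (φ (szl i.1.1 i.2)) else 0) =
      ∑ y ∈ Cl E, ∑' c : R E, if Lat j y c then gw E (φ (szl y c)) else 0 := by
  obtain ⟨C, h⟩ := ThB_cnt (E := E) hj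
  rw [(ThB_summable h hY hφ).tsum_prod, tsum_fintype]
  exact Finset.sum_coe_sort (Cl E) fun y => ∑' c : R E, if Lat j y c then gw E (φ (szl y c)) else 0

theorem ThB_Ls (j : ℕ) (y : E) (φ : ℝ → ℝ) :
    ((∑' c : R E, if Lat j y c then gw E (φ (szl y c)) else 0 : ℝ) : ℂ) =
      Ls j y fun _ x => (gw E (φ x) : ℂ) := by
  rw [Complex.ofReal_tsum, Ls]
  exact tsum_congr fun c => by split_ifs <;> simp

theorem ThB_sq {Y : ℝ} (hY : 0 < Y) (x : ℝ) (hx : 1 ≤ x) : Y * x ≤ Y * x ^ 2 :=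
  mul_le_mul_of_nonneg_left (by nlinarith) hY.le

/-- `th2` is antitone on `(0, ∞)`. -/
theorem measurable_Er {j : ℕ} (hj : 1 ≤ j) (κ : ℝ) :
    Measurable (fun x : ℝ => Er E j κ (Real.exp x)) := by
  obtain ⟨C, -, h⟩ := cnt_Lat (E := E) hj
  have h1 : Antitone fun x : ℝ => th2 E j (Real.exp x) := by
    intro a b hab
    refine Finset.sum_le_sum fun y hy => ?_
    have hc := h y (Cl_spec.1 y hy)
    have s1 := ThB_summable (E := E) hc (Real.exp_pos a) (ThB_sq (Real.exp_pos a))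
    have s2 := ThB_summable (E := E) hc (Real.exp_pos b) (ThB_sq (Real.exp_pos b))
    refine s2.tsum_le_tsum (fun c => ?_) s1
    split_ifs with hL
    · have := hc.1 c hL
      exact gw_anti (by positivity)
        (mul_le_mul_of_nonneg_right (Real.exp_le_exp.2 hab) (sq_nonneg _))
    · exact le_rfl
  exact h1.measurable.sub (by fun_prop)

/-- Apply `exists_Zt`, `exists_main` to `ι = E × R E`, `P (y, c) = y ∈ Cl E ∧ Lat j y c`,
`N (y, c) = szl y c`, `D = √d`; the inversion formula is `PPs` with `c = 1`, `f = 1`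
(`PPA.ft_one_one`) summed over `Cl E` (`Col_div`). -/
theorem exists_Er {j : ℕ} (hj : 1 ≤ j) : ∃ κ : ℝ, ∀ σ : ℝ, 0 < σ → σ < 1 / 2 → ∃ K : ℝ,
    ∀ y : ℝ, 0 < y → |Er E j κ y| ≤ K * y ^ (-σ) := by
  obtain ⟨C, hC⟩ := ThB_cnt (E := E) hj
  obtain ⟨κ₀, -, hP⟩ := PPs (E := E) hj
  have hd := sqrt_dE_pos (E := E)
  obtain ⟨Z, h1, h2, h3⟩ := exists_Zt (E := E) hC (κ := (Cl E).card * κ₀) hd fun X hX => by
    have e1 := ThB_tsum (E := E) hj (inv_pos.2 hX) (φ := fun x => x / X)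
      fun x _ => (div_eq_inv_mul x X).ge
    have e2 := ThB_tsum (E := E) hj hX (φ := fun x => X * x) fun x _ => le_rfl
    simp only [gw] at e1 e2
    rw [e1, e2]
    apply Complex.ofReal_injective
    have e3 := ThB_Ls (E := E) j
    simp only [gw] at e3
    simp only [Complex.ofReal_add, Complex.ofReal_mul, Complex.ofReal_sum, Complex.ofReal_natCast]
    rw [Finset.sum_congr rfl fun y _ => e3 y fun x => x / X,
      Finset.sum_congr rfl fun y _ => e3 y fun x => X * x,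
      ← Col_div hj (F := fun _ x => (Gw E (X * x / Real.sqrt (dE E)) : ℂ)) (fun _ _ _ _ => rfl)
        (inv_ne_zero dS_ne_zero), ← nsmul_eq_mul, ← Finset.sum_const, ← Finset.sum_add_distrib,
      ← Finset.sum_add_distrib, Finset.mul_sum]
    refine Finset.sum_congr rfl fun y hy => ?_
    have := hP y 1 (fun _ => 1) X (Cl_spec.1 y hy) one_ne_zero (fun _ _ _ => rfl)
      (fun _ _ _ => rfl) hX
    simp only [PPA.ft_one_one, nq_one, div_one, mul_one, one_mul, gw] at this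
    rw [this, div_eq_mul_inv (dS E)⁻¹, ← mul_inv, mul_comm (dS E), OneMemClass.coe_one, one_div]
  obtain ⟨κ, hκ⟩ := exists_main (E := E) hC h1 h2 h3
  refine ⟨κ * Real.sqrt (Real.sqrt (dE E)), fun σ h0 hσ => ?_⟩
  obtain ⟨K, hK⟩ := hκ σ h0 hσ
  refine ⟨K * Real.sqrt (dE E) ^ σ, fun y hy => ?_⟩
  have := hK (y / Real.sqrt (dE E)) (div_pos hy hd)
  rw [Real.sqrt_div hy.le, div_div_eq_mul_div, Real.div_rpow hy.le hd.le, Real.rpow_neg hd.le,
    div_inv_eq_mul] at this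
  rw [Er, th2, ← ThB_tsum hj hy (ThB_sq hy)]
  simp only [gw, mul_div_right_comm y]
  exact this.trans_eq (by ring)

end Crest.Agent.R312.LS2
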