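import Crest.Agent.R312.LSPair
import Crest.Agent.R312.LSBnd
import Crest.Agent.R312.LSAvg
import Crest.Agent.R312.LSThB
import Crest.Agent.R17.LS2Core

/-!
# Row 312, module LS (quadratic large sieve): the recursive step
-/

set_option autoImplicit false

noncomputable section

namespace Crest.Agent.R312.LS2

open NumberField
open scoped ComplexConjugate
open Classical

variable {E : Type} [Field E] [NumberField E] [Fr E]

open Crest.Agent.R17.LS2 (core_params)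

theorem fc_origA (n₁ n₂ a : R E) {ν : ℝ} (ha : 0 < ν) : FC (origA n₁ n₂ a ν) := by
  refine R17.LS2.FC.const_mul (R17.LS2.FC.sum _ fun D hD => R17.LS2.FC.const_mul (R17.LS2.FC.eval ?_) _) _
  rw [Finset.mem_powerset] at hD
  have : 0 < nP D := nP_pos fun p hp => by
    rcases Finset.mem_union.1 (hD hp) with h | h <;> exact (pf_sub h).1.ne_zero
  positivity

theorem fc_dualA (n₁ n₂ a : R E) {ν : ℝ} (ha : 0 < ν) : FC (dualA n₁ n₂ a ν) := by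
  refine R17.LS2.FC.sum _ fun J hJ => R17.LS2.FC.const_mul (R17.LS2.FC.sum _ fun D hD => R17.LS2.FC.const_mul (R17.LS2.FC.eval ?_) _) _
  rw [Finset.mem_powerset] at hD hJ
  have h1 : 0 < nP D := nP_pos fun p hp => by
    rcases Finset.mem_union.1 (hD hp) with h | h <;> exact (pf_sub h).1.ne_zero
  have h2 : 0 < nP (J.filter (· ∣ a)) := nP_pos fun p hp =>
    (pf_sub (Finset.mem_inter.1 (hJ (Finset.mem_filter.1 hp).1)).1).1.ne_zero
  have h4 := nq_pos (nm_cof (pf n₁ ∩ pf n₂) n₁).ne_zero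
  have h5 := nq_pos (nm_cof (pf n₁ ∩ pf n₂) n₂).ne_zero
  positivity

theorem fc_orig2 (n₁ n₂ : R E) {a : R E} (ha : a ≠ 0) : FC (orig2 n₁ n₂ a) :=
  (fc_origA n₁ n₂ a (Nt_pos one_ne_zero ha)).add
    (fc_origA n₁ n₂ a (Nt_pos (inv_ne_zero dS_ne_zero) ha))

theorem fc_dual2 (n₁ n₂ : R E) {a : R E} (ha : a ≠ 0) : FC (dual2 n₁ n₂ a) :=
  (fc_dualA n₁ n₂ a (Nt_pos one_ne_zero ha)).add
    (fc_dualA n₁ n₂ a (Nt_pos (inv_ne_zero dS_ne_zero) ha))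

theorem sum_norm_mul_le (S : Finset (R E)) (β : R E → ℂ) :
    ∑ n₁ ∈ S, ∑ n₂ ∈ S, ‖β n₁‖ * ‖β n₂‖ ≤ S.card * ∑ n ∈ S, ‖β n‖ ^ 2 := by
  rw [← Finset.sum_mul_sum, ← sq]
  exact sq_sum_le_card_mul_sum_sq

theorem normSq_expand (S : Finset (R E)) (β : R E → ℂ) (k : R E) :
    ((‖∑ n ∈ S, β n * quad n k‖ ^ 2 : ℝ) : ℂ) =
      ∑ n₁ ∈ S, ∑ n₂ ∈ S, β n₁ * conj (β n₂) * (quad n₁ k * quad n₂ k) := by
  rw [← Complex.normSq_eq_norm_sq, ← Complex.mul_conj, map_sum, Finset.sum_mul_sum]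
  refine Finset.sum_congr rfl fun n₁ _ => Finset.sum_congr rfl fun n₂ _ => ?_
  rw [map_mul, conj_quad]; ring

theorem norm_two_le {S : Finset (R E)} (β : R E → ℂ) (T : R E → R E → Finset (R E))
    {f g : R E → R E → R E → ℂ} {B : ℝ}
    (hf : ‖∑ n₁ ∈ S, ∑ n₂ ∈ S, β n₁ * conj (β n₂) * ∑ a ∈ T n₁ n₂, f n₁ n₂ a‖ ≤ B)
    (hg : ‖∑ n₁ ∈ S, ∑ n₂ ∈ S, β n₁ * conj (β n₂) * ∑ a ∈ T n₁ n₂, g n₁ n₂ a‖ ≤ B) :
    ‖∑ n₁ ∈ S, ∑ n₂ ∈ S, β n₁ * conj (β n₂) * ∑ a ∈ T n₁ n₂, (f n₁ n₂ a + g n₁ n₂ a)‖ ≤ 2 * B := by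
  simp only [Finset.sum_add_distrib, mul_add]
  exact (norm_add_le _ _).trans (by linarith)

/-- The inequality at a fixed scale `X`. -/
theorem point {j : ℕ} (hj : Lev E j) {A : ℝ} (hA : 1 < A) : ∃ c C : ℝ, 1 ≤ c ∧ 0 < C ∧
    ∀ (κ M N V X w : ℝ) (S : Finset (R E)) (β : R E → ℂ), 0 < V → 0 < M → 0 < X → Blk j N S →
      0 ≤ w → (∀ n ∈ S, 2 ^ (pf n).card ≤ w) → 0 < N →
    gw E (c * M / X) * (nuK E j * ∑ k ∈ (sqs M).filter (fun k => V < nq k),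
        ‖∑ n ∈ S, β n * quad n k‖ ^ 2) ≤
      C * w * (1 + X + S.card * (X * ((X / N ^ 2) ^ (-A) * V ^ (1 - A)))) *
        ∑ n ∈ S, ‖β n‖ ^ 2 +
      (∑ n₁ ∈ S, ∑ n₂ ∈ S, β n₁ * conj (β n₂) *
        ∑ a ∈ sqf j V, ((X : ℂ) * dual2 n₁ n₂ a (fun y => (Er E j κ (y * X) : ℂ)) -
          orig2 n₁ n₂ a (fun y => (Er E j κ (y / X) : ℂ)))).re := by
  obtain ⟨c, hc, hrow⟩ := le_Row (E := E) hj.one_le
  obtain ⟨C, hC, hpair⟩ := pair_est hj hA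
  refine ⟨c, C, hc, hC, fun κ M N V X w S β hV hM hX hB hw0 hw hN => ?_⟩
  obtain ⟨hB1, t₀, hB2⟩ := hB
  have hδ : (dS E)⁻¹ ≠ 0 := inv_ne_zero dS_ne_zero
  set F : R E → ℝ := fun k => ‖∑ n ∈ S, β n * quad n k‖ ^ 2 with hF
  set t : ℝ := X * ((X / N ^ 2) ^ (-A) * V ^ (1 - A)) with ht
  set g : R E → R E → R E → ℝ → ℂ := fun n₁ n₂ k x =>
    if k ∈ PK V then (0 : ℂ) else (gw E (x / X) : ℂ) * (quad n₁ k * quad n₂ k) with hg
  set m : R E → R E → ℂ := fun n₁ n₂ =>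
    ∑ a ∈ sqf j V, ((X : ℂ) * dual2 n₁ n₂ a (fun y => (Er E j κ (y * X) : ℂ)) -
          orig2 n₁ n₂ a (fun y => (Er E j κ (y / X) : ℂ))) with hm
  set r : R E → ℝ := fun k => if k ∈ PK V then 0 else F k with hr
  have hrC : (fun (k : R E) (x : ℝ) => ((r k * gw E (x / X) : ℝ) : ℂ)) =
      fun k x => ∑ n₁ ∈ S, ∑ n₂ ∈ S, β n₁ * conj (β n₂) * g n₁ n₂ k x := by
    funext k x
    simp only [hr, hg]
    split_ifs
    · simp
    · rw [Complex.ofReal_mul, hF, normSq_expand, Finset.sum_mul]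
      refine Finset.sum_congr rfl fun n₁ _ => ?_
      rw [Finset.sum_mul]
      exact Finset.sum_congr rfl fun n₂ _ => by ring
  have hs : ∀ n₁ n₂, Dom (fun k x => β n₁ * conj (β n₂) * g n₁ n₂ k x) := fun n₁ n₂ =>
    Dom.const_mul ((dom_pair hX n₁ n₂).mono fun k x _ => by
      simp only [hg]
      split_ifs
      · rw [norm_zero]; exact norm_nonneg _
      · exact le_rfl) _
  have hr0 : ∀ k, 0 ≤ r k := fun k => by
    simp only [hr, hF]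
    split_ifs
    · exact le_rfl
    · exact sq_nonneg _
  have e1 : ∀ τ : E, τ ≠ 0 → Row j τ (fun k x => ((r k * gw E (x / X) : ℝ) : ℂ)) =
      ∑ n₁ ∈ S, ∑ n₂ ∈ S, β n₁ * conj (β n₂) * Row j τ (g n₁ n₂) := by
    intro τ hτ
    rw [hrC, Row_sum hj.one_le hτ S fun n₁ _ => Dom.sum S fun n₂ _ => hs n₁ n₂]
    refine Finset.sum_congr rfl fun n₁ _ => ?_
    rw [Row_sum hj.one_le hτ S fun n₂ _ => hs n₁ n₂]
    exact Finset.sum_congr rfl fun n₂ _ => Row_mul_left _ _ _ _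
  have h0 := hrow M X ((∑ n ∈ S, ‖β n‖) ^ 2) r hM hX (fun k => ⟨hr0 k, by
      simp only [hr, hF]
      split_ifs
      · exact sq_nonneg _
      · refine pow_le_pow_left₀ (norm_nonneg _) ((norm_sum_le _ _).trans
          (Finset.sum_le_sum fun n _ => ?_)) 2
        rw [norm_mul]
        exact mul_le_of_le_one_right (norm_nonneg _) (norm_quad_le _ _)⟩)
    (fun u k hu => by simp only [hr, hF, unit_mul_mem_PK hu, norm_sum_unit hj hB2 β hu])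
  have h0' := Row_re_nonneg j (dS E)⁻¹ hr0 X
  have h1 : ∑ k ∈ (sqs M).filter (fun k => V < nq k), F k ≤ ∑ k ∈ nms M, r k := by
    refine le_trans (Finset.sum_le_sum fun k hk => ?_) (Finset.sum_le_sum_of_subset_of_nonneg
      ((Finset.filter_subset _ _).trans (sqs_subset M)) fun k _ _ => hr0 k)
    obtain ⟨hk1, hk2⟩ := Finset.mem_filter.1 hk
    simp only [hr]
    rw [if_neg (not_mem_PK_of_squarefree (mem_sp.1 hk1).1.2 hk2)]
  have ht0 : 0 ≤ t := by positivity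
  have h2 : ∀ n₁ ∈ S, ∀ n₂ ∈ S, ‖β n₁ * conj (β n₂) *
      (nuK E j * (Row j 1 (g n₁ n₂) + Row j (dS E)⁻¹ (g n₁ n₂)) - m n₁ n₂)‖ ≤
      C * w * ((1 + X) * (if n₁ = n₂ then ‖β n₁‖ ^ 2 else 0) + t * (‖β n₁‖ * ‖β n₂‖)) := by
    intro n₁ h₁ n₂ h₂
    have hp := hpair t₀ κ V X n₁ n₂ hV hX (hB1 n₁ h₁).1 (hB1 n₂ h₂).1 (hB2 n₁ h₁) (hB2 n₂ h₂)
    have a1 := nq_pos (ne_zero_of_SP (hB1 n₁ h₁).1)
    have a2 := nq_pos (ne_zero_of_SP (hB1 n₂ h₂).1)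
    have ht' : X * ((X / (nq n₁ * nq n₂)) ^ (-A) * V ^ (1 - A)) ≤ t := by
      have : nq n₁ * nq n₂ ≤ N ^ 2 := by
        rw [sq]; exact mul_le_mul (hB1 n₁ h₁).2.2 (hB1 n₂ h₂).2.2 a2.le hN.le
      refine mul_le_mul_of_nonneg_left (mul_le_mul_of_nonneg_right
        (Real.rpow_le_rpow_of_nonpos (by positivity) ?_ (by linarith)) (by positivity)) hX.le
      gcongr
    rw [norm_mul, norm_mul, Complex.norm_conj]
    have hp' : ‖nuK E j * (Row j 1 (g n₁ n₂) + Row j (dS E)⁻¹ (g n₁ n₂)) - m n₁ n₂‖ ≤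
        C * w * ((if n₁ = n₂ then 1 + X else 0) + t) := by
      refine hp.trans ?_
      have : (0 : ℝ) ≤ if n₁ = n₂ then 1 + X else 0 := by split_ifs <;> positivity
      have := hw n₁ h₁
      gcongr
    refine (mul_le_mul_of_nonneg_left hp' (by positivity)).trans (le_of_eq ?_)
    split_ifs with h
    · subst h; ring
    · ring
  have h3 : ‖∑ n₁ ∈ S, ∑ n₂ ∈ S, β n₁ * conj (β n₂) *
      (nuK E j * (Row j 1 (g n₁ n₂) + Row j (dS E)⁻¹ (g n₁ n₂)) - m n₁ n₂)‖ ≤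
      C * w * (1 + X + S.card * t) * ∑ n ∈ S, ‖β n‖ ^ 2 := by
    refine (norm_sum_le _ _).trans ?_
    refine (Finset.sum_le_sum fun n₁ h₁ => (norm_sum_le _ _).trans
      (Finset.sum_le_sum fun n₂ h₂ => h2 n₁ h₁ n₂ h₂)).trans ?_
    simp only [← Finset.mul_sum, Finset.sum_add_distrib]
    rw [mul_assoc (C * w)]
    refine mul_le_mul_of_nonneg_left ?_ (by positivity)
    have a1 : ∑ n₁ ∈ S, ∑ n₂ ∈ S, (if n₁ = n₂ then ‖β n₁‖ ^ 2 else 0) = ∑ n ∈ S, ‖β n‖ ^ 2 :=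
      Finset.sum_congr rfl fun n hn => by rw [Finset.sum_ite_eq, if_pos hn]
    have a2 := sum_norm_mul_le S β
    simp only [← Finset.mul_sum] at a2
    rw [a1]
    nlinarith
  have e2 : (nuK E j : ℝ) * ((Row j 1 (fun k x => ((r k * gw E (x / X) : ℝ) : ℂ))).re +
      (Row j (dS E)⁻¹ (fun k x => ((r k * gw E (x / X) : ℝ) : ℂ))).re) =
      (∑ n₁ ∈ S, ∑ n₂ ∈ S, β n₁ * conj (β n₂) *
        (nuK E j * (Row j 1 (g n₁ n₂) + Row j (dS E)⁻¹ (g n₁ n₂)) - m n₁ n₂)).re +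
      (∑ n₁ ∈ S, ∑ n₂ ∈ S, β n₁ * conj (β n₂) * m n₁ n₂).re := by
    rw [← Complex.add_re, ← Complex.add_re, ← Complex.re_ofReal_mul, e1 1 one_ne_zero, e1 _ hδ]
    congr 1
    simp only [Finset.mul_sum, ← Finset.sum_add_distrib]
    refine Finset.sum_congr rfl fun n₁ _ => Finset.sum_congr rfl fun n₂ _ => ?_
    push_cast; ring
  have h4 := (Complex.re_le_norm _).trans h3
  have h5 := (mul_le_mul_of_nonneg_left h1 (gw_pos (E := E) (c * M / X)).le).trans h0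
  have h6 := mul_le_mul_of_nonneg_left (h5.trans (le_add_of_nonneg_right h0'))
    (Nat.cast_nonneg (α := ℝ) (nuK E j))
  rw [mul_left_comm]
  linarith

/-- Rows of small norm. -/
theorem small_rows {j : ℕ} (hj : Lev E j) {ξ M N V D : ℝ} (hξ : 0 ≤ ξ) (hV : 0 ≤ V) (hN : 1 ≤ N)
    (hS : Sieve (sqf j V : Finset (R E)) ξ N D) {S : Finset (R E)} (hB : Blk j N S) (β : R E → ℂ) :
    ∑ k ∈ (sqs M).filter (fun k => ¬ V < nq k), ‖∑ n ∈ S, β n * quad n k‖ ^ 2 ≤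
      (N + V ^ ξ) * (D * ∑ n ∈ S, ‖β n‖ ^ 2) := by
  have h := hS N hN le_rfl S id β (Set.injOn_id _) fun i hi => ⟨(hB.1 i hi).1, (hB.1 i hi).2.2⟩
  obtain ⟨t, ht⟩ := hB.2
  have hp : 0 ≤ N + V ^ ξ := by positivity
  refine le_trans ?_ (mul_le_mul_of_nonneg_left h hp)
  rw [Finset.mul_sum]
  have hsub : (sqs M : Finset (R E)).filter (fun k => ¬ V < nq k) ⊆ sqs V := fun k hk => by
    obtain ⟨h1, h2⟩ := Finset.mem_filter.1 hk
    exact mem_sp.2 ⟨(mem_sp.1 h1).1, not_lt.1 h2⟩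
  refine le_trans (Finset.sum_le_sum_of_subset_of_nonneg hsub fun _ _ _ => sq_nonneg _)
    ((sum_sqs_le hj.one_le V (f := fun k => ‖∑ n ∈ S, β n * quad n k‖ ^ 2) (fun _ => sq_nonneg _)
      fun u k hu => by rw [norm_sum_unit hj ht β hu]).trans (Finset.sum_le_sum fun a ha => ?_))
  have h0 := nq_nonneg a
  have h1 : 0 < N + nq a ^ ξ := by positivity
  have h2 : nq a ^ ξ ≤ V ^ ξ := Real.rpow_le_rpow h0 (of_mem_sqf hj.one_le ha).2 hξ
  rw [← mul_div_assoc, le_div_iff₀ h1, mul_comm]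
  exact mul_le_mul_of_nonneg_right (by linarith) (sq_nonneg _)

theorem Core_of_LSw {j : ℕ} (hj : Lev E j) {ξ : ℝ} (h1 : 1 ≤ ξ) (h2 : ξ ≤ 2) (h : LSw E j ξ) :
    Core E j (2 - 1 / ξ) := by
  intro ε hε
  set δ : ℝ := min (ε / 13) (1 / 4) with hδ
  have hδ0 : 0 < δ := lt_min (by positivity) (by norm_num)
  have hδ1 : δ ≤ 1 / 4 := min_le_right _ _
  have hδ2 : δ ≤ ε / 13 := min_le_left _ _
  have hA : 2 ≤ 3 / δ := by rw [le_div_iff₀ hδ0]; linarith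
  obtain ⟨κ, hE⟩ := exists_Er (E := E) hj.one_le
  obtain ⟨C₁, hC₁, hS⟩ := h δ hδ0
  obtain ⟨C₂, hC₂, hw⟩ := pow_card_pf_le (E := E) hδ0 2
  obtain ⟨c, C₄, hc, hC₄, hpt⟩ := point hj (A := 3 / δ) (by linarith)
  obtain ⟨C₃, hC₃, hav⟩ := avg (E := E) (measurable_Er hj.one_le κ) hE (σ := δ) (τ := 1 / 2 - δ) hδ0
    (by linarith) (by linarith) (by linarith) (3 / δ - 1) (c := c) (by linarith)
  obtain ⟨C₅, hC₅, hcd⟩ := card_nms_le (E := E)
  refine ⟨2 * C₁ + C₃ * (C₄ * C₂ * (2 + C₅) + 16 * C₁ * C₂ ^ 5), by positivity,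
    fun M N S β hN hM hB => ?_⟩
  obtain ⟨p1, p2, p3, p4, p5, p6, p7, p8, p9, p10, p11⟩ :=
    core_params h1 h2 hδ0 hδ1 hN hM rfl rfl
  set P : ℝ := (M * N) ^ δ with hP
  set V : ℝ := N ^ (1 / ξ) * P with hV
  have hN0 : 0 < N := by linarith
  have hM0 : 0 < M := by linarith
  have hV0 : 0 < V := by linarith
  have hP0 : 0 < P := by linarith
  set B : ℝ := ∑ n ∈ S, ‖β n‖ ^ 2 with hBdef
  have hB0 : 0 ≤ B := Finset.sum_nonneg fun _ _ => sq_nonneg _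
  set D : ℝ := C₁ * (V * N) ^ δ with hD
  have hD0 : 0 ≤ D := by positivity
  have hD1 : D ≤ C₁ * P ^ 3 := mul_le_mul_of_nonneg_left p6 hC₁.le
  have hSv : Sieve (sqf j V : Finset (R E)) ξ N D := hS V N p3 hN
  set w : ℝ := C₂ * P with hwdef
  have hw0 : 0 ≤ w := by positivity
  have hw' : ∀ n ∈ S, 2 ^ (pf n).card ≤ w := fun n hn =>
    (hw n (ne_zero_of_SP (hB.1 n hn).1)).trans (mul_le_mul_of_nonneg_left
      ((Real.rpow_le_rpow (nq_nonneg _) (hB.1 n hn).2.2 hδ0.le).trans p4) hC₂.le)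
  have hcard : (S.card : ℝ) ≤ C₅ * N := by
    have a1 : S ⊆ nms N := fun n hn => mem_nms.2 ⟨(hB.1 n hn).1.1, (hB.1 n hn).2.2⟩
    exact le_trans (by exact_mod_cast Finset.card_le_card a1) (hcd N hN0.le)
  have hNV : N + V ^ ξ ≤ 2 * M * P ^ 2 := by nlinarith [one_le_pow₀ (n := 2) p2]
  have hA0 : ∀ a ∈ (sqf j V : Finset (R E)), a ≠ 0 ∧ nq a ≤ V := fun a ha =>
    ⟨ne_zero_of_mem_sqf hj.one_le ha, (of_mem_sqf hj.one_le ha).2⟩
  have hν₁ : ∀ a ∈ (sqf j V : Finset (R E)), nq a ≤ Nt 1 a := fun a ha =>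
    nq_le_Nt one_ne_zero (hA0 a ha).1
  have hν₂ : ∀ a ∈ (sqf j V : Finset (R E)), nq a ≤ Nt (dS E)⁻¹ a := fun a ha =>
    nq_le_Nt (inv_ne_zero dS_ne_zero) (hA0 a ha).1
  have hbig := hav
    (fun f => ∑ n₁ ∈ S, ∑ n₂ ∈ S, β n₁ * conj (β n₂) * ∑ a ∈ sqf j V, orig2 n₁ n₂ a f)
    (fun f => ∑ n₁ ∈ S, ∑ n₂ ∈ S, β n₁ * conj (β n₂) *
      ∑ a ∈ (sqf j V).filter (fun a => nq a ^ ξ ≤ N / nP (pf n₁ ∩ pf n₂)), dual2 n₁ n₂ a f)
    (fun f => ∑ n₁ ∈ S, ∑ n₂ ∈ S, β n₁ * conj (β n₂) *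
      ∑ a ∈ (sqf j V).filter (fun a => ¬ nq a ^ ξ ≤ N / nP (pf n₁ ∩ pf n₂)), dual2 n₁ n₂ a f)
    M (nuK E j * ∑ k ∈ (sqs M).filter (fun k => V < nq k), ‖∑ n ∈ S, β n * quad n k‖ ^ 2)
    (C₄ * w * M * (2 + C₅) * B) (2 * (w ^ 5 * (N + V ^ ξ) * D * B))
    (2 * (4 * w ^ 5 * N ^ (2 * δ) * D * B)) (2 * (2 * w ^ 5 * V ^ (ξ - (1 / 2 - δ)) * D * B))
    (R17.LS2.FC.sum _ fun n₁ _ => R17.LS2.FC.sum _ fun n₂ _ => R17.LS2.FC.const_mul
      (R17.LS2.FC.sum _ fun a ha => fc_orig2 n₁ n₂ (hA0 a ha).1) _)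
    (R17.LS2.FC.sum _ fun n₁ _ => R17.LS2.FC.sum _ fun n₂ _ => R17.LS2.FC.const_mul
      (R17.LS2.FC.sum _ fun a ha => fc_dual2 n₁ n₂ (hA0 a (Finset.mem_filter.1 ha).1).1) _)
    (R17.LS2.FC.sum _ fun n₁ _ => R17.LS2.FC.sum _ fun n₂ _ => R17.LS2.FC.const_mul
      (R17.LS2.FC.sum _ fun a ha => fc_dual2 n₁ n₂ (hA0 a (Finset.mem_filter.1 ha).1).1) _)
    hM0 (by positivity)
    (fun s hs => norm_two_le β (fun _ _ => sqf j V)
      (bnd_orig hA0 hν₁ (by linarith) p3 hSv hD0 hB hw' β (by linarith))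
      (bnd_orig hA0 hν₂ (by linarith) p3 hSv hD0 hB hw' β (by linarith)))
    (fun s hs => by
      have := norm_two_le β _
        (bnd_lo hA0 hν₁ p3 hSv hD0 hB hw' β (s := s) (by linarith) (by linarith))
        (bnd_lo hA0 hν₂ p3 hSv hD0 hB hw' β (s := s) (by linarith) (by linarith))
      rwa [hs] at this)
    (fun s hs => by
      have := norm_two_le β _
        (bnd_hi hA0 hν₁ h1 p3 hSv hD0 hB hw' β (s := s) (by linarith) (by linarith))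
        (bnd_hi hA0 hν₂ h1 p3 hSv hD0 hB hw' β (s := s) (by linarith) (by linarith))
      rwa [hs] at this)
    (fun X hX => by
      refine (hpt κ M N V X w S β hV0 hM0 hX hB hw0 hw' hN0).trans (add_le_add ?_ (le_of_eq ?_))
      · have hu : 0 < X / M := by positivity
        have t2 : X / M * (X / N ^ 2) ^ (-(3 / δ)) =
            (X / M) ^ (-(3 / δ - 1)) * (M / N ^ 2) ^ (-(3 / δ)) := by
          have e : X / N ^ 2 = X / M * (M / N ^ 2) := by field_simp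
          rw [e, Real.mul_rpow hu.le (by positivity), ← mul_assoc,
            show -(3 / δ - 1) = 1 + -(3 / δ) by ring, Real.rpow_add hu, Real.rpow_one]
        have hv : 0 < (X / M) ^ (-(3 / δ - 1)) := by positivity
        have t1 : 1 ≤ X / M + (X / M) ^ (-(3 / δ - 1)) := by
          rcases le_total 1 (X / M) with hx | hx
          · linarith
          · have := Real.one_le_rpow_of_pos_of_le_one_of_nonpos hu hx
              (show -(3 / δ - 1) ≤ 0 by linarith)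
            linarith
        have t3 : X / M * (S.card * ((X / N ^ 2) ^ (-(3 / δ)) * V ^ (1 - 3 / δ))) ≤
            C₅ * (X / M) ^ (-(3 / δ - 1)) := by
          calc _ ≤ X / M * (C₅ * N * ((X / N ^ 2) ^ (-(3 / δ)) * V ^ (1 - 3 / δ))) := by
                gcongr
            _ = C₅ * (X / M * (X / N ^ 2) ^ (-(3 / δ))) * (N * V ^ (1 - 3 / δ)) := by ring
            _ = C₅ * (X / M) ^ (-(3 / δ - 1)) *
                (N * ((M / N ^ 2) ^ (-(3 / δ)) * V ^ (1 - 3 / δ))) := by rw [t2]; ring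
            _ ≤ _ := mul_le_of_le_one_right (by positivity) p11
        have t4 : C₄ * w * (1 + X + S.card * (X * ((X / N ^ 2) ^ (-(3 / δ)) * V ^ (1 - 3 / δ))))
            * B = C₄ * w * M * B * (1 / M + X / M +
              X / M * (S.card * ((X / N ^ 2) ^ (-(3 / δ)) * V ^ (1 - 3 / δ)))) := by
          field_simp
        rw [t4]
        have t5 : C₄ * w * M * (2 + C₅) * B * (X / M + (X / M) ^ (-(3 / δ - 1))) =
            C₄ * w * M * B * ((2 + C₅) * (X / M + (X / M) ^ (-(3 / δ - 1)))) := by ring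
        rw [t5]
        refine mul_le_mul_of_nonneg_left ?_ (by positivity)
        have t6 : 1 / M ≤ 1 := by rw [div_le_one hM0]; linarith
        nlinarith [mul_pos hC₅ hu]
      · congr 1
        simp only [← Finset.sum_add_distrib, ← mul_add, Finset.sum_filter_add_sum_filter_not,
          Finset.mul_sum, ← Finset.sum_sub_distrib]
        refine Finset.sum_congr rfl fun n₁ _ => Finset.sum_congr rfl fun n₂ _ =>
          Finset.sum_congr rfl fun a _ => by ring)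
  have hsmall := small_rows (M := M) hj (by linarith) hV0.le hN hSv hB β
  rw [← Finset.sum_filter_add_sum_filter_not (sqs M) (fun k => V < nq k)]
  have hP13 : P ^ 13 ≤ (M * N) ^ ε := by
    rw [hP, ← Real.rpow_natCast, ← Real.rpow_mul (by positivity)]
    exact Real.rpow_le_rpow_of_exponent_le (by nlinarith) (by push_cast; linarith)
  have hpow : ∀ k ≤ 13, P ^ k ≤ (M * N) ^ ε := fun k hk =>
    (pow_le_pow_right₀ p2 hk).trans hP13
  set Q : ℝ := (M * N) ^ ε with hQ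
  have b0 : (N + V ^ ξ) * (D * B) ≤ 2 * C₁ * (Q * M * B) := by
    calc _ ≤ 2 * M * P ^ 2 * (C₁ * P ^ 3 * B) := by gcongr
      _ = 2 * C₁ * (P ^ 5 * M * B) := by ring
      _ ≤ _ := by gcongr; exact hpow 5 (by norm_num)
  have b1 : C₄ * w * M * (2 + C₅) * B ≤ C₄ * C₂ * (2 + C₅) * (Q * M * B) := by
    calc _ = C₄ * C₂ * (2 + C₅) * (P ^ 1 * M * B) := by rw [hwdef]; ring
      _ ≤ _ := by gcongr; exact hpow 1 (by norm_num)
  have b2 : M ^ δ * (2 * (w ^ 5 * (N + V ^ ξ) * D * B)) ≤ 4 * C₁ * C₂ ^ 5 * (Q * M * B) := by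
    calc _ ≤ P * (2 * (w ^ 5 * (2 * M * P ^ 2) * (C₁ * P ^ 3) * B)) := by gcongr
      _ = 4 * C₁ * C₂ ^ 5 * (P ^ 11 * M * B) := by rw [hwdef]; ring
      _ ≤ _ := by gcongr; exact hpow 11 (by norm_num)
  have b3 : M ^ (1 - δ) * (2 * (4 * w ^ 5 * N ^ (2 * δ) * D * B)) ≤
      8 * C₁ * C₂ ^ 5 * (Q * M * B) := by
    calc _ ≤ M * (2 * (4 * w ^ 5 * P ^ 2 * (C₁ * P ^ 3) * B)) := by gcongr
      _ = 8 * C₁ * C₂ ^ 5 * (P ^ 10 * M * B) := by rw [hwdef]; ring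
      _ ≤ _ := by gcongr; exact hpow 10 (by norm_num)
  have b4 : M ^ (1 - (1 / 2 - δ)) * (2 * (2 * w ^ 5 * V ^ (ξ - (1 / 2 - δ)) * D * B)) ≤
      4 * C₁ * C₂ ^ 5 * (Q * M * B) := by
    calc _ = 4 * w ^ 5 * (M ^ (1 - (1 / 2 - δ)) * V ^ (ξ - (1 / 2 - δ))) * D * B := by ring
      _ ≤ 4 * w ^ 5 * (M * P ^ 5) * (C₁ * P ^ 3) * B := by gcongr
      _ = 4 * C₁ * C₂ ^ 5 * (P ^ 13 * M * B) := by rw [hwdef]; ring
      _ ≤ _ := by gcongr
  have hT : 0 ≤ ∑ k ∈ (sqs M).filter (fun k => V < nq k), ‖∑ n ∈ S, β n * quad n k‖ ^ 2 :=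
    Finset.sum_nonneg fun _ _ => sq_nonneg _
  have b5 := hbig.trans (mul_le_mul_of_nonneg_left
    (add_le_add (add_le_add (add_le_add b1 b2) b3) b4) hC₃.le)
  have b6 := hsmall.trans b0
  have b7 := le_mul_of_one_le_left hT (show (1 : ℝ) ≤ nuK E j by exact_mod_cast nuK_pos hj.one_le)
  have b8 := add_le_add (b7.trans b5) b6
  refine b8.trans_eq ?_
  ring

end Crest.Agent.R312.LS2
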