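import Crest.Agent.R312.LSDual

/-!
# Row 312, module LS (quadratic large sieve): reduction to blocks, iteration
-/

set_option autoImplicit false

noncomputable section

namespace Crest.Agent.R312.LS2

open NumberField
open scoped ComplexConjugate
open Classical

variable {E : Type} [Field E] [NumberField E] [Fr E]

theorem LS_of_Core {j : ℕ} (hj : 1 ≤ j) {ξ : ℝ} (h0 : 0 ≤ ξ) (h : Core E j ξ) : LS E ξ := by
  intro ε hε
  obtain ⟨T, gc, hgc⟩ := exists_colour (E := E) hj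
  obtain ⟨C, hC, hcore⟩ := h (ε / 2 / (ξ + 1)) (by positivity)
  have hlog : 0 < Real.log 2 := Real.log_pos one_lt_two
  refine ⟨(T.card + 1) * (1 / (ε / 2 * Real.log 2) + 1) * (C * 2 ^ (ε / 2) * 2 ^ ξ),
    by positivity, fun K N β hK hN => ?_⟩
  set M : ℝ := max K ((2 * N) ^ ξ) with hM
  set s : Finset (ℕ × E) := Finset.range (Nat.log 2 ⌊N⌋₊ + 1) ×ˢ T with hs
  set g : R E → ℕ × E := fun n => (Nat.log 2 ⌊nq n⌋₊, gc n) with hg
  have hKN : 1 ≤ K * N := one_le_mul_of_one_le_of_one_le hK hN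
  have hgs : ∀ n ∈ sqs N, g n ∈ s := by
    intro n hn
    have h1 := (mem_sp.1 hn).2
    refine Finset.mem_product.2 ⟨Finset.mem_range.2 (Nat.lt_succ_of_le ?_), ?_⟩
    · exact Nat.log_mono_right (b := 2) (Nat.floor_le_floor h1)
    · exact (hgc n (ne_zero_of_SP (mem_sp.1 hn).1)).1
  have hfl : ((2 ^ Nat.log 2 ⌊N⌋₊ : ℕ) : ℝ) ≤ N :=
    (Nat.cast_le.2 (Nat.pow_log_le_self 2 (Nat.floor_pos.2 hN).ne')).trans
      (Nat.floor_le (by linarith))
  push_cast at hfl
  have hM1 : M ≤ 2 ^ ξ * (K + N ^ ξ) := by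
    have a1 : (1 : ℝ) ≤ 2 ^ ξ := Real.one_le_rpow one_le_two h0
    have a2 : 0 ≤ N ^ ξ := by positivity
    refine max_le (by nlinarith) ?_
    rw [Real.mul_rpow (by norm_num) (by linarith)]
    nlinarith
  have hM2 : M * (2 * N) ≤ (2 * (K * N)) ^ (ξ + 1) := by
    have a1 : (1 : ℝ) ≤ (2 * N) ^ ξ := Real.one_le_rpow (by linarith) h0
    have a2 : M ≤ K * (2 * N) ^ ξ := max_le (by nlinarith) (by nlinarith)
    have a3 : (2 * N) ^ ξ ≤ (2 * (K * N)) ^ ξ :=
      Real.rpow_le_rpow (by linarith) (by nlinarith) h0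
    rw [Real.rpow_add_one (by positivity)]
    calc M * (2 * N) ≤ K * (2 * (K * N)) ^ ξ * (2 * N) := by
          refine mul_le_mul_of_nonneg_right (a2.trans ?_) (by linarith)
          exact mul_le_mul_of_nonneg_left a3 (by linarith)
      _ = _ := by ring
  have hM0 : 0 ≤ M := le_trans (by linarith) (le_max_left _ _)
  have hblk : ∀ j ∈ s, ∑ k ∈ sqs K, ‖∑ n ∈ (sqs N).filter (fun n => g n = j), β n * quad n k‖ ^ 2
      ≤ C * 2 ^ (ε / 2) * 2 ^ ξ * (K * N) ^ (ε / 2) * (K + N ^ ξ) *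
        ∑ n ∈ (sqs N).filter (fun n => g n = j), ‖β n‖ ^ 2 := by
    rintro ⟨i, r⟩ hi
    have hj' : i ≤ Nat.log 2 ⌊N⌋₊ :=
      Nat.le_of_lt_succ (Finset.mem_range.1 (Finset.mem_product.1 hi).1)
    have h2j : (2 : ℝ) ^ (i + 1) ≤ 2 * N := by
      have := pow_le_pow_right₀ (one_le_two (α := ℝ)) hj'
      rw [pow_succ]
      linarith
    have h1j : (1 : ℝ) ≤ 2 ^ (i + 1) := one_le_pow₀ one_le_two
    have hB : Blk j (2 ^ (i + 1)) ((sqs N).filter fun n => g n = (i, r)) := by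
      constructor
      · intro n hn
        obtain ⟨hn1, hn2⟩ := Finset.mem_filter.1 hn
        have hSP := (mem_sp.1 hn1).1
        have hj2 : Nat.log 2 ⌊nq n⌋₊ = i := congrArg Prod.fst hn2
        have h1n := one_le_nq (ne_zero_of_SP hSP)
        have hne : ⌊nq n⌋₊ ≠ 0 := (Nat.floor_pos.2 h1n).ne'
        have b1 := Nat.pow_log_le_self 2 hne
        have b2 := Nat.lt_pow_succ_log_self one_lt_two ⌊nq n⌋₊
        rw [hj2] at b1 b2
        refine ⟨hSP, ?_, ?_⟩
        · rw [pow_succ, mul_div_cancel_right₀ _ two_ne_zero]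
          have := (Nat.le_floor_iff (nq_nonneg n)).1 b1
          exact_mod_cast this
        · have := ((Nat.floor_lt (nq_nonneg n)).1 b2).le
          exact_mod_cast this
      · refine ⟨r, fun n hn => ?_⟩
        obtain ⟨hn1, hn2⟩ := Finset.mem_filter.1 hn
        have e1 : gc n = r := congrArg Prod.snd hn2
        rw [← e1]
        exact (hgc n (ne_zero_of_SP (mem_sp.1 hn1).1)).2
    have hc := hcore M (2 ^ (i + 1)) _ β h1j
      ((Real.rpow_le_rpow (by linarith) h2j h0).trans (le_max_right _ _)) hB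
    refine le_trans (Finset.sum_le_sum_of_subset_of_nonneg (fun k hk => ?_)
      fun _ _ _ => sq_nonneg _) (hc.trans ?_)
    · rw [mem_sp] at hk
      exact mem_sp.2 ⟨hk.1, hk.2.trans (le_max_left _ _)⟩
    refine mul_le_mul_of_nonneg_right ?_ (Finset.sum_nonneg fun _ _ => sq_nonneg _)
    have a1 : (M * 2 ^ (i + 1)) ^ (ε / 2 / (ξ + 1)) ≤ 2 ^ (ε / 2) * (K * N) ^ (ε / 2) := by
      refine (Real.rpow_le_rpow (by positivity)
        ((mul_le_mul_of_nonneg_left h2j hM0).trans hM2) (by positivity)).trans (le_of_eq ?_)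
      rw [← Real.rpow_mul (by positivity), mul_div_cancel₀ _ (by positivity),
        Real.mul_rpow (by norm_num) (by linarith)]
    calc C * (M * 2 ^ (i + 1)) ^ (ε / 2 / (ξ + 1)) * M
        ≤ C * (2 ^ (ε / 2) * (K * N) ^ (ε / 2)) * (2 ^ ξ * (K + N ^ ξ)) := by gcongr
      _ = _ := by ring
  have hcard : (s.card : ℝ) ≤ (T.card + 1) * (1 / (ε / 2 * Real.log 2) + 1) *
      (K * N) ^ (ε / 2) := by
    rw [hs, Finset.card_product, Finset.card_range]
    push_cast
    have a1 : (1 : ℝ) ≤ (K * N) ^ (ε / 2) := Real.one_le_rpow hKN (by positivity)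
    have a2 : (Nat.log 2 ⌊N⌋₊ : ℝ) * Real.log 2 ≤ (K * N) ^ (ε / 2) / (ε / 2) := by
      refine le_trans ?_ (Real.log_le_rpow_div (by linarith) (by positivity))
      rw [← Real.log_pow]
      exact Real.log_le_log (by positivity) (by nlinarith)
    have a3 : (Nat.log 2 ⌊N⌋₊ : ℝ) ≤ 1 / (ε / 2 * Real.log 2) * (K * N) ^ (ε / 2) := by
      rw [one_div, ← div_eq_inv_mul, ← div_div, le_div_iff₀ hlog]
      exact a2
    rw [mul_comm, mul_assoc]
    refine mul_le_mul (by linarith) ?_ (by positivity) (by positivity)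
    rw [add_mul]
    linarith
  calc _ ≤ ∑ k ∈ sqs K, s.card *
        ∑ j ∈ s, ‖∑ n ∈ (sqs N).filter (fun n => g n = j), β n * quad n k‖ ^ 2 :=
        Finset.sum_le_sum fun k _ => by
          have := norm_sum_sq_le_fiber (sqs N) s g hgs fun n => β n * quad n k
          refine this.trans (le_of_eq ?_)
          congr!
    _ = s.card * ∑ j ∈ s, ∑ k ∈ sqs K,
        ‖∑ n ∈ (sqs N).filter (fun n => g n = j), β n * quad n k‖ ^ 2 := by
        rw [← Finset.mul_sum, Finset.sum_comm]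
    _ ≤ ((T.card + 1) * (1 / (ε / 2 * Real.log 2) + 1) * (K * N) ^ (ε / 2)) *
        (C * 2 ^ (ε / 2) * 2 ^ ξ * (K * N) ^ (ε / 2) * (K + N ^ ξ) *
          ∑ n ∈ sqs N, ‖β n‖ ^ 2) := by
        refine mul_le_mul hcard ((Finset.sum_le_sum hblk).trans (le_of_eq ?_))
          (Finset.sum_nonneg fun _ _ => Finset.sum_nonneg fun _ _ => sq_nonneg _) (by positivity)
        rw [← Finset.mul_sum, Finset.sum_fiberwise_of_maps_to hgs]
    _ = _ := by
        have : (K * N) ^ ε = (K * N) ^ (ε / 2) * (K * N) ^ (ε / 2) := by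
          rw [← Real.rpow_add (by linarith), add_halves]
        rw [this]
        ring

/-- The iteration `ξ ↦ 2 - 1/ξ` and the final duality. -/
theorem final_of_step (h2 : LS E 2) (step : ∀ ξ : ℝ, 1 ≤ ξ → ξ ≤ 2 → LS E ξ → LS E (2 - 1 / ξ))
    {ε : ℝ} (hε : 0 < ε) : ∃ C : ℝ, 0 < C ∧
    ∀ (K N : ℝ) (β : R E → ℂ), 1 ≤ K → 1 ≤ N →
      ∑ k ∈ sqs K, ‖∑ n ∈ sqs N, β n * quad k n‖ ^ 2 ≤
        C * (K * N) ^ ε * (K + N) * ∑ n ∈ sqs N, ‖β n‖ ^ 2 := by
  have hall : ∀ j : ℕ, LS E (1 + 1 / ((j : ℝ) + 1)) := by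
    intro j
    induction j with
    | zero => convert h2 using 1; norm_num
    | succ j ih =>
      have a1 : 0 ≤ 1 / ((j : ℝ) + 1) := by positivity
      have a2 : 1 / ((j : ℝ) + 1) ≤ 1 := by
        rw [div_le_one (by positivity)]
        linarith [Nat.cast_nonneg (α := ℝ) j]
      convert step _ (by linarith) (by linarith) ih using 1
      push_cast
      field_simp
      ring
  obtain ⟨j, hj⟩ := exists_nat_one_div_lt (half_pos hε)
  obtain ⟨C, hC, h⟩ := hall j (ε / 2) (half_pos hε)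
  refine ⟨C, hC, fun K N β hK hN => ?_⟩
  have hKN : 1 ≤ K * N := one_le_mul_of_one_le_of_one_le hK hN
  have hd := duality (sqs N) (sqs K) (fun n k => quad k n) (by positivity)
    (fun x => h N K x hN hK) β
  refine hd.trans (mul_le_mul_of_nonneg_right ?_ (Finset.sum_nonneg fun _ _ => sq_nonneg _))
  have a1 : (1 : ℝ) ≤ (K * N) ^ (ε / 2) := Real.one_le_rpow hKN (by positivity)
  have a2 : K ^ (1 / ((j : ℝ) + 1)) ≤ (K * N) ^ (ε / 2) :=
    (Real.rpow_le_rpow_of_exponent_le hK hj.le).trans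
      (Real.rpow_le_rpow (by linarith) (by nlinarith) (by positivity))
  have a3 : N + K ^ (1 + 1 / ((j : ℝ) + 1)) ≤ (K * N) ^ (ε / 2) * (K + N) := by
    rw [Real.rpow_add (by linarith), Real.rpow_one]
    nlinarith
  have : (K * N) ^ ε = (K * N) ^ (ε / 2) * (K * N) ^ (ε / 2) := by
    rw [← Real.rpow_add (by linarith), add_halves]
  rw [this, mul_comm N K]
  calc _ ≤ C * (K * N) ^ (ε / 2) * ((K * N) ^ (ε / 2) * (K + N)) :=
        mul_le_mul_of_nonneg_left a3 (by positivity)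
    _ = _ := by ring

end Crest.Agent.R312.LS2
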