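import Crest.Agent.R312.LSLat

/-!
# Row 312, module LS (quadratic large sieve): the trivial large sieve
-/

set_option autoImplicit false

noncomputable section

namespace Crest.Agent.R312.LS2

open NumberField
open scoped ComplexConjugate
open Classical

variable {E : Type} [Field E] [NumberField E] [Fr E]

theorem triv_split_of_mem {z₁ z₂ p : R E} (h1 : SP z₁) (h2 : SP z₂) (hp1 : p ∈ pf z₁)
    (hp2 : p ∉ pf z₂) : ∃ p m : R E, Prime p ∧ m ≠ 0 ∧ IsCoprime p m ∧ z₁ * z₂ = p * m := by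
  obtain ⟨hn, hp, c, rfl⟩ := of_mem_pf hp1
  have hz := ne_zero_of_SP h2
  refine ⟨p, c * z₂, hp, mul_ne_zero (right_ne_zero_of_mul (ne_zero_of_SP h1)) hz,
    hp.coprime_iff_not_dvd.2 fun h => ?_, mul_assoc _ _ _⟩
  rcases hp.dvd_or_dvd h with h | h
  · exact hp.not_isUnit (h1.2 p (mul_dvd_mul_left p h))
  · exact hp2 ((mem_pf hz).2 ⟨hn, hp, h⟩)

theorem triv_split {z₁ z₂ : R E} (h1 : SP z₁) (h2 : SP z₂) (hne : z₁ ≠ z₂) :
    ∃ p m : R E, Prime p ∧ m ≠ 0 ∧ IsCoprime p m ∧ z₁ * z₂ = p * m := by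
  by_cases hsub : pf z₁ ⊆ pf z₂
  · have : ¬ pf z₂ ⊆ pf z₁ := fun h => hne (by
      rw [← h1.eq_rad, ← h2.eq_rad, rad, rad, Finset.Subset.antisymm hsub h])
    obtain ⟨p, hp2, hp1⟩ := Finset.not_subset.1 this
    rw [mul_comm]
    exact triv_split_of_mem h2 h1 hp2 hp1
  · obtain ⟨p, hp1, hp2⟩ := Finset.not_subset.1 hsub
    exact triv_split_of_mem h1 h2 hp1 hp2

theorem triv_mean {z₁ z₂ : R E} (h1 : SP z₁) (h2 : SP z₂) (hne : z₁ ≠ z₂) :
    quad (z₁ * z₂) 0 = 0 ∧ ft (z₁ * z₂) (quad (z₁ * z₂)) 0 = 0 := by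
  obtain ⟨p, m, hp, hm, hc, e⟩ := triv_split h1 h2 hne
  rw [e]
  refine ⟨(quad_eq_zero_iff (mul_ne_zero hp.ne_zero hm)).2 fun h =>
    hp.not_isUnit (isUnit_of_mul_isUnit_left (isCoprime_zero_right.1 h)), ?_⟩
  have h0 : ft p (quad p) 0 = 0 := by
    rw [ft_of_dvd (dvd_zero p), ← sum_res_sym_pow hp (j := 3) (by norm_num)]
    exact Finset.sum_congr rfl fun x _ => (sym_pow_three p x).symm
  rw [funext (quad_mul_left hp.ne_zero hm), ft_crt hp.ne_zero hm hc (fun _ _ => quad_congr)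
    (fun _ _ => quad_congr) (quad_mul_right p) (quad_mul_right m), h0, mul_zero, zero_mul]

theorem triv_bil {α : Type} (S : Finset α) (c : α → ℂ) (T : α → α → ℂ) {D B : ℝ} (hB : 0 ≤ B)
    (hD : ∀ z ∈ S, ‖T z z‖ ≤ D) (hoff : ∀ z₁ ∈ S, ∀ z₂ ∈ S, z₁ ≠ z₂ → ‖T z₁ z₂‖ ≤ B) :
    ‖∑ z₁ ∈ S, ∑ z₂ ∈ S, c z₁ * conj (c z₂) * T z₁ z₂‖ ≤ (D + S.card * B) * ∑ z ∈ S, ‖c z‖ ^ 2 := by
  have h1 : ∀ z₁ ∈ S, ∀ z₂ ∈ S, ‖c z₁ * conj (c z₂) * T z₁ z₂‖ ≤
      (if z₁ = z₂ then D * ‖c z₁‖ ^ 2 else 0) + (B / 2 * ‖c z₁‖ ^ 2 + B / 2 * ‖c z₂‖ ^ 2) := by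
    intro z₁ h₁ z₂ h₂
    rw [norm_mul, norm_mul, Complex.norm_conj]
    split_ifs with h
    · subst h
      have := mul_le_mul_of_nonneg_left (hD z₁ h₁)
        (mul_nonneg (norm_nonneg (c z₁)) (norm_nonneg (c z₁)))
      have h2 : 0 ≤ B / 2 * ‖c z₁‖ ^ 2 := by positivity
      nlinarith
    · have := mul_le_mul_of_nonneg_left (hoff z₁ h₁ z₂ h₂ h)
        (mul_nonneg (norm_nonneg (c z₁)) (norm_nonneg (c z₂)))
      have h2 := mul_nonneg hB (sq_nonneg (‖c z₁‖ - ‖c z₂‖))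
      nlinarith
  calc _ ≤ ∑ z₁ ∈ S, ∑ z₂ ∈ S, ((if z₁ = z₂ then D * ‖c z₁‖ ^ 2 else 0) +
        (B / 2 * ‖c z₁‖ ^ 2 + B / 2 * ‖c z₂‖ ^ 2)) :=
        (norm_sum_le _ _).trans (Finset.sum_le_sum fun z₁ h₁ =>
          (norm_sum_le _ _).trans (Finset.sum_le_sum fun z₂ h₂ => h1 z₁ h₁ z₂ h₂))
    _ = _ := by
        simp only [Finset.sum_add_distrib, Finset.sum_ite_eq, Finset.sum_const, nsmul_eq_mul,
          ← Finset.mul_sum]
        rw [Finset.sum_congr rfl fun z hz => if_pos hz, ← Finset.mul_sum]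
        ring

theorem triv_norm {a : ℂ} (ha : ‖a‖ ≤ 1) (y : ℝ) : ‖a * (gw E y : ℂ)‖ ≤ gw E y := by
  rw [norm_mul, Complex.norm_real, Real.norm_of_nonneg (gw_pos y).le]
  exact mul_le_of_le_one_left (gw_pos y).le ha

theorem triv_expand {j : ℕ} (hj : 1 ≤ j) {S : Finset (R E)} (hS : ∀ n ∈ S, n ≠ 0) (β : R E → ℂ)
    {X : ℝ} (hX : 0 < X) :
    Ls j 1 (fun k x => ((‖∑ n ∈ S, β n * quad n k‖ ^ 2 * gw E (x / X) : ℝ) : ℂ)) =
      ∑ z₁ ∈ S, ∑ z₂ ∈ S, β z₁ * conj (β z₂) *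
        Ls j 1 (fun k x => quad (z₁ * z₂) k * (gw E (x / X) : ℂ)) := by
  have hd : ∀ (c : R E) (a : ℂ), Dom fun k x => a * (quad c k * (gw E (x / X) : ℂ)) := fun c a =>
    (Dom.of_gw (H := 1) (inv_pos.2 hX) fun k x _ => by
      rw [one_mul, inv_mul_eq_div]; exact triv_norm (norm_quad_le c k) _).const_mul a
  simp only [← Ls_mul_left]
  rw [Finset.sum_congr rfl fun z₁ _ => (Ls_sum hj one_ne_zero S fun z₂ _ => hd _ _).symm,
    ← Ls_sum hj one_ne_zero S fun z₁ _ => Dom.sum S fun z₂ _ => hd _ _]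
  refine Ls_congr_fun fun k _ => ?_
  push_cast
  rw [← Complex.mul_conj', map_sum, Finset.sum_mul_sum, Finset.sum_mul]
  refine Finset.sum_congr rfl fun z₁ h₁ => ?_
  rw [Finset.sum_mul]
  refine Finset.sum_congr rfl fun z₂ h₂ => ?_
  rw [map_mul, conj_quad, quad_mul_left (hS _ h₁) (hS _ h₂)]
  ring

theorem triv_off {j : ℕ} (hj : Lev E j) {A : ℝ} (hA : 1 < A) : ∃ C : ℝ, 0 < C ∧
    ∀ (c : R E) (X : ℝ), c ≠ 0 → 0 < X → quad c 0 = 0 → ft c (quad c) 0 = 0 →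
      ‖Ls j 1 (fun k x => quad c k * (gw E (x / X) : ℂ))‖ ≤ C * X * (X / nq c) ^ (-A) := by
  obtain ⟨κ, -, hP⟩ := PPs (E := E) hj.1
  obtain ⟨C, hC, hT⟩ := Ls_tail (E := E) hj.1 hA
  refine ⟨C, hC, fun c X hc hX h0 h1 => ?_⟩
  have hq := nq_pos hc
  have ht : (c : E) / (1 * dS E) ≠ 0 := div_ne_zero (coe_ne hc) (by rw [one_mul]; exact dS_ne_zero)
  have h2 := hP 1 c (quad c) X one_ne_zero hc (fun _ _ => quad_congr) (hj.invR_quad c) hX
  have h3 := hT (c / (1 * dS E)) (fun k x => ((nq c)⁻¹ : ℝ) *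
    (ft c (quad c) k * (gw E (X * x / nq c) : ℂ))) 1 (X / nq c) ht one_pos (div_pos hX hq)
    fun k hk => by
      rw [if_pos (one_le_szl ht hk), ← mul_assoc, div_mul_eq_mul_div]
      refine triv_norm ?_ _
      rw [norm_mul, Complex.norm_real, Real.norm_of_nonneg (inv_pos.2 hq).le, inv_mul_le_iff₀ hq,
        mul_comm]
      exact norm_ft_le hc (norm_quad_le c) k
  rw [h0, h1, mul_zero, zero_add, zero_add, div_eq_mul_inv X, Complex.ofReal_mul, mul_assoc] at h2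
  rw [Ls_mul_left, Real.one_rpow, mul_one] at h3
  rw [h2, norm_mul, Complex.norm_real, Real.norm_of_nonneg hX.le, mul_comm C, mul_assoc]
  exact mul_le_mul_of_nonneg_left h3 hX.le

/-- Port of `R17.LS2.triv_sieve` for one block: majorise the rows by `le_Ls` (`norm_sum_unit`) at
the scale `X = M (M N)^ε`; diagonal terms `Ls_le`; off-diagonal terms `PPs` with `t = 1`,
`c = z₁ z₂`, `f = quad z₁ · quad z₂` (`f 0 = 0`, `ft c f 0 = 0`, `norm_ft_le`) and `Ls_tail` with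
`W = 1`. -/
theorem Core_two {j : ℕ} (hj : Lev E j) : Core E j 2 := by
  intro ε hε
  obtain ⟨c, hc, h1⟩ := le_Ls (E := E) hj.1
  obtain ⟨C₀, hC₀, h0⟩ := card_nms_le (E := E)
  obtain ⟨C₁, hC₁, h2⟩ := Ls_le (E := E) hj.1
  obtain ⟨C₂, hC₂, h3⟩ := triv_off hj (A := 1 + ε⁻¹) (lt_add_of_pos_right _ (inv_pos.2 hε))
  have hg := gw_pos (E := E) c
  refine ⟨(gw E c)⁻¹ * (C₁ + C₀ * C₂), by positivity, fun M N S β hN hM hB => ?_⟩
  obtain ⟨hS, t, ht⟩ := hB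
  rw [Real.rpow_two] at hM
  have hM1 : 1 ≤ M := (one_le_pow₀ hN).trans hM
  have hMN : 1 ≤ M * N := one_le_mul_of_one_le_of_one_le hM1 hN
  set P := (M * N) ^ ε with hP
  have hP1 : 1 ≤ P := Real.one_le_rpow hMN hε.le
  have hX : 0 < M * P := by positivity
  have hS0 : ∀ n ∈ S, n ≠ 0 := fun n hn => ne_zero_of_SP (hS n hn).1
  have k1 := h1 M (M * P) ((∑ n ∈ S, ‖β n‖) ^ 2) (fun k => ‖∑ n ∈ S, β n * quad n k‖ ^ 2)
    (by positivity) hX (fun k => ⟨sq_nonneg _, pow_le_pow_left₀ (norm_nonneg _)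
      ((norm_sum_le _ _).trans (Finset.sum_le_sum fun n _ => by
        rw [norm_mul]; exact mul_le_of_le_one_right (norm_nonneg _) (norm_quad_le n k))) 2⟩)
    fun u k hu => by rw [norm_sum_unit hj ht β hu]
  have k2 := triv_bil S β (fun z₁ z₂ => Ls j 1 fun k x => quad (z₁ * z₂) k * (gw E (x / (M * P)) : ℂ))
    (D := C₁ * (M * P)) (B := C₂ * (M * P) * (M * N)⁻¹) (by positivity)
    (fun z _ => h2 1 _ _ one_ne_zero hX fun k _ => triv_norm (norm_quad_le _ k) _)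
    fun z₁ h₁ z₂ h₂ hne => by
      have hq := mul_ne_zero (hS0 _ h₁) (hS0 _ h₂)
      obtain ⟨e1, e2⟩ := triv_mean (hS _ h₁).1 (hS _ h₂).1 hne
      refine (h3 _ _ hq hX e1 e2).trans (mul_le_mul_of_nonneg_left ?_ (by positivity))
      have a1 : nq (z₁ * z₂) ≤ M := by
        rw [nq_mul]
        exact (mul_le_mul (hS _ h₁).2.2 (hS _ h₂).2.2 (nq_nonneg _) (by positivity)).trans
          ((sq N).symm.trans_le hM)
      have a2 : P ≤ M * P / nq (z₁ * z₂) := by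
        rw [le_div_iff₀' (nq_pos hq)]
        exact mul_le_mul_of_nonneg_right a1 (by positivity)
      calc _ ≤ P ^ (-(1 + ε⁻¹)) :=
            Real.rpow_le_rpow_of_nonpos (by positivity) a2 (neg_nonpos.2 (by positivity))
        _ ≤ P ^ (-ε⁻¹) := Real.rpow_le_rpow_of_exponent_le hP1 (by linarith)
        _ = (M * N)⁻¹ := by
            rw [hP, ← Real.rpow_mul (by positivity), mul_neg, mul_inv_cancel₀ hε.ne',
              Real.rpow_neg_one]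
  rw [← triv_expand hj.1 hS0 β hX] at k2
  have k3 : (S.card : ℝ) ≤ C₀ * N := le_trans (Nat.cast_le.2 (Finset.card_le_card fun n hn =>
    mem_nms.2 ⟨(hS n hn).1.1, (hS n hn).2.2⟩)) (h0 N (by positivity))
  have k4 : (S.card : ℝ) * (C₂ * (M * P) * (M * N)⁻¹) ≤ C₀ * C₂ * (M * P) :=
    calc _ ≤ C₀ * N * (C₂ * (M * P) * (M * N)⁻¹) := by gcongr
      _ = C₀ * C₂ * (M * P) * M⁻¹ := by field_simp
      _ ≤ _ := mul_le_of_le_one_right (by positivity) (inv_le_one_of_one_le₀ hM1)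
  have k5 : gw E c ≤ gw E (c * M / (M * P)) := gw_anti (by positivity) (by
    rw [div_le_iff₀ hX, ← mul_assoc]
    exact le_mul_of_one_le_right (by positivity) hP1)
  have k6 : gw E c * ∑ k ∈ sqs M, ‖∑ n ∈ S, β n * quad n k‖ ^ 2 ≤
      (C₁ * (M * P) + C₀ * C₂ * (M * P)) * ∑ n ∈ S, ‖β n‖ ^ 2 :=
    calc _ ≤ gw E (c * M / (M * P)) * ∑ k ∈ nms M, ‖∑ n ∈ S, β n * quad n k‖ ^ 2 :=
          mul_le_mul k5 (Finset.sum_le_sum_of_subset_of_nonneg (sqs_subset M)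
            fun _ _ _ => sq_nonneg _) (by positivity) (gw_pos _).le
      _ ≤ _ := (k1.trans ((Complex.re_le_norm _).trans k2)).trans (by gcongr)
  rw [← le_inv_mul_iff₀ hg] at k6
  refine k6.trans_eq ?_
  ring

end Crest.Agent.R312.LS2
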