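import Crest.Agent.R312.Recip
import Crest.Agent.R312.PP
import Crest.Agent.R312.LSCore
import Crest.Agent.R312.LSRed
import Crest.Agent.R312.LSTriv

/-!
# Row 312: the quadratic large sieve (target statement of the module `LS*`)
-/

set_option autoImplicit false

noncomputable section

namespace Crest.Agent.R312

open NumberField
open scoped ComplexConjugate

variable {E : Type} [Field E] [NumberField E] [Fr E]

/-- **Quadratic large sieve.** -/
theorem quad_large_sieve {ε : ℝ} (hε : 0 < ε) : ∃ C : ℝ, 0 < C ∧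
    ∀ (K N : ℝ) (β : R E → ℂ), 1 ≤ K → 1 ≤ N →
      ∑ k ∈ sqs K, ‖∑ n ∈ sqs N, β n * quad k n‖ ^ 2 ≤
        C * (K * N) ^ ε * (K + N) * ∑ n ∈ sqs N, ‖β n‖ ^ 2 := by
  obtain ⟨j, hj⟩ := exists_lev (E := E)
  refine LS2.final_of_step (LS2.LS_of_Core hj.one_le (by norm_num) (LS2.Core_two hj))
    (fun ξ h1 h2 h => ?_) hε
  refine LS2.LS_of_Core hj.one_le ?_
    (LS2.Core_of_LSw hj h1 h2 (LS2.LSw_of_LS hj.one_le (by linarith) h))
  have : 1 / ξ ≤ 1 := by rw [div_le_one (by linarith)]; exact h1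
  linarith

end Crest.Agent.R312
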