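import Crest.Agent.R312.ReflS
import Crest.Agent.R312.LS2
import Crest.Agent.R17.EnF

/-!
# Row 312, reflected energy, part A: the bilinear estimate for the dual coefficients
-/

set_option autoImplicit false

noncomputable section

namespace Crest.Agent.R312.En

open NumberField Finset
open scoped ComplexConjugate
open Crest.Agent.R17.En (sq_sum_le_card l2_sum_le_weight)

variable {E : Type} [Field E] [NumberField E] [Fr E]

theorem nf_mulR (a b : R E) : nf ((a * b : R E) : E) = nf (a : E) * nf (b : E) := by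
  rw [Subring.coe_mul, nf_mul]

theorem nf_powR (a : R E) (k : ℕ) : nf ((a ^ k : R E) : E) = nf (a : E) ^ k := by
  rw [SubmonoidClass.coe_pow, nf_pow]

theorem nf_posR {a : R E} (h : a ≠ 0) : 0 < nf (a : E) := one_pos.trans_le (one_le_nf h)

theorem rpow_div_pow {Q ε : ℝ} (hQ : 0 ≤ Q) {n : ℕ} (hn : n ≠ 0) : (Q ^ (ε / n)) ^ n = Q ^ ε := by
  rw [← Real.rpow_natCast, ← Real.rpow_mul hQ, div_mul_cancel₀ _ (Nat.cast_ne_zero.2 hn)]

theorem card_dvs_le' {ε : ℝ} (hε : 0 < ε) : ∃ C : ℝ, 0 < C ∧ ∀ (Q : ℝ) (n : R E), n ≠ 0 →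
    nf (n : E) ≤ Q → ((dvs n).card : ℝ) ≤ C * Q ^ ε := by
  obtain ⟨C, hC, h⟩ := card_dvs_le (E := E) hε
  exact ⟨C, hC, fun Q n hn hQ => (h n hn).trans (mul_le_mul_of_nonneg_left
    (Real.rpow_le_rpow (nf_nonneg _) hQ hε.le) hC.le)⟩

open Classical in
/-- The norm of the product of the elements of `P` which divide `x`. -/
def G (P : Finset (R E)) (x : R E) : ℝ := ∏ p ∈ P.filter (· ∣ x), nf (p : E)

theorem one_le_G {P : Finset (R E)} (hP : ∀ p ∈ P, p ≠ 0) (x : R E) : 1 ≤ G P x := by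
  classical
  exact Finset.one_le_prod fun p hp => one_le_nf (hP p (mem_filter.1 hp).1)

theorem sumG {ε : ℝ} (hε : 0 < ε) : ∃ C : ℝ, 0 < C ∧ ∀ (Q L : ℝ) (r : R E) (P : Finset (R E)),
    1 ≤ Q → L ≤ Q → r ≠ 0 → nf (r : E) ≤ Q → P ⊆ pf r →
    ∑ x ∈ (nms L : Finset (R E)), G P x / nf (x : E) ≤ C * Q ^ ε := by
  classical
  obtain ⟨C₁, hC₁, h₁⟩ := sum_inv_nf_le (E := E) (half_pos hε)
  obtain ⟨C₂, hC₂, h₂⟩ := card_dvs_le' (E := E) (half_pos hε)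
  refine ⟨C₂ * C₁, by positivity, fun Q L r P hQ hL hr hrQ hP => ?_⟩
  have hP' : ∀ x : R E, ∀ q ∈ P.filter (· ∣ x), Nm q ∧ Prime q := fun x q hq =>
    ⟨(of_mem_pf (hP (mem_filter.1 hq).1)).1, (of_mem_pf (hP (mem_filter.1 hq).1)).2.1⟩
  have hd : ∀ x : R E, ∃ z : R E × R E, Nm z.1 ∧ z.1 ∣ r ∧ z.1 * z.2 = x ∧
      nf (z.1 : E) = G P x := fun x => by
    obtain ⟨y, hy⟩ := (prod_primes_dvd_iff (hP' x) x).2 fun p hp => (mem_filter.1 hp).2
    exact ⟨(_, y), Nm.prod fun p hp => (hP' x p hp).1, (prod_primes_dvd_iff (hP' x) r).2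
      fun p hp => (of_mem_pf (hP (mem_filter.1 hp).1)).2.2, hy.symm, nf_prod _ _⟩
  choose φ hN hdr hy hf using hd
  have hnf : ∀ x : R E, nf (x : E) = G P x * nf ((φ x).2 : E) := fun x => by
    rw [← hf, ← nf_mulR, hy]
  have hG : ∀ x : R E, 1 ≤ G P x := one_le_G fun p hp => (of_mem_pf (hP hp)).1.ne_zero
  have hinj : Set.InjOn φ (nms L : Finset (R E)) := fun a _ b _ hab => by
    rw [← hy a, hab, hy]
  have hsub : (nms L : Finset (R E)).image φ ⊆ dvs r ×ˢ nms Q := fun z hz => by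
    obtain ⟨x, hx, rfl⟩ := mem_image.1 hz
    obtain ⟨h1, h2⟩ := mem_nms.1 hx
    refine mem_product.2 ⟨(mem_dvs hr).2 ⟨hN x, hdr x⟩,
      mem_nms.2 ⟨(hN x).of_mul (by rwa [hy]), ?_⟩⟩
    exact (nf_le_of_dvd (Dvd.intro_left _ (hy x)) h1.ne_zero).trans (h2.trans hL)
  calc _ = ∑ x ∈ (nms L : Finset (R E)), (nf ((φ x).2 : E))⁻¹ := by
        refine sum_congr rfl fun x _ => ?_
        have := hG x
        rw [hnf x, div_mul_cancel_left₀ (by linarith)]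
    _ = ∑ z ∈ (nms L : Finset (R E)).image φ, (nf (z.2 : E))⁻¹ :=
        (sum_image (f := fun z : R E × R E => (nf (z.2 : E))⁻¹) hinj).symm
    _ ≤ ∑ z ∈ dvs r ×ˢ (nms Q : Finset (R E)), (nf (z.2 : E))⁻¹ :=
        sum_le_sum_of_subset_of_nonneg hsub fun _ _ _ => inv_nonneg.2 (nf_nonneg _)
    _ = (dvs r).card * ∑ x ∈ (nms Q : Finset (R E)), (nf (x : E))⁻¹ := by
        rw [sum_product' _ _ fun _ (x : R E) => (nf (x : E))⁻¹, sum_const, nsmul_eq_mul]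
    _ ≤ C₂ * Q ^ (ε / 2) * (C₁ * Q ^ (ε / 2)) :=
        mul_le_mul (h₂ Q r hr hrQ) (h₁ Q hQ) (sum_nonneg fun _ _ => inv_nonneg.2 (nf_nonneg _))
          (by positivity)
    _ = C₂ * C₁ * (Q ^ (ε / 2)) ^ 2 := by ring
    _ = _ := by rw [← rpow_div_pow (ε := ε) (by linarith : 0 ≤ Q) two_ne_zero]; norm_num

open Classical in
theorem ram_sq_le {P : Finset (R E)} (hP : ∀ p ∈ P, Prime p) {ν n d : R E}
    (h : Associated ν (n * d ^ 3)) :
    (∏ p ∈ P, ((Real.sqrt (nf (p : E)))⁻¹ + if p ∣ ν then Real.sqrt (nf (p : E)) else 0)) ^ 2 ≤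
      4 ^ P.card * (G P n * G P d) := by
  rw [G, G, prod_filter, prod_filter, ← prod_mul_distrib, ← prod_const, ← prod_mul_distrib,
    ← prod_pow]
  refine prod_le_prod (fun _ _ => sq_nonneg _) fun p hp => ?_
  have h0 := one_le_nf (hP p hp).ne_zero
  have h1 : 1 ≤ Real.sqrt (nf (p : E)) := Real.one_le_sqrt.2 h0
  have h2 : (Real.sqrt (nf (p : E)))⁻¹ ≤ 1 := inv_le_one_of_one_le₀ h1
  have h3 : 0 ≤ (Real.sqrt (nf (p : E)))⁻¹ := by positivity
  have h4 := Real.sq_sqrt (show 0 ≤ nf (p : E) by linarith)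
  have h5 : p ∣ ν → p ∣ n ∨ p ∣ d := fun h5 =>
    ((hP p hp).dvd_or_dvd (h5.trans h.dvd)).imp id (hP p hp).dvd_of_dvd_pow
  generalize (Real.sqrt (nf (p : E)))⁻¹ = a at *
  generalize Real.sqrt (nf (p : E)) = b at *
  by_cases e1 : p ∣ ν <;> by_cases e2 : p ∣ n <;> by_cases e3 : p ∣ d <;>
    simp only [e1, e2, e3, if_true, if_false] <;> first | nlinarith | tauto

open Classical in
/-- parametrisation of the support of the dual coefficients -/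
theorem param : ∃ T : Finset (R E), ∀ {j : ℕ} {τ : E} {C₀ : ℝ} {h r : R E} {b : R E → ℂ},
    DualB j τ C₀ h r b → ∀ ν, b ν ≠ 0 → ∃ s n d : R E, s ∈ T ∧ Nm n ∧ Squarefree n ∧ Nm d ∧
      Associated ν (n * d ^ 3) ∧ (∀ k, quad k ν = quad k (s * d ^ 3) * quad k n) ∧
      ‖b ν‖ ^ 2 ≤ C₀ ^ 2 * (szl τ ν / (nf (n : E) * nf (d : E) ^ 3)) * nf (d : E) *
        (4 ^ (pf r).card * (G ((pf r).filter fun p => vp p h % 6 = 4) n *
          G ((pf r).filter fun p => vp p h % 6 = 4) d)) := by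
  obtain ⟨T, -, hT⟩ := exists_unit_pow_reps (E := E) two_ne_zero
  refine ⟨T, fun {j τ C₀ h r b} hb ν hν => ?_⟩
  obtain ⟨-, n, d, hn, hd, e, hle⟩ := hb ν hν
  obtain ⟨u, hu, e'⟩ := exists_unit_nrm hn.ne_zero
  obtain ⟨s, ⟨hs, v, hv, e''⟩, -⟩ := hT u hu
  have ha : Associated ν (nrm n * d ^ 3) := e ▸ (associated_nrm hn.ne_zero).symm.mul_right _
  refine ⟨s, nrm n, d, hs, nm_nrm hn.ne_zero,
    (associated_nrm hn.ne_zero).squarefree_iff.2 hn, hd, ha, fun k => ?_, ?_⟩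
  · have h1 : quad k v ^ 2 = 1 := quad_sq (isCoprime_one_right.of_isCoprime_of_dvd_right hv.dvd)
    have h2 : ν = v ^ 2 * (s * d ^ 3 * nrm n) := by
      rw [e]
      conv_lhs => rw [e', e'']
      ring
    rw [h2, quad_mul_right, quad_pow_right, h1, one_mul, quad_mul_right]
  · have h0 : 0 ≤ szl τ ν / nf (ν : E) :=
      div_nonneg (mul_nonneg (nr_nonneg _) (absS_pos _).le) (nf_nonneg _)
    have h1 := ram_sq_le (P := (pf r).filter fun p => vp p h % 6 = 4)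
      (fun p hp => (of_mem_pf (mem_filter.1 hp).1).2.1) ha
    have h2 : (4 : ℝ) ^ ((pf r).filter fun p => vp p h % 6 = 4).card ≤ 4 ^ (pf r).card :=
      pow_le_pow_right₀ (by norm_num) (card_le_card (filter_subset _ _))
    have hG := one_le_G (P := (pf r).filter fun p => vp p h % 6 = 4)
      fun p hp => (of_mem_pf (mem_filter.1 hp).1).1.ne_zero
    refine (pow_le_pow_left₀ (norm_nonneg _) hle 2).trans ?_
    rw [mul_pow, mul_pow, mul_pow, Real.sq_sqrt h0, Real.sq_sqrt (nf_nonneg _), ← nf_powR,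
      ← nf_mulR, ← nf_of_associated ha]
    refine mul_le_mul_of_nonneg_left (h1.trans (mul_le_mul_of_nonneg_right h2 ?_))
      (mul_nonneg (mul_nonneg (sq_nonneg _) h0) (nf_nonneg _))
    exact mul_nonneg (zero_le_one.trans (hG _)) (zero_le_one.trans (hG _))

open Classical in
/-- quadratic large sieve with repeated columns -/
theorem quad1 {ε : ℝ} (hε : 0 < ε) : ∃ C : ℝ, 0 < C ∧
    ∀ (Q K N τ : ℝ) (A : Finset (R E)) (m : R E → R E) (β : R E → ℂ), 1 ≤ K → K ≤ Q → 1 ≤ N →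
      N ≤ Q → 0 ≤ τ → (∀ a ∈ A, m a ∈ (sqs N : Finset (R E))) →
      (∀ x, ((A.filter fun a => m a = x).card : ℝ) ≤ τ) →
      ∑ k ∈ sqs K, ‖∑ a ∈ A, β a * quad k (m a)‖ ^ 2 ≤
        C * Q ^ ε * τ * (K + N) * ∑ a ∈ A, ‖β a‖ ^ 2 := by
  obtain ⟨C, hC, h⟩ := quad_large_sieve (E := E) (half_pos hε)
  refine ⟨C, hC, fun Q K N τ A m β hK hKQ hN hNQ hτ hmap hcard => ?_⟩
  have e : ∀ k, ∑ a ∈ A, β a * quad k (m a) =
      ∑ x ∈ sqs N, (∑ a ∈ A.filter (fun a => m a = x), β a) * quad k x := fun k => by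
    rw [← sum_fiberwise_of_maps_to hmap]
    refine sum_congr rfl fun x _ => ?_
    rw [sum_mul]
    exact sum_congr rfl fun a ha => by rw [(mem_filter.1 ha).2]
  simp only [e]
  refine (h K N _ hK hN).trans ?_
  have h1 : ∑ x ∈ sqs N, ‖∑ a ∈ A.filter (fun a => m a = x), β a‖ ^ 2 ≤
      τ * ∑ a ∈ A, ‖β a‖ ^ 2 := by
    rw [← sum_fiberwise_of_maps_to hmap, mul_sum]
    refine sum_le_sum fun x _ => (sq_sum_le_card _ _).trans ?_
    exact mul_le_mul_of_nonneg_right (hcard x) (by positivity)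
  have h2 := R17.En.EnB.rpow_half hε (by linarith : 0 ≤ K) (by linarith : 0 ≤ N) hKQ hNQ
  have hQ : 0 ≤ Q := by linarith
  calc _ ≤ C * Q ^ ε * (K + N) * (τ * ∑ a ∈ A, ‖β a‖ ^ 2) := by gcongr
    _ = _ := by ring

/-- the bilinear estimate -/
theorem core {j : ℕ} (hj : 1 ≤ j) {ε : ℝ} (hε : 0 < ε) : ∃ C : ℝ, 0 < C ∧
    ∀ (Q K L C₀ : ℝ) (τ : E) (h r : R E) (b : R E → ℂ), 1 ≤ K → K ≤ Q → 0 ≤ L → L ≤ Q → τ ≠ 0 →
      r ≠ 0 → nf (r : E) ≤ Q → DualB j τ C₀ h r b →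
      ∑ k ∈ sqs K, ‖∑ ν ∈ lats j τ L, b ν * quad k ν‖ ^ 2 ≤
        C * C₀ ^ 2 * Q ^ ε * (L * (K + L)) := by
  classical
  have hε' : 0 < ε / (7 : ℕ) := by positivity
  obtain ⟨T, hT⟩ := param (E := E)
  obtain ⟨C₁, hC₁, h₁⟩ := sumG (E := E) hε'
  obtain ⟨C₂, hC₂, h₂⟩ := quad1 (E := E) hε'
  obtain ⟨C₃, hC₃, h₃⟩ := card_lats_associated_le (E := E) hj hε'
  obtain ⟨C₄, hC₄, h₄⟩ := pow_card_pf_le (E := E) hε' 4
  refine ⟨((T.card + 1) * C₁) ^ 2 * (C₂ * C₃ * C₄ * C₃ * C₁), by positivity,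
    fun Q K L C₀ τ h r b hK hKQ hL hLQ hτ hr hrQ hb => ?_⟩
  have hQ : 1 ≤ Q := hK.trans hKQ
  set q : ℝ := Q ^ (ε / (7 : ℕ)) with hq
  have hq0 : 0 < q := by positivity
  have hq7 : q ^ 7 = Q ^ ε := rpow_div_pow (by linarith) (by norm_num)
  by_cases hL1 : L < 1
  · have : lats j τ L = ∅ := eq_empty_of_forall_notMem fun ν hν => by
      obtain ⟨a1, a2⟩ := (mem_lats hj hτ).1 hν
      linarith [one_le_szl hτ a1]
    simp only [this, sum_empty, norm_zero, ne_eq, OfNat.ofNat_ne_zero, not_false_eq_true, zero_pow,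
      sum_const_zero]
    positivity
  replace hL1 : 1 ≤ L := not_lt.1 hL1
  choose! s n d hs hn hn' hd ha hquad hle using hT hb
  set P := (pf r).filter fun p => vp p h % 6 = 4 with hP
  have hG : ∀ x, 1 ≤ G P x := one_le_G fun p hp => (of_mem_pf (mem_filter.1 hp).1).1.ne_zero
  have hsG := h₁ Q L r P hQ hLQ hr hrQ (filter_subset _ _)
  set A := (lats j τ L).filter (fun ν => b ν ≠ 0) with hAdef
  have hA : ∀ ν ∈ A, b ν ≠ 0 ∧ szl τ ν ≤ L ∧ nf (n ν : E) ≤ L ∧ nf (d ν : E) ≤ L := fun ν hν => by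
    obtain ⟨a1, a2⟩ := mem_filter.1 hν
    obtain ⟨a3, a4⟩ := (mem_lats hj hτ).1 a1
    have a5 := (nf_le_szl hτ a3).trans a4
    have a6 : ν ≠ 0 := fun h0 => a3.1.1 (by rw [h0]; rfl)
    exact ⟨a2, a4, (nf_le_of_dvd ((dvd_mul_right _ _).trans (ha ν a2).symm.dvd) a6).trans a5,
      (nf_le_of_dvd (((dvd_pow_self _ three_ne_zero).mul_left _).trans (ha ν a2).symm.dvd)
        a6).trans a5⟩
  have hmap : ∀ ν ∈ A, (s ν, d ν) ∈ T ×ˢ (nms L : Finset (R E)) := fun ν hν =>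
    mem_product.2 ⟨hs ν (hA ν hν).1, mem_nms.2 ⟨hd ν (hA ν hν).1, (hA ν hν).2.2.2⟩⟩
  have hsum : ∀ k, ∑ ν ∈ lats j τ L, b ν * quad k ν = ∑ i ∈ T ×ˢ (nms L : Finset (R E)),
      ∑ ν ∈ A.filter (fun ν => (s ν, d ν) = i), b ν * quad k ν := fun k => by
    rw [sum_fiberwise_of_maps_to hmap, hAdef,
      sum_filter_of_ne (p := fun ν => b ν ≠ 0) fun ν _ h0 h1 => h0 (by rw [h1, zero_mul])]
  simp only [hsum]
  have hw : (4 : ℝ) ^ (pf r).card ≤ C₄ * q :=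
    (h₄ r hr).trans (mul_le_mul_of_nonneg_left (Real.rpow_le_rpow (nf_nonneg _) hrQ hε'.le) hC₄.le)
  refine (l2_sum_le_weight (sqs K) (T ×ˢ (nms L : Finset (R E)))
    (fun i k => ∑ ν ∈ A.filter (fun ν => (s ν, d ν) = i), b ν * quad k ν)
    (w := fun i => nf (i.2 : E) / G P i.2)
    (fun i hi => div_pos (nf_posR (mem_nms.1 (mem_product.1 hi).2).1.ne_zero) (by linarith [hG i.2]))
    (E := C₂ * q * (C₃ * q) * (K + L) * (C₀ ^ 2 * L * (C₄ * q) * (C₃ * q * (C₁ * q))))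
    ?_).trans ?_
  · rintro ⟨s₀, d₀⟩ hi
    have hd0 := nf_posR (mem_nms.1 (mem_product.1 hi).2).1.ne_zero
    set A' := A.filter (fun ν => (s ν, d ν) = (s₀, d₀)) with hA'def
    have hA' : ∀ ν ∈ A', ν ∈ A ∧ s ν = s₀ ∧ d ν = d₀ := fun ν hν =>
      ⟨(mem_filter.1 hν).1, Prod.mk.inj (mem_filter.1 hν).2⟩
    have hcard : ∀ x, ((A'.filter fun a => n a = x).card : ℝ) ≤ C₃ * q := fun x => by
      refine le_trans (Nat.cast_le.2 (card_le_card fun ν hν => ?_))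
        ((h₃ τ L (x * d₀ ^ 3) hτ hL1).trans (mul_le_mul_of_nonneg_left
          (Real.rpow_le_rpow hL hLQ hε'.le) hC₃.le))
      obtain ⟨a1, a2⟩ := mem_filter.1 hν
      obtain ⟨a3, -, a5⟩ := hA' ν a1
      exact mem_filter.2 ⟨(mem_filter.1 a3).1, a2 ▸ a5 ▸ ha ν (hA ν a3).1⟩
    have hn2 : ∀ a ∈ A', n a ∈ (sqs L : Finset (R E)) := fun a ha' =>
      have a1 := hA a (hA' a ha').1
      mem_sqs.2 ⟨hn a a1.1, hn' a a1.1, a1.2.2.1⟩
    have s1 := h₂ Q K L (C₃ * q) A' n b hK hKQ hL1 hLQ (by positivity) hn2 hcard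
    have s2 : ∑ k ∈ sqs K, ‖∑ ν ∈ A', b ν * quad k ν‖ ^ 2 ≤
        ∑ k ∈ sqs K, ‖∑ ν ∈ A', b ν * quad k (n ν)‖ ^ 2 := by
      refine sum_le_sum fun k _ => pow_le_pow_left₀ (norm_nonneg _) ?_ 2
      have e : ∑ ν ∈ A', b ν * quad k ν =
          quad k (s₀ * d₀ ^ 3) * ∑ ν ∈ A', b ν * quad k (n ν) := by
        rw [mul_sum]
        refine sum_congr rfl fun ν hν => ?_
        obtain ⟨a1, a2, a3⟩ := hA' ν hν
        rw [hquad ν (hA ν a1).1 k, a2, a3]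
        ring
      rw [e, norm_mul]
      exact mul_le_of_le_one_left (norm_nonneg _) (norm_quad_le _ _)
    have s3 : ∑ ν ∈ A', G P (n ν) / nf (n ν : E) ≤ C₃ * q * (C₁ * q) := by
      rw [← sum_fiberwise_of_maps_to fun a ha' => sqs_subset L (hn2 a ha')]
      refine le_trans (sum_le_sum fun x _ => ?_) ((mul_sum _ _ _).symm.trans_le
        (mul_le_mul_of_nonneg_left hsG (by positivity : 0 ≤ C₃ * q)))
      rw [sum_congr rfl (g := fun _ => G P x / nf (x : E)) fun a ha' => by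
        rw [(mem_filter.1 ha').2], sum_const, nsmul_eq_mul]
      exact mul_le_mul_of_nonneg_right (hcard x)
        (div_nonneg (zero_le_one.trans (hG x)) (nf_nonneg _))
    have s4 : (nf (d₀ : E) / G P d₀) ^ 2 * ∑ ν ∈ A', ‖b ν‖ ^ 2 ≤
        C₀ ^ 2 * L * (C₄ * q) * (C₃ * q * (C₁ * q)) := by
      refine le_trans ?_ (mul_le_mul_of_nonneg_left s3 (by positivity))
      rw [mul_sum, mul_sum]
      refine sum_le_sum fun ν hν => ?_
      obtain ⟨a1, -, a3⟩ := hA' ν hν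
      obtain ⟨b1, b2, -, -⟩ := hA ν a1
      have c1 := hle ν b1
      rw [a3] at c1
      have c2 := nf_posR (hn ν b1).ne_zero
      have c3 := hG d₀
      have c4 := hG (n ν)
      have c5 : (G P d₀)⁻¹ ≤ 1 := inv_le_one_of_one_le₀ c3
      calc _ ≤ (nf (d₀ : E) / G P d₀) ^ 2 * (C₀ ^ 2 * (L / (nf (n ν : E) * nf (d₀ : E) ^ 3)) *
            nf (d₀ : E) * (C₄ * q * (G P (n ν) * G P d₀))) := by
            refine mul_le_mul_of_nonneg_left (c1.trans ?_) (sq_nonneg _)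
            gcongr
        _ = C₀ ^ 2 * L * (C₄ * q) * (G P (n ν) / nf (n ν : E)) * (G P d₀)⁻¹ := by field_simp
        _ ≤ _ := mul_le_of_le_one_right (by positivity) c5
    calc _ ≤ (nf (d₀ : E) / G P d₀) ^ 2 * (C₂ * q * (C₃ * q) * (K + L) * ∑ ν ∈ A', ‖b ν‖ ^ 2) :=
          mul_le_mul_of_nonneg_left (s2.trans s1) (sq_nonneg _)
      _ = C₂ * q * (C₃ * q) * (K + L) * ((nf (d₀ : E) / G P d₀) ^ 2 * ∑ ν ∈ A', ‖b ν‖ ^ 2) := by
          ring
      _ ≤ _ := mul_le_mul_of_nonneg_left s4 (by positivity)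
  · have s5 : ∑ i ∈ T ×ˢ (nms L : Finset (R E)), (nf (i.2 : E) / G P i.2)⁻¹ ≤
        (T.card + 1) * C₁ * q := by
      rw [sum_product]
      simp only [inv_div, sum_const, nsmul_eq_mul]
      rw [mul_assoc]
      exact mul_le_mul (by linarith) hsG
        (sum_nonneg fun x _ => div_nonneg (zero_le_one.trans (hG x)) (nf_nonneg _)) (by positivity)
    refine (mul_le_mul_of_nonneg_right (pow_le_pow_left₀ (sum_nonneg fun i _ => inv_nonneg.2
      (div_nonneg (nf_nonneg _) (zero_le_one.trans (hG _)))) s5 2) (by positivity)).trans_eq ?_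
    rw [← hq7]
    ring

end Crest.Agent.R312.En
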