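import Crest.Agent.R312.EnA

/-!
# Row 312, reflected energy, part B: separation of variables, truncation, one frozen part
-/

set_option autoImplicit false

noncomputable section

namespace Crest.Agent.R312.En

open NumberField Finset MeasureTheory
open scoped ComplexConjugate
open Crest.Agent.R17 (KernelOK)
open Crest.Agent.R17.En (l2_sum_le l2_add_le l2_integral EnF_e EnF_e_norm EnF_e_mul EnF_sum_int
  EnF_V_le)

variable {E : Type} [Field E] [NumberField E] [Fr E]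

theorem dualB_of_le {j : ℕ} {τ : E} {C : ℝ} {h r : R E} {b b' : R E → ℂ} (hb : DualB j τ C h r b)
    (hle : ∀ ν, ‖b' ν‖ ≤ ‖b ν‖) : DualB j τ C h r b' := by
  intro ν hν
  obtain ⟨h0, n, d, h1, h2, h3, h4⟩ := hb ν fun h0 =>
    hν (norm_le_zero_iff.1 ((hle ν).trans_eq (by rw [h0, norm_zero])))
  exact ⟨h0, n, d, h1, h2, h3, (hle ν).trans h4⟩

/-- trivial bound -/
theorem dualB_norm_le {j : ℕ} {τ : E} (hτ : τ ≠ 0) {C : ℝ} (hC : 0 < C) {h r : R E} (hr : r ≠ 0)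
    {b : R E → ℂ} (hb : DualB j τ C h r b) {ν : R E} (h0 : b ν ≠ 0) :
    ‖b ν‖ ≤ C * nf (r : E) * szl τ ν := by
  classical
  obtain ⟨h1, n, d, h2, h4, h5, h6⟩ := hb ν h0
  have hν : ν ≠ 0 := fun h0 => h1.1.1 (by rw [h0]; rfl)
  have a1 := one_le_szl hτ h1
  have a2 := nf_posR hν
  have a3 : nf (d : E) ≤ nf (ν : E) :=
    nf_le_of_dvd (h5 ▸ (dvd_pow_self _ three_ne_zero).mul_left _) hν
  have h7 : √(szl τ ν / nf (ν : E)) * √(nf (d : E)) ≤ szl τ ν := by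
    rw [← Real.sqrt_mul (by positivity)]
    refine Real.sqrt_le_iff.2 ⟨by linarith, ?_⟩
    calc szl τ ν / nf (ν : E) * nf (d : E) ≤ szl τ ν / nf (ν : E) * nf (ν : E) := by gcongr
      _ = szl τ ν := by field_simp
      _ ≤ _ := by nlinarith
  have hs : ∀ q ∈ (pf r).filter (fun p => vp p h % 6 = 4), Nm q ∧ Prime q := fun q hq =>
    ⟨(of_mem_pf (mem_filter.1 hq).1).1, (of_mem_pf (mem_filter.1 hq).1).2.1⟩
  have h8 : ∏ p ∈ (pf r).filter (fun p => vp p h % 6 = 4),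
      ((√(nf (p : E)))⁻¹ + if p ∣ ν then √(nf (p : E)) else 0) ≤ nf (r : E) := by
    refine le_trans ?_ (nf_le_of_dvd ((prod_primes_dvd_iff hs r).2 fun p hp =>
      (of_mem_pf (mem_filter.1 hp).1).2.2) hr)
    rw [nf_prod]
    refine prod_le_prod (fun p _ => by positivity) fun p hp => ?_
    have h9 : (7 : ℝ) ≤ nf (p : E) := by
      rw [nf_eq_nN (hs p hp).2.ne_zero]
      exact_mod_cast (nN_prime_mod (hs p hp).2).2
    have h10 : 2 ≤ √(nf (p : E)) := Real.le_sqrt_of_sq_le (by linarith)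
    have h11 : (√(nf (p : E)))⁻¹ ≤ 1 := inv_le_one_of_one_le₀ (by linarith)
    have h12 := Real.mul_self_sqrt (show 0 ≤ nf (p : E) by linarith)
    split_ifs <;> nlinarith
  rw [mul_assoc C] at h6
  refine h6.trans ((mul_le_mul (mul_le_mul_of_nonneg_left h7 hC.le) h8
    (prod_nonneg fun p _ => by positivity) (by positivity)).trans_eq ?_)
  ring

theorem tail {j : ℕ} (hj : 1 ≤ j) {σ : ℝ} (hσ : 1 < σ) : ∃ C : ℝ, 0 < C ∧
    ∀ (τ : E) (f : R E → ℂ) (D L : ℝ), τ ≠ 0 → 0 ≤ D → 0 < L →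
      (∀ ν, f ν ≠ 0 → Lat j τ ν ∧ ‖f ν‖ ≤ D * szl τ ν ^ (-σ)) →
      ‖∑' ν, f ν - ∑ ν ∈ lats j τ L, f ν‖ ≤ D * (C * L ^ (1 - σ)) := by
  classical
  obtain ⟨C₀, -, h₀⟩ := cnt_Lat (E := E) hj
  obtain ⟨C, hC, h⟩ := WtA.sum_tail C₀ hσ
  refine ⟨C, hC, fun τ f D L hτ hD hL hf => ?_⟩
  have hs : Summable fun ν => ‖f ν‖ := by
    refine Summable.of_nonneg_of_le (fun _ => norm_nonneg _) (fun ν => ?_)
      (((h₀ τ hτ).summable_rpow hσ).mul_left D)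
    by_cases h0 : f ν = 0
    · rw [h0, norm_zero]
      refine mul_nonneg hD ?_
      split_ifs with h1
      · exact Real.rpow_nonneg (zero_le_one.trans (one_le_szl hτ h1)) _
      · exact le_rfl
    · rw [if_pos (hf ν h0).1]
      exact (hf ν h0).2
  rw [← hs.of_norm.sum_add_tsum_compl (s := lats j τ L), add_sub_cancel_left]
  refine (norm_tsum_le_tsum_norm (hs.subtype _)).trans
    (Real.tsum_le_of_sum_le (fun _ => norm_nonneg _) fun T => ?_)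
  rw [← sum_filter_of_ne (p := fun i : ↑((lats j τ L : Set (R E))ᶜ) => f i.1 ≠ 0)
    fun i _ h0 => norm_ne_zero_iff.1 h0]
  refine (sum_le_sum fun i hi => (hf i.1 (mem_filter.1 hi).2).2).trans ?_
  rw [← mul_sum]
  refine mul_le_mul_of_nonneg_left ?_ hD
  have h1 := h (Lat j τ) (szl τ) (h₀ τ hτ) L hL
    ((T.filter fun i => f i.1 ≠ 0).map (Function.Embedding.subtype _)) fun n hn => by
      obtain ⟨i, hi, rfl⟩ := mem_map.1 hn
      have h2 := (hf i.1 (mem_filter.1 hi).2).1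
      exact ⟨h2, (not_le.1 fun h' => i.2 ((mem_lats hj hτ).2 ⟨h2, h'⟩)).le⟩
  rwa [sum_map] at h1

theorem of_sqs {k : R E} {K : ℝ} (hk : k ∈ sqs K) : 1 ≤ nf (k : E) ∧ nf (k : E) ≤ K :=
  ⟨one_le_nf (mem_sqs.1 hk).1.ne_zero, (mem_sqs.1 hk).2.2⟩

/-- size of one term of the dual sum -/
theorem term {V : ℝ → ℂ} {I : ℝ} (hI : 0 ≤ I) {σ : ℝ} (hσ : 0 ≤ σ)
    (hV : ∀ x, 0 < x → ‖V x‖ ≤ I * x ^ (-σ)) {j : ℕ} {τ : E} (hτ : τ ≠ 0) {K A C₀ : ℝ}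
    {h r : R E} {b : R E → ℂ} (hA : 0 < A) (hr : r ≠ 0) (hC : 0 < C₀) (hb : DualB j τ C₀ h r b)
    {k : R E} (hk : k ∈ sqs K) {ν : R E} (h0 : b ν ≠ 0) :
    ‖b ν * quad k ν * V (szl τ ν * A / nf (k : E) ^ 2)‖ ≤
      (C₀ * nf (r : E) * I * (K ^ 2 / A) ^ σ) * szl τ ν ^ (-(σ - 1)) := by
  obtain ⟨k0, k1⟩ := of_sqs hk
  have hK : 0 < K := by linarith
  have hB : 0 < K ^ 2 / A := by positivity
  have r0 := nf_posR hr
  have n0 : 0 < szl τ ν := one_pos.trans_le (one_le_szl hτ (hb ν h0).1)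
  have hx : szl τ ν / (K ^ 2 / A) ≤ szl τ ν * A / nf (k : E) ^ 2 := by
    rw [div_div_eq_mul_div]
    gcongr
  have h1 : ‖V (szl τ ν * A / nf (k : E) ^ 2)‖ ≤ I * (szl τ ν / (K ^ 2 / A)) ^ (-σ) :=
    (hV _ (by positivity)).trans (mul_le_mul_of_nonneg_left
      (Real.rpow_le_rpow_of_nonpos (by positivity) hx (by linarith)) hI)
  rw [norm_mul, norm_mul]
  calc ‖b ν‖ * ‖quad k ν‖ * ‖V (szl τ ν * A / nf (k : E) ^ 2)‖
      ≤ (C₀ * nf (r : E) * szl τ ν) * 1 * (I * (szl τ ν / (K ^ 2 / A)) ^ (-σ)) := by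
        gcongr
        · exact dualB_norm_le hτ hC hr hb h0
        · exact norm_quad_le _ _
    _ = _ := by
        rw [Real.div_rpow n0.le hB.le, Real.rpow_neg hB.le, neg_sub, Real.rpow_sub n0,
          Real.rpow_one, Real.rpow_neg n0.le]
        field_simp

/-- the bilinear estimate with the reflected kernel -/
theorem mellin_core {j : ℕ} (hj : 1 ≤ j) {Kr : ℂ → ℂ → ℂ} {V : ℝ → ℂ → ℂ} (hV : KernelOK Kr V)
    {ε : ℝ} (hε : 0 < ε) : ∃ (C : ℝ) (J : ℕ), 0 < C ∧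
    ∀ (Q K A C₀ : ℝ) (τ : E) (h r : R E) (b : R E → ℂ) (s : ℂ), 1 ≤ K → K ≤ Q → 0 < A →
      K ^ 2 / A ≤ Q → τ ≠ 0 → r ≠ 0 → nf (r : E) ≤ Q → 0 < C₀ → DualB j τ C₀ h r b →
      |s.re| ≤ 3 →
      ∑ k ∈ sqs K, ‖∑' ν : R E, b ν * quad k ν * V (szl τ ν * A / nf (k : E) ^ 2) s‖ ^ 2 ≤
        C * C₀ ^ 2 * Q ^ ε * (1 + |s.im|) ^ J * (K ^ 2 / A * (K + K ^ 2 / A)) := by
  obtain ⟨δ, hδ, hδ1, hδε⟩ : ∃ δ : ℝ, 0 < δ ∧ δ ≤ 1 ∧ δ ≤ ε / 4 :=
    ⟨min 1 (ε / 4), lt_min one_pos (by positivity), min_le_left _ _, min_le_right _ _⟩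
  obtain ⟨σ, hσ⟩ : ∃ σ : ℕ, 3 / δ + 2 ≤ σ := exists_nat_ge _
  have hδ3 : 3 ≤ 3 / δ := (le_div_iff₀ hδ).2 (by linarith)
  have hσδ : δ * (1 - ((σ : ℝ) - 1)) ≤ -3 := by
    have := (div_le_iff₀ hδ).1 (show 3 / δ ≤ σ - 2 by linarith)
    linarith
  obtain ⟨C1, J1, h1⟩ := hV σ 3
  obtain ⟨C4, J4, h4⟩ := hV 0 3
  obtain ⟨C2, hC2, h2⟩ := tail (E := E) hj (σ := (σ : ℝ) - 1) (by linarith)
  obtain ⟨C3, hC3, h3⟩ := core (E := E) hj (ε := ε / 4) (by positivity)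
  obtain ⟨C5, hC5, h5⟩ := card_nms_le (E := E)
  refine ⟨2 * (C4 ^ 2 * C3) + 2 * (C5 * (C1 * C2) ^ 2) + 1, 2 * J1 + 2 * J4, by positivity,
    fun Q K A C₀ τ h r b s hK hKQ hA hBQ hτ hr hrQ hC hb hs => ?_⟩
  obtain ⟨-, i1, v1⟩ := h1 s hs
  obtain ⟨k4, i4, v4⟩ := h4 s hs
  set T : ℝ := 1 + |s.im| with hT
  have hT1 : 1 ≤ T := le_add_of_nonneg_right (abs_nonneg _)
  set B : ℝ := K ^ 2 / A with hBdef
  have hB : 0 < B := by positivity
  have hQ : 1 ≤ Q := hK.trans hKQ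
  have hQ0 : 0 < Q := by linarith
  have r0 := nf_posR hr
  have hQδ : 1 ≤ Q ^ δ := Real.one_le_rpow hQ hδ.le
  have hQδ' : Q ^ δ ≤ Q := by
    simpa using Real.rpow_le_rpow_of_exponent_le hQ hδ1
  set L : ℝ := Q ^ δ * B with hLdef
  have hL : 0 < L := by positivity
  have hI : 0 ≤ C1 * T ^ J1 := (integral_nonneg fun _ => norm_nonneg _).trans i1
  set t : R E → R E → ℂ := fun k ν =>
    b ν * quad k ν * V (szl τ ν * A / nf (k : E) ^ 2) s with ht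
  -- the tail
  have htail : ∀ k ∈ (sqs K : Finset (R E)), ‖∑' ν, t k ν - ∑ ν ∈ lats j τ L, t k ν‖ ≤
      C₀ * (C1 * T ^ J1) * C2 * (B ^ 2 / Q ^ 2) := by
    intro k hk
    have h5 := h2 τ (t k) (C₀ * nf (r : E) * (C1 * T ^ J1) * B ^ (σ : ℝ)) L hτ (by positivity) hL
      fun ν hν =>
        have h0 : b ν ≠ 0 := fun h0 => hν (by simp only [ht, h0, zero_mul])
        ⟨(hb ν h0).1, term (V := fun x => V x s) hI (Nat.cast_nonneg σ) (fun x hx => by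
          rw [v1 x hx]
          exact (EnF_V_le σ hx).trans (mul_le_mul_of_nonneg_right i1 (by positivity)))
          hτ hA hr hC hb hk h0⟩
    have h6 : nf (r : E) * (B ^ (σ : ℝ) * L ^ (1 - ((σ : ℝ) - 1))) ≤ B ^ 2 / Q ^ 2 := by
      rw [hLdef, Real.mul_rpow (by positivity) hB.le, mul_left_comm (B ^ (σ : ℝ)),
        ← Real.rpow_add hB, ← Real.rpow_mul hQ0.le,
        show (σ : ℝ) + (1 - ((σ : ℝ) - 1)) = ((2 : ℕ) : ℝ) by push_cast; ring, Real.rpow_natCast]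
      have h7 : Q ^ (δ * (1 - ((σ : ℝ) - 1))) ≤ (Q ^ 3)⁻¹ := by
        refine (Real.rpow_le_rpow_of_exponent_le hQ hσδ).trans_eq ?_
        rw [Real.rpow_neg hQ0.le, ← Real.rpow_natCast]
        norm_num
      calc nf (r : E) * (Q ^ (δ * (1 - ((σ : ℝ) - 1))) * B ^ 2) ≤ Q * ((Q ^ 3)⁻¹ * B ^ 2) := by
            gcongr
        _ = B ^ 2 / Q ^ 2 := by field_simp
    calc _ ≤ _ := h5
      _ = C₀ * (C1 * T ^ J1) * C2 * (nf (r : E) * (B ^ (σ : ℝ) * L ^ (1 - ((σ : ℝ) - 1)))) := by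
          ring
      _ ≤ _ := by gcongr
  have htail2 : ∑ k ∈ sqs K, ‖∑' ν, t k ν - ∑ ν ∈ lats j τ L, t k ν‖ ^ 2 ≤
      C5 * (C1 * C2) ^ 2 * (C₀ ^ 2 * T ^ (2 * J1) * (B * (K + B))) := by
    have cK : ((sqs K : Finset (R E)).card : ℝ) ≤ C5 * K :=
      (Nat.cast_le.2 (card_le_card (sqs_subset K))).trans (h5 K (by linarith))
    refine (sum_le_card_nsmul _ _ _ fun k hk =>
      pow_le_pow_left₀ (norm_nonneg _) (htail k hk) 2).trans ?_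
    rw [nsmul_eq_mul]
    have h6 : B ^ 3 / Q ^ 4 ≤ 1 := by
      rw [div_le_one (by positivity)]
      calc B ^ 3 ≤ Q ^ 3 := by gcongr
        _ ≤ Q ^ 4 := pow_le_pow_right₀ hQ (by norm_num)
    calc _ ≤ C5 * K * (C₀ * (C1 * T ^ J1) * C2 * (B ^ 2 / Q ^ 2)) ^ 2 := by gcongr
      _ = C5 * (C1 * C2) ^ 2 * (C₀ ^ 2 * T ^ (2 * J1) * (B * (K * (B ^ 3 / Q ^ 4)))) := by
          field_simp
          ring
      _ ≤ _ := by
          gcongr
          exact (mul_le_of_le_one_right (by positivity) h6).trans (by linarith)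
  -- the main part
  have hmain : ∑ k ∈ sqs K, ‖∑ ν ∈ lats j τ L, t k ν‖ ^ 2 ≤
      C4 ^ 2 * C3 * (C₀ ^ 2 * Q ^ ε * T ^ (2 * J4) * (B * (K + B))) := by
    have hpos : ∀ ν ∈ lats j τ L, 0 < szl τ ν := fun ν hν =>
      one_pos.trans_le (one_le_szl hτ ((mem_lats hj hτ).1 hν).1)
    have h5 := fun k (hk : k ∈ (sqs K : Finset (R E))) => EnF_sum_int k4 (lats j τ L)
      (fun ν => b ν * quad k ν) (fun ν => szl τ ν * A / nf (k : E) ^ 2) (fun ν hν _ => by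
        have k0 := (of_sqs hk).1
        have n0 := hpos ν hν
        positivity) (fun x => V x s) v4
    have hQ2 : Q ≤ Q ^ 2 := by nlinarith
    have h6 := l2_integral (sqs K) k4 (fun k hk => (h5 k hk).1)
      (E := C3 * C₀ ^ 2 * (Q ^ 2) ^ (ε / 4) * (L * (K + L))) fun u => by
        refine (h3 (Q ^ 2) K L C₀ τ h r (fun ν => b ν * EnF_e (szl τ ν) u) hK (hKQ.trans hQ2)
          hL.le (by rw [hLdef, sq]; gcongr) hτ hr (hrQ.trans hQ2)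
          (dualB_of_le hb fun ν => ?_)).trans_eq' (sum_congr rfl fun k hk => ?_)
        · by_cases h0 : b ν = 0
          · rw [h0, zero_mul]
          · rw [norm_mul, EnF_e_norm (one_pos.trans_le (one_le_szl hτ (hb ν h0).1)), mul_one]
        · have k0 := (of_sqs hk).1
          have hp : 0 < A / nf (k : E) ^ 2 := by positivity
          rw [← one_mul ‖∑ ν ∈ lats j τ L, b ν * EnF_e (szl τ ν) u * quad k ν‖, ← EnF_e_norm hp u,
            ← norm_mul, mul_sum]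
          congr 2
          refine sum_congr rfl fun ν hν => ?_
          rw [mul_div_assoc, EnF_e_mul (hpos ν hν).le hp.le]
          ring
    have h7 : (Q ^ 2) ^ (ε / 4) * (Q ^ δ) ^ 2 ≤ Q ^ ε := by
      rw [← Real.rpow_natCast, ← Real.rpow_natCast, ← Real.rpow_mul hQ0.le,
        ← Real.rpow_mul hQ0.le, ← Real.rpow_add hQ0]
      exact Real.rpow_le_rpow_of_exponent_le hQ (by push_cast; linarith)
    have h8 : L * (K + L) ≤ (Q ^ δ) ^ 2 * (B * (K + B)) := by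
      have : K ≤ Q ^ δ * K := le_mul_of_one_le_left (by linarith) hQδ
      calc L * (K + L) ≤ L * (Q ^ δ * K + L) := by gcongr
        _ = _ := by rw [hLdef]; ring
    have h9 : 0 ≤ ∫ u : ℝ, ‖Kr (((0 : ℕ) : ℂ) + u * Complex.I) s‖ :=
      integral_nonneg fun _ => norm_nonneg _
    calc _ = _ := sum_congr rfl fun k hk => by rw [← (h5 k hk).2]
      _ ≤ _ := h6
      _ ≤ (C4 * T ^ J4) ^ 2 *
          (C3 * C₀ ^ 2 * (Q ^ 2) ^ (ε / 4) * ((Q ^ δ) ^ 2 * (B * (K + B)))) := by gcongr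
      _ = C4 ^ 2 * C3 * (C₀ ^ 2 * ((Q ^ 2) ^ (ε / 4) * (Q ^ δ) ^ 2) * T ^ (2 * J4) *
          (B * (K + B))) := by ring
      _ ≤ _ := by gcongr
  have hadd := l2_add_le (sqs K) (fun k => ∑ ν ∈ lats j τ L, t k ν)
    fun k => ∑' ν, t k ν - ∑ ν ∈ lats j τ L, t k ν
  simp only [add_sub_cancel] at hadd
  have hQε : 1 ≤ Q ^ ε := Real.one_le_rpow hQ hε.le
  have hF : 0 ≤ B * (K + B) := by positivity
  have e1 : C₀ ^ 2 * T ^ (2 * J1) * (B * (K + B)) ≤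
      C₀ ^ 2 * Q ^ ε * T ^ (2 * J1 + 2 * J4) * (B * (K + B)) := by
    gcongr
    · exact le_mul_of_one_le_right (by positivity) hQε
    · omega
  have e2 : C₀ ^ 2 * Q ^ ε * T ^ (2 * J4) * (B * (K + B)) ≤
      C₀ ^ 2 * Q ^ ε * T ^ (2 * J1 + 2 * J4) * (B * (K + B)) := by
    gcongr
    omega
  have e3 : 0 ≤ C₀ ^ 2 * Q ^ ε * T ^ (2 * J1 + 2 * J4) * (B * (K + B)) := by positivity
  have e4 := mul_le_mul_of_nonneg_left e1 (by positivity : 0 ≤ C5 * (C1 * C2) ^ 2)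
  have e5 := mul_le_mul_of_nonneg_left e2 (by positivity : 0 ≤ C4 ^ 2 * C3)
  refine hadd.trans ?_
  linarith

/-- one term `(i, r)` of the reflection formula -/
theorem piece {j : ℕ} (hj : 1 ≤ j) {Kr : ℂ → ℂ → ℂ} {V : ℝ → ℂ → ℂ} (hV : KernelOK Kr V) {cI : ℝ}
    (hc : 0 < cI) {ε : ℝ} (hε : 0 < ε) : ∃ (C : ℝ) (J : ℕ), 0 < C ∧
    ∀ (Q K X C₀ : ℝ) (τ : E) (h r : R E) (b ρ : R E → ℂ) (S : Finset (R E)) (s : ℂ),
      1 ≤ K → K ≤ Q → 0 < X → X⁻¹ ≤ Q → τ ≠ 0 → r ≠ 0 → nf (r : E) ≤ Q → 0 < C₀ →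
      DualB j τ C₀ h r b → (∀ x, ‖ρ x‖ ≤ 1) → S ⊆ sqs K → |s.re| ≤ 3 →
      ∑ k ∈ S, ‖ρ k * ((X / (nf (k : E) * nf (r : E)) : ℝ) : ℂ) * ∑' ν : R E, b ν * quad k ν *
          V (szl τ ν * X / (cI * (nf (k : E) * nf (r : E)) ^ 2)) s‖ ^ 2 ≤
        C * C₀ ^ 2 * Q ^ ε * (1 + |s.im|) ^ J * (X * (K + K ^ 2 * nf (r : E) ^ 2 / X)) := by
  classical
  obtain ⟨C1, J, hC1, h1⟩ := mellin_core (E := E) hj hV (ε := ε / (6 : ℕ)) (by positivity)
  obtain ⟨C4, hC4, h4⟩ := dyadic (ε := ε / (6 : ℕ)) (by positivity)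
  refine ⟨C4 * (C1 * (2 + 4 * cI) ^ (ε / (6 : ℕ)) * (4 * cI * (2 + 4 * cI))), J, by positivity,
    fun Q K X C₀ τ h r b ρ S s hK hKQ hX hXQ hτ hr hrQ hC₀ hb hρ hS hs => ?_⟩
  have hQ : 1 ≤ Q := hK.trans hKQ
  have hQ0 : 0 < Q := by linarith
  have hNr := one_le_nf hr
  have hQ5 : Q ≤ Q ^ 5 := le_self_pow₀ hQ (by norm_num)
  have hQ' : 2 * Q ≤ (2 + 4 * cI) * Q ^ 5 := by
    have : 0 ≤ 4 * cI * Q ^ 5 := by positivity
    linarith
  set E0 : ℝ := C1 * C₀ ^ 2 * ((2 + 4 * cI) * Q ^ 5) ^ (ε / (6 : ℕ)) * (1 + |s.im|) ^ J with hE0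
  have hE0n : 0 ≤ E0 := by positivity
  refine (h4 (fun k : R E => nf (k : E)) Q K
    (E0 * (4 * cI * (2 + 4 * cI) * (X * (K + K ^ 2 * nf (r : E) ^ 2 / X)))) S _
    hK hKQ (fun k hk => of_sqs (hS hk)) (fun k => sq_nonneg _)
    fun K₁ hK₁ hK₁K => ?_).trans (le_of_eq ?_)
  · have hA : 0 < X / (cI * nf (r : E) ^ 2) := by positivity
    have e1 : (2 * K₁) ^ 2 / (X / (cI * nf (r : E) ^ 2)) =
        4 * cI * (K₁ ^ 2 * nf (r : E) ^ 2 / X) := by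
      field_simp
      ring
    have hL : (2 * K₁) ^ 2 / (X / (cI * nf (r : E) ^ 2)) ≤ (2 + 4 * cI) * Q ^ 5 := by
      have e3 : K₁ ≤ Q := hK₁K.trans hKQ
      rw [e1, div_eq_mul_inv]
      calc 4 * cI * (K₁ ^ 2 * nf (r : E) ^ 2 * X⁻¹) ≤ 4 * cI * (Q ^ 2 * Q ^ 2 * Q) := by gcongr
        _ = 4 * cI * Q ^ 5 := by ring
        _ ≤ _ := by gcongr; linarith
    have h5 := h1 ((2 + 4 * cI) * Q ^ 5) (2 * K₁) _ C₀ τ h r b s (by linarith) (by linarith) hA hL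
      hτ hr (by linarith) hC₀ hb hs
    rw [e1] at h5
    have hsub : (S.filter fun k : R E => K₁ ≤ nf (k : E) ∧ nf (k : E) ≤ 2 * K₁) ⊆
        sqs (2 * K₁) :=
      fun k hk => by
        obtain ⟨a1, -, a2⟩ := mem_filter.1 hk
        exact mem_sqs.2 ⟨(mem_sqs.1 (hS a1)).1, (mem_sqs.1 (hS a1)).2.1, a2⟩
    calc _ ≤ ∑ k ∈ S.filter (fun k : R E => K₁ ≤ nf (k : E) ∧ nf (k : E) ≤ 2 * K₁),
          (X / (K₁ * nf (r : E))) ^ 2 * ‖∑' ν : R E, b ν * quad k ν *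
            V (szl τ ν * (X / (cI * nf (r : E) ^ 2)) / nf (k : E) ^ 2) s‖ ^ 2 := by
          refine sum_le_sum fun k hk => ?_
          obtain ⟨-, a1, -⟩ := mem_filter.1 hk
          have k0 : 0 < nf (k : E) := by linarith
          have e2 : ∀ ν : R E, szl τ ν * X / (cI * (nf (k : E) * nf (r : E)) ^ 2) =
              szl τ ν * (X / (cI * nf (r : E) ^ 2)) / nf (k : E) ^ 2 := fun ν => by field_simp
          simp only [e2]
          rw [norm_mul, norm_mul, mul_pow, Complex.norm_real, Real.norm_of_nonneg (by positivity)]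
          refine mul_le_mul_of_nonneg_right (pow_le_pow_left₀ (by positivity) ?_ 2) (sq_nonneg _)
          refine (mul_le_of_le_one_left (by positivity) (hρ k)).trans ?_
          gcongr
      _ ≤ (X / (K₁ * nf (r : E))) ^ 2 * (E0 * (4 * cI * (K₁ ^ 2 * nf (r : E) ^ 2 / X) *
            (2 * K₁ + 4 * cI * (K₁ ^ 2 * nf (r : E) ^ 2 / X)))) := by
          rw [← mul_sum]
          exact mul_le_mul_of_nonneg_left
            ((sum_le_sum_of_subset_of_nonneg hsub fun _ _ _ => sq_nonneg _).trans h5) (sq_nonneg _)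
      _ = E0 * (4 * cI * (X * (2 * K₁ + 4 * cI * (K₁ ^ 2 * nf (r : E) ^ 2 / X)))) := by field_simp
      _ ≤ E0 * (4 * cI * (X * ((2 + 4 * cI) * K + (2 + 4 * cI) *
            (K ^ 2 * nf (r : E) ^ 2 / X)))) := by gcongr <;> linarith
      _ = _ := by ring
  · rw [hE0, Real.mul_rpow (by positivity) (by positivity), ← Real.rpow_pow_comm hQ0.le,
      ← rpow_div_pow (ε := ε) hQ0.le (n := 6) (by norm_num)]
    ring

open Classical in
/-- the energy of the rows `k h` with `k` squarefree and prime to `h` -/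
theorem fixed {j : ℕ} (hj : Lev E j) {ε : ℝ} (hε : 0 < ε) : ∃ (C : ℝ) (J : ℕ), 0 < C ∧
    ∀ (Q K X : ℝ) (t : E) (h : R E) (s : ℂ), 1 ≤ K → K ≤ Q → 0 < X → X⁻¹ ≤ Q → h ≠ 0 →
      nf (h : E) ≤ Q → |s.re| ≤ 3 →
      ∑ k ∈ (sqs K).filter (IsCoprime · h), ‖Tc j t (k * h) X s‖ ^ 2 ≤
        C * Q ^ ε * (1 + |s.im|) ^ J * (X * (K + K ^ 2 * nf (rad h : E) ^ 2 / X)) := by
  obtain ⟨I, _, j', τ, C, cI, hj', hτ, hC, hcI, hR⟩ := reflection hj
  have hε3 : 0 < ε / (3 : ℕ) := by positivity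
  choose Cp Jp hCp hp using fun i => piece (E := E) hj' (kernelOK_KrR (rk E)) (hcI i) hε3
  obtain ⟨Cd, hCd, hd⟩ := card_dvs_le' (E := E) hε3
  have hS : 0 < ∑ i, Cp i + 1 := by
    have : 0 ≤ ∑ i, Cp i := sum_nonneg fun i _ => (hCp i).le
    linarith
  refine ⟨((Fintype.card I : ℝ) + 1) ^ 2 * Cd ^ 2 * ((∑ i, Cp i + 1) * C ^ 2),
    univ.sup Jp, by positivity, fun Q K X t h s hK hKQ hX hXQ hh hhQ hs => ?_⟩
  obtain ⟨ρ, b, hρ, hb, hrefl⟩ := hR t h hh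
  have hQ : 0 < Q := by linarith
  have hr0 : rad h ≠ 0 := (nm_rad h).ne_zero
  have hrQ : nf (rad h : E) ≤ Q := (nf_le_of_dvd (rad_dvd h) hh).trans hhQ
  have h1s : 1 ≤ 1 + |s.im| := le_add_of_nonneg_right (abs_nonneg _)
  set B : ℝ := (∑ i, Cp i + 1) * C ^ 2 * Q ^ (ε / (3 : ℕ)) * (1 + |s.im|) ^ univ.sup Jp *
    (X * (K + K ^ 2 * nf (rad h : E) ^ 2 / X)) with hB
  have hB0 : 0 ≤ B := by positivity
  rw [sum_congr rfl fun k hk => by
    rw [hrefl k (mem_sqs.1 (mem_filter.1 hk).1).2.1 (mem_filter.1 hk).2 X hX s]]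
  refine (l2_sum_le _ univ _ (E := ((dvs (rad h)).card : ℝ) ^ 2 * B)
    fun i _ => l2_sum_le _ (dvs (rad h)) _ fun r hr => ?_).trans ?_
  · obtain ⟨r1, r2⟩ := of_mem_dvs hr
    have r3 : nf (r : E) ≤ nf (rad h : E) := nf_le_of_dvd r2 hr0
    refine (hp i Q K X C τ h r (b i r) (ρ i r) _ s hK hKQ hX hXQ hτ r1.ne_zero (r3.trans hrQ) hC
      (hb i r) (hρ i r) (filter_subset _ _) hs).trans ?_
    have b1 : Cp i ≤ ∑ i, Cp i + 1 :=
      (single_le_sum (fun j _ => (hCp j).le) (mem_univ i)).trans (by linarith)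
    have b2 : (1 + |s.im|) ^ Jp i ≤ (1 + |s.im|) ^ univ.sup Jp :=
      pow_le_pow_right₀ h1s (le_sup (mem_univ i))
    have b3 := nf_nonneg (r : E)
    rw [hB]
    gcongr
  · have h2 := hd Q (rad h) hr0 hrQ
    have h3 : ((univ : Finset I).card : ℝ) ≤ Fintype.card I + 1 := by
      rw [card_univ]; linarith
    calc ((univ : Finset I).card : ℝ) ^ 2 * (((dvs (rad h)).card : ℝ) ^ 2 * B)
        ≤ ((Fintype.card I : ℝ) + 1) ^ 2 * ((Cd * Q ^ (ε / (3 : ℕ))) ^ 2 * B) := by gcongr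
      _ = _ := by rw [hB, ← rpow_div_pow (ε := ε) hQ.le (n := 3) (by norm_num)]; ring

end Crest.Agent.R312.En
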