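import Crest.Agent.R312.EnB

/-!
# Row 312: the reflected energy (target statement of the module `En*`)
-/

set_option autoImplicit false

noncomputable section

namespace Crest.Agent.R312

open NumberField Finset
open scoped ComplexConjugate

variable {E : Type} [Field E] [NumberField E] [Fr E]

theorem En.decomp {h₀ k : R E} (h0 : h₀ ≠ 0) (hk : Nm k) :
    ∃ h₃ q k₁ : R E, k = h₃ * q * k₁ ∧ Nm h₃ ∧ pf h₃ ⊆ pf h₀ ∧ Powerful q ∧ Nm k₁ ∧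
      Squarefree k₁ ∧ IsCoprime k₁ (h₃ * q * h₀) := by
  classical
  have key : ∀ s ⊆ pf k, Nm (∏ p ∈ s, p ^ vp p k) ∧ pf (∏ p ∈ s, p ^ vp p k) ⊆ s := fun s hs => by
    have h1 : ∀ q ∈ s, Nm q ∧ Prime q := fun q hq =>
      ⟨(of_mem_pf (hs hq)).1, (of_mem_pf (hs hq)).2.1⟩
    have h2 : Nm (∏ p ∈ s, p ^ vp p k) := Nm.prod fun p hp => (h1 p hp).1.pow _
    refine ⟨h2, fun p hp => ?_⟩
    obtain ⟨a1, a2, a3⟩ := of_mem_pf hp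
    by_contra h
    refine (vp_eq_zero_iff a2 h2.ne_zero).1 ?_ a3
    rw [vp_prod_pow h1 _ a2 a1, if_neg h]
  obtain ⟨pB, sB⟩ := key _ (filter_subset (· ∈ pf h₀) (pf k))
  obtain ⟨pC, sC⟩ := key _ (filter_subset (· ∉ pf h₀) (pf k))
  obtain ⟨k₁, q, h1, h2, h3, h4, h5⟩ := exists_sqfree_powerful pC
  have c2 : IsCoprime (k₁ * q) h₀ := h5 ▸ isCoprime_of_disjoint_pf pC.ne_zero h0
    (disjoint_left.2 fun p hp => (mem_filter.1 (sC hp)).2)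
  have c3 := h5 ▸ isCoprime_of_disjoint_pf pC.ne_zero pB.ne_zero
    (disjoint_left.2 fun p hp hp' => (mem_filter.1 (sC hp)).2 (mem_filter.1 (sB hp')).2)
  refine ⟨_, q, k₁, ?_, pB, fun p hp => (mem_filter.1 (sB hp)).2, h3, h1, h2,
    (c3.of_mul_left_left.mul_right h4).mul_right c2.of_mul_left_left⟩
  conv_lhs => rw [hk.eq_prod, ← prod_filter_mul_prod_filter_not (pf k) (· ∈ pf h₀), h5]
  ring

theorem En.rad_sq_le {h₃ q h₀ : R E} (h3 : h₃ ≠ 0) (h0 : h₀ ≠ 0) (hq : Powerful q)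
    (h : pf h₃ ⊆ pf h₀) :
    nf (rad (h₃ * q * h₀) : E) ^ 2 ≤ nf (q : E) * nf (h₀ : E) ^ 2 := by
  classical
  have q0 : q ≠ 0 := hq.1.ne_zero
  have r0 : rad q ≠ 0 := (nm_rad q).ne_zero
  have h1 : rad (h₃ * q * h₀) ∣ rad q * h₀ := by
    refine (prod_primes_dvd_iff (fun p hp => ⟨(of_mem_pf hp).1, (of_mem_pf hp).2.1⟩) _).2
      fun p hp => (of_mem_pf (n := rad q * h₀) ?_).2.2
    revert p
    change pf _ ⊆ pf _
    rw [pf_mul (mul_ne_zero h3 q0) h0, pf_mul h3 q0, pf_mul r0 h0, pf_rad]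
    exact union_subset (union_subset (h.trans subset_union_right) subset_union_left)
      subset_union_right
  have h2 := nf_le_of_dvd h1 (mul_ne_zero r0 h0)
  rw [En.nf_mulR] at h2
  refine (pow_le_pow_left₀ (nf_nonneg _) h2 2).trans ?_
  rw [mul_pow]
  exact mul_le_mul_of_nonneg_right hq.nf_rad_sq_le (sq_nonneg _)

theorem En.real_le {K X ρ H H₀ : ℝ} (hK : 0 ≤ K) (hX : 0 < X) (hH : 1 ≤ H) (hH₀ : 1 ≤ H₀)
    (hρ : ρ ^ 2 ≤ H * H₀ ^ 2) :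
    K / H + (K / H) ^ 2 * ρ ^ 2 / X ≤ H₀ ^ 2 * (K + K ^ 2 / X) * H ^ (-(1 / 2 : ℝ)) := by
  have h1 : H⁻¹ ≤ H ^ (-(1 / 2 : ℝ)) := by
    rw [← Real.rpow_neg_one]
    exact Real.rpow_le_rpow_of_exponent_le hH (by norm_num)
  have h2 : K ≤ H₀ ^ 2 * K := le_mul_of_one_le_left hK (one_le_pow₀ hH₀)
  calc _ ≤ H₀ ^ 2 * K / H + (K / H) ^ 2 * (H * H₀ ^ 2) / X := by gcongr
    _ = H₀ ^ 2 * (K + K ^ 2 / X) * H⁻¹ := by field_simp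
    _ ≤ _ := by gcongr

/-- **Reflected energy.** -/
theorem energy {j : ℕ} (hj : Lev E j) {ε : ℝ} (hε : 0 < ε) : ∃ (C : ℝ) (J : ℕ), 0 < C ∧
    ∀ (Q K X : ℝ) (t : E) (h₀ : R E) (s : ℂ), 1 ≤ K → K ≤ Q → 0 < X → X ≤ Q → X⁻¹ ≤ Q →
      h₀ ≠ 0 → nf (h₀ : E) ≤ Q → |s.re| ≤ 3 →
      ∑ k ∈ nms K, ‖Tc j t (k * h₀) X s‖ ^ 2 ≤
        C * Q ^ ε * nf (h₀ : E) ^ J * (1 + |s.im|) ^ J * (X * (K + K ^ 2 / X)) := by
  classical
  have hε' : 0 < ε / (6 : ℕ) := by positivity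
  obtain ⟨C₁, J, hC₁, h₁⟩ := En.fixed hj hε'
  obtain ⟨C₂, hC₂, h₂⟩ := card_smooth_le (E := E) hε'
  obtain ⟨C₃, hC₃, h₃⟩ := sum_powerful_le (E := E) hε'
  refine ⟨C₁ * C₂ * C₃, J + 2, by positivity,
    fun Q K X t h₀ s hK hKQ hX _ hXQ h0 hh hs => ?_⟩
  set F := K + K ^ 2 / X with hF
  have hK0 : 0 ≤ K := by linarith
  have hQ : 1 ≤ Q := hK.trans hKQ
  have hQ0 : 0 < Q := by linarith
  have hF0 : 0 ≤ F := by positivity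
  have hQ3 : Q ≤ Q ^ 3 := le_self_pow₀ hQ three_ne_zero
  have hN0 := one_le_nf h0
  set Ah := (nms K : Finset (R E)).filter (fun d => pf d ⊆ pf h₀) with hAh
  set Pw := (nms K : Finset (R E)).filter Powerful with hPw
  set B := C₁ * (Q ^ 3) ^ (ε / (6 : ℕ)) * (1 + |s.im|) ^ J * (X * (nf (h₀ : E) ^ 2 * F)) with hB
  have hB0 : 0 ≤ B := by positivity
  have hsub : nms K ⊆ ((Ah ×ˢ Pw).sigma fun x =>
      (sqs (K / nf (x.2 : E))).filter (IsCoprime · (x.1 * x.2 * h₀))).image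
        fun x => x.1.1 * x.1.2 * x.2 := by
    intro k hk
    obtain ⟨hk0, hk⟩ := mem_nms.1 hk
    obtain ⟨h3, q, k₁, e, a1, a2, a3, a4, a5, a6⟩ := En.decomp h0 hk0
    have hb : ∀ y, y ∣ k → nf (y : E) ≤ K := fun y hy => (nf_le_of_dvd hy hk0.ne_zero).trans hk
    refine mem_image.2 ⟨⟨(h3, q), k₁⟩, mem_sigma.2 ⟨mem_product.2
      ⟨mem_filter.2 ⟨mem_nms.2 ⟨a1, hb _ ⟨q * k₁, by rw [e]; ring⟩⟩, a2⟩,
        mem_filter.2 ⟨mem_nms.2 ⟨a3.1, hb _ ⟨h3 * k₁, by rw [e]; ring⟩⟩, a3⟩⟩,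
      mem_filter.2 ⟨mem_sqs.2 ⟨a4, a5, ?_⟩, a6⟩⟩, e.symm⟩
    rw [le_div_iff₀ (En.nf_posR a3.1.ne_zero), ← En.nf_mulR]
    exact hb _ ⟨h3, by rw [e]; ring⟩
  have hfib : ∀ x ∈ Ah ×ˢ Pw,
      ∑ k₁ ∈ (sqs (K / nf (x.2 : E))).filter (IsCoprime · (x.1 * x.2 * h₀)),
        ‖Tc j t (x.1 * x.2 * k₁ * h₀) X s‖ ^ 2 ≤ B * nf (x.2 : E) ^ (-(1 / 2 : ℝ)) := by
    rintro ⟨h3, q⟩ hx
    obtain ⟨t2, t3⟩ := mem_product.1 hx
    obtain ⟨b2, a4⟩ := mem_filter.1 t2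
    obtain ⟨b3, a5⟩ := mem_filter.1 t3
    rw [mem_nms] at b2 b3
    simp only at *
    have hq := one_le_nf a5.1.ne_zero
    have e : ∀ k₁, h3 * q * k₁ * h₀ = k₁ * (h3 * q * h₀) := fun k₁ => by ring
    simp only [e]
    refine (h₁ (Q ^ 3) (K / nf (q : E)) X t (h3 * q * h₀) s
      ((one_le_div (by linarith)).2 b3.2) ((div_le_self hK0 hq).trans (hKQ.trans hQ3)) hX
      (hXQ.trans hQ3) (mul_ne_zero (mul_ne_zero b2.1.ne_zero b3.1.ne_zero) h0) ?_ hs).trans ?_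
    · rw [En.nf_mulR, En.nf_mulR, pow_three']
      have := b2.2.trans hKQ
      have := b3.2.trans hKQ
      have := nf_nonneg (h3 : E)
      gcongr
    · refine (mul_le_mul_of_nonneg_left (mul_le_mul_of_nonneg_left (En.real_le hK0 hX hq hN0
        (En.rad_sq_le b2.1.ne_zero h0 a5 a4)) hX.le) (by positivity)).trans_eq ?_
      rw [hB]
      ring
  have hA2 : (Ah.card : ℝ) ≤ C₂ * (Q ^ (ε / (6 : ℕ)) * Q ^ (ε / (6 : ℕ))) := by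
    refine (h₂ h₀ K h0 hK).trans ?_
    rw [← Real.mul_rpow hQ0.le hQ0.le]
    gcongr
  have hA3 : ∑ q ∈ Pw, nf (q : E) ^ (-(1 / 2 : ℝ)) ≤ C₃ * Q ^ (ε / (6 : ℕ)) := by
    refine (h₃ K hK).trans ?_
    gcongr
  have h1s : 1 ≤ 1 + |s.im| := le_add_of_nonneg_right (abs_nonneg _)
  have hP0 : ∀ q : R E, 0 ≤ nf (q : E) ^ (-(1 / 2 : ℝ)) := fun q =>
    Real.rpow_nonneg (nf_nonneg _) _
  refine (sum_le_sum_of_subset_of_nonneg hsub fun _ _ _ => sq_nonneg _).trans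
    ((sum_image_le_of_nonneg fun _ _ => sq_nonneg _).trans ?_)
  calc _ ≤ ∑ x ∈ Ah ×ˢ Pw, B * nf (x.2 : E) ^ (-(1 / 2 : ℝ)) := by
        rw [sum_sigma]
        exact sum_le_sum hfib
    _ = Ah.card * (B * ∑ q ∈ Pw, nf (q : E) ^ (-(1 / 2 : ℝ))) := by
        rw [sum_product' _ _ fun _ (q : R E) => B * nf (q : E) ^ (-(1 / 2 : ℝ)), sum_const,
          nsmul_eq_mul, mul_sum Pw _ B]
    _ ≤ C₂ * (Q ^ (ε / (6 : ℕ)) * Q ^ (ε / (6 : ℕ))) * (B * (C₃ * Q ^ (ε / (6 : ℕ)))) :=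
        mul_le_mul hA2 (mul_le_mul_of_nonneg_left hA3 hB0)
          (mul_nonneg hB0 (sum_nonneg fun _ _ => hP0 _)) (by positivity)
    _ = C₁ * C₂ * C₃ * Q ^ ε * nf (h₀ : E) ^ 2 * (1 + |s.im|) ^ J * (X * F) := by
        rw [hB, ← Real.rpow_pow_comm hQ0.le, ← En.rpow_div_pow (ε := ε) hQ0.le (n := 6) (by norm_num)]
        ring
    _ ≤ _ := by gcongr <;> omega

end Crest.Agent.R312
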