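import Crest.Agent.R312.Frame

/-!
# Row 312: factorisation in `R`, residue systems, additive characters
(port of `R17/Basic.lean`: `Primary` becomes `Nm`, `pdiv` becomes `dvs`, `eq` becomes `ef`)
-/

set_option autoImplicit false

noncomputable section

namespace Crest.Agent.R312

open NumberField
open scoped ComplexConjugate

variable {E : Type} [Field E] [NumberField E] [Fr E]

/-! ## part A: normalised elements and factorisation -/

theorem span_gen {I : Ideal (R E)} (hI : I ≠ ⊥) : Ideal.span {gen I} = I := by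
  have h1 : Ideal.span {gen I} = ((((UniqueFactorizationMonoid.normalizedFactors I).map
      fun P : Ideal (R E) => Submodule.IsPrincipal.generator P)).map
        fun x => Ideal.span ({x} : Set (R E))).prod := (Ideal.multiset_prod_span_singleton _).symm
  rw [h1, Multiset.map_map]
  have h2 : ((fun x => Ideal.span ({x} : Set (R E))) ∘
      fun P : Ideal (R E) => Submodule.IsPrincipal.generator P) = id := by
    funext P
    exact Ideal.span_singleton_generator P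
  rw [h2, Multiset.map_id]
  exact Ideal.prod_normalizedFactors_eq_self hI
theorem gen_mul {I J : Ideal (R E)} (hI : I ≠ ⊥) (hJ : J ≠ ⊥) : gen (I * J) = gen I * gen J := by
  unfold gen
  rw [UniqueFactorizationMonoid.normalizedFactors_mul hI hJ, Multiset.map_add, Multiset.prod_add]
theorem nm_one : Nm (1 : R E) := by
  refine ⟨one_ne_zero, ?_⟩
  unfold gen
  rw [Ideal.span_singleton_one, ← Ideal.one_eq_top, UniqueFactorizationMonoid.normalizedFactors_one]
  simp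
theorem Nm.ne_zero {g : R E} (h : Nm g) : g ≠ 0 := h.1
theorem Nm.mul {a b : R E} (ha : Nm a) (hb : Nm b) : Nm (a * b) := by
  refine ⟨mul_ne_zero ha.1 hb.1, ?_⟩
  rw [← Ideal.span_singleton_mul_span_singleton,
    gen_mul (mt Ideal.span_singleton_eq_bot.1 ha.1) (mt Ideal.span_singleton_eq_bot.1 hb.1),
    ha.2, hb.2]
theorem Nm.pow {a : R E} (ha : Nm a) (k : ℕ) : Nm (a ^ k) := by
  induction k with
  | zero => simpa using nm_one
  | succ k ih => rw [pow_succ]; exact ih.mul ha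
theorem Nm.prod {α : Type} {s : Finset α} {f : α → R E} (h : ∀ i ∈ s, Nm (f i)) :
    Nm (∏ i ∈ s, f i) := by
  exact Finset.prod_induction f Nm (fun _ _ ha hb => ha.mul hb) nm_one h
theorem Nm.of_mul {a b : R E} (ha : Nm a) (hab : Nm (a * b)) : Nm b := by
  have hb : b ≠ 0 := right_ne_zero_of_mul hab.1
  refine ⟨hb, ?_⟩
  have h := hab.2
  rw [← Ideal.span_singleton_mul_span_singleton,
    gen_mul (mt Ideal.span_singleton_eq_bot.1 ha.1) (mt Ideal.span_singleton_eq_bot.1 hb),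
    ha.2] at h
  exact mul_left_cancel₀ ha.1 h
theorem Nm.eq_of_associated {a b : R E} (ha : Nm a) (hb : Nm b) (h : Associated a b) : a = b := by
  rw [← ha.2, ← hb.2, Ideal.span_singleton_eq_span_singleton.2 h]
theorem Nm.eq_one_of_isUnit {a : R E} (ha : Nm a) (h : IsUnit a) : a = 1 := by
  exact ha.eq_of_associated nm_one (associated_one_iff_isUnit.2 h)
theorem nm_nrm {n : R E} (hn : n ≠ 0) : Nm (nrm n) := by
  have h := span_gen (mt Ideal.span_singleton_eq_bot.1 hn)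
  refine ⟨fun h0 => hn ?_, ?_⟩
  · unfold nrm at h0
    rw [h0] at h
    exact Ideal.span_singleton_eq_bot.1 (h.symm.trans (Ideal.span_singleton_eq_bot.2 rfl))
  · unfold nrm
    rw [h]
theorem associated_nrm {n : R E} (hn : n ≠ 0) : Associated (nrm n) n := by
  exact Ideal.span_singleton_eq_span_singleton.1 (span_gen (mt Ideal.span_singleton_eq_bot.1 hn))
theorem nrm_mul {a b : R E} (ha : a ≠ 0) (hb : b ≠ 0) : nrm (a * b) = nrm a * nrm b := by
  unfold nrm
  rw [← Ideal.span_singleton_mul_span_singleton,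
    gen_mul (mt Ideal.span_singleton_eq_bot.1 ha) (mt Ideal.span_singleton_eq_bot.1 hb)]
theorem Nm.nrm_eq {a : R E} (ha : Nm a) : nrm a = a := ha.2
theorem nrm_eq_of_associated {a b : R E} (h : Associated a b) : nrm a = nrm b := by
  unfold nrm
  rw [Ideal.span_singleton_eq_span_singleton.2 h]
theorem exists_unit_nrm {n : R E} (hn : n ≠ 0) : ∃ u : R E, IsUnit u ∧ n = u * nrm n := by
  obtain ⟨u, hu⟩ := associated_nrm hn
  exact ⟨u, u.isUnit, by rw [mul_comm, hu]⟩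
theorem nf_nrm {n : R E} (hn : n ≠ 0) : nf (nrm n : E) = nf (n : E) := by
  exact nf_of_associated (associated_nrm hn)

private theorem factA1_map_comap (J : Ideal (R E)) : (J.comap toR).map toR = J := by
  refine le_antisymm Ideal.map_comap_le fun y hy => ?_
  obtain ⟨l, hl⟩ := y.2
  let y' : 𝓞 E := ⟨(mm E : E) ^ l * y, hl⟩
  have h1 : toR y' = (mm E : R E) ^ l * y := by ext; simp [toR, y']
  have hy' : y' ∈ J.comap toR := by
    rw [Ideal.mem_comap, h1]
    exact J.mul_mem_left _ hy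
  have h2 := Ideal.mem_map_of_mem toR hy'
  rw [h1] at h2
  exact (Ideal.unit_mul_mem_iff_mem _ (isUnit_mm.pow l)).1 h2

private theorem factA1_coprime {g : R E} (hg : g ≠ 0) :
    IsCoprime ((Ideal.span {g}).comap toR) (Ideal.span {(mm E : 𝓞 E)}) := by
  obtain ⟨b, hb, hgb⟩ := exists_dvd_nat hg
  have h1 : (b : 𝓞 E) ∈ (Ideal.span {g}).comap toR := by
    rw [Ideal.mem_comap, map_natCast]
    exact Ideal.mem_span_singleton.2 hgb
  obtain ⟨u, v, huv⟩ : IsCoprime (b : 𝓞 E) (mm E : 𝓞 E) := Nat.Coprime.cast hb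
  exact Ideal.isCoprime_iff_exists.2 ⟨u * b, Ideal.mul_mem_left _ _ h1, v * mm E,
    Ideal.mul_mem_left _ _ (Ideal.mem_span_singleton_self _), huv⟩

/-- There are finitely many ideals of bounded norm (they are extensions of ideals of `𝓞`). -/
theorem finite_nms (X : ℝ) : {g : R E | Nm g ∧ nf (g : E) ≤ X}.Finite := by
  refine Set.Finite.of_finite_image (f := fun g : R E => (Ideal.span {g}).comap (toR (E := E)))
    ((Ideal.finite_setOfPred_absNorm_le ⌊X⌋₊).subset ?_) ?_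
  · rintro _ ⟨g, ⟨hg, hX⟩, rfl⟩
    have h := absNorm_eq_nf (factA1_coprime hg.1) (factA1_map_comap _)
    exact Nat.le_floor (h.trans_le hX)
  · rintro a ⟨ha, -⟩ b ⟨hb, -⟩ h
    have h' := congrArg (Ideal.map (toR (E := E))) h
    simp only [factA1_map_comap] at h'
    exact ha.eq_of_associated hb (Ideal.span_singleton_eq_span_singleton.1 h')
theorem mem_nms {X : ℝ} {g : R E} : g ∈ nms X ↔ Nm g ∧ nf (g : E) ≤ X := mem_fin (finite_nms X)
theorem mem_sqs {X : ℝ} {g : R E} : g ∈ sqs X ↔ Nm g ∧ Squarefree g ∧ nf (g : E) ≤ X := by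
  exact mem_fin ((finite_nms X).subset fun g hg => ⟨hg.1, hg.2.2⟩)
theorem mem_dvs {n d : R E} (hn : n ≠ 0) : d ∈ dvs n ↔ Nm d ∧ d ∣ n := by
  exact mem_fin ((finite_nms (nf (n : E))).subset fun g hg => ⟨hg.1, nf_le_of_dvd hg.2 hn⟩)
theorem mem_pf {n p : R E} (hn : n ≠ 0) : p ∈ pf n ↔ Nm p ∧ Prime p ∧ p ∣ n := by
  exact mem_fin ((finite_nms (nf (n : E))).subset fun g hg => ⟨hg.1, nf_le_of_dvd hg.2.2 hn⟩)
theorem of_mem_pf {n p : R E} (h : p ∈ pf n) : Nm p ∧ Prime p ∧ p ∣ n := by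
  have := of_mem_fin h
  exact this
theorem of_mem_dvs {n d : R E} (h : d ∈ dvs n) : Nm d ∧ d ∣ n := by
  have := of_mem_fin h
  exact this
private theorem factA1_exists_prime {n : R E} (hn : n ≠ 0) (hu : ¬ IsUnit n) :
    ∃ p : R E, Nm p ∧ Prime p ∧ p ∣ n := by
  obtain ⟨q, hq, hqn⟩ := WfDvdMonoid.exists_irreducible_factor hu hn
  have h := associated_nrm hq.ne_zero
  exact ⟨nrm q, nm_nrm hq.ne_zero, h.symm.prime hq.prime, h.dvd.trans hqn⟩

private theorem factA1_not_unit {q : ℕ} (hq : q.Prime) (h : q.Coprime (mm E)) :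
    ¬ IsUnit (q : R E) := by
  intro hu
  have h1 : ((q : E))⁻¹ ∈ RR E := by simpa using (isUnit_iff.1 hu).2
  have h2 : IsIntegral ℤ ((q : E))⁻¹ := isIntegral_iff.2 ⟨h1, inv_natCast_mem_OS h⟩
  have h3 : IsIntegral ℤ ((q : ℚ))⁻¹ := by
    rw [← isIntegral_algebraMap_iff (algebraMap ℚ E).injective]
    simpa using h2
  obtain ⟨z, hz⟩ := IsIntegrallyClosed.isIntegral_iff.1 h3
  have hq0 : (q : ℚ) ≠ 0 := Nat.cast_ne_zero.2 hq.ne_zero
  have h4 : ((q : ℤ) * z : ℤ) = 1 := by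
    have : ((q : ℚ) * (z : ℚ)) = 1 := by
      rw [show (z : ℚ) = (q : ℚ)⁻¹ from hz, mul_inv_cancel₀ hq0]
    exact_mod_cast this
  have h5 : (q : ℤ) ∣ 1 := ⟨z, h4.symm⟩
  exact hq.one_lt.ne' (Nat.dvd_one.1 (by exact_mod_cast h5))

/-- There are infinitely many primes. -/
@[simp] theorem pf_zero : pf (0 : R E) = ∅ := by
  unfold pf fin
  refine dif_neg fun hS => ?_
  have hc : (∏ p ∈ hS.toFinset, p) ≠ 0 :=
    Finset.prod_ne_zero_iff.2 fun p hp => (hS.mem_toFinset.1 hp).1.1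
  obtain ⟨b, hb, hcb⟩ := exists_dvd_nat hc
  have h6 := six_le_mm (E := E)
  have hb0 : b ≠ 0 := by
    rintro rfl
    rw [Nat.coprime_zero_left] at hb
    omega
  obtain ⟨q, hq1, hq⟩ := Nat.exists_infinite_primes (b + mm E + 1)
  have hqb : q.Coprime b := (Nat.coprime_of_lt_prime hb0 (by omega) hq)
  have hqm : q.Coprime (mm E) := (Nat.coprime_of_lt_prime (by omega) (by omega) hq)
  obtain ⟨p, hp1, hp2, hp3⟩ :=
    factA1_exists_prime (E := E) (Nat.cast_ne_zero.2 hq.ne_zero) (factA1_not_unit hq hqm)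
  have hp4 : p ∣ (b : R E) :=
    (Finset.dvd_prod_of_mem (fun p : R E => p)
      (hS.mem_toFinset.2 ⟨hp1, hp2, dvd_zero p⟩)).trans hcb
  have hco : IsCoprime (q : R E) (b : R E) := Nat.Coprime.cast hqb
  exact hp2.not_isUnit (hco.isUnit_of_dvd' hp3 hp4)
theorem pf_unit {u : R E} (hu : IsUnit u) : pf u = ∅ := by
  refine Finset.eq_empty_of_forall_notMem fun p hp => ?_
  obtain ⟨-, h1, h2⟩ := of_mem_pf hp
  exact h1.not_isUnit (isUnit_of_dvd_unit h2 hu)
@[simp] theorem pf_one : pf (1 : R E) = ∅ := pf_unit isUnit_one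
theorem pf_eq_empty_iff {n : R E} (hn : n ≠ 0) : pf n = ∅ ↔ IsUnit n := by
  refine ⟨fun h => ?_, pf_unit⟩
  by_contra hu
  obtain ⟨p, hp⟩ := factA1_exists_prime hn hu
  have := (mem_pf hn).2 hp
  rw [h] at this
  exact Finset.notMem_empty _ this
open Classical in
theorem pf_mul {a b : R E} (ha : a ≠ 0) (hb : b ≠ 0) : pf (a * b) = pf a ∪ pf b := by
  ext p
  rw [Finset.mem_union, mem_pf (mul_ne_zero ha hb), mem_pf ha, mem_pf hb]
  constructor
  · rintro ⟨h1, h2, h3⟩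
    exact (h2.dvd_or_dvd h3).imp (fun h => ⟨h1, h2, h⟩) fun h => ⟨h1, h2, h⟩
  · rintro (⟨h1, h2, h3⟩ | ⟨h1, h2, h3⟩)
    · exact ⟨h1, h2, h3.mul_right _⟩
    · exact ⟨h1, h2, h3.mul_left _⟩
theorem pf_pow {n : R E} {k : ℕ} (hk : k ≠ 0) : pf (n ^ k) = pf n := by
  unfold pf
  congr 1
  ext p
  exact ⟨fun h => ⟨h.1, h.2.1, h.2.1.dvd_of_dvd_pow h.2.2⟩,
    fun h => ⟨h.1, h.2.1, h.2.2.trans (dvd_pow_self n hk)⟩⟩
theorem pf_prime {p : R E} (hp : Prime p) : pf p = {nrm p} := by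
  ext q
  have h := associated_nrm hp.ne_zero
  rw [mem_pf hp.ne_zero, Finset.mem_singleton]
  constructor
  · rintro ⟨h1, h2, h3⟩
    exact h1.eq_of_associated (nm_nrm hp.ne_zero) ((h2.associated_of_dvd hp h3).trans h.symm)
  · rintro rfl
    exact ⟨nm_nrm hp.ne_zero, h.symm.prime hp, h.dvd⟩
theorem pf_of_associated {a b : R E} (h : Associated a b) : pf a = pf b := by
  unfold pf
  simp only [h.dvd_iff_dvd_right]
theorem dvs_of_associated {a b : R E} (h : Associated a b) : dvs a = dvs b := by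
  unfold dvs
  simp only [h.dvd_iff_dvd_right]
theorem pf_subset_of_dvd {a b : R E} (h : a ∣ b) (hb : b ≠ 0) : pf a ⊆ pf b := by
  intro p hp
  obtain ⟨h1, h2, h3⟩ := of_mem_pf hp
  exact (mem_pf hb).2 ⟨h1, h2, h3.trans h⟩
theorem isCoprime_iff_pf {n : R E} (hn : n ≠ 0) (x : R E) :
    IsCoprime n x ↔ ∀ p ∈ pf n, ¬ p ∣ x := by
  constructor
  · intro h p hp hx
    obtain ⟨-, h2, h3⟩ := of_mem_pf hp
    exact h2.not_isUnit (h.isUnit_of_dvd' h3 hx)
  · intro h
    refine isCoprime_of_prime_dvd (fun h0 => hn h0.1) fun z hz hzn hzx => ?_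
    have h' := associated_nrm hz.ne_zero
    exact h (nrm z) ((mem_pf hn).2 ⟨nm_nrm hz.ne_zero, h'.symm.prime hz, h'.dvd.trans hzn⟩)
      (h'.dvd.trans hzx)
theorem disjoint_pf {a b : R E} (h : IsCoprime a b) : Disjoint (pf a) (pf b) := by
  refine Finset.disjoint_left.2 fun p ha hb => ?_
  obtain ⟨-, h2, h3⟩ := of_mem_pf ha
  exact h2.not_isUnit (h.isUnit_of_dvd' h3 (of_mem_pf hb).2.2)
theorem isCoprime_of_disjoint_pf {a b : R E} (ha : a ≠ 0) (hb : b ≠ 0)
    (h : Disjoint (pf a) (pf b)) : IsCoprime a b := by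
  refine (isCoprime_iff_pf ha b).2 fun p hp hpb => ?_
  obtain ⟨h1, h2, -⟩ := of_mem_pf hp
  exact Finset.disjoint_left.1 h hp ((mem_pf hb).2 ⟨h1, h2, hpb⟩)
theorem eq_of_prime_dvd {p q : R E} (hp : Prime p) (hq : Prime q) (hp' : Nm p) (hq' : Nm q)
    (h : p ∣ q) : p = q := by
  exact hp'.eq_of_associated hq' (hp.associated_of_dvd hq h)
theorem pow_dvd_iff_le_vp {p n : R E} (hp : Prime p) (hn : n ≠ 0) {k : ℕ} :
    p ^ k ∣ n ↔ k ≤ vp p n := by
  exact (FiniteMultiplicity.of_prime_left hp hn).pow_dvd_iff_le_multiplicity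
theorem vp_eq_zero_iff {p n : R E} (hp : Prime p) (hn : n ≠ 0) : vp p n = 0 ↔ ¬ p ∣ n := by
  exact multiplicity_eq_zero
theorem vp_mul {p a b : R E} (hp : Prime p) (ha : a ≠ 0) (hb : b ≠ 0) :
    vp p (a * b) = vp p a + vp p b := by
  exact multiplicity_mul hp (FiniteMultiplicity.of_prime_left hp (mul_ne_zero ha hb))
theorem vp_pow {p n : R E} (hp : Prime p) (hn : n ≠ 0) (k : ℕ) : vp p (n ^ k) = k * vp p n := by
  exact (FiniteMultiplicity.of_prime_left hp hn).multiplicity_pow hp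
theorem vp_self {p : R E} (hp : Prime p) : vp p p = 1 := by
  exact multiplicity_self
theorem vp_of_associated (p : R E) {a b : R E} (h : Associated a b) : vp p a = vp p b := by
  exact multiplicity_eq_of_associated_right h
theorem vp_of_associated_left {p q : R E} (h : Associated p q) (a : R E) : vp p a = vp q a := by
  exact (multiplicity_eq_of_associated_left h).symm
theorem up_spec {p a : R E} (hp : Prime p) (ha : a ≠ 0) :
    a = p ^ vp p a * up p a ∧ ¬ p ∣ up p a := by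
  obtain ⟨c, hc, -⟩ := (FiniteMultiplicity.of_prime_left hp ha).exists_eq_pow_mul_and_not_dvd
  have h1 : a = p ^ vp p a * up p a :=
    Classical.epsilon_spec (p := fun c : R E => a = p ^ vp p a * c) ⟨c, hc⟩
  refine ⟨h1, fun h => ?_⟩
  have h2 : p ^ (vp p a + 1) ∣ a := by
    conv_rhs => rw [h1]
    rw [pow_succ]
    exact mul_dvd_mul_left _ h
  have := (pow_dvd_iff_le_vp hp ha).1 h2
  omega
open Classical in
theorem vp_prod_pow {s : Finset (R E)} (hs : ∀ q ∈ s, Nm q ∧ Prime q) (e : R E → ℕ) {p : R E}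
    (hp : Prime p) (hp' : Nm p) : vp p (∏ q ∈ s, q ^ e q) = if p ∈ s then e p else 0 := by
  induction s using Finset.induction_on with
  | empty =>
    rw [Finset.prod_empty, if_neg (Finset.notMem_empty p), vp_eq_zero_iff hp one_ne_zero]
    exact hp.not_dvd_one
  | insert q s hq ih =>
    have hs' : ∀ r ∈ s, Nm r ∧ Prime r := fun r hr => hs r (Finset.mem_insert_of_mem hr)
    obtain ⟨h1, h2⟩ := hs q (Finset.mem_insert_self q s)
    rw [Finset.prod_insert hq, vp_mul hp (pow_ne_zero _ h2.ne_zero)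
      (Nm.prod fun r hr => (hs' r hr).1.pow _).ne_zero, vp_pow hp h2.ne_zero, ih hs']
    by_cases h : p = q
    · subst h
      rw [vp_self hp, if_neg hq, if_pos (Finset.mem_insert_self p s), mul_one, add_zero]
    · rw [(vp_eq_zero_iff hp h2.ne_zero).2 fun hd => h (eq_of_prime_dvd hp h2 hp' h1 hd)]
      simp [h]
private theorem A2_ind {P : R E → Prop} (h1 : ∀ u, IsUnit u → P u)
    (hmul : ∀ p n, Prime p → Nm p → n ≠ 0 → P n → P (p * n)) {n : R E} (hn : n ≠ 0) : P n := by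
  have key : n ≠ 0 → ∀ u, IsUnit u → P (u * n) := by
    refine UniqueFactorizationMonoid.induction_on_prime
      (P := fun n => n ≠ 0 → ∀ u, IsUnit u → P (u * n)) n (fun h => absurd rfl h)
      (fun x hx _ u hu => h1 _ (hu.mul hx)) fun a p ha hp ih _ u hu => ?_
    obtain ⟨v, hv, e⟩ := exists_unit_nrm hp.ne_zero
    have e' : u * (p * a) = nrm p * (u * v * a) := by
      conv_lhs => rw [e]
      ring
    rw [e']
    exact hmul _ _ ((associated_nrm hp.ne_zero).symm.prime hp) (nm_nrm hp.ne_zero)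
      (mul_ne_zero (hu.mul hv).ne_zero ha) (ih ha _ (hu.mul hv))
  simpa using key hn 1 isUnit_one
private theorem A2_dvd {a : R E} (ha : a ≠ 0) :
    ∀ b : R E, b ≠ 0 → (∀ p ∈ pf a, vp p a ≤ vp p b) → a ∣ b := by
  refine A2_ind (P := fun a => ∀ b : R E, b ≠ 0 → (∀ p ∈ pf a, vp p a ≤ vp p b) → a ∣ b)
    (fun u hu b _ _ => hu.dvd) (fun p n hp hp' hn ih b hb h => ?_) ha
  have hpn := mul_ne_zero hp.ne_zero hn
  have h1 := h p ((mem_pf hpn).2 ⟨hp', hp, dvd_mul_right _ _⟩)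
  rw [vp_mul hp hp.ne_zero hn, vp_self hp] at h1
  obtain ⟨c, rfl⟩ : p ∣ b := by
    by_contra h2
    rw [(vp_eq_zero_iff hp hb).2 h2] at h1
    omega
  have hc := right_ne_zero_of_mul hb
  refine mul_dvd_mul_left p (ih c hc fun q hq => ?_)
  have hq' := (of_mem_pf hq).2.1
  have h2 := h q (pf_subset_of_dvd (dvd_mul_left _ _) hpn hq)
  rw [vp_mul hq' hp.ne_zero hn, vp_mul hq' hp.ne_zero hc] at h2
  omega
private theorem A2_assoc {a b : R E} (ha : a ≠ 0) (hb : b ≠ 0)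
    (h : ∀ p, Prime p → Nm p → vp p a = vp p b) : Associated a b :=
  associated_of_dvd_dvd (A2_dvd ha b hb fun p hp => (h p (of_mem_pf hp).2.1 (of_mem_pf hp).1).le)
    (A2_dvd hb a ha fun p hp => (h p (of_mem_pf hp).2.1 (of_mem_pf hp).1).ge)
private theorem A2_pf {n : R E} : ∀ q ∈ pf n, Nm q ∧ Prime q := fun _ hq =>
  ⟨(of_mem_pf hq).1, (of_mem_pf hq).2.1⟩
private theorem A2_vp_le_one {n p : R E} (h : Squarefree n) (hp : Prime p) : vp p n ≤ 1 := by
  by_contra h2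
  have h3 := (pow_dvd_iff_le_vp hp h.ne_zero (k := 2)).2 (by omega)
  rw [pow_two] at h3
  exact hp.not_isUnit (h p h3)
private theorem A2_sqfree {n : R E} (hn : n ≠ 0) (h : ∀ p ∈ pf n, vp p n ≤ 1) : Squarefree n := by
  intro x hx
  have hx0 : x ≠ 0 := by
    rintro rfl
    exact hn (by simpa using hx)
  rw [← pf_eq_empty_iff hx0]
  refine Finset.eq_empty_of_forall_notMem fun p hp => ?_
  obtain ⟨-, h2, h3⟩ := of_mem_pf hp
  have h4 := (pow_dvd_iff_le_vp h2 hn (k := 2)).1 (by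
    rw [pow_two]; exact (mul_dvd_mul h3 h3).trans hx)
  have h5 := h p (pf_subset_of_dvd ((dvd_mul_right x x).trans hx) hn hp)
  omega
theorem nrm_eq_prod {n : R E} (hn : n ≠ 0) : nrm n = ∏ p ∈ pf n, p ^ vp p n := by
  have h1 : Nm (∏ p ∈ pf n, p ^ vp p n) := Nm.prod fun p hp => (of_mem_pf hp).1.pow _
  refine (nm_nrm hn).eq_of_associated h1 ((associated_nrm hn).trans
    (A2_assoc hn h1.1 fun p hp hp' => ?_))
  rw [vp_prod_pow A2_pf (fun p => vp p n) hp hp']
  split_ifs with h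
  · rfl
  · exact (vp_eq_zero_iff hp hn).2 fun h2 => h ((mem_pf hn).2 ⟨hp', hp, h2⟩)
theorem Nm.eq_prod {n : R E} (hn : Nm n) : n = ∏ p ∈ pf n, p ^ vp p n :=
  hn.nrm_eq.symm.trans (nrm_eq_prod hn.1)
/-- Induction over normalised elements. -/
theorem Nm.induction {P : R E → Prop} (h1 : P 1)
    (hmul : ∀ p n, Prime p → Nm p → Nm n → P n → P (p * n)) {n : R E} (hn : Nm n) : P n := by
  rw [← hn.nrm_eq]
  refine A2_ind (P := fun n => P (nrm n)) (fun u hu => ?_) (fun p n hp hp' hn ih => ?_) hn.1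
  · rwa [(nm_nrm hu.ne_zero).eq_one_of_isUnit ((associated_nrm hu.ne_zero).symm.isUnit hu)]
  · rw [nrm_mul hp.ne_zero hn, hp'.nrm_eq]
    exact hmul _ _ hp hp' (nm_nrm hn) ih
/-- Induction over non-zero elements. -/
theorem ne_zero_induction {P : R E → Prop} (h1 : ∀ u, IsUnit u → P u)
    (hmul : ∀ p n, Prime p → Nm p → n ≠ 0 → P n → P (p * n)) {n : R E} (hn : n ≠ 0) : P n :=
  A2_ind h1 hmul hn
/-- Induction over squarefree elements. -/
theorem squarefree_induction {P : R E → Prop} (h1 : ∀ u, IsUnit u → P u)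
    (hmul : ∀ p n, Prime p → Squarefree n → ¬ p ∣ n → P n → P (p * n)) {n : R E}
    (hn : Squarefree n) : P n := by
  refine A2_ind (P := fun n => Squarefree n → P n) (fun u hu _ => h1 u hu)
    (fun p n hp _ _ ih hs => ?_) hn.ne_zero hn
  exact hmul p n hp hs.of_mul_right (fun h => hp.not_isUnit (hs p (mul_dvd_mul_left p h)))
    (ih hs.of_mul_right)
theorem dvd_iff_vp {a b : R E} (ha : a ≠ 0) (hb : b ≠ 0) :
    a ∣ b ↔ ∀ p ∈ pf a, vp p a ≤ vp p b := by
  refine ⟨fun h p hp => ?_, A2_dvd ha b hb⟩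
  have hp' := (of_mem_pf hp).2.1
  exact (pow_dvd_iff_le_vp hp' hb).1 (((pow_dvd_iff_le_vp hp' ha).2 le_rfl).trans h)
theorem associated_of_vp {a b : R E} (ha : a ≠ 0) (hb : b ≠ 0)
    (h : ∀ p, Prime p → Nm p → vp p a = vp p b) : Associated a b := A2_assoc ha hb h
private theorem A2_vp_prod {s : Finset (R E)} (hs : ∀ q ∈ s, Nm q ∧ Prime q) {p : R E}
    (hp : Prime p) (hp' : Nm p) : vp p (∏ q ∈ s, q) ≤ 1 := by
  have h := vp_prod_pow hs (fun _ => 1) hp hp'
  simp only [pow_one] at h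
  rw [h]
  split_ifs <;> omega
theorem squarefree_prod_primes {s : Finset (R E)} (hs : ∀ q ∈ s, Nm q ∧ Prime q) :
    Squarefree (∏ q ∈ s, q) ∧ Nm (∏ q ∈ s, q) ∧ pf (∏ q ∈ s, q) = s := by
  have h1 : Nm (∏ q ∈ s, q) := Nm.prod fun q hq => (hs q hq).1
  refine ⟨A2_sqfree h1.1 fun p hp => A2_vp_prod hs (of_mem_pf hp).2.1 (of_mem_pf hp).1, h1, ?_⟩
  ext p
  rw [mem_pf h1.1]
  constructor
  · rintro ⟨a1, a2, a3⟩
    obtain ⟨q, hq, hpq⟩ := (a2.dvd_finsetProd_iff _).1 a3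
    rwa [eq_of_prime_dvd a2 (hs q hq).2 a1 (hs q hq).1 hpq]
  · exact fun hp => ⟨(hs p hp).1, (hs p hp).2, Finset.dvd_prod_of_mem _ hp⟩
theorem squarefree_iff_vp {n : R E} (hn : n ≠ 0) : Squarefree n ↔ ∀ p ∈ pf n, vp p n = 1 := by
  refine ⟨fun h p hp => ?_, fun h => A2_sqfree hn fun p hp => (h p hp).le⟩
  obtain ⟨-, h2, h3⟩ := of_mem_pf hp
  have h4 := A2_vp_le_one h h2
  have h5 : vp p n ≠ 0 := fun h0 => (vp_eq_zero_iff h2 hn).1 h0 h3
  omega
theorem prod_primes_dvd_iff {s : Finset (R E)} (hs : ∀ q ∈ s, Nm q ∧ Prime q) (x : R E) :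
    (∏ p ∈ s, p) ∣ x ↔ ∀ p ∈ s, p ∣ x := by
  refine ⟨fun h p hp => (Finset.dvd_prod_of_mem _ hp).trans h, fun h => ?_⟩
  rcases eq_or_ne x 0 with rfl | hx
  · exact dvd_zero _
  obtain ⟨-, h1, h2⟩ := squarefree_prod_primes hs
  refine A2_dvd h1.1 x hx fun p hp => ?_
  rw [h2] at hp
  refine (A2_vp_prod hs (hs p hp).2 (hs p hp).1).trans ?_
  exact (pow_dvd_iff_le_vp (hs p hp).2 hx).1 (by rw [pow_one]; exact h p hp)
theorem squarefree_rad (n : R E) : Squarefree (rad n) := (squarefree_prod_primes A2_pf).1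
theorem nm_rad (n : R E) : Nm (rad n) := (squarefree_prod_primes A2_pf).2.1
theorem pf_rad (n : R E) : pf (rad n) = pf n := (squarefree_prod_primes A2_pf).2.2
theorem rad_dvd (n : R E) : rad n ∣ n :=
  (prod_primes_dvd_iff A2_pf n).2 fun _ hp => (of_mem_pf hp).2.2
theorem rad_eq_nrm {n : R E} (h : Squarefree n) : rad n = nrm n := by
  rw [nrm_eq_prod h.ne_zero, rad]
  exact Finset.prod_congr rfl fun p hp => by
    rw [(squarefree_iff_vp h.ne_zero).1 h p hp, pow_one]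
/-- Uniqueness of the decomposition `n d³`. -/
theorem sqfree_cube_unique {n d n' d' : R E} (hn : Squarefree n) (hn' : Squarefree n') (hd : d ≠ 0)
    (h : n * d ^ 3 = n' * d' ^ 3) : ∃ u : R E, IsUnit u ∧ d' = u * d ∧ n = u ^ 3 * n' := by
  have hd' : d' ≠ 0 := by
    rintro rfl
    exact mul_ne_zero hn.ne_zero (pow_ne_zero 3 hd) (by rw [h]; simp)
  obtain ⟨u, rfl⟩ := A2_assoc hd hd' fun p hp _ => by
    have h1 := congrArg (vp p) h
    rw [vp_mul hp hn.ne_zero (pow_ne_zero 3 hd), vp_mul hp hn'.ne_zero (pow_ne_zero 3 hd'),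
      vp_pow hp hd, vp_pow hp hd'] at h1
    have h2 := A2_vp_le_one hn hp
    have h3 := A2_vp_le_one hn' hp
    omega
  refine ⟨u, u.isUnit, mul_comm _ _, mul_right_cancel₀ (pow_ne_zero 3 hd) ?_⟩
  rw [h]
  ring
private theorem A2_split {c : R E} (hc : c ≠ 0) (k : ℕ) (h : ∀ p ∈ pf c, vp p c % k ≤ 1) :
    ∃ n d : R E, Squarefree n ∧ Nm d ∧ c = n * d ^ k := by
  obtain ⟨u, hu, e⟩ := exists_unit_nrm hc
  have h1 : Nm (∏ p ∈ pf c, p ^ (vp p c % k)) := Nm.prod fun p hp => (of_mem_pf hp).1.pow _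
  have h2 : Squarefree (∏ p ∈ pf c, p ^ (vp p c % k)) := A2_sqfree h1.1 fun p hp => by
    rw [vp_prod_pow A2_pf (fun p => vp p c % k) (of_mem_pf hp).2.1 (of_mem_pf hp).1]
    split_ifs with h3
    · exact h p h3
    · omega
  refine ⟨u * ∏ p ∈ pf c, p ^ (vp p c % k), ∏ p ∈ pf c, p ^ (vp p c / k),
    (associated_unit_mul_left _ _ hu).squarefree_iff.2 h2,
    Nm.prod fun p hp => (of_mem_pf hp).1.pow _, ?_⟩
  rw [mul_assoc, ← Finset.prod_pow, ← Finset.prod_mul_distrib]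
  conv_lhs => rw [e, nrm_eq_prod hc]
  congr 1
  exact Finset.prod_congr rfl fun p _ => by rw [← pow_mul, ← pow_add, Nat.mod_add_div']
theorem exists_sqfree_cube {c : R E} (hc : c ≠ 0) (h : ∀ p ∈ pf c, vp p c % 3 ≠ 2) :
    ∃ n d : R E, Squarefree n ∧ Nm d ∧ c = n * d ^ 3 :=
  A2_split hc 3 fun p hp => by have := h p hp; omega
theorem vp_sqfree_cube {n d p : R E} (hn : Squarefree n) (hd : d ≠ 0) (hp : Prime p) :
    vp p (n * d ^ 3) % 3 ≠ 2 := by
  rw [vp_mul hp hn.ne_zero (pow_ne_zero 3 hd), vp_pow hp hd]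
  have := A2_vp_le_one hn hp
  omega
theorem exists_sqfree_sq {c : R E} (hc : c ≠ 0) :
    ∃ n d : R E, Squarefree n ∧ Nm d ∧ c = n * d ^ 2 :=
  A2_split hc 2 fun p _ => by omega

/-- The normalised gcd. -/
def ngcd (a b : R E) : R E := gen (Ideal.span {a, b})
private theorem A3_span_ne {a : R E} (ha : a ≠ 0) (b : R E) :
    (Ideal.span {a, b} : Ideal (R E)) ≠ ⊥ := fun h =>
  ha (Ideal.span_eq_bot.1 h a (Set.mem_insert _ _))
theorem nm_ngcd {a : R E} (ha : a ≠ 0) (b : R E) : Nm (ngcd a b) := by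
  have h := span_gen (A3_span_ne ha b)
  refine ⟨fun h0 => A3_span_ne ha b ?_, ?_⟩
  · rw [← h]
    exact Ideal.span_singleton_eq_bot.2 h0
  · unfold ngcd
    rw [h]
theorem dvd_ngcd_iff {a : R E} (ha : a ≠ 0) (b d : R E) : d ∣ ngcd a b ↔ d ∣ a ∧ d ∣ b := by
  unfold ngcd
  rw [← Ideal.span_singleton_le_span_singleton, span_gen (A3_span_ne ha b), Ideal.span_le,
    Set.insert_subset_iff, Set.singleton_subset_iff, SetLike.mem_coe, SetLike.mem_coe,
    Ideal.mem_span_singleton, Ideal.mem_span_singleton]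
theorem ngcd_eq_one_iff {a : R E} (ha : a ≠ 0) (b : R E) : ngcd a b = 1 ↔ IsCoprime a b := by
  constructor
  · intro h
    have h1 := span_gen (A3_span_ne ha b)
    rw [show gen (Ideal.span {a, b}) = 1 from h] at h1
    have h2 : (1 : R E) ∈ Ideal.span {a, b} := h1 ▸ Ideal.mem_span_singleton_self 1
    exact Ideal.mem_span_pair.1 h2
  · intro h
    have h1 := (dvd_ngcd_iff ha b _).1 dvd_rfl
    exact (nm_ngcd ha b).eq_one_of_isUnit (h.isUnit_of_dvd' h1.1 h1.2)
theorem ngcd_mul_left {g a : R E} (hg : Nm g) (ha : a ≠ 0) (b : R E) :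
    ngcd (g * a) (g * b) = g * ngcd a b := by
  have h : (Ideal.span {g * a, g * b} : Ideal (R E)) = Ideal.span {g} * Ideal.span {a, b} := by
    rw [Ideal.span_insert, Ideal.span_insert, Ideal.mul_sup,
      Ideal.span_singleton_mul_span_singleton, Ideal.span_singleton_mul_span_singleton]
  unfold ngcd
  rw [h, gen_mul (fun h0 => hg.1 (Ideal.span_singleton_eq_bot.1 h0)) (A3_span_ne ha b), hg.2]

theorem mu_of_squarefree {n : R E} (h : Squarefree n) : mu n = (-1) ^ (pf n).card := by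
  classical
  refine squarefree_induction (P := fun n => mu n = (-1) ^ (pf n).card) (fun u hu => ?_)
    (fun p n hp hn hpn ih => ?_) h
  · simp only [mu, hu.moebius_eq, pf_unit hu]
    simp
  · have h1 : nrm p ∉ pf n := fun hm =>
      hpn ((associated_nrm hp.ne_zero).symm.dvd.trans (of_mem_pf hm).2.2)
    have h2 : pf (p * n) = insert (nrm p) (pf n) := by
      ext q
      rw [pf_mul hp.ne_zero hn.ne_zero, pf_prime hp]
      simp
    have h3 : IsRelPrime p n := (hp.irreducible.isRelPrime_iff_not_dvd).2 hpn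
    simp only [mu] at ih ⊢
    rw [h3.moebius_mul, hp.irreducible.moebius_eq, h2, Finset.card_insert_of_notMem h1,
      Int.cast_mul, ih, pow_succ]
    push_cast
    ring
theorem mu_of_not {n : R E} (h : ¬ Squarefree n) : mu n = 0 := by
  simp only [mu, UniqueFactorizationMonoid.moebius_of_not_squarefree h, Int.cast_zero]
theorem mu_unit {u : R E} (h : IsUnit u) : mu u = 1 := by
  simp only [mu, h.moebius_eq, Int.cast_one]
@[simp] theorem mu_one : mu (1 : R E) = 1 := mu_unit isUnit_one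
theorem mu_prime {p : R E} (hp : Prime p) : mu p = -1 := by
  simp only [mu, hp.irreducible.moebius_eq, Int.cast_neg, Int.cast_one]
theorem mu_of_associated {a b : R E} (h : Associated a b) : mu a = mu b := by
  simp only [mu, h.moebius_eq]
theorem mu_mul {a b : R E} (h : IsCoprime a b) : mu (a * b) = mu a * mu b := by
  simp only [mu, h.isRelPrime.moebius_mul, Int.cast_mul]
theorem mu_mul_of_not_coprime {a b : R E} (h : ¬ IsCoprime a b) : mu (a * b) = 0 :=
  mu_of_not fun hs => h (squarefree_mul_iff.1 hs).1.isCoprime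
theorem norm_mu_le (n : R E) : ‖mu n‖ ≤ 1 := by
  by_cases h : Squarefree n
  · rw [mu_of_squarefree h]
    simp
  · rw [mu_of_not h]
    simp
theorem mu_sq {n : R E} (h : Squarefree n) : mu n * mu n = 1 := by
  rw [mu_of_squarefree h, ← mul_pow]
  simp
theorem conj_mu (n : R E) : conj (mu n) = mu n := by
  simp only [mu, map_intCast]
private theorem A3_sum_dvs {z : R E} (hz : z ≠ 0) (F : R E → ℂ)
    (hF : ∀ d, d ∣ z → ¬ Squarefree d → F d = 0) :
    ∑ d ∈ dvs z, F d = ∑ S ∈ (pf z).powerset, F (∏ q ∈ S, q) := by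
  classical
  rw [← Finset.sum_filter_of_ne (s := dvs z) (p := fun d => Squarefree d) (f := F)
    fun d hd hne => by_contra fun hs => hne (hF d (of_mem_dvs hd).2 hs)]
  have hpr : ∀ S ∈ (pf z).powerset, ∀ q ∈ S, Nm q ∧ Prime q := fun S hS q hq =>
    ⟨(of_mem_pf (Finset.mem_powerset.1 hS hq)).1, (of_mem_pf (Finset.mem_powerset.1 hS hq)).2.1⟩
  have hrad : ∀ d ∈ (dvs z).filter (fun d => Squarefree d), ∏ q ∈ pf d, q = d := fun d hd => by
    obtain ⟨h1, h2⟩ := Finset.mem_filter.1 hd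
    exact (rad_eq_nrm h2).trans (of_mem_dvs h1).1.nrm_eq
  refine Finset.sum_bij' (fun d _ => pf d) (fun S _ => ∏ q ∈ S, q) (fun d hd => ?_)
    (fun S hS => ?_) hrad (fun S hS => (squarefree_prod_primes (hpr S hS)).2.2) fun d hd => ?_
  · exact Finset.mem_powerset.2 (pf_subset_of_dvd (of_mem_dvs (Finset.mem_filter.1 hd).1).2 hz)
  · obtain ⟨h1, h2, -⟩ := squarefree_prod_primes (hpr S hS)
    refine Finset.mem_filter.2 ⟨(mem_dvs hz).2 ⟨h2, ?_⟩, h1⟩
    exact (prod_primes_dvd_iff (hpr S hS) z).2 fun p hp =>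
      (of_mem_pf (Finset.mem_powerset.1 hS hp)).2.2
  · rw [hrad d hd]
open Classical in
theorem sum_mu_dvs {n : R E} (hn : n ≠ 0) : ∑ d ∈ dvs n, mu d = if IsUnit n then 1 else 0 := by
  have h1 : ∑ d ∈ dvs n, mu d = ∑ S ∈ (pf n).powerset, (-1 : ℂ) ^ S.card := by
    rw [A3_sum_dvs hn mu fun d _ hd => mu_of_not hd]
    refine Finset.sum_congr rfl fun S hS => ?_
    obtain ⟨h1, -, h3⟩ := squarefree_prod_primes (s := S) fun q hq =>
      ⟨(of_mem_pf (Finset.mem_powerset.1 hS hq)).1, (of_mem_pf (Finset.mem_powerset.1 hS hq)).2.1⟩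
    rw [mu_of_squarefree h1, h3]
  have h2 := congrArg (Int.cast : ℤ → ℂ) (Finset.sum_powerset_neg_one_pow_card (x := pf n))
  push_cast at h2
  rw [h1, h2]
  simp only [pf_eq_empty_iff hn]
open Classical in
/-- Detecting coprimality. -/
theorem sum_mu_coprime {a : R E} (ha : a ≠ 0) (b : R E) :
    ∑ d ∈ (dvs a).filter (· ∣ b), mu d = if IsCoprime a b then 1 else 0 := by
  have hg := nm_ngcd ha b
  have h1 : (dvs a).filter (· ∣ b) = dvs (ngcd a b) := by
    ext d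
    rw [Finset.mem_filter, mem_dvs ha, mem_dvs hg.1, dvd_ngcd_iff ha, and_assoc]
  have h2 : IsUnit (ngcd a b) ↔ IsCoprime a b := by
    rw [← ngcd_eq_one_iff ha]
    exact ⟨hg.eq_one_of_isUnit, fun h => h ▸ isUnit_one⟩
  rw [h1, sum_mu_dvs hg.1]
  simp only [h2]
theorem sum_dvs_sqfree {z : R E} (hs : Squarefree z) (F : R E → ℂ) :
    ∑ d ∈ dvs z, F d = ∑ S ∈ (pf z).powerset, F (∏ q ∈ S, q) :=
  A3_sum_dvs hs.ne_zero F fun _ hd hn => absurd (hs.squarefree_of_dvd hd) hn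

/-! ## part B: residue systems -/

theorem mk_eq_mk_iff {n x y : R E} :
    Ideal.Quotient.mk (Ideal.span {n}) x = Ideal.Quotient.mk (Ideal.span {n}) y ↔ n ∣ x - y := by
  rw [Ideal.Quotient.eq, Ideal.mem_span_singleton]
theorem exists_unique_res {n : R E} (hn : n ≠ 0) (x : R E) : ∃! r, r ∈ res n ∧ n ∣ x - r := by
  have := finite_quot hn
  have hm : ∀ r, r ∈ res n ↔
      r ∈ Set.range fun q : R E ⧸ Ideal.span {n} => (Quotient.out q : R E) :=
    fun r => mem_fin (Set.finite_range _)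
  refine ⟨Quotient.out (Ideal.Quotient.mk (Ideal.span {n}) x), ⟨(hm _).2 ⟨_, rfl⟩,
    mk_eq_mk_iff.1 (Ideal.Quotient.mk_out _).symm⟩, fun r hr => ?_⟩
  obtain ⟨q, rfl⟩ := (hm r).1 hr.1
  rw [mk_eq_mk_iff.2 hr.2, Ideal.Quotient.mk_out]
private theorem B_bijOn_res {n : R E} {S : Finset (R E)} (hS : ∀ x, ∃! r, r ∈ S ∧ n ∣ x - r) :
    Set.BijOn (Ideal.Quotient.mk (Ideal.span {n})) (S : Set (R E)) Set.univ := by
  refine ⟨fun _ _ => Set.mem_univ _, fun x hx y hy h => ?_, fun q _ => ?_⟩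
  · exact (hS x).unique ⟨hx, by simp⟩ ⟨hy, mk_eq_mk_iff.1 h⟩
  · obtain ⟨x, rfl⟩ := Ideal.Quotient.mk_surjective q
    obtain ⟨r, ⟨hr, hr'⟩, -⟩ := hS x
    exact ⟨r, hr, (mk_eq_mk_iff.2 hr').symm⟩
theorem card_res {n : R E} (hn : n ≠ 0) : (res n).card = nN n := by
  show _ = Nat.card (R E ⧸ Ideal.span {n})
  rw [← Nat.card_univ, ← Nat.card_congr (B_bijOn_res (exists_unique_res hn)).equiv]
  simp
theorem res_of_associated {a b : R E} (h : Associated a b) : res a = res b :=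
  congrArg (fun I : Ideal (R E) => fin (Set.range fun q : R E ⧸ I => (Quotient.out q : R E)))
    (Ideal.span_singleton_eq_span_singleton.2 h)
theorem sum_res_eq {n : R E} (hn : n ≠ 0) (f : R E → ℂ) (hf : ∀ x y, n ∣ x - y → f x = f y)
    (S : Finset (R E)) (hS : ∀ x, ∃! r, r ∈ S ∧ n ∣ x - r) :
    ∑ x ∈ res n, f x = ∑ x ∈ S, f x := by
  have hT := exists_unique_res hn
  refine Finset.sum_bij' (fun x _ => (hS x).choose) (fun x _ => (hT x).choose)
    (fun x _ => (hS x).choose_spec.1.1) (fun x _ => (hT x).choose_spec.1.1)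
    (fun x hx => ?_) (fun x hx => ?_) (fun x _ => hf _ _ (hS x).choose_spec.1.2)
  · refine ((hT _).choose_spec.2 x ⟨hx, ?_⟩).symm
    rw [← dvd_neg, neg_sub]
    exact (hS x).choose_spec.1.2
  · refine ((hS _).choose_spec.2 x ⟨hx, ?_⟩).symm
    rw [← dvd_neg, neg_sub]
    exact (hT x).choose_spec.1.2
theorem sum_res_param {n : R E} (hn : n ≠ 0) (f : R E → ℂ) (hf : ∀ x y, n ∣ x - y → f x = f y)
    {α : Type} (s : Finset α) (g : α → R E) (hg : ∀ x, ∃! a, a ∈ s ∧ n ∣ x - g a) :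
    ∑ x ∈ res n, f x = ∑ a ∈ s, f (g a) := by
  classical
  have hinj : ∀ a ∈ s, ∀ b ∈ s, g a = g b → a = b := fun a ha b hb h =>
    (hg (g a)).unique ⟨ha, by simp⟩ ⟨hb, by rw [h]; simp⟩
  rw [← Finset.sum_image (f := f) (g := g) hinj]
  refine sum_res_eq hn f hf _ fun x => ?_
  obtain ⟨a, ⟨ha, ha'⟩, hu⟩ := hg x
  refine ⟨g a, ⟨Finset.mem_image_of_mem _ ha, ha'⟩, ?_⟩
  rintro r ⟨hr, hr'⟩
  obtain ⟨b, hb, rfl⟩ := Finset.mem_image.1 hr
  rw [hu b ⟨hb, hr'⟩]
theorem sum_res_congr {n : R E} (f : R E → ℂ) (hf : ∀ x y, n ∣ x - y → f x = f y)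
    (g : R E → R E) (hg : ∀ x, n ∣ x - g x) : ∑ x ∈ res n, f (g x) = ∑ x ∈ res n, f x :=
  Finset.sum_congr rfl fun x _ => (hf _ _ (hg x)).symm
theorem sum_res_affine {n : R E} (hn : n ≠ 0) (f : R E → ℂ) (hf : ∀ x y, n ∣ x - y → f x = f y)
    {a : R E} (ha : IsCoprime a n) (b : R E) :
    ∑ x ∈ res n, f (a * x + b) = ∑ x ∈ res n, f x := by
  refine (sum_res_param hn f hf (res n) (fun x => a * x + b) fun x => ?_).symm
  obtain ⟨u, v, huv⟩ := id ha
  obtain ⟨r, ⟨hr, k, hk⟩, hu⟩ := exists_unique_res hn (u * (x - b))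
  refine ⟨r, ⟨hr, a * k + v * (x - b), ?_⟩, ?_⟩
  · linear_combination a * hk - (x - b) * huv
  · rintro r' ⟨hr', k', hk'⟩
    refine hu r' ⟨hr', u * k' - v * r', ?_⟩
    linear_combination u * hk' + r' * huv
theorem sum_res_crt {a b : R E} (ha : a ≠ 0) (hb : b ≠ 0) (h : IsCoprime a b) (f : R E → ℂ)
    (hf : ∀ x y, a * b ∣ x - y → f x = f y) :
    ∑ x ∈ res (a * b), f x = ∑ x ∈ res a, ∑ y ∈ res b, f (b * x + a * y) := by
  rw [← Finset.sum_product']
  refine sum_res_param (mul_ne_zero ha hb) f hf (res a ×ˢ res b)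
    (fun z => b * z.1 + a * z.2) fun x => ?_
  obtain ⟨u, v, huv⟩ := id h
  obtain ⟨r, ⟨hr, k, hk⟩, hu⟩ := exists_unique_res ha (v * x)
  obtain ⟨s, ⟨hs, l, hl⟩, hu'⟩ := exists_unique_res hb (u * x)
  refine ⟨(r, s), ⟨Finset.mem_product.2 ⟨hr, hs⟩, k + l, ?_⟩, ?_⟩
  · linear_combination b * hk + a * hl - x * huv
  · rintro ⟨r', s'⟩ ⟨hrs, k', hk'⟩
    obtain ⟨hr', hs'⟩ := Finset.mem_product.1 hrs
    simp only at hr' hs' hk'
    have e1 := hu r' ⟨hr', v * b * k' + v * s' - u * r', by linear_combination v * hk' + r' * huv⟩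
    have e2 := hu' s' ⟨hs', u * a * k' + u * r' - v * s', by linear_combination u * hk' + s' * huv⟩
    rw [e1, e2]
theorem sum_res_mul {a b : R E} (ha : a ≠ 0) (hb : b ≠ 0) (f : R E → ℂ)
    (hf : ∀ x y, a * b ∣ x - y → f x = f y) :
    ∑ x ∈ res (a * b), f x = ∑ x ∈ res a, ∑ y ∈ res b, f (x + a * y) := by
  rw [← Finset.sum_product']
  refine sum_res_param (mul_ne_zero ha hb) f hf (res a ×ˢ res b)
    (fun z => z.1 + a * z.2) fun x => ?_
  obtain ⟨r, ⟨hr, k, hk⟩, hu⟩ := exists_unique_res ha x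
  obtain ⟨s, ⟨hs, l, hl⟩, hu'⟩ := exists_unique_res hb k
  refine ⟨(r, s), ⟨Finset.mem_product.2 ⟨hr, hs⟩, l, ?_⟩, ?_⟩
  · linear_combination hk + a * hl
  · rintro ⟨r', s'⟩ ⟨hrs, k', hk'⟩
    obtain ⟨hr', hs'⟩ := Finset.mem_product.1 hrs
    simp only at hr' hs' hk'
    have e1 := hu r' ⟨hr', b * k' + s', by linear_combination hk'⟩
    subst e1
    have e2 := hu' s' ⟨hs', k', mul_left_cancel₀ ha (by linear_combination hk' - hk)⟩
    rw [e2]
theorem sum_res_unit {u : R E} (hu : IsUnit u) (f : R E → ℂ) (hf : ∀ x y, f x = f y) :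
    ∑ x ∈ res u, f x = f 0 := by
  rw [sum_res_eq hu.ne_zero f (fun x y _ => hf x y) {0} fun x =>
    ⟨0, ⟨Finset.mem_singleton_self 0, hu.dvd⟩, fun r hr => Finset.mem_singleton.1 hr.1⟩,
    Finset.sum_singleton]
theorem sum_res_eq_quot {n : R E} (hn : n ≠ 0) [Fintype (R E ⧸ Ideal.span {n})]
    (f : R E ⧸ Ideal.span {n} → ℂ) :
    ∑ x ∈ res n, f (Ideal.Quotient.mk _ x) = ∑ y, f y := by
  have hb := B_bijOn_res (exists_unique_res hn)
  refine Finset.sum_nbij (Ideal.Quotient.mk _) (fun _ _ => Finset.mem_univ _) hb.injOn ?_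
    fun _ _ => rfl
  simpa using hb.surjOn

end Crest.Agent.R312
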