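import Crest.Agent.R312.Char

/-!
# Row 312: residue characters modulo a prime (auxiliary to `Symbol.lean`, port of
`R17/SymbolAux.lean`)
-/

set_option autoImplicit false

noncomputable section

namespace Crest.Agent.R312
namespace SyA

open NumberField
open scoped ComplexConjugate

variable {E : Type} [Field E] [NumberField E] [Fr E]

theorem vp_ne {n p : R E} (h : p ∈ pf n) : vp p n ≠ 0 := by
  have hn : n ≠ 0 := by
    rintro rfl
    simp at h
  obtain ⟨-, h1, h3⟩ := of_mem_pf h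
  exact fun h0 => (vp_eq_zero_iff h1 hn).1 h0 h3

theorem prod_mul {m n : R E} (hm : m ≠ 0) (hn : n ≠ 0) (f : R E → ℂ) :
    ∏ p ∈ pf (m * n), f p ^ vp p (m * n) =
      (∏ p ∈ pf m, f p ^ vp p m) * ∏ p ∈ pf n, f p ^ vp p n := by
  classical
  have hmn := mul_ne_zero hm hn
  have key : ∀ k : R E, k ≠ 0 → k ∣ m * n →
      ∏ p ∈ pf k, f p ^ vp p k = ∏ p ∈ pf (m * n), f p ^ vp p k := fun k hk hs =>
    Finset.prod_subset (pf_subset_of_dvd hs hmn) fun p hp hp' => by
      obtain ⟨h1, h2, -⟩ := of_mem_pf hp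
      rw [(vp_eq_zero_iff h2 hk).2 fun h => hp' ((mem_pf hk).2 ⟨h1, h2, h⟩), pow_zero]
  rw [key m hm (dvd_mul_right _ _), key n hn (dvd_mul_left _ _), ← Finset.prod_mul_distrib]
  refine Finset.prod_congr rfl fun p hp => ?_
  rw [vp_mul (of_mem_pf hp).2.1 hm hn, pow_add]

theorem prod_assoc {m n : R E} (h : Associated m n) (f : R E → ℂ) :
    ∏ p ∈ pf m, f p ^ vp p m = ∏ p ∈ pf n, f p ^ vp p n := by
  rw [pf_of_associated h]
  exact Finset.prod_congr rfl fun p _ => by rw [vp_of_associated p h]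

theorem prod_pow (n : R E) (k : ℕ) (f : R E → ℂ) :
    ∏ p ∈ pf (n ^ k), f p ^ vp p (n ^ k) = (∏ p ∈ pf n, f p ^ vp p n) ^ k := by
  rcases Nat.eq_zero_or_pos k with rfl | hk
  · rw [pow_zero, pow_zero, pf_one, Finset.prod_empty]
  rcases eq_or_ne n 0 with rfl | hn
  · rw [zero_pow hk.ne', pf_zero, Finset.prod_empty, one_pow]
  rw [pf_pow hk.ne', ← Finset.prod_pow]
  refine Finset.prod_congr rfl fun p hp => ?_
  rw [vp_pow (of_mem_pf hp).2.1 hn, ← pow_mul, mul_comm]

theorem prod_prime {p : R E} (hp : Prime p) (f : R E → ℂ) :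
    ∏ q ∈ pf p, f q ^ vp q p = f (nrm p) := by
  rw [pf_prime hp, Finset.prod_singleton,
    vp_of_associated_left (associated_nrm hp.ne_zero), vp_self hp, pow_one]

theorem not_dvd_of_coprime {n a p : R E} (h : IsCoprime n a) (hp : p ∈ pf n) : ¬ p ∣ a := by
  obtain ⟨-, h1, h3⟩ := of_mem_pf hp
  exact fun hpa => h1.not_isUnit (h.isUnit_of_dvd' h3 hpa)

theorem prod_eq_zero_iff {n a : R E} (hn : n ≠ 0) (f : R E → ℂ)
    (hf : ∀ p, Prime p → (f p = 0 ↔ p ∣ a)) :
    ∏ p ∈ pf n, f p ^ vp p n = 0 ↔ ¬ IsCoprime n a := by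
  rw [isCoprime_iff_pf hn, Finset.prod_eq_zero_iff]
  push Not
  refine exists_congr fun p => and_congr_right fun hp => ?_
  rw [pow_eq_zero_iff (vp_ne hp), hf p (of_mem_pf hp).2.1]

theorem dvd_rad {n p : R E} (h : p ∈ pf n) : p ∣ rad n := Finset.dvd_prod_of_mem _ h

theorem om_pow_mod (k : ℕ) : (omR : R E) ^ k = omR ^ (k % 3) := pow_eq_pow_mod k omR_cube

theorem omC_sq_add : omC ^ 2 + omC + 1 = 0 := by linear_combination R17.omC_mul

theorem omC_cube : omC ^ 3 = 1 := by linear_combination (omC - 1) * omC_sq_add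

theorem omC_ne_zero : omC ≠ 0 := by
  intro h
  simpa [h] using omC_cube

theorem omC_ne_one : omC ≠ 1 := by
  intro h
  have := omC_sq_add
  rw [h] at this
  norm_num at this

theorem norm_omC : ‖omC‖ = 1 := by
  have := congrArg norm omC_cube
  rw [norm_pow, norm_one] at this
  exact (pow_eq_one_iff_of_nonneg (norm_nonneg _) (by norm_num)).1 this

theorem conj_omC : conj omC = omC ^ 2 := by
  rw [ArchA_conj_omC]; linear_combination -omC_sq_add

theorem orderOf_omC : orderOf omC = 3 :=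
  haveI : Fact (Nat.Prime 3) := ⟨by norm_num⟩
  orderOf_eq_prime omC_cube omC_ne_one

theorem omC_pow_mod (k : ℕ) : omC ^ k = omC ^ (k % 3) := pow_eq_pow_mod k omC_cube

theorem omC_pow_inj {i j : ℕ} (h : omC ^ i = omC ^ j) : i % 3 = j % 3 := by
  rw [omC_pow_mod i, omC_pow_mod j] at h
  exact pow_injOn_Iio_orderOf (x := omC)
    (by rw [orderOf_omC]; exact Nat.mod_lt _ (by norm_num))
    (by rw [orderOf_omC]; exact Nat.mod_lt _ (by norm_num)) h

variable {p : R E}

theorem nN_assoc {q : R E} (h : Associated p q) : nN p = nN q := by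
  unfold nN
  rw [Ideal.span_singleton_eq_span_singleton.2 h]

theorem dvd_om_sub (hp : Prime p) {i j : ℕ} (hd : p ∣ omR ^ i - omR ^ j) :
    i % 3 = j % 3 := by
  have h3 : ¬ p ∣ 3 := fun h' => hp.not_isUnit (isUnit_of_dvd_unit h' isUnit_three)
  have e := omR_sq_add (E := E)
  rw [om_pow_mod i, om_pow_mod j] at hd
  have hi := Nat.mod_lt i (show 0 < 3 by norm_num)
  have hj := Nat.mod_lt j (show 0 < 3 by norm_num)
  generalize i % 3 = a at *
  generalize j % 3 = b at *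
  generalize (omR : R E) = w at *
  by_contra hne
  apply h3
  refine hd.trans ?_
  interval_cases a <;> interval_cases b <;> first
    | exact absurd rfl hne
    | exact ⟨1 - w ^ 2, by linear_combination (2 - w) * e⟩
    | exact ⟨1 - w, by linear_combination (2 - w) * e⟩
    | exact ⟨w ^ 2 - 1, by linear_combination (2 - w) * e⟩
    | exact ⟨w - 1, by linear_combination (2 - w) * e⟩
    | exact ⟨w ^ 2 - w, by linear_combination (w ^ 2 - 3 * w + 3) * e⟩
    | exact ⟨w - w ^ 2, by linear_combination (w ^ 2 - 3 * w + 3) * e⟩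

theorem fermat (hp : Prime p) {a : R E} (ha : ¬ p ∣ a) : p ∣ a ^ (nN p - 1) - 1 := by
  have := finite_quot hp.ne_zero
  have : (Ideal.span {p}).IsMaximal := PrincipalIdealRing.isMaximal_of_irreducible hp.irreducible
  let _ := Ideal.Quotient.field (Ideal.span {p})
  have := Fintype.ofFinite (R E ⧸ Ideal.span {p})
  have h1 := FiniteField.pow_card_sub_one_eq_one (Ideal.Quotient.mk (Ideal.span {p}) a)
    (by rwa [Ne, Ideal.Quotient.eq_zero_iff_mem, Ideal.mem_span_singleton])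
  rw [← Nat.card_eq_fintype_card] at h1
  rw [← Ideal.mem_span_singleton, ← Ideal.Quotient.eq, map_pow, map_one]
  exact h1

theorem exists_pow_ne (hp : Prime p) {e : ℕ} (he : e ≠ 0) (he' : e < nN p - 1) :
    ∃ a, ¬ p ∣ a ∧ ¬ p ∣ a ^ e - 1 := by
  have := finite_quot hp.ne_zero
  have : (Ideal.span {p}).IsMaximal := PrincipalIdealRing.isMaximal_of_irreducible hp.irreducible
  let _ := Ideal.Quotient.field (Ideal.span {p})
  obtain ⟨g, hg⟩ := IsCyclic.exists_ofOrder_eq_natCard (α := (R E ⧸ Ideal.span {p})ˣ)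
  rw [Nat.card_units] at hg
  obtain ⟨a, ha⟩ := Ideal.Quotient.mk_surjective (g : R E ⧸ Ideal.span {p})
  refine ⟨a, fun h => g.ne_zero ?_, fun h => pow_ne_one_of_lt_orderOf he (hg ▸ he') ?_⟩
  · rwa [← ha, Ideal.Quotient.eq_zero_iff_mem, Ideal.mem_span_singleton]
  · rw [← Ideal.mem_span_singleton, ← Ideal.Quotient.eq, map_pow, map_one, ha] at h
    exact Units.ext (by simpa using h)

theorem exists_cub (hp : Prime p) {a : R E} (ha : ¬ p ∣ a) :
    ∃ k, p ∣ a ^ ((nN p - 1) / 3) - omR ^ k := by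
  have h1 := fermat hp ha
  have h2 := nN_prime_mod hp
  rw [show nN p - 1 = (nN p - 1) / 3 * 3 by omega, pow_mul] at h1
  generalize a ^ ((nN p - 1) / 3) = x at *
  have e : x ^ 3 - 1 = (x - omR ^ 0) * ((x - omR ^ 1) * (x - omR ^ 2)) := by
    linear_combination (x ^ 2 - omR * x + omR - 1) * omR_sq_add (E := E)
  rw [e] at h1
  rcases hp.dvd_or_dvd h1 with h3 | h3
  · exact ⟨0, h3⟩
  · rcases hp.dvd_or_dvd h3 with h4 | h4
    exacts [⟨1, h4⟩, ⟨2, h4⟩]

open Classical in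
theorem sum_of_dvd {M : Type} [AddCommMonoid M] (g : ℕ → M) (hp : Prime p) {a : R E} {k : ℕ}
    (hk : p ∣ a ^ ((nN p - 1) / 3) - omR ^ k) :
    (∑ j ∈ Finset.range 3, if p ∣ a ^ ((nN p - 1) / 3) - omR ^ j then g j else 0) = g (k % 3) := by
  rw [Finset.sum_eq_single (k % 3), if_pos (om_pow_mod (E := E) k ▸ hk)]
  · intro j hj hne
    refine if_neg fun hd => hne ?_
    have h1 := dvd_sub hk hd
    rw [sub_sub_sub_cancel_left] at h1
    rw [← dvd_om_sub hp h1, Nat.mod_eq_of_lt (Finset.mem_range.1 hj)]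
  · intro hn
    exact absurd (Finset.mem_range.2 (Nat.mod_lt _ (by norm_num))) hn

theorem cub1_of_dvd (hp : Prime p) {a : R E} {k : ℕ}
    (hk : p ∣ a ^ ((nN p - 1) / 3) - omR ^ k) : cub1 p a = omC ^ k := by
  unfold cub1
  rw [sum_of_dvd (fun j => omC ^ j) hp hk, ← omC_pow_mod]

theorem ind_of_dvd (hp : Prime p) {a : R E} {k : ℕ}
    (hk : p ∣ a ^ ((nN p - 1) / 3) - omR ^ k) : ind p a = (k : ZMod 3) := by
  unfold ind
  rw [sum_of_dvd (fun j => (j : ZMod 3)) hp hk, ZMod.natCast_mod]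

theorem not_dvd_of_cub (hp : Prime p) {a : R E} {k : ℕ}
    (hk : p ∣ a ^ ((nN p - 1) / 3) - omR ^ k) : ¬ p ∣ a := by
  intro ha
  have h4 := (nN_prime_mod hp).2
  have h1 : p ∣ a ^ ((nN p - 1) / 3) := dvd_pow ha (by omega)
  have h2 : p ∣ omR := hp.dvd_of_dvd_pow ((dvd_sub_right h1).1 hk)
  exact hp.not_dvd_one (omR_cube (E := E) ▸ dvd_pow h2 (by norm_num))

theorem cub1_of_dvd_zero (hp : Prime p) {a : R E} (ha : p ∣ a) : cub1 p a = 0 :=
  Finset.sum_eq_zero fun _ _ => if_neg fun hk => not_dvd_of_cub hp hk ha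

theorem cub1_eq_zero_iff (hp : Prime p) {a : R E} : cub1 p a = 0 ↔ p ∣ a := by
  refine ⟨fun h0 => by_contra fun ha => ?_, cub1_of_dvd_zero hp⟩
  obtain ⟨k, hk⟩ := exists_cub hp ha
  rw [cub1_of_dvd hp hk] at h0
  exact pow_ne_zero _ omC_ne_zero h0

theorem cub1_iff (hp : Prime p) {a : R E} (k : ℕ) :
    cub1 p a = omC ^ k ↔ p ∣ a ^ ((nN p - 1) / 3) - omR ^ k := by
  refine ⟨fun h1 => ?_, cub1_of_dvd hp⟩
  have ha : ¬ p ∣ a := fun ha => by
    rw [cub1_of_dvd_zero hp ha] at h1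
    exact pow_ne_zero _ omC_ne_zero h1.symm
  obtain ⟨j, hj⟩ := exists_cub hp ha
  rw [cub1_of_dvd hp hj] at h1
  rwa [om_pow_mod k, ← omC_pow_inj h1, ← om_pow_mod]

theorem cub1_one (hp : Prime p) : cub1 p 1 = 1 := by
  have := cub1_of_dvd hp (a := 1) (k := 0) (by simp)
  simpa using this

theorem dvd_mul_cub {a b : R E} {e i j : ℕ} (hi : p ∣ a ^ e - omR ^ i)
    (hj : p ∣ b ^ e - omR ^ j) : p ∣ (a * b) ^ e - omR ^ (i + j) := by
  have := dvd_add (hi.mul_right (b ^ e)) (hj.mul_left (omR ^ i))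
  convert this using 1
  rw [mul_pow, pow_add]; ring

theorem cub1_mul (hp : Prime p) (a b : R E) :
    cub1 p (a * b) = cub1 p a * cub1 p b := by
  by_cases ha : p ∣ a
  · rw [cub1_of_dvd_zero hp ha, cub1_of_dvd_zero hp (ha.mul_right b), zero_mul]
  by_cases hb : p ∣ b
  · rw [cub1_of_dvd_zero hp hb, cub1_of_dvd_zero hp (hb.mul_left a), mul_zero]
  obtain ⟨i, hi⟩ := exists_cub hp ha
  obtain ⟨j, hj⟩ := exists_cub hp hb
  rw [cub1_of_dvd hp hi, cub1_of_dvd hp hj, ← pow_add]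
  exact cub1_of_dvd hp (dvd_mul_cub hi hj)

theorem dvd_pow_sub_iff {a b c : R E} (hab : p ∣ a - b) (e : ℕ) :
    p ∣ a ^ e - c ↔ p ∣ b ^ e - c := by
  have := hab.trans (sub_dvd_pow_sub_pow a b e)
  rw [show a ^ e - c = (a ^ e - b ^ e) + (b ^ e - c) by ring]
  exact dvd_add_right this

theorem cub1_congr {a b : R E} (hab : p ∣ a - b) : cub1 p a = cub1 p b := by
  unfold cub1
  refine Finset.sum_congr rfl fun k _ => ?_
  rw [propext (dvd_pow_sub_iff hab _)]

theorem cub1_cube (hp : Prime p) {a : R E} (ha : ¬ p ∣ a) : cub1 p a ^ 3 = 1 := by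
  obtain ⟨k, hk⟩ := exists_cub hp ha
  rw [cub1_of_dvd hp hk, ← pow_mul, mul_comm, pow_mul, omC_cube, one_pow]

theorem norm_cub1_le (hp : Prime p) (a : R E) : ‖cub1 p a‖ ≤ 1 := by
  by_cases ha : p ∣ a
  · rw [cub1_of_dvd_zero hp ha, norm_zero]; exact zero_le_one
  · obtain ⟨k, hk⟩ := exists_cub hp ha
    rw [cub1_of_dvd hp hk, norm_pow, norm_omC, one_pow]

theorem conj_cub1 (hp : Prime p) (a : R E) : conj (cub1 p a) = cub1 p a ^ 2 := by
  by_cases ha : p ∣ a
  · rw [cub1_of_dvd_zero hp ha, map_zero, zero_pow two_ne_zero]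
  · obtain ⟨k, hk⟩ := exists_cub hp ha
    rw [cub1_of_dvd hp hk, map_pow, conj_omC, ← pow_mul, ← pow_mul, mul_comm]

theorem isUnit_mk_iff (a q : R E) :
    IsUnit (Ideal.Quotient.mk (Ideal.span {q}) a) ↔ IsCoprime a q := by
  constructor
  · intro h
    obtain ⟨y, hy⟩ := h.exists_left_inv
    obtain ⟨b, rfl⟩ := Ideal.Quotient.mk_surjective y
    rw [← map_mul, ← map_one (Ideal.Quotient.mk (Ideal.span {q})), Ideal.Quotient.eq,
      Ideal.mem_span_singleton] at hy
    obtain ⟨c, hc⟩ := hy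
    exact ⟨b, -c, by linear_combination hc⟩
  · rintro ⟨b, c, h⟩
    refine IsUnit.of_mul_eq_one_right (Ideal.Quotient.mk _ b) ?_
    rw [← map_mul, ← map_one (Ideal.Quotient.mk (Ideal.span {q})), Ideal.Quotient.eq,
      Ideal.mem_span_singleton]
    exact ⟨-c, by linear_combination h⟩

/-- a character of the residue ring from a function -/
theorem exists_chr_prime (f : R E → ℂ) (h1 : f 1 = 1) (hmul : ∀ a b, f (a * b) = f a * f b)
    (hper : ∀ a b, p ∣ a - b → f a = f b) (h0 : ∀ a, ¬ IsCoprime a p → f a = 0) :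
    ∃ χ : MulChar (R E ⧸ Ideal.span {p}) ℂ, ∀ a, χ (Ideal.Quotient.mk _ a) = f a := by
  have key : ∀ a, f (Quotient.out (Ideal.Quotient.mk (Ideal.span {p}) a)) = f a := fun a =>
    hper _ _ (by
      rw [← Ideal.mem_span_singleton, ← Ideal.Quotient.eq]
      exact Ideal.Quotient.mk_out _)
  refine ⟨{ toFun := fun x => f (Quotient.out x)
            map_one' := ?_
            map_mul' := fun x y => ?_
            map_nonunit' := fun x hx => ?_ }, fun a => key a⟩
  · rw [← map_one (Ideal.Quotient.mk (Ideal.span {p})), key, h1]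
  · obtain ⟨a, rfl⟩ := Ideal.Quotient.mk_surjective x
    obtain ⟨b, rfl⟩ := Ideal.Quotient.mk_surjective y
    rw [← map_mul, key, key, key, hmul]
  · obtain ⟨a, rfl⟩ := Ideal.Quotient.mk_surjective x
    change f (Quotient.out (Ideal.Quotient.mk (Ideal.span {p}) a)) = 0
    rw [key]
    exact h0 a fun h => hx ((isUnit_mk_iff a p).2 h)

theorem chr_pow_eq_one_iff (χ : MulChar (R E ⧸ Ideal.span {p}) ℂ) (j : ℕ) :
    χ ^ j = 1 ↔ ∀ a, IsCoprime a p → χ (Ideal.Quotient.mk _ a) ^ j = 1 := by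
  rw [MulChar.eq_one_iff]
  constructor
  · intro h a ha
    have hu : IsUnit (Ideal.Quotient.mk (Ideal.span {p}) a) :=
      (isUnit_mk_iff a p).2 ha
    have := h hu.unit
    rwa [MulChar.pow_apply_coe, IsUnit.unit_spec] at this
  · intro h u
    obtain ⟨a, ha⟩ := Ideal.Quotient.mk_surjective (u : R E ⧸ Ideal.span {p})
    rw [MulChar.pow_apply_coe, ← ha]
    exact h a ((isUnit_mk_iff a p).1 (ha ▸ u.isUnit))

end SyA
end Crest.Agent.R312
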