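import Crest.Agent.R312.Char
import Crest.Agent.R312.SymbolAuxA

/-!
# Row 312: formal properties of the residue symbols (port of `R17/Symbol*.lean`)
-/

set_option autoImplicit false

noncomputable section

namespace Crest.Agent.R312

open NumberField
open scoped ComplexConjugate

variable {E : Type} [Field E] [NumberField E] [Fr E]

/-! ## part A: `chi`, the cubic symbol -/

theorem chi_add (a b : ZMod 3) : chi (a + b) = chi a * chi b := by
  unfold chi
  rw [ZMod.val_add, ← SyA.omC_pow_mod, pow_add]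
@[simp] theorem chi_zero : chi 0 = 1 := by
  unfold chi
  rw [ZMod.val_zero, pow_zero]
theorem chi_neg (a : ZMod 3) : chi (-a) = conj (chi a) := by
  have h1 : chi a * chi (-a) = 1 := by rw [← chi_add, add_neg_cancel, chi_zero]
  have h2 : chi a * conj (chi a) = 1 := by
    unfold chi
    rw [map_pow, SyA.conj_omC, ← mul_pow, ← pow_succ', SyA.omC_cube, one_pow]
  exact mul_left_cancel₀ (left_ne_zero_of_mul_eq_one h1) (h1.trans h2.symm)
theorem norm_chi (a : ZMod 3) : ‖chi a‖ = 1 := by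
  unfold chi
  rw [norm_pow, SyA.norm_omC, one_pow]
theorem chi_cube (a : ZMod 3) : chi a ^ 3 = 1 := by
  unfold chi
  rw [← pow_mul, mul_comm, pow_mul, SyA.omC_cube, one_pow]
theorem chi_injective : Function.Injective chi := by
  intro a b h
  have h1 := SyA.omC_pow_inj (i := a.val) (j := b.val) h
  rw [Nat.mod_eq_of_lt (ZMod.val_lt a), Nat.mod_eq_of_lt (ZMod.val_lt b)] at h1
  exact ZMod.val_injective 3 h1
theorem chi_natCast (k : ℕ) : chi (k : ZMod 3) = omC ^ k := by
  unfold chi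
  rw [ZMod.val_natCast, ← SyA.omC_pow_mod]
theorem chi_nsmul (k : ℕ) (a : ZMod 3) : chi ((k : ZMod 3) * a) = chi a ^ k := by
  induction k with
  | zero => rw [Nat.cast_zero, zero_mul, chi_zero, pow_zero]
  | succ k ih => rw [Nat.cast_succ, add_mul, one_mul, chi_add, ih, pow_succ]
theorem chi_sum {α : Type} (s : Finset α) (f : α → ZMod 3) :
    chi (∑ i ∈ s, f i) = ∏ i ∈ s, chi (f i) := by
  classical
  induction s using Finset.induction_on with
  | empty => rw [Finset.sum_empty, Finset.prod_empty, chi_zero]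
  | insert a s ha ih => rw [Finset.sum_insert ha, Finset.prod_insert ha, chi_add, ih]
theorem exists_chi {z : ℂ} (h : z ^ 3 = 1) : ∃ k, z = chi k := by
  have e : (z - omC ^ 0) * ((z - omC ^ 1) * (z - omC ^ 2)) = 0 := by
    linear_combination h - (z ^ 2 - omC * z + omC - 1) * SyA.omC_sq_add
  rcases mul_eq_zero.1 e with h1 | h1
  · exact ⟨(0 : ℕ), by rw [chi_natCast]; exact sub_eq_zero.1 h1⟩
  rcases mul_eq_zero.1 h1 with h2 | h2
  · exact ⟨(1 : ℕ), by rw [chi_natCast]; exact sub_eq_zero.1 h2⟩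
  · exact ⟨(2 : ℕ), by rw [chi_natCast]; exact sub_eq_zero.1 h2⟩

theorem cub1_of_associated {p q : R E} (h : Associated p q) (a : R E) : cub1 p a = cub1 q a := by
  unfold cub1
  rw [SyA.nN_assoc h]
  refine Finset.sum_congr rfl fun k _ => ?_
  rw [propext h.dvd_iff_dvd_left]
theorem ind_of_associated {p q : R E} (h : Associated p q) (a : R E) : ind p a = ind q a := by
  unfold ind
  rw [SyA.nN_assoc h]
  refine Finset.sum_congr rfl fun k _ => ?_
  rw [propext h.dvd_iff_dvd_left]
theorem cub1_eq_pow_iff {p a : R E} (hp : Prime p) (k : ℕ) :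
    cub1 p a = omC ^ k ↔ p ∣ a ^ ((nN p - 1) / 3) - omR ^ k := SyA.cub1_iff hp k
theorem cub1_eq_chi {p a : R E} (hp : Prime p) (h : ¬ p ∣ a) : cub1 p a = chi (ind p a) := by
  obtain ⟨k, hk⟩ := SyA.exists_cub hp h
  rw [SyA.cub1_of_dvd hp hk, SyA.ind_of_dvd hp hk, chi_natCast]
theorem ind_spec {p a : R E} (hp : Prime p) (h : ¬ p ∣ a) :
    p ∣ a ^ ((nN p - 1) / 3) - omR ^ (ind p a).val := by
  obtain ⟨k, hk⟩ := SyA.exists_cub hp h
  rwa [SyA.ind_of_dvd hp hk, ZMod.val_natCast, ← SyA.om_pow_mod]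
theorem ind_mul {p a b : R E} (hp : Prime p) (ha : ¬ p ∣ a) (hb : ¬ p ∣ b) :
    ind p (a * b) = ind p a + ind p b := by
  obtain ⟨i, hi⟩ := SyA.exists_cub hp ha
  obtain ⟨j, hj⟩ := SyA.exists_cub hp hb
  rw [SyA.ind_of_dvd hp hi, SyA.ind_of_dvd hp hj, SyA.ind_of_dvd hp (SyA.dvd_mul_cub hi hj),
    Nat.cast_add]
theorem ind_congr {p a b : R E} (h : p ∣ a - b) : ind p a = ind p b := by
  unfold ind
  refine Finset.sum_congr rfl fun k _ => ?_
  rw [propext (SyA.dvd_pow_sub_iff h _)]
theorem ind_one {p : R E} (hp : Prime p) : ind p 1 = 0 := by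
  rw [SyA.ind_of_dvd hp (a := 1) (k := 0) (by simp), Nat.cast_zero]
theorem ind_neg_one {p : R E} (hp : Prime p) : ind p (-1) = 0 := by
  have h6 := (nN_prime_mod hp).1
  have he : Even ((nN p - 1) / 3) := ⟨nN p / 6, by omega⟩
  rw [SyA.ind_of_dvd hp (a := -1) (k := 0) (by rw [he.neg_one_pow]; simp), Nat.cast_zero]
theorem cub_prime {p : R E} (hp : Prime p) (a : R E) : cub p a = cub1 p a :=
  (SyA.prod_prime hp fun q => cub1 q a).trans (cub1_of_associated (associated_nrm hp.ne_zero) a)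
@[simp] theorem cub_zero_left (a : R E) : cub 0 a = 1 := by
  unfold cub
  rw [pf_zero, Finset.prod_empty]
theorem cub_unit_left {u : R E} (hu : IsUnit u) (a : R E) : cub u a = 1 := by
  unfold cub
  rw [pf_unit hu, Finset.prod_empty]
@[simp] theorem cub_one_left (a : R E) : cub 1 a = 1 := cub_unit_left isUnit_one a
@[simp] theorem cub_one_right (n : R E) : cub n 1 = 1 :=
  Finset.prod_eq_one fun p hp => by rw [SyA.cub1_one (of_mem_pf hp).2.1, one_pow]
theorem cub_of_associated {m n : R E} (h : Associated m n) (a : R E) : cub m a = cub n a :=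
  SyA.prod_assoc h fun p => cub1 p a
theorem cub_mul_left {m n : R E} (hm : m ≠ 0) (hn : n ≠ 0) (a : R E) :
    cub (m * n) a = cub m a * cub n a := SyA.prod_mul hm hn fun p => cub1 p a
theorem cub_pow_left (n : R E) (k : ℕ) (a : R E) : cub (n ^ k) a = cub n a ^ k :=
  SyA.prod_pow n k fun p => cub1 p a
theorem cub_mul_right (n a b : R E) : cub n (a * b) = cub n a * cub n b := by
  unfold cub
  rw [← Finset.prod_mul_distrib]
  refine Finset.prod_congr rfl fun p hp => ?_
  rw [SyA.cub1_mul (of_mem_pf hp).2.1, mul_pow]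
theorem cub_pow_right (n a : R E) (k : ℕ) : cub n (a ^ k) = cub n a ^ k := by
  induction k with
  | zero => rw [pow_zero, pow_zero, cub_one_right]
  | succ k ih => rw [pow_succ, cub_mul_right, ih, pow_succ]
theorem cub_congr_rad {n a b : R E} (h : rad n ∣ a - b) : cub n a = cub n b :=
  Finset.prod_congr rfl fun p hp => by rw [SyA.cub1_congr ((SyA.dvd_rad hp).trans h)]
theorem cub_congr {n a b : R E} (h : n ∣ a - b) : cub n a = cub n b :=
  cub_congr_rad ((rad_dvd n).trans h)
theorem cub_eq_zero_iff {n a : R E} (hn : n ≠ 0) : cub n a = 0 ↔ ¬ IsCoprime n a :=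
  SyA.prod_eq_zero_iff hn (fun p => cub1 p a) fun _ hp => SyA.cub1_eq_zero_iff hp
theorem cub_pow_three {n a : R E} (h : IsCoprime n a) : cub n a ^ 3 = 1 := by
  unfold cub
  rw [← Finset.prod_pow]
  refine Finset.prod_eq_one fun p hp => ?_
  rw [← pow_mul, mul_comm, pow_mul,
    SyA.cub1_cube (of_mem_pf hp).2.1 (SyA.not_dvd_of_coprime h hp), one_pow]
theorem norm_cub_le (n a : R E) : ‖cub n a‖ ≤ 1 := by
  unfold cub
  rw [norm_prod]
  refine Finset.prod_le_one (fun _ _ => norm_nonneg _) fun p hp => ?_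
  rw [norm_pow]
  exact pow_le_one₀ (norm_nonneg _) (SyA.norm_cub1_le (of_mem_pf hp).2.1 a)
theorem norm_cub {n a : R E} (h : IsCoprime n a) : ‖cub n a‖ = 1 := by
  have := congrArg norm (cub_pow_three h)
  rw [norm_pow, norm_one] at this
  exact (pow_eq_one_iff_of_nonneg (norm_nonneg _) (by norm_num)).1 this
theorem conj_cub (n a : R E) : conj (cub n a) = cub n a ^ 2 := by
  unfold cub
  rw [map_prod, ← Finset.prod_pow]
  refine Finset.prod_congr rfl fun p hp => ?_
  rw [map_pow, SyA.conj_cub1 (of_mem_pf hp).2.1, ← pow_mul, ← pow_mul, mul_comm]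
theorem cub_neg_one (n : R E) : cub n (-1) = 1 := by
  rw [show (-1 : R E) = (-1) ^ 3 by norm_num, cub_pow_right]
  exact cub_pow_three isCoprime_one_right.neg_right
theorem cub_neg (n a : R E) : cub n (-a) = cub n a := by
  rw [← neg_one_mul, cub_mul_right, cub_neg_one, one_mul]
theorem cub_eq_chi {n a : R E} (hn : n ≠ 0) (h : IsCoprime n a) :
    cub n a = chi (∑ p ∈ pf n, (vp p n : ZMod 3) * ind p a) := by
  have _ := hn
  rw [chi_sum]
  refine Finset.prod_congr rfl fun p hp => ?_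
  rw [chi_nsmul, cub1_eq_chi (of_mem_pf hp).2.1 (SyA.not_dvd_of_coprime h hp)]
theorem exists_mulChar_cub {p : R E} (hp : Prime p) :
    ∃ χ : MulChar (R E ⧸ Ideal.span {p}) ℂ, orderOf χ = 3 ∧
      ∀ a, χ (Ideal.Quotient.mk _ a) = cub p a := by
  obtain ⟨χ, hχ⟩ := SyA.exists_chr_prime (p := p) (cub p) (cub_one_right p) (cub_mul_right p)
    (fun a b hab => cub_congr hab)
    fun a ha => (cub_eq_zero_iff hp.ne_zero).2 fun h' => ha h'.symm
  refine ⟨χ, orderOf_eq_prime (p := 3) ((SyA.chr_pow_eq_one_iff χ 3).2 fun a ha => ?_)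
    fun h1 => ?_, hχ⟩
  · rw [hχ, cub_pow_three ha.symm]
  · have h4 := (nN_prime_mod hp).2
    obtain ⟨a, ha, ha'⟩ := SyA.exists_pow_ne hp (e := (nN p - 1) / 3) (by omega) (by omega)
    have := (SyA.chr_pow_eq_one_iff χ 1).1 (by rw [h1, one_pow]) a
      (hp.coprime_iff_not_dvd.2 ha).symm
    rw [pow_one, hχ, cub_prime hp, ← pow_zero omC, SyA.cub1_iff hp, pow_zero] at this
    exact ha' this

/-! ## part B: quadratic and sextic symbols -/

namespace SymB

theorem vp_ne {n p : R E} (h : p ∈ pf n) : vp p n ≠ 0 := fun h0 =>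
  multiplicity_eq_zero.1 h0 (of_mem_pf h).2.2

theorem prod_mul {m n : R E} (hm : m ≠ 0) (hn : n ≠ 0) (f : R E → ℂ) :
    ∏ p ∈ pf (m * n), f p ^ vp p (m * n) =
      (∏ p ∈ pf m, f p ^ vp p m) * ∏ p ∈ pf n, f p ^ vp p n := by
  have key : ∀ k : R E, k ≠ 0 → k ∣ m * n →
      ∏ p ∈ pf k, f p ^ vp p k = ∏ p ∈ pf (m * n), f p ^ vp p k := fun k hk hs =>
    Finset.prod_subset (pf_subset_of_dvd hs (mul_ne_zero hm hn)) fun p hp hp' => by
      obtain ⟨h1, h2, -⟩ := of_mem_pf hp
      rw [(vp_eq_zero_iff h2 hk).2 fun h => hp' ((mem_pf hk).2 ⟨h1, h2, h⟩), pow_zero]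
  rw [key m hm (dvd_mul_right _ _), key n hn (dvd_mul_left _ _), ← Finset.prod_mul_distrib]
  refine Finset.prod_congr rfl fun p hp => ?_
  rw [vp_mul (of_mem_pf hp).2.1 hm hn, pow_add]

variable {p : R E}

theorem fermat (hp : Prime p) {a : R E} (ha : ¬ p ∣ a) : p ∣ a ^ (nN p - 1) - 1 := by
  have := finite_quot hp.ne_zero
  have : (Ideal.span {p}).IsMaximal := PrincipalIdealRing.isMaximal_of_irreducible hp.irreducible
  let _ := Ideal.Quotient.field (Ideal.span {p})
  have := Fintype.ofFinite (R E ⧸ Ideal.span {p})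
  have h1 := FiniteField.pow_card_sub_one_eq_one (Ideal.Quotient.mk (Ideal.span {p}) a)
    (by rwa [Ne, Ideal.Quotient.eq_zero_iff_mem, Ideal.mem_span_singleton])
  rw [← Nat.card_eq_fintype_card] at h1
  rw [← Ideal.mem_span_singleton, ← Ideal.Quotient.eq, map_pow, map_one]
  exact h1

theorem exists_pow_ne (hp : Prime p) {e : ℕ} (he : e ≠ 0) (he' : e < nN p - 1) :
    ∃ a, ¬ p ∣ a ∧ ¬ p ∣ a ^ e - 1 := by
  have := finite_quot hp.ne_zero
  have : (Ideal.span {p}).IsMaximal := PrincipalIdealRing.isMaximal_of_irreducible hp.irreducible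
  let _ := Ideal.Quotient.field (Ideal.span {p})
  obtain ⟨g, hg⟩ := IsCyclic.exists_ofOrder_eq_natCard (α := (R E ⧸ Ideal.span {p})ˣ)
  rw [Nat.card_units] at hg
  obtain ⟨a, ha⟩ := Ideal.Quotient.mk_surjective (g : R E ⧸ Ideal.span {p})
  refine ⟨a, fun h => g.ne_zero ?_, fun h => pow_ne_one_of_lt_orderOf he (hg ▸ he') ?_⟩
  · rwa [← ha, Ideal.Quotient.eq_zero_iff_mem, Ideal.mem_span_singleton]
  · rw [← Ideal.mem_span_singleton, ← Ideal.Quotient.eq, map_pow, map_one, ha] at h
    exact Units.ext (by simpa using h)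

theorem quad1_eq_zero_iff {a : R E} : quad1 p a = 0 ↔ p ∣ a := by
  unfold quad1
  split_ifs with h1 h2 <;> simp [h1]

theorem quad1_one (hp : Prime p) : quad1 p 1 = 1 := by
  unfold quad1
  rw [if_neg hp.not_dvd_one, if_pos (by simp)]

theorem quad1_sq {a : R E} (ha : ¬ p ∣ a) : quad1 p a ^ 2 = 1 := by
  unfold quad1
  rw [if_neg ha]
  split_ifs <;> simp

theorem norm_quad1_le (a : R E) : ‖quad1 p a‖ ≤ 1 := by
  unfold quad1
  split_ifs <;> simp

theorem conj_quad1 (a : R E) : conj (quad1 p a) = quad1 p a := by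
  unfold quad1
  split_ifs <;> simp

theorem quad1_congr {a b : R E} (hab : p ∣ a - b) : quad1 p a = quad1 p b := by
  have h : ∀ (e : ℕ), p ∣ a ^ e - 1 ↔ p ∣ b ^ e - 1 := fun e => by
    rw [show a ^ e - 1 = (a ^ e - b ^ e) + (b ^ e - 1) by ring]
    exact dvd_add_right (hab.trans (sub_dvd_pow_sub_pow a b e))
  unfold quad1
  rw [propext (dvd_iff_dvd_of_dvd_sub hab), propext (h _)]

theorem quad1_of_associated {q : R E} (h : Associated p q) (a : R E) : quad1 p a = quad1 q a := by
  have h1 : nN p = nN q := by rw [nN, nN, Ideal.span_singleton_eq_span_singleton.2 h]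
  unfold quad1
  rw [h1, propext (h.dvd_iff_dvd_left (c := a)), propext h.dvd_iff_dvd_left]

theorem quad1_mul (hp : Prime p) (a b : R E) : quad1 p (a * b) = quad1 p a * quad1 p b := by
  by_cases ha : p ∣ a
  · rw [quad1_eq_zero_iff.2 ha, quad1_eq_zero_iff.2 (ha.mul_right b), zero_mul]
  by_cases hb : p ∣ b
  · rw [quad1_eq_zero_iff.2 hb, quad1_eq_zero_iff.2 (hb.mul_left a), mul_zero]
  have hab : ¬ p ∣ a * b := fun h' => (hp.dvd_or_dvd h').elim ha hb
  have h6 := (nN_prime_mod hp).1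
  have key : ∀ c, ¬ p ∣ c → ¬ p ∣ c ^ ((nN p - 1) / 2) - 1 → p ∣ c ^ ((nN p - 1) / 2) + 1 := by
    intro c hc hc'
    have h1 := fermat hp hc
    rw [show nN p - 1 = (nN p - 1) / 2 * 2 by omega, pow_mul] at h1
    generalize c ^ ((nN p - 1) / 2) = x at *
    rw [show x ^ 2 - 1 = (x + 1) * (x - 1) by ring] at h1
    exact (hp.dvd_or_dvd h1).resolve_right hc'
  have ka := key a ha
  have kb := key b hb
  unfold quad1
  rw [if_neg ha, if_neg hb, if_neg hab, mul_pow]
  generalize a ^ ((nN p - 1) / 2) = x at *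
  generalize b ^ ((nN p - 1) / 2) = y at *
  by_cases hx : p ∣ x - 1 <;> by_cases hy : p ∣ y - 1
  · rw [if_pos hx, if_pos hy, if_pos, one_mul]
    convert dvd_add (hx.mul_right y) hy using 1; ring
  · rw [if_pos hx, if_neg hy, if_neg, one_mul]
    intro h'
    apply hy
    convert dvd_sub h' (hx.mul_right y) using 1; ring
  · rw [if_neg hx, if_pos hy, if_neg, mul_one]
    intro h'
    apply hx
    convert dvd_sub h' (hy.mul_left x) using 1; ring
  · rw [if_neg hx, if_neg hy, if_pos]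
    · norm_num
    · convert dvd_sub ((ka hx).mul_right y) (kb hy) using 1; ring

theorem isUnit_mk_iff (a p : R E) :
    IsUnit (Ideal.Quotient.mk (Ideal.span {p}) a) ↔ IsCoprime a p := by
  constructor
  · intro h
    obtain ⟨y, hy⟩ := h.exists_left_inv
    obtain ⟨b, rfl⟩ := Ideal.Quotient.mk_surjective y
    rw [← map_mul, ← map_one (Ideal.Quotient.mk (Ideal.span {p})), mk_eq_mk_iff] at hy
    obtain ⟨c, hc⟩ := hy
    exact ⟨b, -c, by linear_combination hc⟩
  · rintro ⟨b, c, h⟩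
    refine IsUnit.of_mul_eq_one_right (Ideal.Quotient.mk _ b) ?_
    rw [← map_mul, ← map_one (Ideal.Quotient.mk (Ideal.span {p})), mk_eq_mk_iff]
    exact ⟨-c, by linear_combination h⟩

/-- A character of the residue ring from a function. -/
theorem exists_chr (f : R E → ℂ) (h1 : f 1 = 1) (hmul : ∀ a b, f (a * b) = f a * f b)
    (hper : ∀ a b, p ∣ a - b → f a = f b) (h0 : ∀ a, ¬ IsCoprime a p → f a = 0) :
    ∃ χ : MulChar (R E ⧸ Ideal.span {p}) ℂ, ∀ a, χ (Ideal.Quotient.mk _ a) = f a := by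
  have key : ∀ a, f (Quotient.out (Ideal.Quotient.mk (Ideal.span {p}) a)) = f a := fun a =>
    hper _ _ (mk_eq_mk_iff.1 (Ideal.Quotient.mk_out _))
  refine ⟨{ toFun := fun q => f (Quotient.out q)
            map_one' := (key 1).trans h1
            map_mul' := fun x y => ?_
            map_nonunit' := fun x hx => ?_ }, key⟩
  · obtain ⟨a, rfl⟩ := Ideal.Quotient.mk_surjective x
    obtain ⟨b, rfl⟩ := Ideal.Quotient.mk_surjective y
    rw [← map_mul, key, key, key, hmul]
  · obtain ⟨a, rfl⟩ := Ideal.Quotient.mk_surjective x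
    exact (key a).trans (h0 a fun h => hx ((isUnit_mk_iff a p).2 h))

theorem chr_pow_eq_one_iff (χ : MulChar (R E ⧸ Ideal.span {p}) ℂ) (j : ℕ) :
    χ ^ j = 1 ↔ ∀ a, IsCoprime a p → χ (Ideal.Quotient.mk _ a) ^ j = 1 := by
  rw [MulChar.eq_one_iff]
  constructor
  · intro h a ha
    have hu : IsUnit (Ideal.Quotient.mk (Ideal.span {p}) a) :=
      (isUnit_mk_iff a p).2 ha
    have := h hu.unit
    rwa [MulChar.pow_apply_coe, IsUnit.unit_spec] at this
  · intro h u
    obtain ⟨a, ha⟩ := Ideal.Quotient.mk_surjective (u : R E ⧸ Ideal.span {p})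
    rw [MulChar.pow_apply_coe, ← ha]
    exact h a ((isUnit_mk_iff a p).1 (ha ▸ u.isUnit))

theorem quad_sq {n a : R E} (h : IsCoprime n a) : quad n a ^ 2 = 1 := by
  rw [quad, ← Finset.prod_pow]
  refine Finset.prod_eq_one fun p hp => ?_
  obtain ⟨-, h1, h2⟩ := of_mem_pf hp
  rw [← pow_mul, mul_comm, pow_mul, quad1_sq
    fun hpa => h1.not_isUnit (h.isUnit_of_dvd' h2 hpa), one_pow]

theorem quad_zero (a : R E) : quad 0 a = 1 := by rw [quad, pf_zero, Finset.prod_empty]

end SymB

theorem quad_prime {p : R E} (hp : Prime p) (a : R E) : quad p a = quad1 p a := by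
  have h := associated_nrm hp.ne_zero
  rw [quad, pf_prime hp, Finset.prod_singleton, vp_of_associated_left h, vp_self hp, pow_one,
    SymB.quad1_of_associated h]
theorem quad_unit_left {u : R E} (hu : IsUnit u) (a : R E) : quad u a = 1 := by
  rw [quad, pf_unit hu, Finset.prod_empty]
theorem sym_unit_left {u : R E} (hu : IsUnit u) (a : R E) : sym u a = 1 := by
  rw [sym, quad_unit_left hu, cub_unit_left hu, map_one, mul_one]
@[simp] theorem quad_one_left (a : R E) : quad 1 a = 1 := quad_unit_left isUnit_one a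
@[simp] theorem sym_one_left (a : R E) : sym 1 a = 1 := sym_unit_left isUnit_one a
@[simp] theorem quad_one_right (n : R E) : quad n 1 = 1 :=
  Finset.prod_eq_one fun p hp => by rw [SymB.quad1_one (of_mem_pf hp).2.1, one_pow]
@[simp] theorem sym_one_right (n : R E) : sym n 1 = 1 := by
  rw [sym, quad_one_right, cub_one_right, map_one, mul_one]
theorem quad_of_associated {m n : R E} (h : Associated m n) (a : R E) : quad m a = quad n a := by
  rw [quad, quad, pf_of_associated h]
  exact Finset.prod_congr rfl fun p _ => by rw [vp_of_associated p h]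
theorem sym_of_associated {m n : R E} (h : Associated m n) (a : R E) : sym m a = sym n a := by
  rw [sym, sym, quad_of_associated h, cub_of_associated h]
theorem quad_mul_left {m n : R E} (hm : m ≠ 0) (hn : n ≠ 0) (a : R E) :
    quad (m * n) a = quad m a * quad n a := SymB.prod_mul hm hn fun p => quad1 p a
theorem sym_mul_left {m n : R E} (hm : m ≠ 0) (hn : n ≠ 0) (a : R E) :
    sym (m * n) a = sym m a * sym n a := by
  rw [sym, sym, sym, quad_mul_left hm hn, cub_mul_left hm hn, map_mul]; ring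
theorem quad_pow_left (n : R E) (k : ℕ) (a : R E) : quad (n ^ k) a = quad n a ^ k := by
  induction k with
  | zero => simp
  | succ k ih =>
    rcases eq_or_ne n 0 with rfl | hn
    · rw [pow_succ, mul_zero, SymB.quad_zero, one_pow]
    · rw [pow_succ, quad_mul_left (pow_ne_zero _ hn) hn, ih, pow_succ]
theorem sym_pow_left (n : R E) (k : ℕ) (a : R E) : sym (n ^ k) a = sym n a ^ k := by
  rw [sym, sym, quad_pow_left, cub_pow_left, map_pow, mul_pow]
theorem sym_eq_prod (n a : R E) : sym n a = ∏ p ∈ pf n, sym p a ^ vp p n := by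
  rw [sym, quad, cub, map_prod, ← Finset.prod_mul_distrib]
  refine Finset.prod_congr rfl fun p hp => ?_
  have h1 := (of_mem_pf hp).2.1
  rw [sym, cub_prime h1, quad_prime h1, mul_pow, map_pow]
theorem quad_eq_prod (n a : R E) : quad n a = ∏ p ∈ pf n, quad p a ^ vp p n :=
  Finset.prod_congr rfl fun p hp => by rw [quad_prime (of_mem_pf hp).2.1]
theorem cub_eq_prod (n a : R E) : cub n a = ∏ p ∈ pf n, cub p a ^ vp p n :=
  Finset.prod_congr rfl fun p hp => by rw [cub_prime (of_mem_pf hp).2.1]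
theorem quad_mul_right (n a b : R E) : quad n (a * b) = quad n a * quad n b := by
  rw [quad, quad, quad, ← Finset.prod_mul_distrib]
  exact Finset.prod_congr rfl fun p hp => by rw [SymB.quad1_mul (of_mem_pf hp).2.1, mul_pow]
theorem sym_mul_right (n a b : R E) : sym n (a * b) = sym n a * sym n b := by
  rw [sym, sym, sym, quad_mul_right, cub_mul_right, map_mul]; ring
theorem quad_pow_right (n a : R E) (k : ℕ) : quad n (a ^ k) = quad n a ^ k := by
  induction k with
  | zero => simp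
  | succ k ih => rw [pow_succ, quad_mul_right, ih, pow_succ]
theorem sym_pow_right (n a : R E) (k : ℕ) : sym n (a ^ k) = sym n a ^ k := by
  rw [sym, sym, quad_pow_right, cub_pow_right, map_pow, mul_pow]
theorem quad_congr_rad {n a b : R E} (h : rad n ∣ a - b) : quad n a = quad n b :=
  Finset.prod_congr rfl fun p hp => by
    rw [SymB.quad1_congr ((Finset.dvd_prod_of_mem _ hp : p ∣ rad n).trans h)]
theorem sym_congr_rad {n a b : R E} (h : rad n ∣ a - b) : sym n a = sym n b := by
  rw [sym, sym, quad_congr_rad h, cub_congr_rad h]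
theorem quad_congr {n a b : R E} (h : n ∣ a - b) : quad n a = quad n b :=
  quad_congr_rad ((rad_dvd n).trans h)
theorem sym_congr {n a b : R E} (h : n ∣ a - b) : sym n a = sym n b :=
  sym_congr_rad ((rad_dvd n).trans h)
theorem quad_eq_zero_iff {n a : R E} (hn : n ≠ 0) : quad n a = 0 ↔ ¬ IsCoprime n a := by
  rw [isCoprime_iff_pf hn, quad, Finset.prod_eq_zero_iff]
  push Not
  refine exists_congr fun p => and_congr_right fun hp => ?_
  rw [pow_eq_zero_iff (SymB.vp_ne hp), SymB.quad1_eq_zero_iff]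
theorem sym_eq_zero_iff {n a : R E} (hn : n ≠ 0) : sym n a = 0 ↔ ¬ IsCoprime n a := by
  rw [sym, mul_eq_zero, map_eq_zero, cub_eq_zero_iff hn, quad_eq_zero_iff hn, or_self]
theorem norm_quad_le (n a : R E) : ‖quad n a‖ ≤ 1 := by
  rw [quad, norm_prod]
  refine Finset.prod_le_one (fun _ _ => norm_nonneg _) fun p _ => ?_
  rw [norm_pow]
  exact pow_le_one₀ (norm_nonneg _) (SymB.norm_quad1_le a)
theorem norm_sym_le (n a : R E) : ‖sym n a‖ ≤ 1 := by
  rw [sym, norm_mul, Complex.norm_conj]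
  exact mul_le_one₀ (norm_quad_le n a) (norm_nonneg _) (norm_cub_le n a)
theorem norm_quad {n a : R E} (h : IsCoprime n a) : ‖quad n a‖ = 1 := by
  have := congrArg norm (SymB.quad_sq h)
  rw [norm_pow, norm_one] at this
  exact (pow_eq_one_iff_of_nonneg (norm_nonneg _) two_ne_zero).1 this
theorem norm_sym {n a : R E} (h : IsCoprime n a) : ‖sym n a‖ = 1 := by
  rw [sym, norm_mul, Complex.norm_conj, norm_cub h, norm_quad h, one_mul]
theorem conj_quad (n a : R E) : conj (quad n a) = quad n a := by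
  rw [quad, map_prod]
  exact Finset.prod_congr rfl fun p _ => by rw [map_pow, SymB.conj_quad1]
theorem quad_sq {n a : R E} (h : IsCoprime n a) : quad n a ^ 2 = 1 := SymB.quad_sq h
theorem sym_sq (n a : R E) : sym n a ^ 2 = cub n a := by
  rcases eq_or_ne n 0 with rfl | hn
  · simp [sym, SymB.quad_zero]
  rw [sym, conj_cub]
  by_cases h : IsCoprime n a
  · linear_combination cub n a ^ 4 * quad_sq h + cub n a * cub_pow_three h
  · rw [(cub_eq_zero_iff hn).2 h]; simp
theorem sym_pow_three (n a : R E) : sym n a ^ 3 = quad n a := by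
  rcases eq_or_ne n 0 with rfl | hn
  · simp [sym, SymB.quad_zero]
  rw [sym, conj_cub]
  by_cases h : IsCoprime n a
  · linear_combination quad n a * cub n a ^ 6 * quad_sq h +
      quad n a * (cub n a ^ 3 + 1) * cub_pow_three h
  · rw [(quad_eq_zero_iff hn).2 h]; simp
theorem sym_pow_six {n a : R E} (h : IsCoprime n a) : sym n a ^ 6 = 1 := by
  rw [show 6 = 2 * 3 from rfl, pow_mul, sym_sq, cub_pow_three h]
open Classical in
theorem sym_pow_six_eq {n : R E} (hn : n ≠ 0) (a : R E) :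
    sym n a ^ 6 = if IsCoprime n a then 1 else 0 := by
  split_ifs with h
  · exact sym_pow_six h
  · rw [(sym_eq_zero_iff hn).2 h, zero_pow (by norm_num)]
theorem sym_pow_add_six (n a : R E) {j : ℕ} (hj : j ≠ 0) : sym n a ^ (j + 6) = sym n a ^ j := by
  rcases eq_or_ne n 0 with rfl | hn
  · simp [sym, SymB.quad_zero]
  by_cases h : IsCoprime n a
  · rw [pow_add, sym_pow_six h, mul_one]
  · rw [(sym_eq_zero_iff hn).2 h, zero_pow hj, zero_pow (by omega)]
theorem conj_sym (n a : R E) : conj (sym n a) = sym n a ^ 5 := by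
  rw [show 5 = 3 + 2 from rfl, pow_add, sym_pow_three, sym_sq, sym, map_mul, conj_quad,
    Complex.conj_conj]
theorem sym_neg_one_sq (n : R E) : sym n (-1) ^ 2 = 1 := by rw [sym_sq, cub_neg_one]
theorem sym_neg_one (n : R E) : sym n (-1) = quad n (-1) := by
  rw [sym, cub_neg_one, map_one, mul_one]
theorem exists_mulChar_sym {p : R E} (hp : Prime p) :
    ∃ χ : MulChar (R E ⧸ Ideal.span {p}) ℂ, orderOf χ = 6 ∧
      ∀ a, χ (Ideal.Quotient.mk _ a) = sym p a := by
  obtain ⟨χ, hχ⟩ := SymB.exists_chr (p := p) (sym p) (sym_one_right p) (sym_mul_right p)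
    (fun a b hab => sym_congr hab)
    fun a ha => (sym_eq_zero_iff hp.ne_zero).2 fun h' => ha h'.symm
  refine ⟨χ, orderOf_eq_of_pow_and_pow_div_prime (by norm_num)
    ((SymB.chr_pow_eq_one_iff χ 6).2 fun a ha => ?_) fun q hq hq6 h1 => ?_, hχ⟩
  · rw [hχ, sym_pow_six ha.symm]
  · have hq' : q = 2 ∨ q = 3 := by
      have := Nat.le_of_dvd (by norm_num) hq6
      interval_cases q <;> first | omega | exact absurd hq (by norm_num)
    have h6 := nN_prime_mod hp
    rcases hq' with rfl | rfl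
    · obtain ⟨a, ha, ha'⟩ := SymB.exists_pow_ne hp (e := (nN p - 1) / 2) (by omega) (by omega)
      have := (SymB.chr_pow_eq_one_iff χ 3).1 h1 a (hp.coprime_iff_not_dvd.2 ha).symm
      rw [hχ, sym_pow_three, quad_prime hp, quad1, if_neg ha, if_neg ha'] at this
      norm_num at this
    · obtain ⟨a, ha, ha'⟩ := SymB.exists_pow_ne hp (e := (nN p - 1) / 3) (by omega) (by omega)
      have := (SymB.chr_pow_eq_one_iff χ 2).1 h1 a (hp.coprime_iff_not_dvd.2 ha).symm
      rw [hχ, sym_sq, cub_prime hp, ← pow_zero omC, cub1_eq_pow_iff hp, pow_zero] at this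
      exact ha' this
theorem sum_res_sym_pow {p : R E} (hp : Prime p) {j : ℕ} (hj : ¬ 6 ∣ j) :
    ∑ x ∈ res p, sym p x ^ j = 0 := by
  obtain ⟨χ, h6, hχ⟩ := exists_mulChar_sym hp
  have := finite_quot hp.ne_zero
  have := Fintype.ofFinite (R E ⧸ Ideal.span {p})
  have hj0 : j ≠ 0 := by
    rintro rfl
    exact hj (dvd_zero _)
  have h1 : χ ^ j ≠ 1 := fun h' => hj (h6 ▸ orderOf_dvd_of_pow_eq_one h')
  rw [← MulChar.sum_eq_zero_of_ne_one h1, ← sum_res_eq_quot hp.ne_zero]
  exact Finset.sum_congr rfl fun x _ => by rw [MulChar.pow_apply' _ hj0, hχ]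
theorem exists_sym_pow_ne_one {p : R E} (hp : Prime p) {j : ℕ} (hj : ¬ 6 ∣ j) :
    ∃ x, IsCoprime x p ∧ sym p x ^ j ≠ 1 := by
  obtain ⟨χ, h6, hχ⟩ := exists_mulChar_sym hp
  have h1 : χ ^ j ≠ 1 := fun h' => hj (h6 ▸ orderOf_dvd_of_pow_eq_one h')
  by_contra hc
  push Not at hc
  exact h1 ((SymB.chr_pow_eq_one_iff χ j).2 fun a ha => by rw [hχ, hc a ha])

end Crest.Agent.R312
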