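import Crest.Agent.R312.PP
import Crest.Agent.R312.Symbol

/-!
# Row 312, `Final`, part b: from the ideals of `𝓞` to the ray classes
-/

set_option autoImplicit false

noncomputable section

namespace Crest.Agent.R312.FinB

open NumberField
open scoped ComplexConjugate
open Crest.Agent.R17 (Wc Wm)

variable {E : Type} [Field E] [NumberField E] [Fr E]

/-- The contraction of the ideal generated by `g`. -/
def ph (g : R E) : Ideal (𝓞 E) := (Ideal.span {g}).comap toR

theorem map_comap (J : Ideal (R E)) : (J.comap toR).map toR = J := by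
  refine le_antisymm Ideal.map_comap_le fun y hy => ?_
  obtain ⟨l, y', h1⟩ := FrB2.exists_toR y
  have hy' : y' ∈ J.comap toR := by
    rw [Ideal.mem_comap, h1]
    exact J.mul_mem_left _ hy
  have h2 := Ideal.mem_map_of_mem toR hy'
  rw [h1] at h2
  exact (Ideal.unit_mul_mem_iff_mem _ (isUnit_mm.pow l)).1 h2

theorem map_ph (g : R E) : (ph g).map toR = Ideal.span {g} := map_comap _

theorem cop_ph {g : R E} (hg : g ≠ 0) : IsCoprime (ph g) (Ideal.span {(mm E : 𝓞 E)}) := by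
  obtain ⟨b, hb, hgb⟩ := exists_dvd_nat hg
  have h1 : (b : 𝓞 E) ∈ ph g := by
    rw [ph, Ideal.mem_comap, map_natCast]
    exact Ideal.mem_span_singleton.2 hgb
  obtain ⟨u, v, huv⟩ : IsCoprime (b : 𝓞 E) (mm E : 𝓞 E) := Nat.Coprime.cast hb
  exact Ideal.isCoprime_iff_exists.2 ⟨u * b, Ideal.mul_mem_left _ _ h1, v * mm E,
    Ideal.mul_mem_left _ _ (Ideal.mem_span_singleton_self _), huv⟩

theorem ph_mul {a b : R E} (ha : a ≠ 0) (hb : b ≠ 0) : ph (a * b) = ph a * ph b := by
  rw [← FrB2.comap_map ((cop_ph ha).mul_left (cop_ph hb)), Ideal.map_mul, map_ph, map_ph,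
    Ideal.span_singleton_mul_span_singleton, ph]

theorem ph_unit {u : R E} (hu : IsUnit u) : ph u = 1 := by
  rw [ph, Ideal.span_singleton_eq_top.2 hu, Ideal.comap_top, Ideal.one_eq_top]

theorem unit_of_ph {u : R E} (h : IsUnit (ph u)) : IsUnit u := by
  rw [← Ideal.span_singleton_eq_top, ← map_ph, Ideal.isUnit_iff.1 h, Ideal.map_top]

theorem ph_coprime {a b : R E} (ha : a ≠ 0) (h : IsCoprime a b) : IsCoprime (ph a) (ph b) := by
  have h1 : IsCoprime (ph a ⊔ ph b) (Ideal.span {(mm E : 𝓞 E)}) := by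
    rw [Ideal.isCoprime_iff_sup_eq, eq_top_iff, ← Ideal.isCoprime_iff_sup_eq.1 (cop_ph ha)]
    exact sup_le_sup_right le_sup_left _
  rw [Ideal.isCoprime_iff_sup_eq, ← FrB2.comap_map h1, Ideal.map_sup, map_ph, map_ph,
    Ideal.isCoprime_iff_sup_eq.1 ((Ideal.isCoprime_span_singleton_iff a b).2 h), Ideal.comap_top]

theorem moebius_ph {g : R E} (hg : g ≠ 0) :
    ((UniqueFactorizationMonoid.moebius (ph g) : ℤ) : ℂ) = mu g := by
  by_cases hs : Squarefree g
  · refine squarefree_induction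
      (P := fun g => ((UniqueFactorizationMonoid.moebius (ph g) : ℤ) : ℂ) = mu g) (fun u hu => ?_)
      (fun p n hp hn hpn ih => ?_) hs
    · rw [ph_unit hu, mu_unit hu, UniqueFactorizationMonoid.moebius_one, Int.cast_one]
    · have h1 : IsCoprime p n := hp.coprime_iff_not_dvd.2 hpn
      have h2 : (Ideal.span {p}).IsPrime := (Ideal.span_singleton_prime hp.ne_zero).2 hp
      have h3 : Prime (ph p) := Ideal.prime_of_isPrime
        (FrB2.comap_ne_bot (by simpa using hp.ne_zero)) (Ideal.comap_isPrime _ _)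
      rw [ph_mul hp.ne_zero hn.ne_zero, (ph_coprime hp.ne_zero h1).isRelPrime.moebius_mul,
        h3.irreducible.moebius_eq, Int.cast_mul, ih, mu_mul h1, mu_prime hp]
      simp
  · rw [mu_of_not hs, UniqueFactorizationMonoid.moebius_of_not_squarefree, Int.cast_zero]
    intro h
    refine hs fun x ⟨y, hy⟩ => unit_of_ph (h _ ⟨ph y, ?_⟩)
    have hx : x ≠ 0 := fun h0 => hg (by rw [hy, h0]; simp)
    have hy0 : y ≠ 0 := fun h0 => hg (by rw [hy, h0]; simp)
    rw [hy, ph_mul (mul_ne_zero hx hx) hy0, ph_mul hx hx]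

theorem bij_ph : Function.Bijective fun g : {g : R E // Nm g} =>
    (⟨ph g.1, cop_ph g.2.ne_zero⟩ :
      {I : Ideal (𝓞 E) // IsCoprime I (Ideal.span {(mm E : 𝓞 E)})}) := by
  refine ⟨fun a b h => ?_, fun I => ?_⟩
  · have h' := congrArg (fun I => Ideal.map (toR (E := E)) I.1) h
    simp only [map_ph] at h'
    exact Subtype.ext (a.2.eq_of_associated b.2 (Ideal.span_singleton_eq_span_singleton.1 h'))
  · have h0 : I.1.map (toR (E := E)) ≠ ⊥ := by
      intro h
      have h1 := FrB2.comap_map I.2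
      rw [h, Ideal.comap_bot_of_injective _ FrB2.toR_injective] at h1
      have h2 := I.2
      rw [← h1, Ideal.isCoprime_iff_sup_eq, bot_sup_eq, Ideal.span_singleton_eq_top] at h2
      obtain ⟨v, hv⟩ := h2
      have h3 := nr_unit v
      rw [hv, show (((mm E : 𝓞 E) : 𝓞 E) : E) = (mm E : E) by simp, nr_natCast] at h3
      have h4 : (6 : ℝ) ≤ mm E := by exact_mod_cast six_le_mm (E := E)
      have h5 : (1 : ℝ) < (mm E : ℝ) ^ Module.finrank ℚ E :=
        one_lt_pow₀ (by linarith) Module.finrank_pos.ne'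
      linarith
    have h1 := span_gen h0
    have h2 : gen (I.1.map (toR (E := E))) ≠ 0 := fun h => h0 (by rw [← h1, h]; simp)
    refine ⟨⟨gen (I.1.map toR), h2, by rw [h1]⟩, Subtype.ext ?_⟩
    change ph _ = _
    rw [ph, h1, FrB2.comap_map I.2]

open Classical in
theorem tsum_ideal_eq (F : ℝ → ℂ) :
    ∑' I : Ideal (𝓞 E), (if IsCoprime I (Ideal.span {(mm E : 𝓞 E)}) then
        ((UniqueFactorizationMonoid.moebius I : ℤ) : ℂ) else 0) * F (Ideal.absNorm I : ℝ) =
      ∑' g : R E, if Nm g then mu g * F (nf (g : E)) else 0 := by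
  simp only [ite_mul, zero_mul]
  rw [frC2_tsum_ite, frC2_tsum_ite, ← (Equiv.ofBijective _ bij_ph).tsum_eq]
  refine tsum_congr fun g => ?_
  simp only [Equiv.ofBijective_apply]
  rw [moebius_ph g.2.ne_zero, absNorm_eq_nf (cop_ph g.2.ne_zero) (map_ph _)]

open Classical in
theorem tsum_Nm_eq {j : ℕ} (hj : 1 ≤ j) : ∃ T : Finset E, ∀ X : ℝ, 0 < X →
    (∑' g : R E, if Nm g then mu g * Wc (nf (g : E) / X) 0 else 0) = ∑ τ ∈ T, Mob j τ 1 X 0 := by
  obtain ⟨T, -, hT⟩ := exists_classes (E := E) hj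
  obtain ⟨C, -, hC⟩ := cnt_Cls (E := E) hj
  refine ⟨T, fun X hX => ?_⟩
  have h0 : ∀ {τ : E} {n : R E}, Cls j τ n → n ≠ 0 := fun h h' => h.1.1 (by rw [h']; rfl)
  have hu : ∀ {τ τ' : E} {n n' : R E}, τ ∈ T → τ' ∈ T → Cls j τ n → Cls j τ' n' →
      Associated n n' → τ = τ' := by
    rintro τ τ' n _ h1 h2 h3 h4 ⟨u, rfl⟩
    refine (hT n h3.1.1).unique ⟨h1, 1, isUnit_one, by simpa using h3.2⟩ ⟨h2, u, u.isUnit, ?_⟩
    have := h4.2
    rwa [Subring.coe_mul, mul_comm] at this
  have hs : ∀ τ : E, Summable fun n : R E =>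
      if Cls j τ n then mu n * Wc (nf (n : E) / X) 0 else 0 := fun τ => by
    have h1 : PB (Cls j τ) (fun n : R E => nf (n : E)) (fun n => if Cls j τ n then mu n else 0)
        1 0 := ⟨zero_le_one, fun n hn => if_neg hn, fun n hn => by
      beta_reduce; rw [if_pos hn, Real.rpow_zero, mul_one]; exact norm_mu_le n⟩
    simpa only [ite_mul, zero_mul] using (summable_Sm (hC τ) h1 hX 0).of_norm
  have hb : Function.Bijective fun n : {n : R E // ∃ τ ∈ T, Cls j τ n} =>
      (⟨nrm n.1, nm_nrm (h0 n.2.choose_spec.2)⟩ : {g : R E // Nm g}) := by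
    refine ⟨?_, fun g => ?_⟩
    · rintro ⟨a, τ, h1, h2⟩ ⟨b, τ', h3, h4⟩ h
      have h5 : nrm a = nrm b := congrArg Subtype.val h
      have h6 : Associated a b :=
        (associated_nrm (h0 h2)).symm.trans (h5 ▸ associated_nrm (h0 h4))
      obtain rfl := hu h1 h3 h2 h4 h6
      exact Subtype.ext (Cls.eq_of_associated hj h2 h4 h6)
    · have hg : ((g : R E) : E) ≠ 0 := fun h => g.2.ne_zero (Subtype.ext h)
      obtain ⟨τ, ⟨h1, u, hu1, hu2⟩, -⟩ := hT _ hg
      obtain ⟨v, hv, e⟩ := repR_spec j (u * g.1)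
      have hv' := ((V_iff_isUnit hj).1 hv).1
      refine ⟨⟨repR j (u * g.1), τ, h1, fd_rep hj (hu2.ne_zero hj).2, ?_⟩, Subtype.ext ?_⟩
      · rw [e, Ty, Subring.coe_mul, mul_div_assoc]
        exact hv.1.mul hu2
      · change nrm (repR j (u * g.1)) = g.1
        rw [e, ← mul_assoc, nrm_eq_of_associated (associated_unit_mul_left _ _ (hv'.mul hu1)),
          g.2.nrm_eq]
  simp only [Mob, sym_one_right, map_one, mul_one]
  rw [← Summable.tsum_finsetSum fun τ _ => hs τ, frC2_tsum_ite, ← (Equiv.ofBijective _ hb).tsum_eq]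
  refine (frC2_tsum_ite (fun n : R E => ∃ τ ∈ T, Cls j τ n)
      fun n => mu (nrm n) * Wc (nf (nrm n : E) / X) 0).symm.trans (tsum_congr fun n => ?_)
  split_ifs with h
  · obtain ⟨τ, h1, h2⟩ := h
    rw [Finset.sum_eq_single_of_mem τ h1 fun τ' h3 h4 => if_neg fun h5 =>
      h4 (hu h3 h1 h5 h2 (Associated.refl _)), if_pos h2, nf_nrm (h0 h2),
      mu_of_associated (associated_nrm (h0 h2))]
  · exact (Finset.sum_eq_zero fun τ h1 => if_neg fun h2 => h ⟨τ, h1, h2⟩).symm

end Crest.Agent.R312.FinB
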