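import Crest.Agent.R312.T1
import Crest.Agent.R312.FinalAuxB

/-!
# Row 312, part (A): the bound `N^{11/12 + ε}` for the Möbius sums
-/

set_option autoImplicit false

noncomputable section

namespace Crest.Agent.R312

open NumberField
open scoped ComplexConjugate
open Crest.Agent.R17 (Wc Wm)

variable {E : Type} [Field E] [NumberField E] [Fr E]

/-- Amplification: `Mob_eq_sum_dvs` with `a = 1`, Cauchy (`card_dvs_le`), sum over `n ∈ nms P`,
`P = X^{1/6}` (`card_nms_ge`); for fixed `e` the rows `n⁶` are distinct elements of `nms X`;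
`T1` with `Q = A = X`, `sum_inv_nf_le`. -/
theorem amplify {j : ℕ} (hj : Lev E j) {ε : ℝ} (hε : 0 < ε) : ∃ C : ℝ,
    ∀ (τ : E) (X : ℝ), 1 ≤ X → ‖Mob j τ 1 X 0‖ ≤ C * X ^ (11 / 12 + ε) := by
  classical
  have hδ : 0 < ε / 2 := by positivity
  obtain ⟨C₁, J, hC₁, h₁⟩ := T1 hj hδ
  obtain ⟨C₂, hC₂, h₂⟩ := card_dvs_le (E := E) hδ
  obtain ⟨c, hc, h₃⟩ := card_nms_ge (E := E) hδ
  obtain ⟨C₃, hC₃, h₄⟩ := sum_inv_nf_le (E := E) hδ
  refine ⟨Real.sqrt (2 * C₁ * C₂ * C₃ / c), fun τ X hX => ?_⟩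
  have hX0 : 0 < X := by linarith
  set P : ℝ := X ^ (1 / 6 : ℝ) with hP
  have hP1 : 1 ≤ P := Real.one_le_rpow hX (by norm_num)
  have hP6 : P ^ 6 = X := by
    rw [hP, ← Real.rpow_natCast, ← Real.rpow_mul hX0.le]; norm_num
  have hPX : P ≤ X := hP6 ▸ le_self_pow₀ hP1 (by norm_num)
  set x : ℝ := X ^ (ε / 2) with hx
  have hx0 : 0 < x := by positivity
  have hPx : P ^ (ε / 2) ≤ x := by rw [hx]; gcongr
  have k1 : ∀ n ∈ (nms P : Finset (R E)), ‖Mob j τ 1 X 0‖ ^ 2 ≤ C₂ * x *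
      ∑ e ∈ (nms P : Finset (R E)), ‖Mob j (τ / e) (n ^ 6) (X / nf (e : E)) 0‖ ^ 2 := by
    intro n hn
    obtain ⟨hn, hnP⟩ := mem_nms.1 hn
    rw [Mob_eq_sum_dvs hj.one_le τ 1 hn.ne_zero hX0, one_mul]
    have a1 : ‖∑ e ∈ dvs n, mu e * conj (sym e 1) * Mob j (τ / e) (n ^ 6) (X / nf (e : E)) 0‖ ≤
        ∑ e ∈ dvs n, ‖Mob j (τ / e) (n ^ 6) (X / nf (e : E)) 0‖ :=
      (norm_sum_le _ _).trans (Finset.sum_le_sum fun e _ => by
        rw [sym_one_right, map_one, mul_one, norm_mul]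
        exact mul_le_of_le_one_left (norm_nonneg _) (norm_mu_le e))
    refine (pow_le_pow_left₀ (norm_nonneg _) a1 2).trans (sq_sum_le_card_mul_sum_sq.trans ?_)
    refine mul_le_mul ((h₂ n hn.ne_zero).trans ?_) (Finset.sum_le_sum_of_subset_of_nonneg
      (fun e he => ?_) fun _ _ _ => sq_nonneg _) (Finset.sum_nonneg fun _ _ => sq_nonneg _)
      (by positivity)
    · have := nf_nonneg (n : E)
      exact mul_le_mul_of_nonneg_left (le_trans (by gcongr) hPx) hC₂.le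
    · obtain ⟨h1, h2⟩ := of_mem_dvs he
      exact mem_nms.2 ⟨h1, (nf_le_of_dvd h2 hn.ne_zero).trans hnP⟩
  have k2 : ∀ e ∈ (nms P : Finset (R E)), ∑ n ∈ (nms P : Finset (R E)),
      ‖Mob j (τ / e) (n ^ 6) (X / nf (e : E)) 0‖ ^ 2 ≤ 2 * C₁ * x * X ^ 2 * (nf (e : E))⁻¹ := by
    intro e he
    have ne := one_le_nf (mem_nms.1 he).1.ne_zero
    have a1 := div_le_self hX0.le ne
    have a2 := h₁ X hX (τ / e) X (X / nf (e : E)) 0 hX0.le le_rfl (by positivity) a1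
    simp only [Complex.ofReal_zero, zero_mul, abs_zero, add_zero, one_pow, mul_one] at a2
    have hinj : Set.InjOn (fun n : R E => n ^ 6) (nms P : Finset (R E)) := fun a ha b hb h =>
      (mem_nms.1 ha).1.eq_of_associated (mem_nms.1 hb).1
        ((Associated.pow_iff (n := 6) (by norm_num)).1 (Associated.of_eq h))
    rw [← Finset.sum_image (f := fun a => ‖Mob j (τ / e) a (X / nf (e : E)) 0‖ ^ 2) hinj]
    refine (Finset.sum_le_sum_of_subset_of_nonneg (fun a ha => ?_) fun _ _ _ => sq_nonneg _).trans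
      (a2.trans ?_)
    · obtain ⟨n, hn, rfl⟩ := Finset.mem_image.1 ha
      obtain ⟨hn, hnP⟩ := mem_nms.1 hn
      refine mem_nms.2 ⟨hn.pow 6, ?_⟩
      rw [SubmonoidClass.coe_pow, nf_pow, ← hP6]
      exact pow_le_pow_left₀ (nf_nonneg _) hnP 6
    · calc _ ≤ C₁ * x * ((X + X) * (X / nf (e : E))) := by gcongr
        _ = _ := by ring
  have k3 : c * P ^ (1 - ε / 2) * ‖Mob j τ 1 X 0‖ ^ 2 ≤ 2 * C₁ * C₂ * C₃ * x ^ 3 * X ^ 2 :=
    calc _ ≤ ((nms P : Finset (R E)).card : ℝ) * ‖Mob j τ 1 X 0‖ ^ 2 := by gcongr; exact h₃ P hP1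
      _ ≤ ∑ n ∈ (nms P : Finset (R E)), C₂ * x * ∑ e ∈ (nms P : Finset (R E)),
            ‖Mob j (τ / e) (n ^ 6) (X / nf (e : E)) 0‖ ^ 2 := by
          rw [← nsmul_eq_mul, ← Finset.sum_const]
          exact Finset.sum_le_sum k1
      _ ≤ C₂ * x * (2 * C₁ * x * X ^ 2 * (C₃ * x)) := by
          rw [← Finset.mul_sum, Finset.sum_comm]
          refine mul_le_mul_of_nonneg_left ((Finset.sum_le_sum k2).trans ?_) (by positivity)
          rw [← Finset.mul_sum]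
          exact mul_le_mul_of_nonneg_left ((h₄ P hP1).trans (by gcongr)) (by positivity)
      _ = _ := by ring
  have k4 : x ^ 3 * X ^ 2 ≤ P ^ (1 - ε / 2) * (X ^ (11 / 12 + ε)) ^ 2 := by
    rw [hx, hP, ← Real.rpow_natCast, ← Real.rpow_natCast, ← Real.rpow_natCast,
      ← Real.rpow_mul hX0.le, ← Real.rpow_mul hX0.le, ← Real.rpow_mul hX0.le,
      ← Real.rpow_add hX0, ← Real.rpow_add hX0]
    refine Real.rpow_le_rpow_of_exponent_le hX ?_
    push_cast
    linarith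
  have hP0 : 0 < P ^ (1 - ε / 2) := by positivity
  refine (pow_le_pow_iff_left₀ (norm_nonneg _) (by positivity) two_ne_zero).1 ?_
  rw [mul_pow, Real.sq_sqrt (by positivity), div_mul_eq_mul_div, le_div_iff₀ hc]
  refine le_of_mul_le_mul_left ?_ hP0
  calc _ = c * P ^ (1 - ε / 2) * ‖Mob j τ 1 X 0‖ ^ 2 := by ring
    _ ≤ 2 * C₁ * C₂ * C₃ * (x ^ 3 * X ^ 2) := by rw [← mul_assoc]; exact k3
    _ ≤ 2 * C₁ * C₂ * C₃ * (P ^ (1 - ε / 2) * (X ^ (11 / 12 + ε)) ^ 2) := by gcongr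
    _ = _ := by ring

open Classical in
/-- `I ↦ gen (I.map toR)` is a bijection from the ideals of `𝓞` prime to `m` onto the normalised
elements (`R` is the localisation away from `m`); it preserves norms (`absNorm_eq_nf`) and the
Möbius function. -/
theorem tsum_ideal_eq (F : ℝ → ℂ) :
    ∑' I : Ideal (𝓞 E), (if IsCoprime I (Ideal.span {(mm E : 𝓞 E)}) then
        ((UniqueFactorizationMonoid.moebius I : ℤ) : ℂ) else 0) * F (Ideal.absNorm I : ℝ) =
      ∑' g : R E, if Nm g then mu g * F (nf (g : E)) else 0 := FinB.tsum_ideal_eq F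

open Classical in
/-- Every non-zero ideal of `R` has exactly one generator in exactly one of the sets `Cls j τ`,
`τ ∈ T` (`exists_classes`, `repR`, `Cls.eq_of_associated`; summability from `summable_Sm`). -/
theorem tsum_Nm_eq {j : ℕ} (hj : 1 ≤ j) : ∃ T : Finset E, ∀ X : ℝ, 0 < X →
    (∑' g : R E, if Nm g then mu g * Wc (nf (g : E) / X) 0 else 0) = ∑ τ ∈ T, Mob j τ 1 X 0 :=
  FinB.tsum_Nm_eq hj

theorem mobBound : MobBound E := by
  obtain ⟨j, hj⟩ := exists_lev (E := E)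
  obtain ⟨T, hT⟩ := tsum_Nm_eq (E := E) hj.one_le
  refine ⟨mm E, Fr.m_ne, fun ε hε => ?_⟩
  obtain ⟨C, hC⟩ := amplify hj hε
  refine ⟨T.card * C, fun N hN => ?_⟩
  rw [tsum_ideal_eq (E := E) fun x => Wc (x / N) 0, hT N (by linarith)]
  refine (norm_sum_le _ _).trans ((Finset.sum_le_sum fun τ _ => hC τ N hN).trans_eq ?_)
  rw [Finset.sum_const, nsmul_eq_mul, mul_assoc]

omit [Field E] [NumberField E] [Fr E] in
/-- **Part (A).** -/
theorem mobAll : MobAll := fun E _ _ h => by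
  obtain ⟨_⟩ := exists_Fr E h
  exact mobBound

end Crest.Agent.R312
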