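import Crest.Agent.R312.Defs

/-!
# Row 312: proofs of the first part of `Frame.lean` (the frame and the rings `R`, `OS`)
-/

set_option autoImplicit false

noncomputable section

namespace Crest.Agent.R312.FA1

open NumberField
open scoped nonZeroDivisors

theorem exists_N (A : Type) [CommRing A] [IsDedekindDomain A] [Module.Free ℤ A] [Module.Finite ℤ A]
    [Fintype (ClassGroup A)] :
    ∃ N : ℕ, N ≠ 0 ∧ ∀ I : Ideal A, ∃ x ∈ I, ∀ y ∈ I, x ∣ (N : A) * y := by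
  choose J hJ using ClassGroup.mk0_surjective (R := A)
  have hN : ∀ c, Ideal.absNorm (J c : Ideal A) ≠ 0 := fun c =>
    mt Ideal.absNorm_eq_zero_iff.1 (nonZeroDivisors.coe_ne_zero (J c))
  refine ⟨∏ c, Ideal.absNorm (J c : Ideal A), Finset.prod_ne_zero_iff.2 fun c _ => hN c,
    fun I => ?_⟩
  by_cases hI : I = ⊥
  · subst hI
    exact ⟨0, Ideal.zero_mem _, fun y hy => by simp [Ideal.mem_bot.1 hy]⟩
  have hI' : I ∈ (Ideal A)⁰ := mem_nonZeroDivisors_of_ne_zero hI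
  obtain ⟨c, hc⟩ : ∃ c, c = (ClassGroup.mk0 ⟨I, hI'⟩)⁻¹ := ⟨_, rfl⟩
  obtain ⟨x, -, hx⟩ := (ClassGroup.mk0_eq_mk0_inv_iff (I := ⟨I, hI'⟩) (J := J c)).1
    (by rw [hJ, hc, inv_inv])
  have hx' : I * (J c : Ideal A) = Ideal.span {x} := hx
  have h0 : x ∈ I * (J c : Ideal A) := by
    rw [hx']; exact Ideal.mem_span_singleton_self x
  refine ⟨x, Ideal.mul_le_left h0, fun y hy => ?_⟩
  have h1 : y * (Ideal.absNorm (J c : Ideal A) : A) ∈ I * (J c : Ideal A) :=
    Ideal.mul_mem_mul hy (Ideal.absNorm_mem _)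
  rw [hx', Ideal.mem_span_singleton] at h1
  refine h1.trans ?_
  rw [mul_comm y]
  exact mul_dvd_mul_right (Nat.cast_dvd_cast
    (Finset.dvd_prod_of_mem (fun c => Ideal.absNorm (J c : Ideal A)) (Finset.mem_univ c))) y

theorem exists_Fr (E : Type) [Field E] [NumberField E] (h : ∃ ω : E, ω ^ 2 + ω + 1 = 0) :
    Nonempty (Fr E) := by
  obtain ⟨ω, hω⟩ := h
  obtain ⟨N, hN, H⟩ := exists_N (𝓞 E)
  refine ⟨{ om := ω, hom := hω
            m := 6 * (discr E).natAbs * N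
            m_ne := mul_ne_zero (mul_ne_zero (by norm_num)
              (Int.natAbs_ne_zero.2 (discr_ne_zero E))) hN
            six_dvd := (dvd_mul_right _ _).mul_right _
            discr_dvd := (dvd_mul_left _ _).mul_right _
            pid := fun I => ?_ }⟩
  obtain ⟨x, hx, h⟩ := H I
  refine ⟨x, hx, 1, fun y hy => (h y hy).trans ?_⟩
  rw [pow_one]
  exact mul_dvd_mul_right (Nat.cast_dvd_cast (dvd_mul_left _ _)) y

theorem exists_split {m : ℕ} (d : ℕ) (hd : d ≠ 0) :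
    ∃ k b : ℕ, b.Coprime m ∧ d ∣ m ^ k * b := by
  induction d using induction_on_primes with
  | zero => exact absurd rfl hd
  | one => exact ⟨0, 1, by simp, by simp⟩
  | prime_mul p a hp ih =>
    obtain ⟨k, b, hb, h⟩ := ih (right_ne_zero_of_mul hd)
    by_cases hpm : p ∣ m
    · refine ⟨k + 1, b, hb, ?_⟩
      rw [show m ^ (k + 1) * b = m * (m ^ k * b) by ring]
      exact mul_dvd_mul hpm h
    · refine ⟨k, p * b, Nat.Coprime.mul_left ((Nat.Prime.coprime_iff_not_dvd hp).2 hpm) hb, ?_⟩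
      rw [show m ^ k * (p * b) = p * (m ^ k * b) by ring]
      exact mul_dvd_mul_left p h

section
variable {E : Type} [Field E]

theorem int_int (n : ℤ) : IsIntegral ℤ (n : E) := by
  simpa using isIntegral_algebraMap (R := ℤ) (A := E) (x := n)

theorem int_nat (n : ℕ) : IsIntegral ℤ (n : E) := by exact_mod_cast int_int (E := E) n

theorem bezout {a b : ℕ} (h : a.Coprime b) : ∃ u v : ℤ, (u : E) * a + v * b = 1 := by
  obtain ⟨u, v, huv⟩ := Nat.isCoprime_iff_coprime.2 h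
  exact ⟨u, v, by exact_mod_cast congrArg (Int.cast : ℤ → E) huv⟩

variable [NumberField E]

theorem exists_den (x : E) : ∃ d : ℕ, d ≠ 0 ∧ IsIntegral ℤ ((d : E) * x) := by
  have h : IsAlgebraic ℤ x :=
    (IsFractionRing.isAlgebraic_iff ℤ ℚ E).2 (Algebra.IsAlgebraic.isAlgebraic x)
  obtain ⟨y, hy, h⟩ := h.exists_integral_multiple
  refine ⟨y.natAbs, Int.natAbs_ne_zero.2 hy, ?_⟩
  rw [zsmul_eq_mul] at h
  obtain ⟨n, rfl | rfl⟩ := Int.eq_nat_or_neg y
  · simpa using h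
  · simpa using h.neg

theorem exists_den' (m : ℕ) (x : E) :
    ∃ k b : ℕ, b.Coprime m ∧ IsIntegral ℤ ((m : E) ^ k * b * x) := by
  obtain ⟨d, hd, h⟩ := exists_den x
  obtain ⟨k, b, hb, e, he⟩ := exists_split (m := m) d hd
  refine ⟨k, b, hb, ?_⟩
  have h1 : (m : E) ^ k * b = d * e := by exact_mod_cast congrArg (Nat.cast : ℕ → E) he
  rw [h1, mul_comm (d : E), mul_assoc]
  exact (int_nat e).mul h

end

variable {E : Type} [Field E] [NumberField E] [Fr E]

theorem isFractionRing : IsFractionRing (R E) E :=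
  IsFractionRing.of_field _ _ fun z => by
    obtain ⟨d, hd, h⟩ := exists_den z
    refine ⟨⟨_, mem_RR_of_isIntegral h⟩, ⟨_, mem_RR_of_isIntegral (int_nat d)⟩, ?_⟩
    change z = (d : E) * z / d
    rw [mul_div_cancel_left₀ _ (Nat.cast_ne_zero.2 hd)]

theorem six_le_mm : 6 ≤ mm E := Nat.le_of_dvd (Nat.pos_of_ne_zero Fr.m_ne) Fr.six_dvd

theorem mem_OS_of_isIntegral {x : E} (h : IsIntegral ℤ x) : x ∈ OS E :=
  ⟨1, by simp, by simpa using h⟩

theorem isIntegral_iff {x : E} : IsIntegral ℤ x ↔ x ∈ RR E ∧ x ∈ OS E := by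
  refine ⟨fun h => ⟨mem_RR_of_isIntegral h, mem_OS_of_isIntegral h⟩, ?_⟩
  rintro ⟨⟨k, hk⟩, b, hb, h⟩
  obtain ⟨u, v, huv⟩ := bezout (E := E) (hb.pow_right k)
  have := ((int_int u).mul h).add ((int_int v).mul hk)
  push_cast at huv
  rwa [show (u : E) * (b * x) + v * ((mm E : E) ^ k * x) = x by linear_combination x * huv] at this

theorem exists_pow_mul_mem_OS (x : E) : ∃ k : ℕ, (mm E : E) ^ k * x ∈ OS E := by
  obtain ⟨k, b, hb, h⟩ := exists_den' (mm E) x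
  exact ⟨k, b, hb, by rwa [mul_left_comm, ← mul_assoc]⟩

theorem exists_nat_mul_mem_RR (x : E) :
    ∃ b : ℕ, b.Coprime (mm E) ∧ (b : E) * x ∈ RR E := by
  obtain ⟨k, b, hb, h⟩ := exists_den' (mm E) x
  exact ⟨b, hb, k, by rwa [← mul_assoc]⟩

theorem ne_zero_of_coprime {b : ℕ} (h : b.Coprime (mm E)) : (b : E) ≠ 0 := by
  rw [Nat.cast_ne_zero]
  rintro rfl
  have := six_le_mm (E := E)
  rw [Nat.coprime_zero_left] at h
  omega

theorem inv_natCast_mem_OS {b : ℕ} (h : b.Coprime (mm E)) : (b : E)⁻¹ ∈ OS E :=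
  ⟨b, h, by rw [mul_inv_cancel₀ (ne_zero_of_coprime h)]; exact isIntegral_one⟩

theorem isUnit_iff {a : R E} : IsUnit a ↔ (a : E) ≠ 0 ∧ (a : E)⁻¹ ∈ RR E := by
  constructor
  · intro h
    obtain ⟨c, hc⟩ := h.exists_right_inv
    have h1 : (a : E) * c = 1 := by exact_mod_cast congrArg (Subtype.val : R E → E) hc
    refine ⟨left_ne_zero_of_mul_eq_one h1, ?_⟩
    rw [inv_eq_of_mul_eq_one_right h1]
    exact c.2
  · rintro ⟨h, h'⟩
    exact isUnit_iff_exists_inv.2 ⟨⟨_, h'⟩, Subtype.ext (mul_inv_cancel₀ h)⟩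

theorem dvd_iff {a b : R E} (ha : a ≠ 0) : a ∣ b ↔ (b : E) / (a : E) ∈ RR E := by
  have ha' : (a : E) ≠ 0 := fun h => ha (Subtype.ext h)
  constructor
  · rintro ⟨c, rfl⟩
    rw [Subring.coe_mul, mul_div_cancel_left₀ _ ha']
    exact c.2
  · intro h
    exact ⟨⟨_, h⟩, Subtype.ext (mul_div_cancel₀ _ ha').symm⟩

theorem isUnit_mm : IsUnit (mm E : R E) :=
  isUnit_iff.2 ⟨by simpa using mm_ne_zero (E := E), by simpa using mm_inv_mem (E := E)⟩

theorem isUnit_of_dvd_mm {d : ℕ} (h : d ∣ mm E) : IsUnit (d : R E) :=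
  isUnit_of_dvd_unit (Nat.cast_dvd_cast h) isUnit_mm

theorem isUnit_two : IsUnit (2 : R E) := by
  exact_mod_cast isUnit_of_dvd_mm (E := E) (d := 2) ((by norm_num : 2 ∣ 6).trans Fr.six_dvd)

theorem isUnit_three : IsUnit (3 : R E) := by
  exact_mod_cast isUnit_of_dvd_mm (E := E) (d := 3) ((by norm_num : 3 ∣ 6).trans Fr.six_dvd)

theorem omR_sq_add : (omR : R E) ^ 2 + omR + 1 = 0 := Subtype.ext (Om.hom (E := E))

theorem omR_cube : (omR : R E) ^ 3 = 1 := by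
  linear_combination (omR - 1) * omR_sq_add (E := E)

theorem exists_dvd_nat {c : R E} (hc : c ≠ 0) :
    ∃ b : ℕ, b.Coprime (mm E) ∧ c ∣ (b : R E) := by
  obtain ⟨b, hb, h⟩ := exists_nat_mul_mem_RR (c : E)⁻¹
  exact ⟨b, hb, (dvd_iff hc).2 (by simpa [div_eq_mul_inv] using h)⟩

theorem not_isIntegral_inv : ¬ IsIntegral ℤ (mm E : E)⁻¹ := by
  intro h
  have e : (mm E : E)⁻¹ = algebraMap ℚ E (mm E : ℚ)⁻¹ := by simp
  rw [e, isIntegral_algebraMap_iff (algebraMap ℚ E).injective,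
    IsIntegrallyClosed.isIntegral_iff] at h
  obtain ⟨y, hy⟩ := h
  have h6 := six_le_mm (E := E)
  have hm : (mm E : ℚ) ≠ 0 := Nat.cast_ne_zero.2 Fr.m_ne
  have h1 : (y : ℚ) * (mm E : ℚ) = 1 := by
    rw [show (y : ℚ) = (mm E : ℚ)⁻¹ from hy, inv_mul_cancel₀ hm]
  have h2 : y * (mm E : ℤ) = 1 := by exact_mod_cast h1
  have h3 := Int.eq_one_of_mul_eq_one_left (Int.natCast_nonneg _) h2
  omega

theorem inv_mem_OS {y : E} (hy : y ∈ OS E) :
    1 + (mm E : E) * y ≠ 0 ∧ (1 + (mm E : E) * y)⁻¹ ∈ OS E := by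
  obtain ⟨b, hb, hy⟩ := hy
  have hb0 := ne_zero_of_coprime hb
  have hm := mm_ne_zero (E := E)
  obtain ⟨u, v, huv⟩ := bezout (E := E) hb
  have hw : IsIntegral ℤ ((b : E) * (1 + (mm E : E) * y)) := by
    rw [show (b : E) * (1 + (mm E : E) * y) = b + mm E * (b * y) by ring]
    exact (int_nat b).add ((int_nat _).mul hy)
  have hβ : IsIntegral ℤ ((v : E) - u * (b * y)) := (int_int v).sub ((int_int u).mul hy)
  have key : (u : E) * (b * (1 + (mm E : E) * y)) + ((v : E) - u * (b * y)) * mm E = 1 := by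
    linear_combination huv
  have h0 : 1 + (mm E : E) * y ≠ 0 := fun h => not_isIntegral_inv (E := E) (by
    rw [h, mul_zero, mul_zero, zero_add] at key
    rwa [← eq_inv_of_mul_eq_one_left key])
  refine ⟨h0, ?_⟩
  generalize 1 + (mm E : E) * y = w at hw key h0
  have hc : IsCoprime (⟨_, hw⟩ : integralClosure ℤ E) (mm E : integralClosure ℤ E) :=
    ⟨⟨_, int_int u⟩, ⟨_, hβ⟩, Subtype.ext key⟩
  obtain ⟨k, b', hb', h⟩ := exists_den' (mm E) ((b : E) * w)⁻¹
  obtain ⟨⟨α, hα⟩, ⟨β, hβ'⟩, hαβ⟩ := hc.pow_right (n := k)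
  have h1 : α * (b * w) + β * (mm E : E) ^ k = 1 := by
    simpa using congrArg Subtype.val hαβ
  have h2 := ((int_nat b).mul ((IsIntegral.mul hα (int_nat b')).add (IsIntegral.mul hβ' h)))
  refine ⟨b', hb', ?_⟩
  have e : (b : E) * (α * b' + β * ((mm E : E) ^ k * b' * ((b : E) * w)⁻¹)) = b' * w⁻¹ := by
    field_simp
    linear_combination (b' : E) * h1
  rwa [e] at h2

theorem exists_approx {c : R E} (hc : c ≠ 0) (x : R E) (y : E) (j : ℕ) :
    ∃ z : R E, c ∣ z - x ∧ ((z : E) - y) / (mm E : E) ^ j ∈ OS E := by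
  obtain ⟨b, hb, hcb⟩ := exists_dvd_nat hc
  obtain ⟨k, b', hb', h⟩ := exists_den' (mm E) (y - x)
  obtain ⟨u, v, huv⟩ := bezout (E := E) ((Nat.Coprime.mul_left hb hb').pow_right (k + j))
  push_cast at huv
  have hs : (u : E) * (b' * (y - x)) ∈ RR E :=
    (RR E).mul_mem (mem_RR_of_isIntegral (int_int u)) ⟨k, by rwa [← mul_assoc]⟩
  refine ⟨x + b * ⟨_, hs⟩, by simpa using hcb.mul_right _, ?_⟩
  have hm := pow_ne_zero j (mm_ne_zero (E := E))
  have e : (((x + b * ⟨_, hs⟩ : R E) : E) - y) / (mm E : E) ^ j =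
      -(v * ((mm E : E) ^ k * (y - x))) := by
    rw [div_eq_iff hm]
    push_cast
    linear_combination (y - x) * huv
  rw [e]
  exact (OS E).neg_mem ((OS E).mul_mem (mem_OS_of_isIntegral (int_int v))
    ⟨b', hb', by rwa [mul_left_comm, ← mul_assoc]⟩)

end Crest.Agent.R312.FA1
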