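import Crest.Agent.R312.Arch

/-!
# Row 312: auxiliary lemmas for `Frame.lean`, part B2 (`R / c = 𝓞 / (c R ∩ 𝓞)`)
-/

set_option autoImplicit false

noncomputable section

namespace Crest.Agent.R312.FrB2

open NumberField

theorem prod_zpow_neg_val {a b m L : ℕ} (ha : a ≠ 0) (hm : m ≠ 0) (hc : a.Coprime m)
    (hb : b ∣ m ^ L) {q : ℚ} (hq : |q| = ((a * b : ℕ) : ℚ)) :
    ∏ p ∈ m.primeFactors, (p : ℝ) ^ (-padicValRat p q) = (b : ℝ)⁻¹ := by
  have hb0 : b ≠ 0 := ne_zero_of_dvd_ne_zero (pow_ne_zero L hm) hb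
  have h1 : ∀ p ∈ m.primeFactors, padicValRat p q = (b.factorization p : ℤ) := by
    intro p hp
    have pp := Nat.prime_of_mem_primeFactors hp
    have e : padicValRat p q = padicValRat p |q| := by
      rcases abs_choice q with h | h <;> rw [h]
      exact (padicValRat.neg q).symm
    have h2 : a.factorization p = 0 := by
      refine Nat.factorization_eq_zero_of_not_dvd fun h => ?_
      exact pp.one_lt.ne' (Nat.eq_one_of_dvd_coprimes hc h (Nat.dvd_of_mem_primeFactors hp))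
    rw [e, hq, padicValRat.of_nat, ← Nat.factorization_def _ pp, Nat.factorization_mul ha hb0]
    simp [h2]
  have h3 : ∏ p ∈ m.primeFactors, p ^ b.factorization p = b := by
    conv_rhs => rw [← Nat.prod_factorization_pow_eq_self hb0]
    symm
    refine Finsupp.prod_of_support_subset _ (fun p hp => ?_) _ (fun _ _ => pow_zero _)
    rw [Nat.support_factorization] at hp
    have pp := Nat.prime_of_mem_primeFactors hp
    exact Nat.mem_primeFactors.2
      ⟨pp, pp.dvd_of_dvd_pow ((Nat.dvd_of_mem_primeFactors hp).trans hb), hm⟩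
  rw [Finset.prod_congr rfl fun p hp => by rw [h1 p hp, zpow_neg, zpow_natCast],
    Finset.prod_inv_distrib]
  congr 1
  exact_mod_cast h3

variable {E : Type} [Field E] [NumberField E] [Fr E]

theorem coe_toR (x : 𝓞 E) : ((toR x : R E) : E) = (x : E) := rfl

theorem toR_injective : Function.Injective (toR : 𝓞 E →+* R E) := fun _ _ h =>
  RingOfIntegers.coe_injective (congrArg (fun y : R E => (y : E)) h)

theorem unit_mm : IsUnit (mm E : R E) :=
  IsUnit.of_mul_eq_one ⟨_, mm_inv_mem⟩ (Subtype.ext (by simpa using mul_inv_cancel₀ (mm_ne_zero (E := E))))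

theorem exists_toR (y : R E) : ∃ (k : ℕ) (y' : 𝓞 E), toR y' = (mm E : R E) ^ k * y := by
  obtain ⟨l, hl⟩ := y.2
  exact ⟨l, ⟨(mm E : E) ^ l * y, hl⟩, by ext; simp [toR]⟩

instance : Infinite (R E) := Infinite.of_injective (Nat.cast : ℕ → R E) Nat.cast_injective

theorem comap_ne_bot {J : Ideal (R E)} (hJ : J ≠ ⊥) : J.comap toR ≠ ⊥ := by
  obtain ⟨y, hy, hy0⟩ := (Submodule.ne_bot_iff J).1 hJ
  obtain ⟨k, y', h⟩ := exists_toR y
  refine (Submodule.ne_bot_iff _).2 ⟨y', ?_, ?_⟩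
  · rw [Ideal.mem_comap, h]
    exact J.mul_mem_left _ hy
  · rintro rfl
    rw [map_zero] at h
    exact hy0 (((unit_mm.pow k).mul_right_eq_zero).1 h.symm)

theorem bijective_quotientMap {J : Ideal (R E)} (hJ : J ≠ ⊥) :
    Function.Bijective (Ideal.quotientMap J toR (le_rfl : J.comap toR ≤ J.comap toR)) := by
  refine ⟨Ideal.quotientMap_injective, fun z => ?_⟩
  obtain ⟨y, rfl⟩ := Ideal.Quotient.mk_surjective z
  have := (J.comap toR).finiteQuotientOfFreeOfNeBot (comap_ne_bot hJ)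
  have hu : IsUnit (Ideal.Quotient.mk (J.comap toR) (mm E : 𝓞 E)) := by
    rw [isUnit_iff_mem_nonZeroDivisors_of_finite, mem_nonZeroDivisors_iff_right]
    intro x hx
    refine Ideal.quotientMap_injective (I := J) (f := toR) ?_
    have h1 := congrArg (Ideal.quotientMap J toR le_rfl) hx
    rw [map_mul, Ideal.quotientMap_mk, map_natCast, map_zero] at h1
    rw [map_zero]
    exact ((unit_mm.map (Ideal.Quotient.mk J)).mul_left_eq_zero).1 h1
  obtain ⟨a, ha⟩ := hu.exists_left_inv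
  obtain ⟨k, y', h⟩ := exists_toR y
  refine ⟨a ^ k * Ideal.Quotient.mk _ y', ?_⟩
  have h1 := congrArg (Ideal.quotientMap J toR le_rfl) ha
  rw [map_mul, Ideal.quotientMap_mk, map_natCast, map_one] at h1
  rw [map_mul, map_pow, Ideal.quotientMap_mk, h, map_mul, map_pow, ← mul_assoc, ← mul_pow, h1,
    one_pow, one_mul]

theorem finite_quot {J : Ideal (R E)} (hJ : J ≠ ⊥) : Finite (R E ⧸ J) := by
  have := (J.comap toR).finiteQuotientOfFreeOfNeBot (comap_ne_bot hJ)
  exact Finite.of_surjective _ (bijective_quotientMap hJ).2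

theorem card_quot {J : Ideal (R E)} (hJ : J ≠ ⊥) :
    Nat.card (R E ⧸ J) = Ideal.absNorm (J.comap toR) := by
  rw [Ideal.absNorm_apply, Submodule.cardQuot_apply]
  exact (Nat.card_eq_of_bijective _ (bijective_quotientMap hJ)).symm

theorem card_coprime {J : Ideal (R E)} (hJ : J ≠ ⊥) : (Nat.card (R E ⧸ J)).Coprime (mm E) := by
  have := finite_quot hJ
  have := Fintype.ofFinite (R E ⧸ J)
  refine Nat.Coprime.symm (Nat.coprime_of_dvd fun p pp h1 h2 => ?_)
  have : Fact p.Prime := ⟨pp⟩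
  rw [Nat.card_eq_fintype_card] at h2
  refine not_isUnit_prime_of_dvd_card h2 ?_
  have h3 : IsUnit (p : R E) := isUnit_of_dvd_unit (Nat.cast_dvd_cast h1) unit_mm
  simpa using h3.map (Ideal.Quotient.mk J)

theorem nN_zero : nN (0 : R E) = 0 := by
  have : Infinite (R E ⧸ Ideal.span {(0 : R E)}) := by
    refine Infinite.of_injective (Ideal.Quotient.mk _) fun x y h => ?_
    have := Ideal.mem_span_singleton.1 (Ideal.Quotient.eq.1 h)
    exact sub_eq_zero.1 (zero_dvd_iff.1 this)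
  exact Nat.card_eq_zero_of_infinite

/-- the decomposition `(c) = (c R ∩ 𝓞) 𝔞`, at the level of norms -/
theorem exists_norm_eq {c : 𝓞 E} (hc : c ≠ 0) : ∃ b L : ℕ, b ∣ mm E ^ L ∧
    Ideal.absNorm (Ideal.span {c}) = nN (toR c) * b := by
  have hc' : Ideal.span {toR c} ≠ ⊥ := by
    rw [Ne, Ideal.span_singleton_eq_bot]
    exact fun h => hc (toR_injective (h.trans (map_zero _).symm))
  set I := (Ideal.span {toR c}).comap toR with hI
  have hI0 : I ≠ ⊥ := comap_ne_bot hc'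
  have hle : Ideal.span {c} ≤ I := by
    rw [Ideal.span_singleton_le_iff_mem, hI, Ideal.mem_comap]
    exact Ideal.mem_span_singleton_self _
  obtain ⟨A, hA⟩ := Ideal.dvd_iff_le.2 hle
  obtain ⟨x, hx, k, hk⟩ := Fr.pid (E := E) I
  obtain ⟨r, hr⟩ := Ideal.mem_span_singleton.1 (Ideal.mem_comap.1 hx)
  obtain ⟨l, r', hr'⟩ := exists_toR r
  have h1 : (mm E : 𝓞 E) ^ l * x = c * r' := by
    refine toR_injective ?_
    rw [map_mul, map_mul, map_pow, map_natCast, hr, hr']
    ring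
  have h2 : I * Ideal.span {((mm E ^ (l + k) : ℕ) : 𝓞 E)} ≤ I * A := by
    rw [← hA]
    refine Ideal.mul_le.2 fun y hy z hz => ?_
    obtain ⟨w, rfl⟩ := Ideal.mem_span_singleton.1 hz
    obtain ⟨v, hv⟩ := hk y hy
    refine Ideal.mem_span_singleton.2 ⟨r' * v * w, ?_⟩
    have hv' : (mm E : 𝓞 E) ^ k * y = x * v := hv
    push_cast
    linear_combination (w * (mm E : 𝓞 E) ^ l) * hv' + (v * w) * h1
  have h3 : A ∣ Ideal.span {((mm E ^ (l + k) : ℕ) : 𝓞 E)} :=
    (mul_dvd_mul_iff_left hI0).1 (Ideal.dvd_iff_le.2 h2)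
  refine ⟨Ideal.absNorm A, (l + k) * Module.finrank ℤ (𝓞 E), ?_, ?_⟩
  · have := map_dvd Ideal.absNorm h3
    rwa [Ideal.absNorm_span_natCast, ← pow_mul] at this
  · rw [hA, map_mul, nN, card_quot hc']

theorem nf_toR {c : 𝓞 E} (hc : c ≠ 0) : nf (c : E) = nN (toR c) := by
  have hc' : Ideal.span {toR c} ≠ ⊥ := by
    rw [Ne, Ideal.span_singleton_eq_bot]
    exact fun h => hc (toR_injective (h.trans (map_zero _).symm))
  obtain ⟨b, L, hb, h⟩ := exists_norm_eq hc
  have hb0 : b ≠ 0 := ne_zero_of_dvd_ne_zero (pow_ne_zero L Fr.m_ne) hb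
  have := finite_quot hc'
  have ha : nN (toR c) ≠ 0 := Nat.card_pos.ne'
  have h1 : nr (c : E) = ((nN (toR c) * b : ℕ) : ℝ) := by rw [nr_eq_absNorm, h]
  have h2 : |Algebra.norm ℚ (c : E)| = ((nN (toR c) * b : ℕ) : ℚ) := by
    rw [nr_eq_abs_norm] at h1
    exact_mod_cast h1
  rw [nf, absS, prod_zpow_neg_val ha Fr.m_ne (card_coprime hc') hb h2, h1]
  have : (b : ℝ) ≠ 0 := Nat.cast_ne_zero.2 hb0
  push_cast
  field_simp

theorem exists_pow_mul_mem {I : Ideal (𝓞 E)} {y : R E} (hy : y ∈ I.map toR) :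
    ∃ (k : ℕ) (z : 𝓞 E), z ∈ I ∧ toR z = (mm E : R E) ^ k * y := by
  induction hy using Submodule.span_induction with
  | mem x hx =>
    obtain ⟨z, hz, rfl⟩ := hx
    exact ⟨0, z, hz, by simp⟩
  | zero => exact ⟨0, 0, I.zero_mem, by simp⟩
  | add x y _ _ hx hy =>
    obtain ⟨k, z, hz, e⟩ := hx
    obtain ⟨l, w, hw, e'⟩ := hy
    refine ⟨k + l, (mm E : 𝓞 E) ^ l * z + (mm E : 𝓞 E) ^ k * w,
      I.add_mem (I.mul_mem_left _ hz) (I.mul_mem_left _ hw), ?_⟩
    simp only [map_add, map_mul, map_pow, map_natCast, e, e']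
    ring
  | smul a x _ hx =>
    obtain ⟨k, z, hz, e⟩ := hx
    obtain ⟨l, a', e'⟩ := exists_toR a
    refine ⟨k + l, a' * z, I.mul_mem_left _ hz, ?_⟩
    rw [map_mul, e, e', smul_eq_mul]
    ring

theorem comap_map {I : Ideal (𝓞 E)} (hI : IsCoprime I (Ideal.span {(mm E : 𝓞 E)})) :
    (I.map toR).comap toR = I := by
  refine le_antisymm (fun x hx => ?_) Ideal.le_comap_map
  obtain ⟨k, z, hz, e⟩ := exists_pow_mul_mem (Ideal.mem_comap.1 hx)
  have h1 : z = (mm E : 𝓞 E) ^ k * x := toR_injective (by rw [e, map_mul, map_pow, map_natCast])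
  have h2 : IsCoprime I (Ideal.span {(mm E : 𝓞 E) ^ k}) := by
    rw [← Ideal.span_singleton_pow]
    exact hI.pow_right
  obtain ⟨i, hi, j, hj, hij⟩ := Ideal.isCoprime_iff_exists.1 h2
  obtain ⟨w, rfl⟩ := Ideal.mem_span_singleton.1 hj
  have h3 : x = i * x + w * z := by
    rw [h1]
    linear_combination (-x) * hij
  rw [h3]
  exact I.add_mem (I.mul_mem_right _ hi) (I.mul_mem_left _ hz)

end Crest.Agent.R312.FrB2
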