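import Crest.Agent.R312.Arch
import Crest.Agent.R312.FrameAux1
import Crest.Agent.R312.FrameAuxB2

/-!
# Row 312: the rings `R`, `OS`, the groups `U j`, `V j`, the norms `absS`, `nf`
-/

set_option autoImplicit false

noncomputable section

namespace Crest.Agent.R312

open NumberField
open scoped ComplexConjugate

/-- Existence of a frame: `m = 6 |disc| ∏ N(𝔞_i)`, `𝔞_i` integral representatives of the classes. -/
theorem exists_Fr (E : Type) [Field E] [NumberField E] (h : ∃ ω : E, ω ^ 2 + ω + 1 = 0) :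
    Nonempty (Fr E) := FA1.exists_Fr E h

variable {E : Type} [Field E] [NumberField E] [Fr E]

/-! ## part A: rings and groups -/

instance : IsFractionRing (R E) E := FA1.isFractionRing
instance : Countable (R E) := inferInstance
theorem six_le_mm : 6 ≤ mm E := FA1.six_le_mm
theorem mem_OS_of_isIntegral {x : E} (h : IsIntegral ℤ x) : x ∈ OS E :=
  FA1.mem_OS_of_isIntegral h
theorem isIntegral_iff {x : E} : IsIntegral ℤ x ↔ x ∈ RR E ∧ x ∈ OS E := FA1.isIntegral_iff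
theorem exists_pow_mul_mem_OS (x : E) : ∃ k : ℕ, (mm E : E) ^ k * x ∈ OS E :=
  FA1.exists_pow_mul_mem_OS x
theorem exists_nat_mul_mem_RR (x : E) :
    ∃ b : ℕ, b.Coprime (mm E) ∧ (b : E) * x ∈ RR E := FA1.exists_nat_mul_mem_RR x
theorem inv_natCast_mem_OS {b : ℕ} (h : b.Coprime (mm E)) : (b : E)⁻¹ ∈ OS E :=
  FA1.inv_natCast_mem_OS h
theorem isUnit_iff {a : R E} : IsUnit a ↔ (a : E) ≠ 0 ∧ (a : E)⁻¹ ∈ RR E := FA1.isUnit_iff
theorem dvd_iff {a b : R E} (ha : a ≠ 0) : a ∣ b ↔ (b : E) / (a : E) ∈ RR E := FA1.dvd_iff ha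
theorem isUnit_mm : IsUnit (mm E : R E) := FA1.isUnit_mm
theorem isUnit_of_dvd_mm {d : ℕ} (h : d ∣ mm E) : IsUnit (d : R E) := FA1.isUnit_of_dvd_mm h
theorem isUnit_two : IsUnit (2 : R E) := FA1.isUnit_two
theorem isUnit_three : IsUnit (3 : R E) := FA1.isUnit_three
theorem omR_sq_add : (omR : R E) ^ 2 + omR + 1 = 0 := FA1.omR_sq_add
theorem omR_cube : (omR : R E) ^ 3 = 1 := FA1.omR_cube
/-- Every non-zero element of `R` divides a positive integer prime to `m`. -/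
theorem exists_dvd_nat {c : R E} (hc : c ≠ 0) :
    ∃ b : ℕ, b.Coprime (mm E) ∧ c ∣ (b : R E) := FA1.exists_dvd_nat hc
/-- `m` lies in the Jacobson radical of `OS`. -/
theorem inv_mem_OS {y : E} (hy : y ∈ OS E) :
    1 + (mm E : E) * y ≠ 0 ∧ (1 + (mm E : E) * y)⁻¹ ∈ OS E := FA1.inv_mem_OS hy
/-- Strong approximation. -/
theorem exists_approx {c : R E} (hc : c ≠ 0) (x : R E) (y : E) (j : ℕ) :
    ∃ z : R E, c ∣ z - x ∧ ((z : E) - y) / (mm E : E) ^ j ∈ OS E := FA1.exists_approx hc x y j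

theorem U_one (j : ℕ) : U j (1 : E) := ⟨0, zero_mem _, by simp⟩
theorem U.mul {j : ℕ} {u v : E} (hu : U j u) (hv : U j v) : U j (u * v) := by
  obtain ⟨y, hy, rfl⟩ := hu
  obtain ⟨z, hz, rfl⟩ := hv
  exact ⟨y + z + (mm E : E) ^ j * (y * z),
    add_mem (add_mem hy hz) (mul_mem (pow_mem (natCast_mem _ _) _) (mul_mem hy hz)), by ring⟩
theorem U.pow {j : ℕ} {u : E} (hu : U j u) (k : ℕ) : U j (u ^ k) := by
  induction k with
  | zero => simpa using U_one j
  | succ k ih => rw [pow_succ]; exact ih.mul hu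
theorem U.mem_OS {j : ℕ} {u : E} (hu : U j u) : u ∈ OS E := by
  obtain ⟨y, hy, rfl⟩ := hu
  exact add_mem (one_mem _) (mul_mem (pow_mem (natCast_mem _ _) _) hy)
theorem U.mono {i j : ℕ} (h : i ≤ j) {u : E} (hu : U j u) : U i u := by
  obtain ⟨y, hy, rfl⟩ := hu
  obtain ⟨k, rfl⟩ := Nat.exists_eq_add_of_le h
  exact ⟨(mm E : E) ^ k * y, mul_mem (pow_mem (natCast_mem _ _) _) hy, by ring⟩
theorem U.ne_zero {j : ℕ} (hj : 1 ≤ j) {u : E} (hu : U j u) : u ≠ 0 := by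
  obtain ⟨y, hy, rfl⟩ := hu.mono hj
  rw [pow_one]
  exact (inv_mem_OS hy).1
theorem U.inv {j : ℕ} (hj : 1 ≤ j) {u : E} (hu : U j u) : U j u⁻¹ := by
  have h0 := hu.ne_zero hj
  have h1 : u⁻¹ ∈ OS E := by
    obtain ⟨y, hy, rfl⟩ := hu.mono hj
    rw [pow_one]
    exact (inv_mem_OS hy).2
  obtain ⟨y, hy, e⟩ := hu
  refine ⟨-(y * u⁻¹), neg_mem (mul_mem hy h1), ?_⟩
  have h2 := mul_inv_cancel₀ h0
  linear_combination h2 - u⁻¹ * e
theorem U.div {j : ℕ} (hj : 1 ≤ j) {u v : E} (hu : U j u) (hv : U j v) : U j (u / v) := by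
  rw [div_eq_mul_inv]; exact hu.mul (hv.inv hj)
theorem U_iff {j : ℕ} {u : E} : U j u ↔ (u - 1) / (mm E : E) ^ j ∈ OS E := by
  have hm : (mm E : E) ^ j ≠ 0 := pow_ne_zero _ mm_ne_zero
  constructor
  · rintro ⟨y, hy, rfl⟩
    rwa [add_sub_cancel_left, mul_div_cancel_left₀ _ hm]
  · exact fun h => ⟨_, h, by rw [mul_div_cancel₀ _ hm, add_sub_cancel]⟩

theorem Ty.refl (j : ℕ) {t : E} (ht : t ≠ 0) : Ty j t t := by
  rw [Ty, div_self ht]; exact U_one j
theorem Ty.ne_zero {j : ℕ} (hj : 1 ≤ j) {t x : E} (h : Ty j t x) : t ≠ 0 ∧ x ≠ 0 :=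
  (div_ne_zero_iff.1 (U.ne_zero hj h)).symm
theorem Ty.symm {j : ℕ} (hj : 1 ≤ j) {t x : E} (h : Ty j t x) : Ty j x t := by
  rw [Ty, ← inv_div]; exact U.inv hj h
theorem Ty.trans {j : ℕ} (hj : 1 ≤ j) {t x y : E} (h : Ty j t x) (h' : Ty j x y) : Ty j t y := by
  rw [Ty, ← div_mul_div_cancel₀ (a := y) (c := t) (h.ne_zero hj).2]
  exact U.mul h' h
theorem Ty.mul {j : ℕ} {t t' x x' : E} (h : Ty j t x) (h' : Ty j t' x') :
    Ty j (t * t') (x * x') := by
  rw [Ty, mul_div_mul_comm]; exact U.mul h h'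
theorem Ty.pow {j : ℕ} {t x : E} (h : Ty j t x) (k : ℕ) : Ty j (t ^ k) (x ^ k) := by
  rw [Ty, ← div_pow]; exact U.pow h k
theorem Ty.inv {j : ℕ} (hj : 1 ≤ j) {t x : E} (h : Ty j t x) : Ty j t⁻¹ x⁻¹ := by
  rw [Ty, inv_div_inv]; exact h.symm hj
theorem Ty.mono {i j : ℕ} (hij : i ≤ j) {t x : E} (h : Ty j t x) : Ty i t x :=
  U.mono hij h
theorem Ty_mul_iff {j : ℕ} {t g x : E} : Ty j t (g * x) ↔ Ty j (t / g) x := by
  rw [Ty, Ty, div_div_eq_mul_div, mul_comm]
theorem Ty_one_iff {j : ℕ} {u : E} : Ty j 1 u ↔ U j u := by rw [Ty, div_one]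
theorem Ty.div_mem_OS {j : ℕ} {t x : E} (h : Ty j t x) : x / t ∈ OS E := U.mem_OS h
theorem Ty.div_mem_iff {j : ℕ} (hj : 1 ≤ j) {t t' : E} (h : Ty j t t') (x : E) :
    x / t ∈ OS E ↔ x / t' ∈ OS E := by
  obtain ⟨h1, h2⟩ := h.ne_zero hj
  constructor
  · intro hx
    rw [← div_mul_div_cancel₀ (a := x) (c := t') h1]
    exact mul_mem hx (h.symm hj).div_mem_OS
  · intro hx
    rw [← div_mul_div_cancel₀ (a := x) (c := t) h2]
    exact mul_mem hx h.div_mem_OS
/-- Every type contains elements of `R` prime to a given modulus. -/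
theorem exists_Ty (j : ℕ) {t : E} (ht : t ≠ 0) {c : R E} (hc : c ≠ 0) :
    ∃ n : R E, Ty j t (n : E) ∧ IsCoprime n c := by
  obtain ⟨k, hk⟩ := exists_pow_mul_mem_OS t⁻¹
  obtain ⟨z, ⟨w, hw⟩, hz⟩ := exists_approx hc 1 t (j + k)
  refine ⟨z, U_iff.2 ?_, 1, -w, by linear_combination hw⟩
  have hm := mm_ne_zero (E := E)
  have e : ((z : E) / t - 1) / (mm E : E) ^ j =
      ((z : E) - t) / (mm E : E) ^ (j + k) * ((mm E : E) ^ k * t⁻¹) := by
    field_simp
    ring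
  rw [e]
  exact mul_mem hz hk
/-- Finitely many types of bounded `S`-valuations. -/
theorem exists_types (B j : ℕ) : ∃ T : Finset E, (∀ τ ∈ T, τ ≠ 0) ∧ ∀ x : E, x ≠ 0 →
    (mm E : E) ^ B * x ∈ OS E → (mm E : E) ^ B / x ∈ OS E → ∃ τ ∈ T, Ty j τ x := by
  classical
  have hm := mm_ne_zero (E := E)
  set N := B + B + j with hN
  let P : E → Prop := fun x => x ≠ 0 ∧ (mm E : E) ^ B * x ∈ OS E ∧ (mm E : E) ^ B / x ∈ OS E
  have h1 : ∀ x, P x → ∃ a : 𝓞 E, ((a : E) - (mm E : E) ^ B * x) / (mm E : E) ^ N ∈ OS E := by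
    intro x hx
    obtain ⟨z, -, hz⟩ := exists_approx (one_ne_zero (α := R E)) 0 ((mm E : E) ^ B * x) N
    refine ⟨⟨z, isIntegral_iff.2 ⟨z.2, ?_⟩⟩, hz⟩
    have e : (z : E) = (mm E : E) ^ B * x +
        (mm E : E) ^ N * (((z : E) - (mm E : E) ^ B * x) / (mm E : E) ^ N) := by
      rw [mul_div_cancel₀ _ (pow_ne_zero _ hm), add_sub_cancel]
    rw [e]
    exact add_mem hx.2.1 (mul_mem (pow_mem (natCast_mem _ _) _) hz)
  choose! a ha using h1
  let I : Ideal (𝓞 E) := Ideal.span {(mm E : 𝓞 E) ^ N}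
  have hI : I ≠ ⊥ := by
    rw [Ne, Ideal.span_singleton_eq_bot]
    exact pow_ne_zero _ (Nat.cast_ne_zero.2 Fr.m_ne)
  have : Finite (𝓞 E ⧸ I) := Ideal.finiteQuotientOfFreeOfNeBot I hI
  have := Fintype.ofFinite (𝓞 E ⧸ I)
  let g : 𝓞 E ⧸ I → E := fun q =>
    if h : ∃ x, P x ∧ Ideal.Quotient.mk I (a x) = q then h.choose else 1
  refine ⟨Finset.univ.image g, fun τ hτ => ?_, fun x h0 h1 h2 => ?_⟩
  · obtain ⟨q, -, rfl⟩ := Finset.mem_image.1 hτ
    simp only [g]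
    split_ifs with h
    · exact h.choose_spec.1.1
    · exact one_ne_zero
  · have hx : P x := ⟨h0, h1, h2⟩
    have h : ∃ y, P y ∧ Ideal.Quotient.mk I (a y) = Ideal.Quotient.mk I (a x) := ⟨x, hx, rfl⟩
    refine ⟨g (Ideal.Quotient.mk I (a x)), Finset.mem_image_of_mem _ (Finset.mem_univ _), ?_⟩
    simp only [g, dif_pos h]
    obtain ⟨hy, hq⟩ := h.choose_spec
    generalize h.choose = y at hy hq
    obtain ⟨w, hw⟩ := Ideal.mem_span_singleton'.1 (Ideal.Quotient.eq.1 hq)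
    have hw' : (w : E) * (mm E : E) ^ N = (a y : E) - (a x : E) := by
      have := congrArg (algebraMap (𝓞 E) E) hw
      simpa using this
    have hy0 := hy.1
    have e : (x / y - 1) / (mm E : E) ^ j =
        (((a y : E) - (mm E : E) ^ B * y) / (mm E : E) ^ N -
          ((a x : E) - (mm E : E) ^ B * x) / (mm E : E) ^ N - w) * ((mm E : E) ^ B / y) := by
      rw [eq_div_of_mul_eq (pow_ne_zero _ hm) hw', hN]
      field_simp
      ring
    refine U_iff.2 ?_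
    rw [e]
    exact mul_mem (sub_mem (sub_mem (ha y hy) (ha x hx)) (mem_OS_of_isIntegral w.isIntegral_coe))
      hy.2.2
/-- Every element can be made bounded at `S` by an `S`-unit (the class group of `𝓞` is finite:
`x OS ∩ R` is a fractional ideal supported on `S`). -/
theorem exists_bdd_unit : ∃ B : ℕ, ∀ x : E, x ≠ 0 → ∃ u : R E, IsUnit u ∧
    (u : E) * x ∈ OS E ∧ (mm E : E) ^ B / ((u : E) * x) ∈ OS E := by
  classical
  have hm := mm_ne_zero (E := E)
  have hmO : ∀ n : ℕ, (n : E) ∈ OS E := fun n => natCast_mem _ n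
  have h1 : ∀ c : ClassGroup (𝓞 E), ∃ k : ℕ, ∀ I : nonZeroDivisors (Ideal (𝓞 E)),
      ClassGroup.mk0 I = c → (∃ l : ℕ, (mm E : 𝓞 E) ^ l ∈ (I : Ideal (𝓞 E))) →
      ∃ J : nonZeroDivisors (Ideal (𝓞 E)), ClassGroup.mk0 J = c ∧
        (mm E : 𝓞 E) ^ k ∈ (J : Ideal (𝓞 E)) := by
    intro c
    by_cases h : ∃ J : nonZeroDivisors (Ideal (𝓞 E)), ClassGroup.mk0 J = c ∧
        ∃ l : ℕ, (mm E : 𝓞 E) ^ l ∈ (J : Ideal (𝓞 E))
    · obtain ⟨J, hJ, l, hl⟩ := h
      exact ⟨l, fun _ _ _ => ⟨J, hJ, hl⟩⟩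
    · exact ⟨0, fun I hI hl => absurd ⟨I, hI, hl⟩ h⟩
  choose k hk using h1
  refine ⟨Finset.univ.sup k, fun x hx => ?_⟩
  obtain ⟨b, hb, i, hi⟩ := exists_nat_mul_mem_RR x
  have hb0 : (b : E) ≠ 0 := by
    refine Nat.cast_ne_zero.2 ?_
    rintro rfl
    have := six_le_mm (E := E)
    rw [Nat.coprime_zero_left] at hb
    omega
  obtain ⟨a, ha⟩ : ∃ a : 𝓞 E, (a : E) = (mm E : E) ^ i * (b * x) := ⟨⟨_, hi⟩, rfl⟩
  have ha0 : (a : E) ≠ 0 := by
    rw [ha]
    exact mul_ne_zero (pow_ne_zero _ hm) (mul_ne_zero hb0 hx)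
  let I : Ideal (𝓞 E) :=
    { carrier := {y | (y : E) / a ∈ OS E}
      add_mem' := fun {y z} hy hz => by
        have := (OS E).add_mem hy hz
        rw [← add_div] at this
        simpa using this
      zero_mem' := by simp
      smul_mem' := fun c y hy => by
        have := (OS E).mul_mem (mem_OS_of_isIntegral c.isIntegral_coe) hy
        rw [← mul_div_assoc] at this
        simpa using this }
  have haI : a ∈ I := by
    change (a : E) / a ∈ OS E
    rw [div_self ha0]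
    exact (OS E).one_mem
  have hI0 : I ∈ nonZeroDivisors (Ideal (𝓞 E)) := mem_nonZeroDivisors_iff_ne_zero.2 fun h => by
    rw [h, Ideal.zero_eq_bot, Ideal.mem_bot] at haI
    exact ha0 (by rw [haI]; rfl)
  obtain ⟨l, hl⟩ := exists_pow_mul_mem_OS (a : E)⁻¹
  have hlI : (mm E : 𝓞 E) ^ l ∈ I := by
    change (((mm E : 𝓞 E) ^ l : 𝓞 E) : E) / a ∈ OS E
    simpa [div_eq_mul_inv] using hl
  obtain ⟨J, hJ, hJm⟩ := hk _ ⟨I, hI0⟩ rfl ⟨l, hlI⟩
  obtain ⟨α, β, hα, hβ, he⟩ := ClassGroup.mk0_eq_mk0_iff.1 hJ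
  have hα' : (α : E) ≠ 0 := by simpa using hα
  have hβ' : (β : E) ≠ 0 := by simpa using hβ
  have h2 : ∀ y ∈ I, ∃ z : 𝓞 E, (z : E) = β / α * y := fun y hy => by
    have h3 : β * y ∈ Ideal.span {α} * (J : Ideal (𝓞 E)) :=
      he ▸ Ideal.mul_mem_mul (Ideal.mem_span_singleton_self β) hy
    obtain ⟨z, -, hz⟩ := Ideal.mem_span_singleton_mul.1 h3
    have h4 : (α : E) * z = β * y := by exact_mod_cast congrArg (algebraMap (𝓞 E) E) hz
    exact ⟨z, by rw [div_mul_eq_mul_div, ← h4, mul_div_cancel_left₀ _ hα']⟩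
  have h3 : ∃ z ∈ I, (z : E) = (mm E : E) ^ k (ClassGroup.mk0 ⟨I, hI0⟩) / (β / α) := by
    have h3 : α * (mm E : 𝓞 E) ^ k (ClassGroup.mk0 ⟨I, hI0⟩) ∈ Ideal.span {β} * I :=
      he ▸ Ideal.mul_mem_mul (Ideal.mem_span_singleton_self α) hJm
    obtain ⟨z, hz', hz⟩ := Ideal.mem_span_singleton_mul.1 h3
    have h4 : (β : E) * z = α * (mm E : E) ^ k (ClassGroup.mk0 ⟨I, hI0⟩) := by
      simpa using congrArg (algebraMap (𝓞 E) E) hz
    exact ⟨z, hz', by rw [div_div_eq_mul_div, mul_comm, ← h4, mul_div_cancel_left₀ _ hβ']⟩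
  obtain ⟨z, hz, hz'⟩ := h3
  obtain ⟨j, hj⟩ := Nat.exists_eq_add_of_le (Finset.le_sup (f := k)
    (Finset.mem_univ (ClassGroup.mk0 ⟨I, hI0⟩)))
  generalize k (ClassGroup.mk0 ⟨I, hI0⟩) = c at hz' hj
  have h4 : (β : E) / α ∈ RR E := by
    obtain ⟨w, hw⟩ := h2 _ hlI
    refine ⟨l, ?_⟩
    have h5 : (mm E : E) ^ l * (β / α) = w := by rw [hw]; simp [mul_comm]
    rw [h5]
    exact w.isIntegral_coe
  have h5 : ((β : E) / α)⁻¹ ∈ RR E := ⟨c, by
    rw [← div_eq_mul_inv, ← hz']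
    exact z.isIntegral_coe⟩
  have h6 : IsUnit (⟨_, h4⟩ : R E) := isUnit_iff.2 ⟨div_ne_zero hβ' hα', h5⟩
  have h7 : (((⟨_, h4⟩ : R E) * (mm E : R E) ^ i : R E) : E) * x = β / α * a * (b : E)⁻¹ := by
    push_cast
    rw [ha]
    field_simp
  refine ⟨⟨_, h4⟩ * (mm E : R E) ^ i, h6.mul (isUnit_mm.pow i), ?_, ?_⟩
  · obtain ⟨w, hw⟩ := h2 a haI
    rw [h7, ← hw]
    exact (OS E).mul_mem (mem_OS_of_isIntegral w.isIntegral_coe) (inv_natCast_mem_OS hb)
  · have h8 : (mm E : E) ^ (c + j) / (β / α * a * (b : E)⁻¹) = z / a * ((mm E : E) ^ j * b) := by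
      rw [hz']
      field_simp
      ring
    rw [h7, hj, h8]
    exact (OS E).mul_mem hz ((OS E).mul_mem ((OS E).pow_mem (hmO _) j) (hmO b))
theorem FrameA3_reps {α : Type} (r : α → α → Prop) (hr : ∀ a b x y, r a x → r b x → r b y → r a y)
    (P : α → Prop) (T : Finset α) (h : ∀ x, P x → ∃ τ ∈ T, r τ x) :
    ∃ T' ⊆ T, ∀ x, P x → ∃! τ, τ ∈ T' ∧ r τ x := by
  classical
  induction T using Finset.strongInduction with
  | H T ih =>
    by_cases hu : ∀ x a b, a ∈ T → b ∈ T → r a x → r b x → a = b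
    · refine ⟨T, subset_rfl, fun x hx => ?_⟩
      obtain ⟨τ, h1, h2⟩ := h x hx
      exact ⟨τ, ⟨h1, h2⟩, fun σ hσ => hu x σ τ hσ.1 h1 hσ.2 h2⟩
    · simp only [not_forall] at hu
      obtain ⟨x, a, b, ha, hb, hax, hbx, hab⟩ := hu
      obtain ⟨T', h1, h2⟩ := ih (T.erase b) (Finset.erase_ssubset hb) fun y hy => by
        obtain ⟨τ, h1, h2⟩ := h y hy
        rcases eq_or_ne τ b with rfl | h3
        · exact ⟨a, Finset.mem_erase.2 ⟨hab, ha⟩, hr a τ x y hax hbx h2⟩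
        · exact ⟨τ, Finset.mem_erase.2 ⟨h3, h1⟩, h2⟩
      exact ⟨T', h1.trans (Finset.erase_subset _ _), h2⟩
/-- The ray class group is finite. -/
theorem exists_classes {j : ℕ} (hj : 1 ≤ j) : ∃ T : Finset E, (∀ τ ∈ T, τ ≠ 0) ∧ ∀ x : E, x ≠ 0 →
    ∃! τ, τ ∈ T ∧ ∃ u : R E, IsUnit u ∧ Ty j τ ((u : E) * x) := by
  obtain ⟨B, hB⟩ := exists_bdd_unit (E := E)
  obtain ⟨T, hT0, hT⟩ := exists_types (E := E) B j
  obtain ⟨T', h1, h2⟩ := FrameA3_reps (fun τ x : E => ∃ u : R E, IsUnit u ∧ Ty j τ ((u : E) * x))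
    (by
      rintro a b x y ⟨u, hu, h1⟩ ⟨v, hv, h2⟩ ⟨w, hw, h3⟩
      obtain ⟨v', hv'⟩ := hv.exists_right_inv
      have h4 : (v : E) * v' = 1 := by exact_mod_cast congrArg Subtype.val hv'
      have hb := (h2.ne_zero hj).1
      have hx := right_ne_zero_of_mul (h2.ne_zero hj).2
      have hv0 := left_ne_zero_of_mul (h2.ne_zero hj).2
      refine ⟨u * w * v', (hu.mul hw).mul (IsUnit.of_mul_eq_one v (by rw [mul_comm, hv'])), ?_⟩
      have h5 := U.div hj (U.mul h1 h3) h2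
      have h6 : (u : E) * x / a * (w * y / b) / (v * x / b) = ((u * w * v' : R E) : E) * y / a := by
        push_cast
        rw [eq_inv_of_mul_eq_one_right h4]
        field_simp
      rwa [h6] at h5)
    (fun x => x ≠ 0) T fun x hx => by
      obtain ⟨u, hu, h1, h2⟩ := hB x hx
      obtain ⟨τ, h3, h4⟩ := hT _ (mul_ne_zero (isUnit_iff.1 hu).1 hx)
        ((OS E).mul_mem ((OS E).pow_mem (natCast_mem _ _) B) h1) h2
      exact ⟨τ, h3, u, hu, h4⟩
  exact ⟨T', fun τ hτ => hT0 τ (h1 hτ), h2⟩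
open IsDedekindDomain in
theorem FrameA3_fg : Group.FG (R E)ˣ := by
  have hm : (mm E : 𝓞 E) ≠ 0 := Nat.cast_ne_zero.2 Fr.m_ne
  have hS := Ideal.finite_factors (I := Ideal.span {(mm E : 𝓞 E)}) (by simpa using hm)
  have := hS.to_subtype
  let f : (R E)ˣ →* Multiplicative
      ({v : HeightOneSpectrum (𝓞 E) | v.asIdeal ∣ Ideal.span {(mm E : 𝓞 E)}} → ℤ) :=
    (MulEquiv.funMultiplicative _ ℤ).symm.toMonoidHom.comp (MonoidHom.pi fun v =>
      (v.1.valuationOfNeZero (K := E)).comp (Units.map (RR E).subtype.toMonoidHom))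
  have hint : ∀ u : (R E)ˣ, f u = 1 → ∃ y : 𝓞 E, toR y = (u : R E) := by
    intro u hu
    obtain ⟨y, hy⟩ := HeightOneSpectrum.mem_integers_of_valuation_le_one (R := 𝓞 E) E
      ((u : R E) : E) fun v => by
        by_cases hv : v.asIdeal ∣ Ideal.span {(mm E : 𝓞 E)}
        · have h1 : v.valuationOfNeZero (K := E) (Units.map (RR E).subtype.toMonoidHom u) = 1 :=
            congrFun ((MulEquiv.funMultiplicative _ ℤ).symm.injective (hu.trans (map_one _).symm))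
              ⟨v, hv⟩
          have h2 := v.valuationOfNeZero_eq (K := E) (Units.map (RR E).subtype.toMonoidHom u)
          rw [h1] at h2
          exact h2.symm.le
        · obtain ⟨k, hk⟩ := (u : R E).2
          have h1 : v.valuation E (mm E : E) = 1 := by
            rw [Ideal.dvd_span_singleton] at hv
            simpa using (v.valuation_eq_one_iff_notMem (K := E)).2 hv
          have h2 : v.valuation E ((mm E : E) ^ k * (u : R E)) ≤ 1 :=
            v.valuation_le_one (K := E) (⟨_, hk⟩ : 𝓞 E)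
          rwa [map_mul, map_pow, h1, one_pow, one_mul] at h2
    exact ⟨y, Subtype.ext hy⟩
  rw [GroupFG.iff_add_fg, ← Module.Finite.iff_addGroup_fg, Module.finite_def]
  refine Submodule.fg_of_fg_map_of_fg_inf_ker (MonoidHom.toAdditiveLeft f).toIntLinearMap
    (IsNoetherian.noetherian _) ?_
  refine ((Module.Finite.fg_top (R := ℤ) (M := Additive (𝓞 E)ˣ)).map
    (MonoidHom.toAdditive (Units.map (toR (E := E)).toMonoidHom)).toIntLinearMap).of_le ?_
  rintro u ⟨-, hu⟩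
  have h1 : f u.toMul = 1 := hu
  obtain ⟨y, hy⟩ := hint _ h1
  obtain ⟨y', hy'⟩ := hint u.toMul⁻¹ (by rw [map_inv, h1, inv_one])
  have h2 : y * y' = 1 := by
    have h3 : toR (y * y') = toR 1 := by rw [map_mul, hy, hy', map_one, Units.mul_inv]
    exact RingOfIntegers.ext (congrArg (fun t : R E => (t : E)) h3)
  exact ⟨Additive.ofMul (Units.mkOfMulEqOne y y' h2), trivial, Units.ext hy⟩
/-- `Rˣ / (Rˣ)^k` is finite. -/
theorem exists_unit_pow_reps {k : ℕ} (hk : k ≠ 0) : ∃ T : Finset (R E), (∀ s ∈ T, IsUnit s) ∧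
    ∀ u : R E, IsUnit u → ∃! s, s ∈ T ∧ ∃ v : R E, IsUnit v ∧ u = s * v ^ k := by
  classical
  have := FrameA3_fg (E := E)
  have := Subgroup.finiteIndex_range_powMonoidHom_of_fg (R E)ˣ hk
  have := Fintype.ofFinite ((R E)ˣ ⧸ (powMonoidHom (α := (R E)ˣ) k).range)
  obtain ⟨T', h1, h2⟩ := FrameA3_reps (fun s u : R E => ∃ v : R E, IsUnit v ∧ u = s * v ^ k)
    (by
      rintro a b x y ⟨u, hu, h1⟩ ⟨v, hv, h2⟩ ⟨w, hw, h3⟩
      obtain ⟨v', hv'⟩ := hv.exists_right_inv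
      refine ⟨u * w * v', (hu.mul hw).mul (IsUnit.of_mul_eq_one v (by rw [mul_comm, hv'])), ?_⟩
      have h4 : v ^ k * v' ^ k = 1 := by rw [← mul_pow, hv', one_pow]
      rw [h3, mul_pow, mul_pow]
      linear_combination (w ^ k * v' ^ k) * (h1 - h2) - b * w ^ k * h4)
    IsUnit (Finset.univ.image fun q : (R E)ˣ ⧸ (powMonoidHom (α := (R E)ˣ) k).range =>
      ((q.out : (R E)ˣ) : R E)) (by
      rintro _ ⟨u, rfl⟩
      obtain ⟨⟨_, v, rfl⟩, hv⟩ := QuotientGroup.mk_out_eq_mul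
        (powMonoidHom (α := (R E)ˣ) k).range u
      refine ⟨_, Finset.mem_image_of_mem _ (Finset.mem_univ (QuotientGroup.mk u)),
        ((v⁻¹ : (R E)ˣ) : R E), Units.isUnit _, ?_⟩
      rw [hv, ← Units.val_pow_eq_pow_val, ← Units.val_mul]
      simp)
  refine ⟨T', fun s hs => ?_, h2⟩
  obtain ⟨q, -, rfl⟩ := Finset.mem_image.1 (h1 hs)
  exact Units.isUnit _

/-! ## part B: the norms -/

omit [Fr E] in
private theorem b1_norm_natCast (b : ℕ) :
    Algebra.norm ℚ (b : E) = (b : ℚ) ^ Module.finrank ℚ E := by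
  rw [← Algebra.norm_algebraMap (S := E) (b : ℚ), map_natCast (algebraMap ℚ E)]

private theorem b1_val_natCast_mul {p b : ℕ} (hp : p.Prime) (hb : ¬ p ∣ b) {x : E} (hx : x ≠ 0) :
    padicValRat p (Algebra.norm ℚ ((b : E) * x)) = padicValRat p (Algebra.norm ℚ x) := by
  have := Fact.mk hp
  have hb0 : (b : ℚ) ≠ 0 := by
    rintro h
    exact hb (by rw [Nat.cast_eq_zero.1 h]; exact dvd_zero p)
  rw [map_mul, b1_norm_natCast,
    padicValRat.mul (pow_ne_zero _ hb0) (Algebra.norm_ne_zero_iff.2 hx), padicValRat.pow,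
    padicValRat.of_nat, padicValNat.eq_zero_of_not_dvd hb]
  simp

private theorem b1_not_dvd {p b : ℕ} (hp : p ∈ (mm E).primeFactors) (hb : b.Coprime (mm E)) :
    ¬ p ∣ b := fun h =>
  (Nat.prime_of_mem_primeFactors hp).one_lt.ne'
    (Nat.eq_one_of_dvd_coprimes hb h (Nat.dvd_of_mem_primeFactors hp))

private theorem b1_val_nonneg {x : E} (hx : x ∈ OS E) {p : ℕ} (hp : p ∈ (mm E).primeFactors) :
    0 ≤ padicValRat p (Algebra.norm ℚ x) := by
  rcases eq_or_ne x 0 with rfl | hx0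
  · simp
  obtain ⟨b, hb, hbx⟩ := hx
  rw [← b1_val_natCast_mul (Nat.prime_of_mem_primeFactors hp) (b1_not_dvd hp hb) hx0]
  have h := Algebra.coe_norm_int (K := E) (⟨(b : E) * x, hbx⟩ : 𝓞 E)
  have h' : Algebra.norm ℚ ((b : E) * x) =
      ((Algebra.norm ℤ (⟨(b : E) * x, hbx⟩ : 𝓞 E) : ℤ) : ℚ) := h.symm
  rw [h', padicValRat.of_int]
  exact Int.natCast_nonneg _

private theorem b1_one_lt {p : ℕ} (hp : p ∈ (mm E).primeFactors) : (1 : ℝ) < p := by
  exact_mod_cast (Nat.prime_of_mem_primeFactors hp).one_lt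

private theorem b1_absS_zero : absS (0 : E) = 1 := by simp [absS]

theorem absS_pos (x : E) : 0 < absS x :=
  Finset.prod_pos fun _ hp => zpow_pos (zero_lt_one.trans (b1_one_lt hp)) _
@[simp] theorem absS_one : absS (1 : E) = 1 := by simp [absS]
@[simp] theorem absS_neg (x : E) : absS (-x) = absS x := by
  have h : Algebra.norm ℚ (-x) = (-1) ^ Module.finrank ℚ E * Algebra.norm ℚ x := by
    rw [← Algebra.norm_algebraMap (S := E) (-1 : ℚ), ← map_mul]
    simp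
  unfold absS
  rw [h]
  rcases neg_one_pow_eq_or ℚ (Module.finrank ℚ E) with h1 | h1 <;> simp [h1]
theorem absS_mul {x y : E} (hx : x ≠ 0) (hy : y ≠ 0) : absS (x * y) = absS x * absS y := by
  unfold absS
  rw [← Finset.prod_mul_distrib]
  refine Finset.prod_congr rfl fun p hp => ?_
  have := Fact.mk (Nat.prime_of_mem_primeFactors hp)
  rw [map_mul, padicValRat.mul (Algebra.norm_ne_zero_iff.2 hx) (Algebra.norm_ne_zero_iff.2 hy),
    neg_add, zpow_add₀ (zero_lt_one.trans (b1_one_lt hp)).ne']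
theorem absS_inv (x : E) : absS x⁻¹ = (absS x)⁻¹ := by
  rcases eq_or_ne x 0 with rfl | hx
  · simp [b1_absS_zero]
  have h := absS_mul (inv_ne_zero hx) hx
  rw [inv_mul_cancel₀ hx, absS_one] at h
  exact eq_inv_of_mul_eq_one_left h.symm
theorem absS_div {x y : E} (hx : x ≠ 0) (hy : y ≠ 0) : absS (x / y) = absS x / absS y := by
  rw [div_eq_mul_inv, absS_mul hx (inv_ne_zero hy), absS_inv, div_eq_mul_inv]
theorem absS_pow (x : E) (k : ℕ) : absS (x ^ k) = absS x ^ k := by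
  rcases eq_or_ne x 0 with rfl | hx
  · rcases Nat.eq_zero_or_pos k with rfl | hk
    · simp
    · rw [zero_pow hk.ne', b1_absS_zero, one_pow]
  induction k with
  | zero => simp
  | succ k ih => rw [pow_succ, absS_mul (pow_ne_zero _ hx) hx, ih, pow_succ]
theorem absS_le_one {x : E} (hx : x ∈ OS E) : absS x ≤ 1 :=
  Finset.prod_le_one (fun _ hp => (zpow_pos (zero_lt_one.trans (b1_one_lt hp)) _).le)
    fun _ hp => zpow_le_one_of_nonpos₀ (b1_one_lt hp).le (neg_nonpos.2 (b1_val_nonneg hx hp))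
theorem absS_le_of_div_mem {x t : E} (hx : x ≠ 0) (ht : t ≠ 0) (h : x / t ∈ OS E) :
    absS x ≤ absS t := by
  have h1 := absS_le_one h
  rwa [absS_div hx ht, div_le_one (absS_pos t)] at h1
theorem U.absS_eq {j : ℕ} (hj : 1 ≤ j) {u : E} (hu : U j u) : absS u = 1 := by
  have h1 := absS_le_one hu.mem_OS
  have h2 := absS_le_one (hu.inv hj).mem_OS
  rw [absS_inv, inv_le_one₀ (absS_pos u)] at h2
  exact le_antisymm h1 h2
theorem Ty.absS_eq {j : ℕ} (hj : 1 ≤ j) {t x : E} (h : Ty j t x) : absS x = absS t := by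
  obtain ⟨ht, hx⟩ := h.ne_zero hj
  have h1 := U.absS_eq hj h
  rwa [absS_div hx ht, div_eq_one_iff_eq (absS_pos t).ne'] at h1
theorem absS_mm : absS (mm E : E) = (nr (mm E : E))⁻¹ := by
  have hm : mm E ≠ 0 := Fr.m_ne
  have h1 : ∏ p ∈ (mm E).primeFactors, (p : ℝ) ^ padicValNat p (mm E) = (mm E : ℝ) := by
    have h2 := Nat.prod_factorization_pow_eq_self hm
    rw [Finsupp.prod, Nat.support_factorization] at h2
    have h3 : ∏ p ∈ (mm E).primeFactors, p ^ padicValNat p (mm E) = mm E := by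
      refine Eq.trans (Finset.prod_congr rfl fun p hp => ?_) h2
      rw [Nat.factorization_def _ (Nat.prime_of_mem_primeFactors hp)]
    exact_mod_cast congrArg (Nat.cast : ℕ → ℝ) h3
  rw [nr_natCast, ← h1, ← Finset.prod_pow, ← Finset.prod_inv_distrib]
  unfold absS
  refine Finset.prod_congr rfl fun p hp => ?_
  have := Fact.mk (Nat.prime_of_mem_primeFactors hp)
  rw [b1_norm_natCast, padicValRat.pow, padicValRat.of_nat, zpow_neg, ← pow_mul, mul_comm,
    ← Nat.cast_mul, zpow_natCast]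
theorem inv_mem_OS_of_absS {x : E} (hx : x ∈ OS E) (h : absS x = 1) : x⁻¹ ∈ OS E := by
  rcases eq_or_ne x 0 with rfl | hx0
  · simp
  have hval : ∀ p ∈ (mm E).primeFactors, padicValRat p (Algebra.norm ℚ x) = 0 := by
    intro p hp
    by_contra hne
    have hlt : absS x < ∏ _q ∈ (mm E).primeFactors, (1 : ℝ) :=
      Finset.prod_lt_prod (fun _ hq => zpow_pos (zero_lt_one.trans (b1_one_lt hq)) _)
        (fun _ hq =>
          zpow_le_one_of_nonpos₀ (b1_one_lt hq).le (neg_nonpos.2 (b1_val_nonneg hx hq)))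
        ⟨p, hp, zpow_lt_one_of_neg₀ (b1_one_lt hp)
          (neg_neg_iff_pos.2 (lt_of_le_of_ne (b1_val_nonneg hx hp) (Ne.symm hne)))⟩
    rw [h, Finset.prod_const_one] at hlt
    exact lt_irrefl _ hlt
  obtain ⟨b, hb, hbx⟩ := hx
  have hb0 : (b : E) ≠ 0 := by
    rintro h0
    rw [Nat.cast_eq_zero.1 h0, Nat.coprime_zero_left] at hb
    have h6 : 6 ∣ mm E := Fr.six_dvd
    rw [hb] at h6
    norm_num at h6
  set y : 𝓞 E := ⟨(b : E) * x, hbx⟩ with hy
  have hyE : (y : E) = (b : E) * x := rfl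
  have hy0 : y ≠ 0 := fun h0 => mul_ne_zero hb0 hx0 (by rw [← hyE, h0]; rfl)
  have hN0 : (Algebra.norm ℤ y).natAbs ≠ 0 :=
    Int.natAbs_ne_zero.2 (Algebra.norm_ne_zero_iff.2 hy0)
  have hcop : (Algebra.norm ℤ y).natAbs.Coprime (mm E) := by
    refine Nat.coprime_of_dvd fun p hp h1 h2 => ?_
    have := Fact.mk hp
    have hp' : p ∈ (mm E).primeFactors := Nat.mem_primeFactors.2 ⟨hp, h2, Fr.m_ne⟩
    have h3 := hval p hp'
    rw [← b1_val_natCast_mul hp (b1_not_dvd hp' hb) hx0, ← hyE, ← Algebra.coe_norm_int,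
      padicValRat.of_int] at h3
    have h4 : padicValNat p (Algebra.norm ℤ y).natAbs = 0 := by exact_mod_cast h3
    exact (dvd_iff_padicValNat_ne_zero hN0).1 h1 h4
  have hmem := Ideal.absNorm_mem (Ideal.span {y})
  rw [Ideal.absNorm_span_singleton, Ideal.mem_span_singleton'] at hmem
  obtain ⟨z, hz⟩ := hmem
  refine ⟨_, hcop, ?_⟩
  have hz' : (z : E) * ((b : E) * x) = ((Algebra.norm ℤ y).natAbs : E) := by
    have := congrArg (algebraMap (𝓞 E) E) hz
    rw [map_mul, map_natCast] at this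
    exact this
  have h5 : ((Algebra.norm ℤ y).natAbs : E) * x⁻¹ = ((z * (b : 𝓞 E) : 𝓞 E) : E) := by
    rw [← hz']
    push_cast
    field_simp
  rw [h5]
  exact (z * (b : 𝓞 E)).isIntegral_coe

theorem nf_nonneg (x : E) : 0 ≤ nf x := mul_nonneg (nr_nonneg x) (absS_pos x).le
theorem nf_pos {x : E} (h : x ≠ 0) : 0 < nf x := mul_pos (nr_pos h) (absS_pos x)
@[simp] theorem nf_zero : nf (0 : E) = 0 := by simp [nf]
@[simp] theorem nf_one : nf (1 : E) = 1 := by simp [nf]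
@[simp] theorem nf_neg (x : E) : nf (-x) = nf x := by simp [nf]
theorem nf_mul (x y : E) : nf (x * y) = nf x * nf y := by
  rcases eq_or_ne x 0 with rfl | hx
  · simp
  rcases eq_or_ne y 0 with rfl | hy
  · simp
  unfold nf
  rw [nr_mul, absS_mul hx hy]
  ring
theorem nf_inv (x : E) : nf x⁻¹ = (nf x)⁻¹ := by
  unfold nf
  rw [nr_inv, absS_inv, mul_inv]
theorem nf_div (x y : E) : nf (x / y) = nf x / nf y := by
  rw [div_eq_mul_inv, nf_mul, nf_inv, div_eq_mul_inv]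
theorem nf_pow (x : E) (k : ℕ) : nf (x ^ k) = nf x ^ k := by
  unfold nf
  rw [nr_pow, absS_pow, mul_pow]
theorem nf_prod {α : Type} (s : Finset α) (f : α → R E) :
    nf ((∏ i ∈ s, f i : R E) : E) = ∏ i ∈ s, nf (f i : E) := by
  classical
  induction s using Finset.induction_on with
  | empty => simp
  | insert a s ha ih => rw [Finset.prod_insert ha, Finset.prod_insert ha, Subring.coe_mul, nf_mul, ih]
theorem finite_quot {c : R E} (hc : c ≠ 0) : Finite (R E ⧸ Ideal.span {c}) := 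
  FrB2.finite_quot (by rwa [Ne, Ideal.span_singleton_eq_bot])
/-- `R / c = 𝓞 / (c R ∩ 𝓞)`; if `c ∈ 𝓞` then `(c) = (c R ∩ 𝓞) 𝔞` with `𝔞 ∣ m^∞`. -/
theorem nf_eq_nN {c : R E} (hc : c ≠ 0) : nf (c : E) = nN c := by
  obtain ⟨k, c', h⟩ := FrB2.exists_toR c
  have hc' : c' ≠ 0 := by
    rintro rfl
    rw [map_zero] at h
    exact hc (((FrB2.unit_mm.pow k).mul_right_eq_zero).1 h.symm)
  have h1 : nf (mm E : E) = 1 := by
    rw [nf, absS_mm, mul_inv_cancel₀ (nr_pos mm_ne_zero).ne']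
  have h2 : (c' : E) = (mm E : E) ^ k * (c : E) := by
    simpa [FrB2.coe_toR] using congrArg (fun y : R E => (y : E)) h
  have h3 := FrB2.nf_toR hc'
  rw [h2, nf_mul, nf_pow, h1, one_pow, one_mul] at h3
  rw [h3, nN, nN, h, Ideal.span_singleton_mul_left_unit (FrB2.unit_mm.pow k)]
theorem nN_mul (a b : R E) : nN (a * b) = nN a * nN b := by
  by_cases ha : a = 0
  · simp [ha, FrB2.nN_zero]
  by_cases hb : b = 0
  · simp [hb, FrB2.nN_zero]
  have h := nf_eq_nN (mul_ne_zero ha hb)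
  rw [Subring.coe_mul, nf_mul, nf_eq_nN ha, nf_eq_nN hb] at h
  exact_mod_cast h.symm
theorem nN_coprime {c : R E} (hc : c ≠ 0) : (nN c).Coprime (mm E) := 
  FrB2.card_coprime (by rwa [Ne, Ideal.span_singleton_eq_bot])
theorem dvd_nN (c : R E) : c ∣ (nN c : R E) := by
  rw [← Ideal.mem_span_singleton, ← Ideal.Quotient.eq_zero_iff_mem, map_natCast, ← nsmul_one]
  exact card_nsmul_eq_zero'
theorem one_le_nf {c : R E} (hc : c ≠ 0) : 1 ≤ nf (c : E) := by
  have := finite_quot hc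
  rw [nf_eq_nN hc]
  exact_mod_cast (Nat.card_pos : 0 < nN c)
theorem nf_eq_one_iff {c : R E} : nf (c : E) = 1 ↔ IsUnit c := by
  by_cases hc : c = 0
  · simp [hc]
  rw [nf_eq_nN hc, ← Ideal.span_singleton_eq_top, ← Ideal.Quotient.subsingleton_iff,
    Nat.cast_eq_one, nN, Nat.card_eq_one_iff_unique]
  exact and_iff_left inferInstance
theorem nf_of_associated {a b : R E} (h : Associated a b) : nf (a : E) = nf (b : E) := by
  obtain ⟨u, rfl⟩ := h
  rw [Subring.coe_mul, nf_mul, nf_eq_one_iff.2 u.isUnit, mul_one]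
theorem nf_le_of_dvd {a b : R E} (h : a ∣ b) (hb : b ≠ 0) : nf (a : E) ≤ nf (b : E) := by
  obtain ⟨c, rfl⟩ := h
  rw [Subring.coe_mul, nf_mul]
  exact le_mul_of_one_le_right (nf_nonneg _) (one_le_nf (right_ne_zero_of_mul hb))
theorem nr_mul_absS_unit {u : R E} (hu : IsUnit u) : nr (u : E) * absS (u : E) = 1 := 
  nf_eq_one_iff.2 hu
theorem nN_prime_mod {p : R E} (hp : Prime p) : nN p % 6 = 1 ∧ 7 ≤ nN p := by
  have := finite_quot hp.ne_zero
  have := Fintype.ofFinite (R E ⧸ Ideal.span {p})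
  have hmax : (Ideal.span {p}).IsMaximal :=
    PrincipalIdealRing.isMaximal_of_irreducible hp.irreducible
  let := Ideal.Quotient.field (Ideal.span {p})
  have hq : nN p = Fintype.card (R E ⧸ Ideal.span {p}) := Nat.card_eq_fintype_card
  have h2 : 2 ≤ nN p := hq ▸ Fintype.one_lt_card
  have hodd : (nN p).Coprime 2 :=
    (nN_coprime hp.ne_zero).coprime_dvd_right (dvd_trans (by norm_num) Fr.six_dvd)
  have hodd' : nN p % 2 = 1 := Nat.odd_iff.1 (Nat.coprime_two_right.1 hodd)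
  set w := Ideal.Quotient.mk (Ideal.span {p}) omR with hw
  have hw3 : w ^ 3 = 1 := by rw [hw, ← map_pow, omR_cube, map_one]
  have hw1 : w ≠ 1 := by
    intro h
    have h1 : w ^ 2 + w + 1 = 0 := by
      simpa using congrArg (Ideal.Quotient.mk (Ideal.span {p})) omR_sq_add
    have h3 : IsUnit (3 : R E ⧸ Ideal.span {p}) := by
      have := isUnit_three.map (Ideal.Quotient.mk (Ideal.span {p}))
      rwa [map_ofNat] at this
    rw [h] at h1
    exact h3.ne_zero (by linear_combination h1)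
  have hw0 : w ≠ 0 := by
    intro h
    rw [h] at hw3
    simp at hw3
  have : Fact (Nat.Prime 3) := ⟨Nat.prime_three⟩
  have h3 : 3 ∣ nN p - 1 := by
    rw [← orderOf_eq_prime hw3 hw1, hq]
    exact orderOf_dvd_of_pow_eq_one (FiniteField.pow_card_sub_one_eq_one w hw0)
  omega
/-- The norm of an ideal of `𝓞` prime to `m` is the norm `nf` of a generator of its extension. -/
theorem absNorm_eq_nf {I : Ideal (𝓞 E)} (hI : IsCoprime I (Ideal.span {(mm E : 𝓞 E)})) {g : R E}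
    (hg : I.map toR = Ideal.span {g}) : (Ideal.absNorm I : ℝ) = nf (g : E) := by
  have h := FrB2.comap_map hI
  rw [hg] at h
  by_cases h0 : g = 0
  · subst h0
    rw [Ideal.span_singleton_zero, Ideal.comap_bot_of_injective _ FrB2.toR_injective] at h
    simp [← h]
  · rw [nf_eq_nN h0, nN, FrB2.card_quot (by rwa [Ne, Ideal.span_singleton_eq_bot]), h]

/-! ## part C: the groups `V j` and the representatives -/

theorem V_one (j : ℕ) : V j (1 : E) := ⟨U_one j, one_mem _, by rw [inv_one]; exact one_mem _⟩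
theorem V.mul {j : ℕ} {u v : E} (hu : V j u) (hv : V j v) : V j (u * v) := ⟨hu.1.mul hv.1, mul_mem hu.2.1 hv.2.1, by
  rw [mul_inv]; exact mul_mem hu.2.2 hv.2.2⟩
theorem V.pow {j : ℕ} {u : E} (hu : V j u) (k : ℕ) : V j (u ^ k) := ⟨hu.1.pow k, pow_mem hu.2.1 k, by
  rw [← inv_pow]; exact pow_mem hu.2.2 k⟩
theorem V.inv {j : ℕ} (hj : 1 ≤ j) {u : E} (hu : V j u) : V j u⁻¹ := ⟨hu.1.inv hj, hu.2.2, by
  rw [inv_inv]; exact hu.2.1⟩
theorem V.ne_zero {j : ℕ} (hj : 1 ≤ j) {u : E} (hu : V j u) : u ≠ 0 := hu.1.ne_zero hj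
theorem V.mono {i j : ℕ} (h : i ≤ j) {u : E} (hu : V j u) : V i u := ⟨hu.1.mono h, hu.2⟩
theorem V_iff {j : ℕ} (hj : 1 ≤ j) {u : E} : V j u ↔
    ∃ v : (𝓞 E)ˣ, ((v : 𝓞 E) : E) = u ∧ ((mm E ^ j : ℕ) : 𝓞 E) ∣ (v : 𝓞 E) - 1 := by
  constructor
  · intro hu
    have h0 := hu.ne_zero hj
    have h1 : IsIntegral ℤ u := isIntegral_iff.2 ⟨hu.2.1, hu.1.mem_OS⟩
    have h2 : IsIntegral ℤ u⁻¹ := isIntegral_iff.2 ⟨hu.2.2, (hu.1.inv hj).mem_OS⟩
    obtain ⟨y, hy, e⟩ := hu.1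
    have hm := mm_ne_zero (E := E)
    have h3 : IsIntegral ℤ y := by
      refine isIntegral_iff.2 ⟨?_, hy⟩
      have : y = (u - 1) * ((mm E : E)⁻¹) ^ j := by
        rw [e, inv_pow]; field_simp; ring
      rw [this]
      exact mul_mem (sub_mem hu.2.1 (one_mem _)) (pow_mem mm_inv_mem j)
    refine ⟨⟨⟨u, h1⟩, ⟨u⁻¹, h2⟩, ?_, ?_⟩, rfl, ⟨y, h3⟩, ?_⟩
    · exact RingOfIntegers.ext (mul_inv_cancel₀ h0)
    · exact RingOfIntegers.ext (inv_mul_cancel₀ h0)
    · apply RingOfIntegers.ext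
      have e1 : ∀ a b : 𝓞 E, ((a * b : 𝓞 E) : E) = (a : E) * (b : E) := fun a b => map_mul _ a b
      have e2 : ∀ a : 𝓞 E, ((a - 1 : 𝓞 E) : E) = (a : E) - 1 := fun a => by
        simp only [map_sub, map_one]
      have e3 : (((mm E ^ j : ℕ) : 𝓞 E) : E) = (mm E : E) ^ j := by
        simp only [map_natCast, Nat.cast_pow, map_pow]
      rw [e1, e2, e3]
      change u - 1 = (mm E : E) ^ j * y
      rw [e]; ring
  · rintro ⟨v, rfl, z, hz⟩
    refine ⟨⟨(z : E), mem_OS_of_isIntegral z.isIntegral_coe, ?_⟩,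
      mem_RR_of_isIntegral (v : 𝓞 E).isIntegral_coe, ?_⟩
    · have := congrArg (algebraMap (𝓞 E) E) hz
      simp only [map_sub, map_one, map_mul, map_natCast, Nat.cast_pow, map_pow] at this
      linear_combination this
    · have : ((v : 𝓞 E) : E)⁻¹ = (((v⁻¹ : (𝓞 E)ˣ) : 𝓞 E) : E) := by
        refine inv_eq_of_mul_eq_one_right ?_
        rw [← map_mul, Units.mul_inv, map_one]
      rw [this]
      exact mem_RR_of_isIntegral (RingOfIntegers.isIntegral_coe _)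
theorem V_iff_isUnit {j : ℕ} (hj : 1 ≤ j) {u : R E} : V j (u : E) ↔ IsUnit u ∧ U j (u : E) := by
  rw [isUnit_iff]
  exact ⟨fun h => ⟨⟨h.ne_zero hj, h.2.2⟩, h.1⟩, fun h => ⟨h.2, u.2, h.1.2⟩⟩
theorem V.nr_eq {j : ℕ} (hj : 1 ≤ j) {u : E} (hu : V j u) : nr u = 1 := by
  obtain ⟨v, rfl, -⟩ := (V_iff hj).1 hu
  exact nr_unit v
theorem V.nf_eq {j : ℕ} (hj : 1 ≤ j) {u : E} (hu : V j u) : nf u = 1 := by
  rw [nf, hu.nr_eq hj, hu.1.absS_eq hj, one_mul]
/-- Associated elements of the same type differ by an element of `V j`. -/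
theorem exists_V_of_associated {j : ℕ} (hj : 1 ≤ j) {t : E} {a b : R E} (h : Associated a b)
    (ha : Ty j t (a : E)) (hb : Ty j t (b : E)) : ∃ u : R E, V j (u : E) ∧ b = u * a := by
  obtain ⟨u, rfl⟩ := h
  refine ⟨u, (V_iff_isUnit hj).2 ⟨u.isUnit, ?_⟩, mul_comm _ _⟩
  have h1 : Ty j (a : E) ((a * u : R E) : E) := (ha.symm hj).trans hj hb
  have h0 : (a : E) ≠ 0 := (ha.ne_zero hj).2
  unfold Ty at h1
  rwa [Subring.coe_mul, mul_div_cancel_left₀ _ h0] at h1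
theorem rep_spec (j : ℕ) (x : E) : ∃ u, V j u ∧ rep j x = u * x :=   Classical.epsilon_spec (p := fun y : E => ∃ u, V j u ∧ y = u * x)
    ⟨x, 1, V_one j, (one_mul x).symm⟩
theorem rep_mul {j : ℕ} (hj : 1 ≤ j) {u : E} (hu : V j u) (x : E) : rep j (u * x) = rep j x := by
  unfold rep
  congr 1
  funext y
  apply propext
  constructor
  · rintro ⟨v, hv, rfl⟩
    exact ⟨v * u, hv.mul hu, (mul_assoc _ _ _).symm⟩
  · rintro ⟨v, hv, rfl⟩
    refine ⟨v * u⁻¹, hv.mul (hu.inv hj), ?_⟩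
    rw [mul_assoc, inv_mul_cancel_left₀ (hu.ne_zero hj)]
theorem fd_rep {j : ℕ} (hj : 1 ≤ j) {x : E} (hx : x ≠ 0) : Fd j (rep j x) := by
  obtain ⟨u, hu, e⟩ := rep_spec j x
  refine ⟨e ▸ mul_ne_zero (hu.ne_zero hj) hx, ?_⟩
  conv_lhs => rw [e]
  exact rep_mul hj hu x
theorem Fd.eq {j : ℕ} (hj : 1 ≤ j) {x y u : E} (hx : Fd j x) (hy : Fd j y) (hu : V j u)
    (h : y = u * x) : y = x := by
  rw [← hy.2, h, rep_mul hj hu, hx.2]
theorem rep_mem_RR {j : ℕ} {x : E} (hx : x ∈ RR E) : rep j x ∈ RR E := by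
  obtain ⟨u, hu, e⟩ := rep_spec j x
  exact e ▸ mul_mem hu.2.1 hx
/-- The representative as an element of `R`. -/
def repR (j : ℕ) (x : R E) : R E := ⟨rep j (x : E), rep_mem_RR x.2⟩
theorem repR_spec (j : ℕ) (x : R E) : ∃ u : R E, V j (u : E) ∧ repR j x = u * x := by
  obtain ⟨u, hu, e⟩ := rep_spec j (x : E)
  exact ⟨⟨u, hu.2.1⟩, hu, Subtype.ext e⟩
theorem Cls.eq_of_associated {j : ℕ} (hj : 1 ≤ j) {t : E} {a b : R E} (ha : Cls j t a)
    (hb : Cls j t b) (h : Associated a b) : a = b := by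
  obtain ⟨u, hu, e⟩ := exists_V_of_associated hj h ha.2 hb.2
  exact (Subtype.ext (ha.1.eq hj hb.1 hu (congrArg Subtype.val e))).symm
theorem nf_le_szl {j : ℕ} {t : E} (ht : t ≠ 0) {k : R E} (hk : Lat j t k) :
    nf (k : E) ≤ szl t k :=   mul_le_mul_of_nonneg_left (absS_le_of_div_mem hk.1.1 ht hk.2) (nr_nonneg _)
theorem Cls.szl_eq {j : ℕ} (hj : 1 ≤ j) {t : E} {n : R E} (h : Cls j t n) :
    Lat j t n ∧ szl t n = nf (n : E) :=   ⟨⟨h.1, h.2.div_mem_OS⟩, by rw [szl, nf, h.2.absS_eq hj]⟩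

open Classical in
theorem frC2_tsum_ite {α : Type} (P : α → Prop) (g : α → ℂ) :
    (∑' x, if P x then g x else 0) = ∑' x : {x // P x}, g x := by
  have h := tsum_subtype {x | P x} g
  refine Eq.trans ?_ h.symm
  refine tsum_congr fun x => ?_
  by_cases hx : P x <;> simp [Set.indicator, hx]

open Classical in
theorem frC2_summable_ite {α : Type} (P : α → Prop) (g : α → ℂ) :
    (Summable fun x => if P x then g x else 0) ↔ Summable fun x : {x // P x} => g x := by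
  have h := summable_subtype_iff_indicator (s := {x | P x}) (f := g)
  refine Iff.trans ?_ h.symm
  refine summable_congr fun x => ?_
  by_cases hx : P x <;> simp [Set.indicator, hx]

theorem frC2_rep_rep {j : ℕ} (hj : 1 ≤ j) {c : E} (hc : c ≠ 0) {x : E} (hx : Fd j x) :
    rep j (c⁻¹ * rep j (c * x)) = x := by
  obtain ⟨u, hu, h⟩ := rep_spec j (c * x)
  rw [h, show c⁻¹ * (u * (c * x)) = u * x by field_simp, rep_mul hj hu, hx.2]

/-- Translation of the representatives. -/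
def frC2_equiv {j : ℕ} (hj : 1 ≤ j) {c : E} (hc : c ≠ 0) : {x : E // Fd j x} ≃ {x : E // Fd j x} where
  toFun x := ⟨rep j (c * x), fd_rep hj (mul_ne_zero hc x.2.1)⟩
  invFun x := ⟨rep j (c⁻¹ * x), fd_rep hj (mul_ne_zero (inv_ne_zero hc) x.2.1)⟩
  left_inv x := Subtype.ext (frC2_rep_rep hj hc x.2)
  right_inv x := Subtype.ext (by
    have := frC2_rep_rep hj (inv_ne_zero hc) x.2
    rwa [inv_inv] at this)

theorem frC2_inv_rep {j : ℕ} {β : Type} {f : E → β} (hf : Inv j f) (x : E) : f (rep j x) = f x := by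
  obtain ⟨u, hu, h⟩ := rep_spec j x
  rw [h, hf u x hu]

open Classical in
/-- Translating a system of representatives. -/
theorem tsum_Fd_mul {j : ℕ} (hj : 1 ≤ j) {c : E} (hc : c ≠ 0) {f : E → ℂ} (hf : Inv j f) :
    (∑' x : E, if Fd j x then f (c * x) else 0) = ∑' x : E, if Fd j x then f x else 0 := by
  rw [frC2_tsum_ite, frC2_tsum_ite, ← (frC2_equiv hj hc).tsum_eq fun x => f x]
  exact tsum_congr fun x => (frC2_inv_rep hf _).symm
open Classical in
theorem summable_Fd_mul {j : ℕ} (hj : 1 ≤ j) {c : E} (hc : c ≠ 0) {f : E → ℂ} (hf : Inv j f) :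
    (Summable fun x : E => if Fd j x then f (c * x) else 0) ↔
      Summable fun x : E => if Fd j x then f x else 0 := by
  rw [frC2_summable_ite, frC2_summable_ite,
    ← (frC2_equiv hj hc).summable_iff (f := fun x : {x : E // Fd j x} => f x)]
  exact summable_congr fun x => (frC2_inv_rep hf _).symm
open Classical in
/-- Sums over `R` as sums over `E`. -/
theorem tsum_R_eq (f : R E → ℂ) :
    ∑' x : R E, f x = ∑' x : E, if h : x ∈ RR E then f ⟨x, h⟩ else 0 := by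
  have h := frC2_tsum_ite (fun x : E => x ∈ RR E) fun x => if h : x ∈ RR E then f ⟨x, h⟩ else 0
  refine Eq.trans ?_ (h.symm.trans ?_)
  · exact tsum_congr fun x => by rw [dif_pos x.2]
  · exact tsum_congr fun x => by by_cases hx : x ∈ RR E <;> simp [hx]

open Classical in
theorem frC2_tsum_dvd {j : ℕ} (hj : 1 ≤ j) {Q : E → Prop} (hQ : Inv j Q) {g : R E} (hg : g ≠ 0)
    {f : R E → ℂ} (hf : InvR j f) :
    (∑' n : R E, if (Fd j (n : E) ∧ Q n) ∧ g ∣ n then f n else 0) =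
      ∑' n : R E, if Fd j (n : E) ∧ Q (g * n) then f (g * n) else 0 := by
  have hg' : (g : E) ≠ 0 := fun h => hg (Subtype.ext h)
  let F : E → ℂ := fun x => if h : x ∈ RR E then (if Q x ∧ x / g ∈ RR E then f ⟨x, h⟩ else 0) else 0
  have hF : Inv j F := by
    intro u x hu
    have hu0 := hu.ne_zero hj
    have key : ∀ y : E, u * y ∈ RR E ↔ y ∈ RR E := fun y =>
      ⟨fun h => by
        have := (RR E).mul_mem hu.2.2 h
        rwa [inv_mul_cancel_left₀ hu0] at this, fun h => (RR E).mul_mem hu.2.1 h⟩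
    by_cases hx : x ∈ RR E
    · have h1 : f ⟨u * x, (key x).2 hx⟩ = f ⟨x, hx⟩ := hf ⟨u, hu.2.1⟩ ⟨x, hx⟩ hu
      simp only [F, dif_pos hx, dif_pos ((key x).2 hx), hQ u x hu, mul_div_assoc, key, h1]
    · simp only [F, dif_neg hx, dif_neg (mt (key x).1 hx)]
  have h := tsum_Fd_mul hj hg' hF
  rw [tsum_R_eq, tsum_R_eq]
  refine Eq.trans ?_ (h.symm.trans ?_)
  · refine tsum_congr fun x => ?_
    by_cases hx : x ∈ RR E
    · simp only [F, dif_pos hx, dvd_iff hg]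
      by_cases h1 : Fd j x <;> simp [h1]
    · simp only [F, dif_neg hx, ite_self]
  · refine tsum_congr fun x => ?_
    have h2 : (g : E) * x / g = x := by field_simp
    by_cases hx : x ∈ RR E
    · have h3 : (g : E) * x ∈ RR E := (RR E).mul_mem g.2 hx
      rw [dif_pos hx]
      simp only [F, dif_pos h3, h2, hx, and_true]
      by_cases h1 : Fd j x
      · simp only [h1, true_and, if_true]
        rfl
      · simp [h1]
    · rw [dif_neg hx]
      simp only [F, h2, hx, and_false, if_false, dite_eq_ite, ite_self]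

open Classical in
/-- The multiples of `g` in a ray class. -/
theorem tsum_Cls_dvd {j : ℕ} (hj : 1 ≤ j) (t : E) {g : R E} (hg : g ≠ 0) {f : R E → ℂ}
    (hf : InvR j f) :
    (∑' n : R E, if Cls j t n ∧ g ∣ n then f n else 0) =
      ∑' n : R E, if Cls j (t / g) n then f (g * n) else 0 := by
  have hQ : Inv j (Ty j t) := by
    intro u x hu
    refine propext ⟨fun h => ?_, fun h => ?_⟩
    · have := (hu.1.inv hj).mul h
      rwa [mul_div_assoc, inv_mul_cancel_left₀ (hu.ne_zero hj)] at this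
    · have := hu.1.mul h
      rwa [← mul_div_assoc] at this
  have h := frC2_tsum_dvd hj hQ hg hf
  simp only [Ty_mul_iff] at h
  refine (tsum_congr fun n => ?_).trans (h.trans (tsum_congr fun n => ?_)) <;>
    exact if_congr Iff.rfl rfl rfl
open Classical in
/-- The multiples of `g` in a lattice. -/
theorem tsum_Lat_dvd {j : ℕ} (hj : 1 ≤ j) (t : E) {g : R E} (hg : g ≠ 0) {f : R E → ℂ}
    (hf : InvR j f) :
    (∑' n : R E, if Lat j t n ∧ g ∣ n then f n else 0) =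
      ∑' n : R E, if Lat j (t / g) n then f (g * n) else 0 := by
  have hQ : Inv j fun x : E => x / t ∈ OS E := by
    intro u x hu
    refine propext ⟨fun h => ?_, fun h => ?_⟩
    · have := (OS E).mul_mem (hu.1.inv hj).mem_OS h
      rwa [mul_div_assoc, inv_mul_cancel_left₀ (hu.ne_zero hj)] at this
    · have := (OS E).mul_mem hu.1.mem_OS h
      rwa [← mul_div_assoc] at this
  have h := frC2_tsum_dvd hj hQ hg hf
  have h2 : ∀ n : R E, (g : E) * n / t = n / (t / g) := fun n => by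
    rw [div_div_eq_mul_div, mul_comm]
  simp only [h2] at h
  refine (tsum_congr fun n => ?_).trans (h.trans (tsum_congr fun n => ?_)) <;>
    exact if_congr Iff.rfl rfl rfl

/-- `Fd j × V j ≃ Eˣ`. -/
def frC2_unf {j : ℕ} (hj : 1 ≤ j) : {x : E // Fd j x} × {u : E // V j u} ≃ {x : E // x ≠ 0} :=
  Equiv.ofBijective (fun p => ⟨p.2 * p.1, mul_ne_zero (p.2.2.ne_zero hj) p.1.2.1⟩) (by
    constructor
    · rintro ⟨⟨x, hx⟩, ⟨u, hu⟩⟩ ⟨⟨y, hy⟩, ⟨v, hv⟩⟩ h
      have h' : u * x = v * y := congrArg Subtype.val h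
      have hxy : y = x := Fd.eq hj hx hy ((hv.inv hj).mul hu) (by
        rw [mul_assoc, h', inv_mul_cancel_left₀ (hv.ne_zero hj)])
      subst hxy
      have huv : u = v := mul_right_cancel₀ hy.1 h'
      subst huv
      rfl
    · rintro ⟨y, hy⟩
      obtain ⟨u, hu, h⟩ := rep_spec j y
      refine ⟨(⟨rep j y, fd_rep hj hy⟩, ⟨u⁻¹, hu.inv hj⟩), Subtype.ext ?_⟩
      show u⁻¹ * rep j y = y
      rw [h, inv_mul_cancel_left₀ (hu.ne_zero hj)])

open Classical in
/-- Unfolding: a sum over `Eˣ` is a sum over `Fd j × V j`. -/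
theorem tsum_unfold {j : ℕ} (hj : 1 ≤ j) {f : E → ℂ} (hf : Summable f) :
    ∑' x : E, f x = f 0 + ∑' x : E, if Fd j x then ∑' u : {u : E // V j u}, f (u * x) else 0 := by
  rw [hf.tsum_eq_add_tsum_ite 0, frC2_tsum_ite]
  congr 1
  have h1 : (∑' x : E, if x = 0 then 0 else f x) = ∑' x : {x : E // x ≠ 0}, f x := by
    rw [← frC2_tsum_ite (fun x : E => x ≠ 0) f]
    exact tsum_congr fun x => by by_cases hx : x = 0 <;> simp [hx]
  have h2 : Summable fun x : {x : E // x ≠ 0} => f x := hf.subtype _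
  have h3 := (frC2_unf hj).summable_iff.2 h2
  rw [h1, ← (frC2_unf hj).tsum_eq fun x : {x : E // x ≠ 0} => f x]
  exact h3.tsum_prod

theorem frC2_finite {i j : ℕ} (hi : 1 ≤ i) (hij : i ≤ j) :
    Finite {s : E // V i s ∧ Fd j s} := by
  have hj : 1 ≤ j := hi.trans hij
  have hm : ((mm E ^ j : ℕ) : 𝓞 E) ≠ 0 := Nat.cast_ne_zero.2 (pow_ne_zero _ Fr.m_ne)
  have hfin : Finite (𝓞 E ⧸ Ideal.span {((mm E ^ j : ℕ) : 𝓞 E)}) :=
    Ideal.finiteQuotientOfFreeOfNeBot _ (by simpa using hm)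
  choose v hv _ using fun s : {s : E // V i s ∧ Fd j s} => (V_iff hi).1 s.2.1
  refine Finite.of_injective
    (fun s => Ideal.Quotient.mk (Ideal.span {((mm E ^ j : ℕ) : 𝓞 E)}) (v s : 𝓞 E)) ?_
  intro s s' h
  have h1 : ((mm E ^ j : ℕ) : 𝓞 E) ∣ (v s : 𝓞 E) - (v s' : 𝓞 E) :=
    Ideal.mem_span_singleton.1 (Ideal.Quotient.eq.1 h)
  have h2 : V j (((v s * (v s')⁻¹ : (𝓞 E)ˣ) : 𝓞 E) : E) := by
    refine (V_iff hj).2 ⟨_, rfl, ?_⟩
    have : ((v s * (v s')⁻¹ : (𝓞 E)ˣ) : 𝓞 E) - 1 =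
        ((v s : 𝓞 E) - (v s' : 𝓞 E)) * (((v s')⁻¹ : (𝓞 E)ˣ) : 𝓞 E) := by
      rw [sub_mul, Units.mul_inv, Units.val_mul]
    rw [this]
    exact h1.mul_right _
  refine Subtype.ext (Fd.eq hj s'.2.2 s.2.2 h2 ?_)
  have h3 : (v s : 𝓞 E) = ((v s * (v s')⁻¹ : (𝓞 E)ˣ) : 𝓞 E) * (v s' : 𝓞 E) := by
    rw [Units.val_mul, Units.inv_mul_cancel_right]
  rw [← hv s, ← hv s']
  conv_lhs => rw [h3]
  exact map_mul (algebraMap (𝓞 E) E) _ _

/-- `Fd i × (V i / V j) ≃ Fd j`. -/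
def frC2_lev {i j : ℕ} (hi : 1 ≤ i) (hij : i ≤ j) :
    {x : E // Fd i x} × {s : E // V i s ∧ Fd j s} ≃ {x : E // Fd j x} :=
  Equiv.ofBijective
    (fun p => ⟨rep j (p.2 * p.1), fd_rep (hi.trans hij) (mul_ne_zero p.2.2.2.1 p.1.2.1)⟩) (by
    have hj : 1 ≤ j := hi.trans hij
    constructor
    · rintro ⟨⟨x, hx⟩, ⟨s, hs⟩⟩ ⟨⟨y, hy⟩, ⟨r, hr⟩⟩ h
      have h' : rep j (s * x) = rep j (r * y) := congrArg Subtype.val h
      obtain ⟨u, hu, hu'⟩ := rep_spec j (s * x)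
      obtain ⟨v, hv, hv'⟩ := rep_spec j (r * y)
      rw [hu', hv'] at h'
      have hv0 := hv.ne_zero hj
      have hr0 := hr.2.1
      have hxy : y = x :=
        Fd.eq hi hx hy ((((hv.mono hij).mul hr.1).inv hi).mul ((hu.mono hij).mul hs.1)) (by
          field_simp
          linear_combination -h')
      subst hxy
      have hsr : r = s := Fd.eq hj hs.2 hr.2 ((hv.inv hj).mul hu) (by
        apply mul_right_cancel₀ hy.1
        field_simp
        linear_combination -h')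
      subst hsr
      rfl
    · rintro ⟨y, hy⟩
      obtain ⟨v, hv, h⟩ := rep_spec i y
      obtain ⟨w, hw, h'⟩ := rep_spec j v⁻¹
      have hv0 := hv.ne_zero hi
      refine ⟨(⟨rep i y, fd_rep hi hy.1⟩, ⟨rep j v⁻¹, ?_, fd_rep hj (inv_ne_zero hv0)⟩),
        Subtype.ext ?_⟩
      · rw [h']
        exact (hw.mono hij).mul (hv.inv hi)
      · show rep j (rep j v⁻¹ * rep i y) = y
        rw [h, h', show w * v⁻¹ * (v * y) = w * y by field_simp, rep_mul hj hw, hy.2])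

open Classical in
/-- Change of the level. -/
theorem tsum_Fd_level {i j : ℕ} (hi : 1 ≤ i) (hij : i ≤ j) : ∃ k : ℕ, 0 < k ∧
    ∀ f : E → ℂ, Inv i f → (Summable fun x : E => if Fd i x then f x else 0) →
      (Summable fun x : E => if Fd j x then f x else 0) ∧
      (∑' x : E, if Fd j x then f x else 0) = k * ∑' x : E, if Fd i x then f x else 0 := by
  have hj : 1 ≤ j := hi.trans hij
  have hfin := frC2_finite (E := E) hi hij
  have hne : Nonempty {s : E // V i s ∧ Fd j s} := by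
    obtain ⟨u, hu, h⟩ := rep_spec j (1 : E)
    exact ⟨⟨rep j 1, by rw [h, mul_one]; exact hu.mono hij, fd_rep hj one_ne_zero⟩⟩
  refine ⟨Nat.card {s : E // V i s ∧ Fd j s}, Nat.card_pos, fun f hf hs => ?_⟩
  rw [frC2_summable_ite] at hs ⊢
  rw [frC2_tsum_ite, frC2_tsum_ite]
  have hfj : Inv j f := fun u x hu => hf u x (hu.mono hij)
  have he : ∀ p : {x : E // Fd i x} × {s : E // V i s ∧ Fd j s},
      f (frC2_lev hi hij p) = f p.1 * (1 : ℂ) := fun p => by
    rw [mul_one]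
    exact (frC2_inv_rep hfj _).trans (hf _ _ p.2.2.1)
  have h1 : Summable fun _ : {s : E // V i s ∧ Fd j s} => ‖(1 : ℂ)‖ := Summable.of_finite
  have h2 := summable_mul_of_summable_norm hs.norm h1
  have h3 := tsum_mul_tsum_of_summable_norm hs.norm h1
  constructor
  · refine (frC2_lev hi hij).summable_iff.1 ?_
    exact h2.congr fun p => (he p).symm
  · rw [← (frC2_lev hi hij).tsum_eq fun x : {x : E // Fd j x} => f x, tsum_congr he, ← h3, tsum_const, mul_comm]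
    simp

end Crest.Agent.R312
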