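import Crest.Agent.R312.Symbol
import Crest.Agent.R17.Gauss

/-!
# Row 312: Gauss sums (port of `R17/Gauss.lean`; no reciprocity law is used)
-/

set_option autoImplicit false

noncomputable section

namespace Crest.Agent.R312

open NumberField
open scoped ComplexConjugate

variable {E : Type} [Field E] [NumberField E] [Fr E]

/-- Gauss sum of the `j`-th power of the sextic symbol. -/
def gs (j : ℕ) (n k : R E) : ℂ := ft n (fun x => sym n x ^ (j + 6)) k

theorem gam_eq (j : ℕ) (n : R E) : gam j n = gs j n 1 / (Real.sqrt (nf (n : E)) : ℂ) := rfl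
private theorem gsA_sqrt_ne {n : R E} (hn : n ≠ 0) : ((Real.sqrt (nf (n : E)) : ℝ) : ℂ) ≠ 0 := by
  exact_mod_cast (Real.sqrt_pos.2 (nf_pos (by exact_mod_cast hn))).ne'
theorem gs_one_eq (j : ℕ) {n : R E} (hn : n ≠ 0) :
    gs j n 1 = (Real.sqrt (nf (n : E)) : ℂ) * gam j n := by
  rw [gam_eq, mul_div_cancel₀ _ (gsA_sqrt_ne hn)]

/-! ## part A -/

private theorem gsA_per {f : R E → ℂ} {m n : R E} (hf : ∀ x y, m ∣ x - y → f x = f y) (h : m ∣ n)
    (k x y : R E) (hxy : n ∣ x - y) : f x * ef (k * x) n = f y * ef (k * y) n := by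
  rw [hf x y (h.trans hxy), ef_congr (show n ∣ k * x - k * y from mul_sub k x y ▸ hxy.mul_left k)]
private theorem gsA_sym_per (n : R E) (j : ℕ) (x y : R E) (h : n ∣ x - y) :
    sym n x ^ j = sym n y ^ j := by rw [sym_congr h]
private theorem gsA_sym_pow (n a : R E) {j : ℕ} (hj : j ≠ 0) (b : ℕ) :
    sym n a ^ (j + 6 * b) = sym n a ^ j := by
  induction b with
  | zero => rfl
  | succ b ih => rw [mul_add, mul_one, ← add_assoc, sym_pow_add_six n a (by omega), ih]
private theorem gsA_sym_six {n a : R E} (h : IsCoprime n a) (j : ℕ) :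
    sym n a ^ (j + 6) = sym n a ^ j := by rw [pow_add, sym_pow_six h, mul_one]
private theorem gsA_conj_mul {z : ℂ} (h : ‖z‖ = 1) : conj z * z = 1 := by
  rw [Complex.conj_mul', h]; simp
theorem ft_mul_unit {f : R E → ℂ} {n : R E} (hn : n ≠ 0) (hf : ∀ x y, n ∣ x - y → f x = f y)
    (hm : ∀ x y, f (x * y) = f x * f y) {y : R E} (hy : IsCoprime y n) (h1 : ‖f y‖ = 1) (k : R E) :
    ft n f (k * y) = conj (f y) * ft n f k := by
  have h := sum_res_affine hn _ (gsA_per hf dvd_rfl k) hy 0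
  rw [ft, ft, ← h, Finset.mul_sum]
  refine Finset.sum_congr rfl fun x _ => ?_
  rw [add_zero, hm, ← mul_assoc, ← mul_assoc, gsA_conj_mul h1, one_mul, mul_assoc k]
theorem ft_crt {f g : R E → ℂ} {m n : R E} (hm : m ≠ 0) (hn : n ≠ 0) (h : IsCoprime m n)
    (hf : ∀ x y, m ∣ x - y → f x = f y) (hg : ∀ x y, n ∣ x - y → g x = g y)
    (hf' : ∀ x y, f (x * y) = f x * f y) (hg' : ∀ x y, g (x * y) = g x * g y) (k : R E) :
    ft (m * n) (fun x => f x * g x) k = f n * g m * ft m f k * ft n g k := by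
  rw [ft_mul hm hn h f g hf hg]
  simp only [ft, hf', hg', mul_assoc, ← Finset.mul_sum]
  ring
theorem ft_of_dvd {f : R E → ℂ} {n k : R E} (h : n ∣ k) : ft n f k = ∑ x ∈ res n, f x :=
  Finset.sum_congr rfl fun x _ => by rw [ef_of_dvd (h.mul_right x), mul_one]
open Classical in
/-- A function modulo `a` seen modulo `a b`. -/
theorem ft_mul_of_per {f : R E → ℂ} {a b : R E} (ha : a ≠ 0) (hb : b ≠ 0)
    (hf : ∀ x y, a ∣ x - y → f x = f y) (k : R E) :
    ft (a * b) f k = if h : b ∣ k then (nN b : ℂ) * ft a f h.choose else 0 := by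
  rw [ft, sum_res_mul ha hb _ (gsA_per hf (dvd_mul_right _ _) k)]
  have e : ∀ x, ∑ y ∈ res b, f (x + a * y) * ef (k * (x + a * y)) (a * b) =
      f x * ef (k * x) (a * b) * if b ∣ k then (nN b : ℂ) else 0 := fun x => by
    rw [← sum_res_ef hb, Finset.mul_sum]
    refine Finset.sum_congr rfl fun y _ => ?_
    rw [hf _ x ⟨y, by ring⟩, mul_add, ef_add, mul_left_comm k a, ef_mul_mul ha, mul_assoc]
  simp only [e]
  split_ifs with h
  · rw [ft, Finset.mul_sum]
    refine Finset.sum_congr rfl fun x _ => ?_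
    rw [mul_comm a, ← ef_mul_mul hb (h.choose * x) a, ← mul_assoc b, ← h.choose_spec, mul_comm]
  · simp
theorem ft_mul_mul_of_per {f : R E → ℂ} {a b : R E} (ha : a ≠ 0) (hb : b ≠ 0)
    (hf : ∀ x y, a ∣ x - y → f x = f y) (k : R E) :
    ft (a * b) f (b * k) = (nN b : ℂ) * ft a f k := by
  have h : b ∣ b * k := dvd_mul_right b k
  rw [ft_mul_of_per ha hb hf, dif_pos h, ← mul_left_cancel₀ hb h.choose_spec]
theorem ft_pow_eq_gs (n : R E) {j : ℕ} (hj : j ≠ 0) (k : R E) :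
    ft n (fun x => sym n x ^ j) k = gs j n k :=
  Finset.sum_congr rfl fun x _ => by beta_reduce; rw [sym_pow_add_six n x hj]
theorem gs_congr (j : ℕ) {n k k' : R E} (h : n ∣ k - k') : gs j n k = gs j n k' := ft_congr _ h
theorem gs_add_six (j : ℕ) (n k : R E) : gs (j + 6) n k = gs j n k :=
  Finset.sum_congr rfl fun x _ => by beta_reduce; rw [sym_pow_add_six n x (j := j + 6) (by omega)]
private theorem gsA_nN_unit {u : R E} (hu : IsUnit u) : nN u = 1 := by
  have h := nf_eq_nN hu.ne_zero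
  rw [nf_eq_one_iff.2 hu] at h
  exact_mod_cast h.symm
theorem gs_unit (j : ℕ) {u : R E} (hu : IsUnit u) (k : R E) : gs j u k = 1 := by
  have h := sum_res_ef hu.ne_zero k
  rw [if_pos hu.dvd, gsA_nN_unit hu] at h
  simpa [gs, ft, sym_unit_left hu] using h
theorem gam_unit (j : ℕ) {u : R E} (hu : IsUnit u) : gam j u = 1 := by
  rw [gam_eq, gs_unit j hu, nf_eq_one_iff.2 hu]
  simp
theorem gc_unit {u : R E} (hu : IsUnit u) (k : R E) : gc u k = 1 := by
  have h := sum_res_ef hu.ne_zero k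
  rw [if_pos hu.dvd, gsA_nN_unit hu] at h
  simpa [gc, ft, cub_unit_left hu] using h
theorem gs_two (n k : R E) : gs 2 n k = gc n k :=
  Finset.sum_congr rfl fun x _ => by beta_reduce; rw [sym_pow_add_six n x two_ne_zero, sym_sq]
theorem gs_three (n k : R E) : gs 3 n k = ft n (quad n) k :=
  Finset.sum_congr rfl fun x _ => by beta_reduce; rw [sym_pow_add_six n x three_ne_zero, sym_pow_three]
theorem gs_mul_unit (j : ℕ) {n : R E} (hn : n ≠ 0) {y : R E} (hy : IsCoprime y n) (k : R E) :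
    gs j n (k * y) = conj (sym n y ^ j) * gs j n k := by
  rw [← gsA_sym_six hy.symm]
  exact ft_mul_unit hn (gsA_sym_per n _) (fun x y => by rw [sym_mul_right, mul_pow])
    hy (by rw [norm_pow, norm_sym hy.symm, one_pow]) k
theorem gc_mul_unit {n : R E} (hn : n ≠ 0) {y : R E} (hy : IsCoprime y n) (k : R E) :
    gc n (k * y) = conj (cub n y) * gc n k :=
  ft_mul_unit hn (fun _ _ => cub_congr) (cub_mul_right n) hy (norm_cub hy.symm) k
private theorem gsA_mul (j : ℕ) {m n : R E} (hm : m ≠ 0) (hn : n ≠ 0) (h : IsCoprime m n)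
    (k : R E) : gs j (m * n) k = sym m n ^ j * sym n m ^ j * gs j m k * gs j n k := by
  rw [← gsA_sym_six h, ← gsA_sym_six h.symm]
  simp only [gs, sym_mul_left hm hn, mul_pow]
  exact ft_crt hm hn h (gsA_sym_per m _) (gsA_sym_per n _)
    (fun x y => by rw [sym_mul_right, mul_pow]) (fun x y => by rw [sym_mul_right, mul_pow]) k
private theorem gsA_cop {u : R E} (hu : IsUnit u) (n : R E) : IsCoprime u n := by
  obtain ⟨v, hv⟩ := hu.exists_left_inv
  exact ⟨v, 0, by rw [hv, zero_mul, add_zero]⟩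
theorem gs_unit_mul (j : ℕ) {u n : R E} (hu : IsUnit u) (hn : n ≠ 0) (k : R E) :
    gs j (u * n) k = sym n u ^ j * gs j n k := by
  rw [gsA_mul j hu.ne_zero hn (gsA_cop hu n), sym_unit_left hu, gs_unit j hu, one_pow, one_mul,
    mul_one]
theorem gam_unit_mul (j : ℕ) {u n : R E} (hu : IsUnit u) (hn : n ≠ 0) :
    gam j (u * n) = sym n u ^ j * gam j n := by
  rw [gam_eq, gam_eq, gs_unit_mul j hu hn, mul_div_assoc,
    nf_of_associated (associated_unit_mul_left n u hu)]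
theorem gc_unit_mul {u n : R E} (hu : IsUnit u) (hn : n ≠ 0) (k : R E) :
    gc (u * n) k = cub n u * gc n k := by
  rw [← gs_two, ← gs_two, gs_unit_mul 2 hu hn, sym_sq]
theorem gs_mul (j : ℕ) {m n : R E} (hm : m ≠ 0) (hn : n ≠ 0) (h : IsCoprime m n) (k : R E) :
    gs j (m * n) k = sym m n ^ j * sym n m ^ j * gs j m k * gs j n k := gsA_mul j hm hn h k
theorem gam_mul (j : ℕ) {m n : R E} (hm : m ≠ 0) (hn : n ≠ 0) (h : IsCoprime m n) :
    gam j (m * n) = sym m n ^ j * sym n m ^ j * gam j m * gam j n := by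
  rw [gam_eq, gam_eq, gam_eq, gs_mul j hm hn h, Subring.coe_mul, nf_mul,
    Real.sqrt_mul (nf_nonneg _), Complex.ofReal_mul]
  ring
theorem gc_mul {m n : R E} (hm : m ≠ 0) (hn : n ≠ 0) (h : IsCoprime m n) (k : R E) :
    gc (m * n) k = cub m n * cub n m * gc m k * gc n k := by
  rw [← gs_two, ← gs_two, ← gs_two, gs_mul 2 hm hn h, sym_sq, sym_sq]
theorem conj_gs (j : ℕ) (n k : R E) : conj (gs j n k) = gs (5 * j) n (-k) := by
  rw [gs, ft, map_sum]
  refine Finset.sum_congr rfl fun x _ => ?_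
  rw [map_mul, map_pow, conj_sym, ← pow_mul, ← ef_neg, neg_mul,
    show 5 * (j + 6) = 5 * j + 6 + 6 * 4 by ring, gsA_sym_pow n x (by omega) 4]
theorem gs_sqfree {j : ℕ} (hj : ¬ 6 ∣ j) {n : R E} (hs : Squarefree n) (k : R E) :
    gs j n k = conj (sym n k ^ j) * gs j n 1 := by
  have hn := hs.ne_zero
  by_cases h : IsCoprime n k
  · simpa using gs_mul_unit j hn h.symm 1
  rw [(sym_eq_zero_iff hn).2 h, zero_pow (by omega), map_zero, zero_mul]
  rw [isCoprime_iff_pf hn] at h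
  push Not at h
  obtain ⟨p, hp', hk⟩ := h
  obtain ⟨-, hp, m, rfl⟩ := of_mem_pf hp'
  rw [gs_mul j hp.ne_zero (right_ne_zero_of_mul hn) (squarefree_mul_iff.1 hs).1.isCoprime,
    show gs j p k = 0 from (ft_of_dvd hk).trans (sum_res_sym_pow hp (by omega)), mul_zero,
    zero_mul]
theorem gc_sqfree {n : R E} (hs : Squarefree n) (k : R E) :
    gc n k = conj (cub n k) * gc n 1 := by
  rw [← gs_two, ← gs_two, gs_sqfree (by omega) hs, sym_sq]
open Classical in
private theorem gsA_delta {f : R E → ℂ} {n : R E} (hn : n ≠ 0) (hf : ∀ x y, n ∣ x - y → f x = f y)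
    (a : R E) : ∑ x ∈ res n, (if n ∣ a - x then f x else 0) = f a := by
  obtain ⟨r, ⟨hr, hr'⟩, hu⟩ := exists_unique_res hn a
  rw [Finset.sum_eq_single_of_mem r hr fun b hb hbr => if_neg fun h => hbr (hu b ⟨hb, h⟩),
    if_pos hr', hf a r hr']
private theorem gsA_norm {f : R E → ℂ} {n : R E} (hn : n ≠ 0) (hf : ∀ x y, n ∣ x - y → f x = f y)
    (h1 : f 1 = 1) (h : ∀ k, ft n f k = conj (f k) * ft n f 1) :
    ‖ft n f 1‖ = Real.sqrt (nf (n : E)) := by
  classical
  have key : conj (ft n f 1) * ft n f 1 = nN n := by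
    have e1 : conj (ft n f 1) * ft n f 1 =
        ∑ k ∈ res n, ∑ x ∈ res n, f x * conj (ef ((1 - x) * k) n) := by
      conv_lhs => rw [ft, map_sum, Finset.sum_mul]
      refine Finset.sum_congr rfl fun k _ => ?_
      rw [map_mul, mul_right_comm, ← ft, ← h, ft, Finset.sum_mul]
      refine Finset.sum_congr rfl fun x _ => ?_
      rw [← ef_neg, ← ef_neg, mul_assoc, ← ef_add]
      congr 2
      ring
    rw [e1, Finset.sum_comm, ← one_mul (nN n : ℂ), ← h1,
      ← gsA_delta (f := fun x => f x * nN n) hn (fun x y hxy => by rw [hf x y hxy]) 1]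
    refine Finset.sum_congr rfl fun x _ => ?_
    rw [← Finset.mul_sum, ← map_sum, sum_res_ef hn]
    split_ifs <;> simp
  rw [Complex.conj_mul'] at key
  rw [← Real.sqrt_sq (norm_nonneg _), nf_eq_nN hn]
  congr 1
  exact_mod_cast key
private theorem gsA_norm_gs {j : ℕ} (hj : ¬ 6 ∣ j) {n : R E} (hs : Squarefree n) :
    ‖gs j n 1‖ = Real.sqrt (nf (n : E)) :=
  gsA_norm hs.ne_zero (gsA_sym_per n _) (by rw [sym_one_right, one_pow]) fun k => by
    rw [sym_pow_add_six n k (by omega)]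
    exact gs_sqfree hj hs k
theorem norm_gam {j : ℕ} (hj : ¬ 6 ∣ j) {n : R E} (hs : Squarefree n) : ‖gam j n‖ = 1 := by
  rw [gam_eq, norm_div, gsA_norm_gs hj hs, Complex.norm_real, Real.norm_of_nonneg (by positivity),
    div_self (Real.sqrt_pos.2 (nf_pos (by exact_mod_cast hs.ne_zero))).ne']
theorem norm_gc {n : R E} (hs : Squarefree n) : ‖gc n 1‖ = Real.sqrt (nf (n : E)) := by
  rw [← gs_two, gsA_norm_gs (by omega) hs]
theorem gam_mul_gam {j : ℕ} (hj : ¬ 6 ∣ j) {n : R E} (hs : Squarefree n) :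
    gam j n * gam (5 * j) n = sym n (-1) ^ j := by
  have h1 := conj_gs j n 1
  have h2 := sym_neg_one_sq n
  rw [gs_sqfree (by omega) hs (-1), map_pow, conj_sym, ← pow_mul,
    show 5 * (5 * j) = 2 * (12 * j) + j by ring, pow_add, pow_mul, h2, one_pow, one_mul] at h1
  have h3 : conj (gam j n) = sym n (-1) ^ j * gam (5 * j) n := by
    rw [gam_eq, map_div₀, h1, Complex.conj_ofReal, gam_eq, mul_div_assoc]
  have h4 := gsA_conj_mul (norm_gam hj hs)
  have h5 : (sym n (-1) ^ j) ^ 2 = 1 := by rw [← pow_mul, mul_comm, pow_mul, h2, one_pow]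
  rw [h3] at h4
  linear_combination sym n (-1) ^ j * h4 - gam j n * gam (5 * j) n * h5
open Classical in
theorem gs_prime_zero {j : ℕ} (hj : 6 ∣ j) {p : R E} (hp : Prime p) (k : R E) :
    gs j p k = (if p ∣ k then (nN p : ℂ) else 0) - 1 := by
  obtain ⟨j, rfl⟩ := hj
  rw [← sum_res_ef hp.ne_zero, ← ef_zero_left p, ← mul_zero k,
    ← gsA_delta (f := fun x => ef (k * x) p) hp.ne_zero (fun x y hxy =>
      ef_congr (mul_sub k x y ▸ hxy.mul_left k)) 0, ← Finset.sum_sub_distrib]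
  refine Finset.sum_congr rfl fun x _ => ?_
  beta_reduce
  rw [zero_sub, dvd_neg]
  split_ifs with hx
  · rw [(sym_eq_zero_iff hp.ne_zero).2 fun hc => hp.not_isUnit (hc.isUnit_of_dvd' dvd_rfl hx)]
    simp
  · have hc := hp.coprime_iff_not_dvd.2 hx
    rw [gsA_sym_six hc, pow_mul, sym_pow_six hc]
    simp
theorem sum_res_cub {p : R E} (hp : Prime p) : ∑ x ∈ res p, cub p x = 0 := by
  simp only [← sym_sq]
  exact sum_res_sym_pow hp (by omega)
theorem sum_res_cub_sq {p : R E} (hp : Prime p) : ∑ x ∈ res p, cub p x ^ 2 = 0 := by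
  simp only [← sym_sq, ← pow_mul]
  exact sum_res_sym_pow hp (by omega)
private theorem gsA_gc_pow {p : R E} (hp : Prime p) (i : ℕ) : gc (p ^ (i + 1)) 0 =
    if 3 ∣ i + 1 then (nN (p ^ i) : ℂ) * ((nN p : ℂ) - 1) else 0 := by
  have h1 : cub (p ^ (i + 1)) = fun x => sym p x ^ (2 * (i + 1)) := by
    funext x
    rw [cub_pow_left, ← sym_sq, pow_mul]
  rw [gc, h1, pow_succ' p i, ← mul_zero (p ^ i),
    ft_mul_mul_of_per hp.ne_zero (pow_ne_zero i hp.ne_zero) (gsA_sym_per p _)]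
  split_ifs with h
  · rw [ft_pow_eq_gs p (by omega), gs_prime_zero (by omega) hp, if_pos (dvd_zero p)]
  · rw [ft_of_dvd (dvd_zero p), sum_res_sym_pow hp (by omega), mul_zero]
private theorem gsA_cub_cube {a b : R E} (ha : a ≠ 0) (hc : IsCoprime a b)
    (h : ∀ p ∈ pf a, 3 ∣ vp p a) : cub a b = 1 := by
  rw [cub_eq_prod]
  refine Finset.prod_eq_one fun p hp => ?_
  obtain ⟨c, hc'⟩ := h p hp
  rw [hc', pow_mul, cub_pow_three ((of_mem_pf hp).2.1.coprime_iff_not_dvd.2
    ((isCoprime_iff_pf ha b).1 hc p hp)), one_pow]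
open Classical in
/-- The mean value of the cubic symbol: zero unless the modulus is a cube up to a unit. -/
theorem sum_res_cub_eq {n : R E} (hn : n ≠ 0) : ∑ x ∈ res n, cub n x =
    if ∀ p ∈ pf n, 3 ∣ vp p n then
      (nN n : ℂ) * ∏ p ∈ pf n, (1 - ((nN p : ℂ))⁻¹) else 0 := by
  rw [← ft_of_dvd (dvd_zero n)]
  change gc n 0 = _
  induction n using UniqueFactorizationMonoid.induction_on_coprime with
  | h0 => exact absurd rfl hn
  | h1 hu => simp [gc_unit hu, pf_unit hu, gsA_nN_unit hu]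
  | @hpr p i hp =>
    rcases i with _ | i
    · simp [gc_unit isUnit_one, gsA_nN_unit isUnit_one]
    · have ha := associated_nrm hp.ne_zero
      have hN : nN (nrm p) = nN p := by
        rw [nN, nN, Ideal.span_singleton_eq_span_singleton.2 ha]
      have hN0 : (nN p : ℂ) ≠ 0 := Nat.cast_ne_zero.2 (by have := (nN_prime_mod hp).2; omega)
      simp only [pf_pow (Nat.succ_ne_zero i), pf_prime hp, Finset.mem_singleton, forall_eq,
        Finset.prod_singleton, vp_of_associated_left ha, vp_pow hp hp.ne_zero, vp_self hp, mul_one,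
        hN, gsA_gc_pow hp]
      split_ifs
      · rw [pow_succ, nN_mul, Nat.cast_mul, mul_assoc, mul_sub (nN p : ℂ), mul_inv_cancel₀ hN0,
          mul_one]
      · rfl
  | @hcp a b hab iha ihb =>
    have ha := left_ne_zero_of_mul hn
    have hb := right_ne_zero_of_mul hn
    have hc := hab.isCoprime
    have key : ∀ {a b : R E}, a ≠ 0 → b ≠ 0 → IsCoprime a b → ∀ p ∈ pf a, vp p (a * b) = vp p a := by
      intro a b ha hb hc p hp
      rw [vp_mul (of_mem_pf hp).2.1 ha hb, (vp_eq_zero_iff (of_mem_pf hp).2.1 hb).2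
        ((isCoprime_iff_pf ha b).1 hc p hp), add_zero]
    have h1 : (∀ p ∈ pf (a * b), 3 ∣ vp p (a * b)) ↔
        (∀ p ∈ pf a, 3 ∣ vp p a) ∧ ∀ p ∈ pf b, 3 ∣ vp p b := by
      rw [pf_mul ha hb, Finset.forall_mem_union]
      refine and_congr (forall₂_congr fun p hp => ?_) (forall₂_congr fun p hp => ?_)
      · rw [key ha hb hc p hp]
      · rw [mul_comm, key hb ha hc.symm p hp]
    rw [gc_mul ha hb hc, iha ha, ihb hb]
    by_cases h2 : ∀ p ∈ pf a, 3 ∣ vp p a
    · by_cases h3 : ∀ p ∈ pf b, 3 ∣ vp p b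
      · rw [if_pos h2, if_pos h3, if_pos (h1.2 ⟨h2, h3⟩), gsA_cub_cube ha hc h2,
          gsA_cub_cube hb hc.symm h3, pf_mul ha hb, Finset.prod_union (disjoint_pf hc), nN_mul,
          Nat.cast_mul]
        ring
      · rw [if_neg h3, if_neg fun h => h3 (h1.1 h).2, mul_zero]
    · rw [if_neg h2, if_neg fun h => h2 (h1.1 h).1, mul_zero, zero_mul]

/-! ## part B: the duplication formula, theta coefficients -/

theorem exists_addChar {p : R E} (hp : Prime p) : ∃ ψ : AddChar (R E ⧸ Ideal.span {p}) ℂ, ψ ≠ 1 ∧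
    ∀ a, ψ (Ideal.Quotient.mk _ a) = ef a p := by
  have e : ∀ a : R E, ef (Quotient.out (Ideal.Quotient.mk (Ideal.span {p}) a)) p = ef a p :=
    fun a => ef_congr (Ideal.mem_span_singleton.1 (Ideal.Quotient.eq.1 (Ideal.Quotient.mk_out _)))
  refine ⟨⟨fun x => ef (Quotient.out x) p, ?_, fun x y => ?_⟩, fun h => ?_, e⟩
  · exact (e 0).trans (ef_zero_left p)
  · obtain ⟨x, rfl⟩ := Ideal.Quotient.mk_surjective x
    obtain ⟨y, rfl⟩ := Ideal.Quotient.mk_surjective y
    rw [← map_add, e, e, e, ef_add]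
  · have h1 := sum_res_ef hp.ne_zero 1
    have h2 : ∀ a, ef a p = 1 := fun a => (e a).symm.trans (DFunLike.congr_fun h _)
    have h3 := (nN_prime_mod hp).2
    simp only [h2, hp.not_dvd_one, if_false, Finset.sum_const, card_res hp.ne_zero, nsmul_eq_mul,
      mul_one, Nat.cast_eq_zero] at h1
    omega

theorem gB_conj_mul {z : ℂ} (h : ‖z‖ = 1) : conj z * z = 1 := by
  rw [Complex.conj_mul', h]; simp

theorem gB_gaussSum {p : R E} (hp : Prime p) [Fintype (R E ⧸ Ideal.span {p})]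
    {ψ : AddChar (R E ⧸ Ideal.span {p}) ℂ} (hψ : ∀ a, ψ (Ideal.Quotient.mk _ a) = ef a p)
    (χ : MulChar (R E ⧸ Ideal.span {p}) ℂ) {f : R E → ℂ}
    (h : ∀ a, χ (Ideal.Quotient.mk _ a) = f a) : ft p f 1 = gaussSum χ ψ := by
  rw [gaussSum, ← sum_res_eq_quot hp.ne_zero]
  simp only [ft, h, hψ, one_mul]

theorem gB_coprime_unit (n : R E) {u : R E} (hu : IsUnit u) : IsCoprime n u := by
  obtain ⟨v, rfl⟩ := hu
  exact ⟨0, ↑v⁻¹, by simp⟩

theorem gB_four (p : R E) : conj (sym p 4) * sym p 4 = 1 :=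
  gB_conj_mul (norm_sym (gB_coprime_unit p (by
    rw [show (4 : R E) = 2 ^ 2 by norm_num]; exact isUnit_two.pow 2)))

theorem gB_card {p : R E} [Fintype (R E ⧸ Ideal.span {p})] :
    Fintype.card (R E ⧸ Ideal.span {p}) = nN p := by
  rw [nN, Nat.card_eq_fintype_card]

open Classical in
theorem gB_quad {p : R E} (hp : Prime p) [Fintype (R E ⧸ Ideal.span {p})]
    [(Ideal.span {p}).IsMaximal] :
    letI := Ideal.Quotient.field (Ideal.span {p})
    ringChar (R E ⧸ Ideal.span {p}) ≠ 2 ∧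
      ∀ a, quad p a = quadraticChar _ (Ideal.Quotient.mk (Ideal.span {p}) a) := by
  let _ := Ideal.Quotient.field (Ideal.span {p})
  have hq := gB_card (p := p)
  have hq6 := (nN_prime_mod hp).1
  have hF : ringChar (R E ⧸ Ideal.span {p}) ≠ 2 := fun e => by
    have := FiniteField.even_card_of_char_two e
    omega
  refine ⟨hF, fun a => ?_⟩
  rw [quad_prime hp, quad1]
  have e : ∀ b : R E, Ideal.Quotient.mk (Ideal.span {p}) b = 0 ↔ p ∣ b := fun b => by
    rw [Ideal.Quotient.eq_zero_iff_mem, Ideal.mem_span_singleton]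
  by_cases ha : p ∣ a
  · rw [if_pos ha, (e a).2 ha, MulChar.map_zero, Int.cast_zero]
  · rw [if_neg ha, quadraticChar_eq_pow_of_char_ne_two hF (mt (e a).1 ha), ← e, map_sub, map_pow,
      map_one, sub_eq_zero, hq, show (nN p - 1) / 2 = nN p / 2 by omega]
    split_ifs <;> simp

/-- Hasse-Davenport duplication. -/
theorem gam_dup {p : R E} (hp : Prime p) :
    gam 1 p * gam 4 p = conj (sym p 4) * gam 2 p * gam 3 p := by
  classical
  obtain ⟨χ, h6, hχ⟩ := exists_mulChar_sym hp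
  obtain ⟨ψ, hψ1, hψ⟩ := exists_addChar hp
  have := finite_quot hp.ne_zero
  let _ := Fintype.ofFinite (R E ⧸ Ideal.span {p})
  have := PrincipalIdealRing.isMaximal_of_irreducible hp.irreducible
  let _ := Ideal.Quotient.field (Ideal.span {p})
  have hq := gB_card (p := p)
  have hq7 := (nN_prime_mod hp).2
  obtain ⟨hF, hquad⟩ := gB_quad hp
  have hne : ∀ j, 0 < j → j < 6 → χ ^ j ≠ 1 := fun j h0 hj =>
    pow_ne_one_of_lt_orderOf h0.ne' (h6 ▸ hj)
  have hg : ∀ j, j ≠ 0 → gs j p 1 = gaussSum (χ ^ j) ψ := fun j hj =>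
    gB_gaussSum hp hψ _ fun a => by
      rw [MulChar.pow_apply' _ hj, hχ, sym_pow_add_six p a hj]
  have hρ : ∀ a, (χ ^ 3) a = quadraticChar _ a := fun a => by
    obtain ⟨a, rfl⟩ := Ideal.Quotient.mk_surjective a
    rw [MulChar.pow_apply' _ three_ne_zero, hχ, sym_pow_three, hquad]
  have h1 := R17.Gauss_jac hF (pow_one χ ▸ hne 1 one_pos (by omega)) hρ
  have h2 := jacobiSum_mul_nontrivial (pow_two χ ▸ hne 2 two_pos (by omega)) ψ
  have h3 := jacobiSum_mul_nontrivial (pow_succ χ 3 ▸ hne 4 four_pos (by omega)) ψ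
  have h4 : χ 4 = sym p 4 := hχ 4
  have h5 := gaussSum_ne_zero_of_nontrivial (by rw [hq]; exact_mod_cast (by omega))
    (pow_one χ ▸ hne 1 one_pos (by omega)) (AddChar.IsPrimitive.of_ne_one hψ1)
  rw [← pow_two] at h2
  rw [← pow_succ, ← h1, h4] at h3
  have key : gaussSum χ ψ * gaussSum (χ ^ 4) ψ =
      conj (sym p 4) * gaussSum (χ ^ 2) ψ * gaussSum (χ ^ 3) ψ := by
    refine mul_left_cancel₀ h5 ?_
    linear_combination (-gaussSum (χ ^ 4) ψ) * h2 + conj (sym p 4) * gaussSum (χ ^ 2) ψ * h3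
      - gaussSum (χ ^ 4) ψ * gaussSum (χ ^ 2) ψ * jacobiSum χ χ * gB_four p
  simp only [gam_eq, hg _ one_ne_zero, hg _ two_ne_zero, hg _ three_ne_zero, hg _ four_ne_zero,
    pow_one]
  rw [div_mul_div_comm, key]
  ring
theorem gam_five_prime {p : R E} (hp : Prime p) :
    gam 5 p = sym p 4 * gam 3 p * gam 2 p * conj (gam 2 p ^ 3) := by
  have hs := hp.squarefree
  have e : ∀ j, gam (j + 6) p = gam j p := fun j => by rw [gam_eq, gs_add_six j, gam_eq]
  have h1 := gam_mul_gam (j := 1) (by omega) hs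
  have h2 := gam_mul_gam (j := 2) (by omega) hs
  have h3 := gam_mul_gam (j := 3) (by omega) hs
  have h4 := sym_neg_one_sq p
  rw [show gam (5 * 2) p = gam 4 p from e 4, h4] at h2
  rw [show gam (5 * 3) p = gam 3 p from (e 9).trans (e 3), pow_succ, h4] at h3
  have h5 := gam_dup hp
  have h6 := gB_four p
  have h7 := gB_conj_mul (norm_gam (j := 2) (by omega) hs)
  have h0 : gam 1 p ≠ 0 := by
    rw [← norm_ne_zero_iff, norm_gam (by omega) hs]
    exact one_ne_zero
  refine mul_left_cancel₀ h0 ?_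
  have h9 : gam 1 p = conj (sym p 4) * gam 2 p ^ 2 * gam 3 p := by
    linear_combination gam 2 p * h5 - gam 1 p * h2
  simp only [mul_one, pow_one, one_mul] at h1 h3
  have h8 : (conj (gam 2 p) * gam 2 p) ^ 3 = 1 := by rw [h7, one_pow]
  rw [h1, h9, map_pow]
  linear_combination (-((conj (gam 2 p) * gam 2 p) ^ 3 * gam 3 p ^ 2)) * h6
    - (conj (gam 2 p) * gam 2 p) ^ 3 * h3 - sym p (-1) * h8
theorem gB_two_cube {m n : R E} (hm : m ≠ 0) (hn : n ≠ 0) (h : IsCoprime m n) :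
    gam 2 (m * n) ^ 3 = gam 2 m ^ 3 * gam 2 n ^ 3 := by
  have h1 := sym_pow_six h
  have h2 := sym_pow_six h.symm
  rw [gam_mul 2 hm hn h]
  calc _ = sym m n ^ 6 * sym n m ^ 6 * (gam 2 m ^ 3 * gam 2 n ^ 3) := by ring
    _ = _ := by rw [h1, h2, one_mul, one_mul]
/-- The same for squarefree moduli (`gam_mul`: the cross terms agree). -/
theorem gam_five {n : R E} (hs : Squarefree n) :
    gam 5 n = sym n 4 * gam 3 n * gam 2 n * conj (gam 2 n ^ 3) := by
  refine squarefree_induction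
    (P := fun n => gam 5 n = sym n 4 * gam 3 n * gam 2 n * conj (gam 2 n ^ 3))
    (fun u hu => ?_) (fun p m hp hm hpm ih => ?_) hs
  · simp [gam_unit _ hu, sym_unit_left hu]
  · have h := hp.coprime_iff_not_dvd.2 hpm
    rw [gB_two_cube hp.ne_zero hm.ne_zero h, gam_mul 5 hp.ne_zero hm.ne_zero h,
      gam_mul 3 hp.ne_zero hm.ne_zero h, gam_mul 2 hp.ne_zero hm.ne_zero h,
      sym_mul_left hp.ne_zero hm.ne_zero, ih, gam_five_prime hp, map_mul]
    ring
theorem gam_two_cube_mul {m n : R E} (hm : m ≠ 0) (hn : n ≠ 0) (h : IsCoprime m n) :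
    gam 2 (m * n) ^ 3 = gam 2 m ^ 3 * gam 2 n ^ 3 := gB_two_cube hm hn h
/-- The Jacobi sum `J(χ, χ)`. -/
def jac (p : R E) : ℂ := ∑ x ∈ res p, cub p x * cub p (1 - x)
theorem gc_cube {p : R E} (hp : Prime p) : gc p 1 ^ 3 = (nN p : ℂ) * jac p := by
  obtain ⟨χ, h3, hχ⟩ := exists_mulChar_cub hp
  obtain ⟨ψ, hψ1, hψ⟩ := exists_addChar hp
  have := finite_quot hp.ne_zero
  let _ := Fintype.ofFinite (R E ⧸ Ideal.span {p})
  have := PrincipalIdealRing.isMaximal_of_irreducible hp.irreducible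
  let _ := Ideal.Quotient.field (Ideal.span {p})
  have hq := gB_card (p := p)
  have hJ : jac p = jacobiSum χ χ := by
    rw [jacobiSum, ← sum_res_eq_quot hp.ne_zero, jac]
    refine Finset.sum_congr rfl fun x _ => ?_
    rw [← hχ, ← hχ, map_sub, map_one]
  have := gaussSum_pow_eq_prod_jacobiSum (χ := χ) (by omega) (AddChar.IsPrimitive.of_ne_one hψ1)
  have e : χ (-1) = 1 := (hχ (-1)).trans (cub_neg_one p)
  rw [h3, ← gB_gaussSum hp hψ χ hχ, e, hq] at this
  rw [hJ]
  simpa using! this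

/-- Quadratic exponential sums. -/
def gBQ (k c : R E) : ℂ := ∑ x ∈ res c, ef (k * x ^ 2) c

theorem gBQ_per (k c x y : R E) (h : c ∣ x - y) : ef (k * x ^ 2) c = ef (k * y ^ 2) c :=
  ef_congr (by
    rw [show k * x ^ 2 - k * y ^ 2 = (x - y) * (k * (x + y)) by ring]; exact h.mul_right _)

theorem gBQ_one (c : R E) : g2 c = gBQ 1 c / (Real.sqrt (nf (c : E)) : ℂ) := by
  simp only [g2, gBQ, one_mul]

theorem gBQ_unit {u : R E} (hu : IsUnit u) (k : R E) : gBQ k u = 1 := by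
  rw [gBQ, sum_res_unit hu _ fun x y => gBQ_per k u x y hu.dvd, ef_of_dvd hu.dvd]

theorem gBQ_mul {a b : R E} (ha : a ≠ 0) (hb : b ≠ 0) (h : IsCoprime a b) (k : R E) :
    gBQ k (a * b) = gBQ (k * b) a * gBQ (k * a) b := by
  rw [gBQ, sum_res_crt ha hb h _ (gBQ_per k _), gBQ, gBQ, Finset.sum_mul_sum]
  refine Finset.sum_congr rfl fun x _ => Finset.sum_congr rfl fun y _ => ?_
  rw [← ef_crt ha hb]
  exact ef_congr ⟨2 * k * x * y, by ring⟩

theorem gBQ_mul_sq {c y k : R E} (hc : c ≠ 0) (hy : y ≠ 0) (hk : IsCoprime y k) :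
    gBQ k (c * y ^ 2) = (nN y : ℂ) * gBQ k c := by
  classical
  have hyc := mul_ne_zero hy hc
  rw [gBQ, show c * y ^ 2 = y * c * y by ring, sum_res_mul hyc hy _ (gBQ_per k _)]
  have e : ∀ a, ∑ b ∈ res y, ef (k * (a + y * c * b) ^ 2) (y * c * y) =
      (nN y : ℂ) * if y ∣ a then ef (k * a ^ 2) (y * c * y) else 0 := fun a => by
    have e1 : ∀ b, ef (k * (a + y * c * b) ^ 2) (y * c * y) =
        ef (k * a ^ 2) (y * c * y) * ef (2 * k * a * b) y := fun b => by
      rw [← ef_mul_mul hyc (2 * k * a * b) y, ← ef_add]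
      exact ef_congr ⟨k * c * b ^ 2, by ring⟩
    have e2 : y ∣ 2 * k * a ↔ y ∣ a :=
      ⟨fun h => ((gB_coprime_unit y isUnit_two).mul_right hk).dvd_of_dvd_mul_left h,
        fun h => h.mul_left _⟩
    simp only [e1, ← Finset.mul_sum, sum_res_ef hy, e2]
    split_ifs <;> ring
  simp only [e, ← Finset.mul_sum]
  congr 1
  rw [sum_res_mul hy hc _ fun a a' h => ?_]
  · obtain ⟨r, ⟨hr, hr'⟩, hu⟩ := exists_unique_res hy 0
    rw [zero_sub, dvd_neg] at hr'
    rw [Finset.sum_eq_single_of_mem r hr fun b hb hbr => Finset.sum_eq_zero fun t _ => if_neg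
      fun h => hbr (hu b ⟨hb, by
        rw [zero_sub, dvd_neg]; exact (dvd_add_left (dvd_mul_right y t)).1 h⟩)]
    obtain ⟨z, rfl⟩ := hr'
    rw [gBQ, ← sum_res_affine hc _ (gBQ_per k c) isCoprime_one_left z]
    refine Finset.sum_congr rfl fun t _ => ?_
    rw [if_pos ⟨z + t, by ring⟩, ← ef_mul_mul (mul_ne_zero hy hy) _ c]
    congr 1 <;> ring
  · obtain ⟨t, ht⟩ := h
    have h1 : a = a' + y * c * t := by linear_combination ht
    by_cases h2 : y ∣ a'
    · obtain ⟨z, rfl⟩ := h2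
      rw [if_pos ⟨z + c * t, by rw [h1]; ring⟩, if_pos (dvd_mul_right _ _), h1]
      exact ef_congr ⟨k * t * (2 * z + c * t), by ring⟩
    · rw [if_neg h2, if_neg fun h => h2 ?_]
      rw [h1, mul_assoc] at h
      exact (dvd_add_left (dvd_mul_right _ _)).1 h

theorem gBQ_prime {p k : R E} (hp : Prime p) (hk : ¬ p ∣ k) : gBQ k p = gs 3 p k := by
  classical
  obtain ⟨ψ, -, hψ⟩ := exists_addChar hp
  have := finite_quot hp.ne_zero
  let _ := Fintype.ofFinite (R E ⧸ Ideal.span {p})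
  have := PrincipalIdealRing.isMaximal_of_irreducible hp.irreducible
  let _ := Ideal.Quotient.field (Ideal.span {p})
  obtain ⟨hF, hquad⟩ := gB_quad hp
  set κ := Ideal.Quotient.mk (Ideal.span {p}) k with hκ
  have h0 := sum_res_ef hp.ne_zero k
  rw [if_neg hk] at h0
  calc gBQ k p = ∑ y, ψ (κ * y ^ 2) := by
        rw [← sum_res_eq_quot hp.ne_zero, gBQ]
        exact Finset.sum_congr rfl fun x _ => by rw [← hψ, map_mul, map_pow]
    _ = ∑ t, ((quadraticChar _ t : ℂ) + 1) * ψ (κ * t) := by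
        rw [← Finset.sum_fiberwise' Finset.univ (fun y => y ^ 2) fun t => ψ (κ * t)]
        refine Finset.sum_congr rfl fun t _ => ?_
        have := quadraticChar_card_sqrts hF t
        rw [Set.toFinset_ofPred] at this
        rw [Finset.sum_const, nsmul_eq_mul]
        congr 1
        exact_mod_cast this
    _ = ∑ x ∈ res p, (quad p x + 1) * ef (k * x) p := by
        rw [← sum_res_eq_quot hp.ne_zero]
        exact Finset.sum_congr rfl fun x _ => by
          rw [← hψ, map_mul (Ideal.Quotient.mk _), hquad]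
    _ = _ := by
        simp only [add_mul, one_mul, Finset.sum_add_distrib]
        rw [h0, add_zero, gs_three, ft]

theorem gBQ_sqfree {n : R E} (hs : Squarefree n) : ∀ k, IsCoprime n k → gBQ k n = gs 3 n k := by
  refine squarefree_induction (P := fun n => ∀ k, IsCoprime n k → gBQ k n = gs 3 n k)
    (fun u hu k _ => by rw [gBQ_unit hu, gs_unit _ hu]) (fun p m hp hm hpm ih k hk => ?_) hs
  have h := hp.coprime_iff_not_dvd.2 hpm
  rw [gBQ_mul hp.ne_zero hm.ne_zero h, ih _ (hk.of_mul_left_right.mul_right h.symm),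
    gBQ_prime hp (hp.coprime_iff_not_dvd.1 (hk.of_mul_left_left.mul_right h)),
    gs_mul 3 hp.ne_zero hm.ne_zero h, gs_mul_unit 3 hp.ne_zero h.symm,
    gs_mul_unit 3 hm.ne_zero h]
  simp only [sym_pow_three, conj_quad]
  ring

theorem gBQ_eq {c k : R E} (hc : c ≠ 0) (hk : IsCoprime c k) : gBQ k c = quad c k * gBQ 1 c := by
  obtain ⟨n, d, hn, hd, rfl⟩ := exists_sqfree_sq hc
  have hdk : IsCoprime d k := (IsCoprime.pow_left_iff two_pos).1 hk.of_mul_left_right
  have h := gs_mul_unit 3 hn.ne_zero hk.of_mul_left_left.symm 1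
  rw [one_mul, sym_pow_three, conj_quad] at h
  rw [gBQ_mul_sq hn.ne_zero hd.ne_zero hdk, gBQ_mul_sq hn.ne_zero hd.ne_zero isCoprime_one_right,
    gBQ_sqfree hn _ hk.of_mul_left_left, gBQ_sqfree hn _ isCoprime_one_right, h,
    quad_mul_left hn.ne_zero (pow_ne_zero _ hd.ne_zero), quad_pow_left, quad_sq hdk]
  ring

theorem g2_eq_gam {n : R E} (hs : Squarefree n) : g2 n = gam 3 n := by
  rw [gBQ_one, gBQ_sqfree hs _ isCoprime_one_right, gam_eq]
theorem g2_mul {a b : R E} (ha : a ≠ 0) (hb : b ≠ 0) (h : IsCoprime a b) :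
    g2 (a * b) = quad a b * quad b a * g2 a * g2 b := by
  rw [gBQ_one, gBQ_one, gBQ_one, gBQ_mul ha hb h, one_mul, one_mul, gBQ_eq ha h, gBQ_eq hb h.symm,
    Subring.coe_mul, nf_mul, Real.sqrt_mul (nf_nonneg _)]
  push_cast
  ring
theorem g2_unit {u : R E} (hu : IsUnit u) : g2 u = 1 := by
  rw [gBQ_one, gBQ_unit hu, nf_eq_one_iff.2 hu]
  simp
theorem g2_mul_sq {c y : R E} (hc : c ≠ 0) (hy : y ≠ 0) : g2 (c * y ^ 2) = g2 c := by
  have h1 : (nN y : ℂ) ≠ 0 := by
    have := one_le_nf hy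
    rw [nf_eq_nN hy] at this
    exact_mod_cast (zero_lt_one.trans_le this).ne'
  rw [gBQ_one, gBQ_one, gBQ_mul_sq hc hy isCoprime_one_right, Subring.coe_mul, nf_mul,
    Real.sqrt_mul (nf_nonneg _), SubmonoidClass.coe_pow, nf_pow, Real.sqrt_sq (nf_nonneg _),
    nf_eq_nN hy]
  push_cast
  rw [mul_comm (nN y : ℂ), mul_div_mul_right _ _ h1]
theorem norm_g2 {c : R E} (hc : c ≠ 0) : ‖g2 c‖ = 1 := by
  obtain ⟨n, d, hn, hd, rfl⟩ := exists_sqfree_sq hc
  rw [g2_mul_sq hn.ne_zero hd.ne_zero, g2_eq_gam hn, norm_gam (by omega) hn]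
theorem th_eq {n d : R E} (hn : Squarefree n) (hd : d ≠ 0) : th (n * d ^ 3) =
    gam 2 n * (Real.sqrt (nf (d : E)) : ℂ) * conj (al ((n * d ^ 3 : R E) : E)) := by
  have h : ∃ q : R E × R E, Squarefree q.1 ∧ n * d ^ 3 = q.1 * q.2 ^ 3 := ⟨(n, d), hn, rfl⟩
  rw [th, dif_pos h]
  obtain ⟨h1, h2⟩ := h.choose_spec
  obtain ⟨u, hu, h3, h4⟩ := sqfree_cube_unique hn h1 hd h2
  generalize h.choose = q at h1 h3 h4
  have h5 : gam 2 n = gam 2 q.1 := by
    rw [h4, gam_unit_mul 2 (hu.pow 3) h1.ne_zero, sym_pow_right, ← pow_mul,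
      sym_pow_six (gB_coprime_unit _ hu), one_mul]
  rw [h5, h3, Subring.coe_mul _ u, nf_mul, nf_eq_one_iff.2 hu, one_mul]
theorem th_sqfree {n : R E} (hn : Squarefree n) : th n = gam 2 n * conj (al (n : E)) := by
  simpa using th_eq hn one_ne_zero
@[simp] theorem th_zero : th (0 : R E) = 0 := by
  unfold th
  split_ifs <;> simp
theorem th_eq_zero {c p : R E} (hc : c ≠ 0) (hp : Prime p) (h : vp p c % 3 = 2) : th c = 0 := by
  rw [th, dif_neg]
  rintro ⟨⟨n, d⟩, hn, rfl⟩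
  exact vp_sqfree_cube hn (by rintro rfl; simp at hc) hp h
theorem th_ne_zero {c : R E} (h : th c ≠ 0) :
    ∃ n d : R E, Squarefree n ∧ Nm d ∧ c = n * d ^ 3 := by
  have hc : c ≠ 0 := by rintro rfl; exact h th_zero
  exact exists_sqfree_cube hc fun p hp h2 => h (th_eq_zero hc (of_mem_pf hp).2.1 h2)
theorem th_mul_cube {c d : R E} (hd : d ≠ 0) : th (c * d ^ 3) =
    (Real.sqrt (nf (d : E)) : ℂ) * conj (al (d : E)) ^ 3 * th c := by
  by_cases hc : c = 0
  · simp [hc]
  by_cases h : ∀ p ∈ pf c, vp p c % 3 ≠ 2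
  · obtain ⟨n, e, hn, he, rfl⟩ := exists_sqfree_cube hc h
    rw [mul_assoc n, ← mul_pow, th_eq hn (mul_ne_zero he.ne_zero hd), th_eq hn he.ne_zero]
    simp only [Subring.coe_mul, SubmonoidClass.coe_pow, nf_mul, al_mul, al_pow, map_mul, map_pow,
      Real.sqrt_mul (nf_nonneg _)]
    push_cast
    ring
  · push Not at h
    obtain ⟨p, hp, h⟩ := h
    have hp' := (of_mem_pf hp).2.1
    rw [th_eq_zero hc hp' h, mul_zero, th_eq_zero (mul_ne_zero hc (pow_ne_zero _ hd)) hp']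
    rw [vp_mul hp' hc (pow_ne_zero _ hd), vp_pow hp' hd]
    omega
theorem th_unit_mul {u : R E} (hu : IsUnit u) (c : R E) :
    th (u * c) = cub c u * conj (al (u : E)) * th c := by
  by_cases hc : c = 0
  · simp [hc]
  by_cases h : ∀ p ∈ pf c, vp p c % 3 ≠ 2
  · obtain ⟨n, e, hn, he, rfl⟩ := exists_sqfree_cube hc h
    have hun : Squarefree (u * n) :=
      (associated_unit_mul_left n u hu).squarefree_iff.2 hn
    rw [← mul_assoc u, th_eq hun he.ne_zero, th_eq hn he.ne_zero, gam_unit_mul 2 hu hn.ne_zero,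
      sym_sq, cub_mul_left hn.ne_zero (pow_ne_zero _ he.ne_zero), cub_pow_left,
      cub_pow_three (gB_coprime_unit e hu)]
    simp only [Subring.coe_mul, al_mul, map_mul]
    ring
  · push Not at h
    obtain ⟨p, hp, h⟩ := h
    have hp' := (of_mem_pf hp).2.1
    rw [th_eq_zero hc hp' h, mul_zero, th_eq_zero (mul_ne_zero hu.ne_zero hc) hp']
    rwa [vp_of_associated p (associated_unit_mul_left c u hu)]
theorem norm_th_le (c : R E) : ‖th c‖ ≤ nf (c : E) ^ (1 / 6 : ℝ) := by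
  by_cases h : th c = 0
  · rw [h, norm_zero]; exact Real.rpow_nonneg (nf_nonneg _) _
  obtain ⟨n, d, hn, hd, rfl⟩ := th_ne_zero h
  have h1 := one_le_nf hn.ne_zero
  have h2 := nf_nonneg (d : E)
  rw [th_eq hn hd.ne_zero, norm_mul, norm_mul, norm_gam (by omega) hn, one_mul, Complex.norm_conj,
    Complex.norm_real, Real.norm_of_nonneg (Real.sqrt_nonneg _)]
  refine (mul_le_of_le_one_right (Real.sqrt_nonneg _) (norm_al_le _)).trans ?_
  have h3 : Real.sqrt (nf (d : E)) = (nf (d : E) ^ 3) ^ (1 / 6 : ℝ) := by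
    rw [Real.sqrt_eq_rpow, ← Real.rpow_natCast, ← Real.rpow_mul h2]
    norm_num
  rw [h3, Subring.coe_mul, nf_mul, SubmonoidClass.coe_pow, nf_pow]
  exact Real.rpow_le_rpow (by positivity) (le_mul_of_one_le_left (by positivity) h1) (by norm_num)

end Crest.Agent.R312
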