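import Crest.Agent.R312.KubT

/-!
# Row 312: auxiliary lemmas for part A of `Hecke.lean` (helper77)
-/

set_option autoImplicit false

noncomputable section

namespace Crest.Agent.R312.HkA

open NumberField
open scoped ComplexConjugate

open Filter Topology

variable {E : Type} [Field E] [NumberField E] [Fr E]

theorem nr_zpow (x : E) (n : ℤ) : nr (x ^ n) = nr x ^ n := by
  obtain ⟨m, rfl | rfl⟩ := n.eq_nat_or_neg
  · rw [zpow_natCast, zpow_natCast, nr_pow]
  · rw [zpow_neg, zpow_neg, zpow_natCast, zpow_natCast, nr_inv, nr_pow]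

theorem nr_fac {x : E} (hx : x ≠ 0) (a b : ℤ) :
    nr (x ^ a) ^ (-(1 / 3 : ℝ)) / nr (x ^ b) = nr x ^ (-(a : ℝ) / 3 - b) := by
  have h := nr_pos hx
  rw [nr_zpow, nr_zpow, ← Real.rpow_intCast, ← Real.rpow_intCast, ← Real.rpow_mul h.le,
    ← Real.rpow_sub h]
  congr 1
  ring

theorem rho_zpow_right {x y : E} (hx : x ≠ 0) (hy : y ≠ 0) (n : ℤ) :
    rho x (y ^ n) = n * rho x y := by
  obtain ⟨m, rfl | rfl⟩ := n.eq_nat_or_neg
  · rw [zpow_natCast, rho_pow_right hx hy, Int.cast_natCast]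
  · rw [zpow_neg, zpow_natCast, rho_inv_right hx (pow_ne_zero _ hy), rho_pow_right hx hy]
    push_cast
    ring

theorem rho_zpow_zpow {x : E} (hx : x ≠ 0) (m n : ℤ) : rho (x ^ m) (x ^ n) = 0 := by
  rw [rho_zpow_right (zpow_ne_zero _ hx) hx, rho_swap, rho_zpow_right hx hx, rho_self]
  simp

theorem rho_pow_mul {x y : E} (hx : x ≠ 0) (hy : y ≠ 0) (e : ℕ) (n : ℤ) :
    rho (x ^ e * y) (x ^ n) = n * rho y x := by
  rw [rho_mul_left (pow_ne_zero _ hx) hy (zpow_ne_zero _ hx), ← zpow_natCast, rho_zpow_zpow hx,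
    zero_add, rho_zpow_right hy hx]

theorem chi_ne (a : ZMod 3) : chi a ≠ 0 := by
  intro h
  have := norm_chi a
  rw [h, norm_zero] at this
  exact zero_ne_one this

theorem conj_eq_inv {z : ℂ} (h : ‖z‖ = 1) : conj z = z⁻¹ :=
  eq_inv_of_mul_eq_one_right (Rec_mul_conj h)

theorem chi_zsmul (n : ℤ) (a : ZMod 3) : chi ((n : ZMod 3) * a) = chi a ^ n := by
  obtain ⟨m, rfl | rfl⟩ := n.eq_nat_or_neg
  · rw [zpow_natCast, Int.cast_natCast, chi_nsmul]
  · rw [zpow_neg, zpow_natCast, Int.cast_neg, Int.cast_natCast, neg_mul, chi_neg,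
      conj_eq_inv (norm_chi _), chi_nsmul]

omit [NumberField E] [Fr E] in
theorem mat_one {A K L α x β δ α' x' β' δ' s : E} (hA : A ≠ 0) (hK : K ≠ 0) (hL : L ≠ 0)
    (h : α * δ - x * β = 1) (h' : α' * δ' - x' * β' = 1) (hα : A * α' = L * (α + s * β))
    (hβ : K * β' = L * β) : ∃ b : E, dM A⁻¹ K⁻¹ * nM s * !![α, x; β, δ] =
      !![α', x'; β', δ'] * !![L⁻¹, b; 0, L / (A * K)] := by
  have e1 : α' = L * (α + s * β) / A := by rw [← hα]; field_simp
  have e2 : β' = L * β / K := by rw [← hβ]; field_simp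
  refine ⟨δ' * (x + s * δ) / A - x' * δ / K, ?_⟩
  ext i j
  fin_cases i <;> fin_cases j <;> simp [dM, nM, Matrix.mul_apply, Fin.sum_univ_two]
  · rw [e1]; field_simp
  · field_simp
    linear_combination (-(K * (x + s * δ))) * h' + x' * L * h + x' * δ * hα - x' * (x + s * δ) * hβ
  · rw [e2]; field_simp
  · field_simp
    linear_combination (-(A * δ)) * h' + δ' * L * h + δ' * δ * hα - δ' * (x + s * δ) * hβ

omit [NumberField E] [Fr E] in
theorem mat_two {A K L α x β δ α' x' β' δ' s : E} (hL : L ≠ 0)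
    (h : α * δ - x * β = 1) (h' : α' * δ' - x' * β' = 1) (hα : A * α' = L * (α + s * β))
    (hβ : K * β' = L * β) : ∃ b : E, dM A K * !![α', x'; β', δ'] =
      nM s * (!![α, x; β, δ] * !![L, b; 0, A * K / L]) := by
  refine ⟨δ * (A * x' - s * K * δ') - x * K * δ', ?_⟩
  ext i j
  fin_cases i <;> fin_cases j <;> simp [dM, nM, Matrix.mul_apply, Fin.sum_univ_two]
  · linear_combination hα
  · field_simp
    linear_combination (-(A * x' * L)) * h + (x * A * K + s * K * δ * A) * h' -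
      (x * K * δ' + s * K * δ * δ') * hα + (x * A * x' + s * δ * A * x') * hβ
  · linear_combination hβ
  · field_simp
    linear_combination (-(K * δ' * L)) * h + K * δ * A * h' - K * δ * δ' * hα + δ * A * x' * hβ

/-- The congruence `p^i α' ≡ p^l α (mod β₁)`. -/
theorem cong {p α β₁ α' : R E} (hp : p ≠ 0) {e : ℕ} {i l : ℤ} {s : E}
    (hs' : ∃ n : ℕ, (p : E) ^ n * s ∈ RR E)
    (hα : (p : E) ^ i * α' = (p : E) ^ l * (α + s * (p ^ e * β₁ : R E))) :
    ∃ a b : ℕ, (a : ℤ) - b = i - l ∧ β₁ ∣ p ^ a * α' - p ^ b * α := by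
  obtain ⟨n, hn⟩ := hs'
  have hP : (p : E) ≠ 0 := Rec_coe_ne hp
  obtain ⟨a, ha⟩ := Int.eq_ofNat_of_zero_le (a := i + (n + |i| + |l|))
    (by have := neg_abs_le i; have := abs_nonneg l; omega)
  obtain ⟨c, hc⟩ := Int.eq_ofNat_of_zero_le (a := l + (|i| + |l|))
    (by have := neg_abs_le l; have := abs_nonneg i; omega)
  refine ⟨a, c + n, by push_cast; omega, p ^ c * p ^ e * ⟨_, hn⟩, Subtype.ext ?_⟩
  have e1 : (p : E) ^ a = (p : E) ^ i * (p : E) ^ ((n : ℤ) + |i| + |l|) := by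
    rw [← zpow_add₀ hP, ha, zpow_natCast]
  have e2 : (p : E) ^ c * (p : E) ^ n = (p : E) ^ l * (p : E) ^ ((n : ℤ) + |i| + |l|) := by
    rw [← zpow_add₀ hP, ← pow_add, ← zpow_natCast]
    congr 1
    push_cast
    omega
  push_cast at hα ⊢
  rw [pow_add, e1]
  linear_combination (p : E) ^ ((n : ℤ) + |i| + |l|) * hα -
    ((α : E) + s * ((p : E) ^ e * (β₁ : E))) * e2

/-- The identity between the symbols. -/
theorem symb {p α β₁ α' x' δ' : R E} (hp : p ≠ 0) (hβ : β₁ ≠ 0) (hpβ : IsCoprime β₁ p)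
    (hαβ : IsCoprime β₁ α) {e' a b : ℕ} {n : ℤ} (hn : (a : ℤ) - b = n)
    (hd : β₁ ∣ p ^ a * α' - p ^ b * α) (h' : α' * δ' - x' * (p ^ e' * β₁) = 1) :
    cub (p ^ e' * β₁) δ' * chi (rho (β₁ : E) (p : E)) ^ n =
      conj (cub β₁ α) * cub p β₁ ^ n * conj (cub p α') ^ e' := by
  have h1 : cub (p ^ e' * β₁) α' * cub (p ^ e' * β₁) δ' = 1 := by
    rw [← cub_mul_right, cub_congr (b := 1) ⟨x', by linear_combination h'⟩, cub_one_right]
  have hc : IsCoprime (p ^ e' * β₁) α' := ⟨-x', δ', by linear_combination h'⟩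
  have h2 : cub (p ^ e' * β₁) δ' = conj (cub (p ^ e' * β₁) α') := by
    rw [conj_eq_inv (norm_cub hc)]
    exact eq_inv_of_mul_eq_one_right h1
  have h3 := cub_congr hd
  rw [cub_mul_right, cub_mul_right, cub_pow_right, cub_pow_right] at h3
  have h4 := cub_recip hβ hp
  have n1 := norm_cub hpβ
  have z1 : cub β₁ p ≠ 0 := fun h => by simp [h] at n1
  have z2 : cub β₁ α ≠ 0 := fun h => by simpa [h] using norm_cub hαβ
  have h5 : cub β₁ α' = (cub β₁ p ^ n)⁻¹ * cub β₁ α := by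
    rw [← hn, zpow_sub₀ z1, zpow_natCast, zpow_natCast]
    field_simp
    linear_combination h3
  rw [h2, cub_mul_left (pow_ne_zero _ hp) hβ, cub_pow_left, map_mul, map_pow, h4, mul_zpow,
    conj_eq_inv (norm_cub hc.of_mul_left_right), conj_eq_inv (norm_cub hαβ), h5]
  field_simp

end Crest.Agent.R312.HkA
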