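import Crest.Agent.R312.KubT
import Crest.Agent.R312.HeckeAuxA

/-!
# Row 312: the Hecke relation at a prime `p` and Patterson's formula

For `S`-adic data `F`, a prime `p` of norm `N`, and lifts `a x ≡ x (mod p)` with `a x / p`,
`a x / p²` small at `S`, the function
`∑_x sl (xi F) (nM (a x / p)) - N⁻² sl (xi (ac F (dM 1 p³))) (dM 1 p⁻³)
  - N² ∑_x (x / p)₃ sl (xi (ac F (dM p⁻² p⁻¹))) (p², a x; 0, p)`
has no constant term at any cusp, hence all its Fourier coefficients vanish.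
All the summands have the form `Hk p F i k s`.
-/

set_option autoImplicit false

noncomputable section

namespace Crest.Agent.R312

open NumberField
open scoped ComplexConjugate

open Filter Topology

variable {E : Type} [Field E] [NumberField E] [Fr E]

/-- The translates. -/
def Hk (p : E) (F : E → E → ℂ) (i k : ℤ) (s : E) : E → E → ℂ :=
  sl (xi (ac F (dM (p ^ i) (p ^ k)))) (dM (p ^ (-i)) (p ^ (-k)) * nM s)

/-- The Hecke combination. -/
def Hz (p : R E) (F : E → E → ℂ) (a : R E → R E) : E → E → ℂ := fun c d =>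
  ∑ x ∈ res p, Hk (p : E) F 0 0 ((a x : E) / p) c d +
    -((nN p : ℂ) ^ 2)⁻¹ * Hk (p : E) F 0 3 0 c d +
    ∑ x ∈ res p, -((nN p : ℂ) ^ 2 * cub p x) * Hk (p : E) F (-2) (-1) ((a x : E) / p ^ 2) c d

/-- Good lifts. -/
def Lift (p : R E) (F : E → E → ℂ) (a : R E → R E) : Prop :=
  ∀ x, p ∣ a x - x ∧ ac F (nM ((a x : E) / p)) = F ∧ ac F (nM ((a x : E) / p ^ 2)) = F

/-! ## part A: one term -/

theorem SD.adm_Hk {j : ℕ} (hj : Lev E j) {F : E → E → ℂ} (h : SD F) {p : E} (hp : p ≠ 0) (i k : ℤ)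
    (s : E) : Adm (Hk p F i k s) ∧ CT (Hk p F i k s) := by
  have hd : (dM (p ^ i) (p ^ k)).det ≠ 0 := by
    rw [det_dM]; exact mul_ne_zero (zpow_ne_zero _ hp) (zpow_ne_zero _ hp)
  have hg : (dM (p ^ (-i)) (p ^ (-k)) * nM s).det ≠ 0 := by
    rw [Matrix.det_mul, det_dM, det_nM, mul_one]
    exact mul_ne_zero (zpow_ne_zero _ hp) (zpow_ne_zero _ hp)
  have hG := h.act hj hd
  exact ⟨hG.adm.sl hg, CT.sl hG.adm (hG.ct hj) hg⟩
/-- The cusp `∞`: `dM * nM` is upper triangular (`tendsto_P0_upper`). -/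
theorem SD.term_inf {j : ℕ} (hj : Lev E j) {F : E → E → ℂ} (h : SD F) {p : E} (hp : p ≠ 0) (i k : ℤ)
    (s : E) : Tendsto (P0 (Hk p F i k s)) (lB E)
      (𝓝 (((nr p ^ ((i : ℝ) / 3 + k) : ℝ) : ℂ) * ellp p F i k)) := by
  have hd : (dM (p ^ i) (p ^ k)).det ≠ 0 := by
    rw [det_dM]; exact mul_ne_zero (zpow_ne_zero _ hp) (zpow_ne_zero _ hp)
  have hG := h.act hj hd
  have H := tendsto_P0_upper hG.adm (hG.tendsto_Lm hj) (zpow_ne_zero (-i) hp)
    (zpow_ne_zero (-k) hp) (s * p ^ (-i))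
  rw [upper_eq (zpow_ne_zero _ hp), mul_div_cancel_right₀ _ (zpow_ne_zero _ hp),
    HkA.nr_fac hp] at H
  have e : (-((-i : ℤ) : ℝ) / 3 - ((-k : ℤ) : ℝ)) = (i : ℝ) / 3 + k := by push_cast; ring
  rw [e] at H
  exact H
/-- **The constant term of a translate at the cusp `α / β`.**
Put `σ = mR α x β δ`, `g = dM p^{-i} p^{-k} * nM s`, `d = dM p^i p^k`, complete `(α', β')` to
`σ' = mR α' x' β' δ'` (`exists_completion`).  Then `g σ = σ' u`, `u = (p^{-l}, b; 0, p^{l-i-k})`, and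
`SD.tendsto_cusp_upper` gives `nr p^{i+k-2l/3} cub β' δ' Lm (ac (ac F d) σ')`.
Now `ac (ac F d) σ' = chi (kB d σ') ac F (d σ')`, `d σ' = nM s * (σ u⁻¹)`, `ac_nM_mul`, `hs`, `ac_mul`,
`u⁻¹ = (p^l, b'; 0, p^{i+k-l})`, `SD.Lm_upper`; `kB d σ' = rho β' p^i = i rho β₁ p`
(`kB_upper_left`), `kB σ u⁻¹ = l rho β₁ p` (`kB_upper_right`), and
`chi (rho β₁ p) = cub p β₁ conj (cub β₁ p)` (`cub_recip`).
Finally `cub β' δ' = conj (cub β' α') = conj (cub p α')^{e'} conj (cub β₁ α')`, and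
`p^i α' ≡ p^l α (mod β₁)` after multiplication by a power of `p` (`hs'`). -/
theorem SD.term {j : ℕ} (hj : Lev E j) {F : E → E → ℂ} (h : SD F) {p : R E} (hp : Prime p)
    {α x β₁ δ : R E} {e : ℕ} (hσ : α * δ - x * (p ^ e * β₁) = 1) (hβ : ¬ p ∣ β₁) (i k l : ℤ) {s : E}
    (hs : ac F (nM s) = F) (hs' : ∃ n : ℕ, (p : E) ^ n * s ∈ RR E) {α' : R E} {e' : ℕ}
    (he : (e' : ℤ) + k = e + l) (hα : (p : E) ^ i * α' = (p : E) ^ l * (α + s * (p ^ e * β₁ : R E)))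
    (hc : e' ≠ 0 → ¬ p ∣ α') :
    Tendsto (P0 (sl (Hk (p : E) F i k s) (mR α x (p ^ e * β₁) δ))) (lB E)
      (𝓝 (((nr (p : E) ^ ((i : ℝ) + k - 2 * l / 3) : ℝ) : ℂ) * conj (cub β₁ α) *
        cub p β₁ ^ (i - l) * conj (cub p α') ^ e' *
        ellp (p : E) (ac F (mR α x (p ^ e * β₁) δ)) l (i + k - l))) := by
  have hp0 := hp.ne_zero
  have hP : (p : E) ≠ 0 := Rec_coe_ne hp0
  have hz : ∀ n : ℤ, (p : E) ^ n ≠ 0 := fun n => zpow_ne_zero n hP
  have hβ0 : β₁ ≠ 0 := fun h0 => hβ (h0 ▸ dvd_zero p)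
  have hB : (β₁ : E) ≠ 0 := Rec_coe_ne hβ0
  have hpβ : IsCoprime β₁ p := (hp.irreducible.coprime_iff_not_dvd.2 hβ).symm
  have hαβ : IsCoprime β₁ α := ⟨-(x * p ^ e), δ, by linear_combination hσ⟩
  obtain ⟨a, b, hab, hdv⟩ := HkA.cong hp0 hs' hα
  have hα'β : IsCoprime α' β₁ := by
    obtain ⟨c, hc'⟩ := hdv
    have h1 : IsCoprime β₁ (p ^ b * α + β₁ * c) :=
      (hpβ.pow_right.mul_right hαβ).add_mul_left_right c
    rw [show p ^ b * α + β₁ * c = p ^ a * α' by linear_combination -hc'] at h1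
    exact h1.of_mul_right_right.symm
  have hco : IsCoprime α' (p ^ e' * β₁) := by
    refine IsCoprime.mul_right ?_ hα'β
    rcases eq_or_ne e' 0 with h0 | h0
    · rw [h0, pow_zero]; exact isCoprime_one_right
    · exact (hp.irreducible.coprime_iff_not_dvd.2 (hc h0)).symm.pow_right
  obtain ⟨x', δ', hσ'⟩ := exists_completion hco
  have hσE : (α : E) * δ - x * (p ^ e * β₁ : R E) = 1 := by exact_mod_cast hσ
  have hσE' : (α' : E) * δ' - x' * (p ^ e' * β₁ : R E) = 1 := by exact_mod_cast hσ'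
  have hβE : (p : E) ^ k * (p ^ e' * β₁ : R E) = (p : E) ^ l * (p ^ e * β₁ : R E) := by
    push_cast
    rw [← mul_assoc, ← mul_assoc, ← zpow_natCast, ← zpow_natCast, ← zpow_add₀ hP, ← zpow_add₀ hP,
      show k + e' = l + e by omega]
  obtain ⟨b₁, m1⟩ := HkA.mat_one (hz i) (hz k) (hz l) hσE hσE' hα hβE
  obtain ⟨b₂, m2⟩ := HkA.mat_two (hz l) hσE hσE' hα hβE
  have q1 : (p : E) ^ l / ((p : E) ^ i * (p : E) ^ k) = (p : E) ^ (l - (i + k)) := by
    rw [zpow_sub₀ hP, zpow_add₀ hP]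
  have q2 : (p : E) ^ i * (p : E) ^ k / (p : E) ^ l = (p : E) ^ (i + k - l) := by
    rw [zpow_sub₀ hP, zpow_add₀ hP]
  rw [q1, ← zpow_neg, ← zpow_neg, ← zpow_neg] at m1
  rw [q2] at m2
  have hd : (dM ((p : E) ^ i) ((p : E) ^ k)).det ≠ 0 := by
    rw [det_dM]; exact mul_ne_zero (hz _) (hz _)
  have hg : (dM ((p : E) ^ (-i)) ((p : E) ^ (-k)) * nM s).det ≠ 0 := by
    rw [Matrix.det_mul, det_dM, det_nM, mul_one]
    exact mul_ne_zero (hz _) (hz _)
  have d1 : (mR α x (p ^ e * β₁) δ).det = 1 := by rw [det_mR, hσ]; rfl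
  have d1' : (mR α x (p ^ e * β₁) δ).det ≠ 0 := by rw [d1]; exact one_ne_zero
  have d2 : (mR α' x' (p ^ e' * β₁) δ').det ≠ 0 := by rw [det_mR, hσ']; exact one_ne_zero
  have d3 : (!![(p : E) ^ l, b₂; 0, (p : E) ^ (i + k - l)] : Mt E).det ≠ 0 := by
    rw [Matrix.det_fin_two_of, mul_zero, sub_zero]; exact mul_ne_zero (hz _) (hz _)
  have hG := h.act hj hd
  have hS := h.act hj d1'
  have H := hG.tendsto_cusp_upper hj hσ' (hz (-l)) (hz (l - (i + k))) b₁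
  have k1 : kB (dM ((p : E) ^ i) ((p : E) ^ k)) (mR α' x' (p ^ e' * β₁) δ') =
      i * rho (β₁ : E) (p : E) := by
    have h1 : (mR α' x' (p ^ e' * β₁) δ') 1 0 = (p : E) ^ e' * β₁ := by simp [mR]
    rw [dM, kB_upper_left (hz _) (hz _) 0 d2, h1,
      kubA_kX_of_ne (mul_ne_zero (pow_ne_zero _ hP) hB), HkA.rho_pow_mul hP hB]
  have k2 : kB (mR α x (p ^ e * β₁) δ) !![(p : E) ^ l, b₂; 0, (p : E) ^ (i + k - l)] =
      l * rho (β₁ : E) (p : E) := by
    have h1 : (mR α x (p ^ e * β₁) δ) 1 0 = (p : E) ^ e * β₁ := by simp [mR]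
    rw [kB_upper_right d1' (by rw [h1]; exact mul_ne_zero (pow_ne_zero _ hP) hB) (hz _) (hz _), h1,
      d1, rho_one_right (hz _), HkA.rho_zpow_zpow hP, HkA.rho_pow_mul hP hB, add_zero, add_zero]
  have L1 : Lm (ac (ac F (dM ((p : E) ^ i) ((p : E) ^ k))) (mR α' x' (p ^ e' * β₁) δ')) =
      chi (rho (β₁ : E) (p : E)) ^ (i - l) *
        ellp (p : E) (ac F (mR α x (p ^ e * β₁) δ)) l (i + k - l) := by
    have m2' : dM ((p : E) ^ i) ((p : E) ^ k) * mR α' x' (p ^ e' * β₁) δ' =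
        nM s * (mR α x (p ^ e * β₁) δ * !![(p : E) ^ l, b₂; 0, (p : E) ^ (i + k - l)]) := m2
    rw [ac_ac h.zero_zero hd d2, m2', ac_nM_mul h.zero_zero s
      (by rw [Matrix.det_mul]; exact mul_ne_zero d1' d3), hs, ac_mul h.zero_zero d1' d3, k1, k2]
    simp only [← mul_assoc, ← chi_add]
    rw [(hS.act hj d3).Lm_const_mul hj, hS.Lm_upper hj (hz _) (hz _), ← HkA.chi_zsmul]
    congr 2
    push_cast
    ring
  have m1' : dM ((p : E) ^ (-i)) ((p : E) ^ (-k)) * nM s * mR α x (p ^ e * β₁) δ =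
      mR α' x' (p ^ e' * β₁) δ' * !![(p : E) ^ (-l), b₁; 0, (p : E) ^ (l - (i + k))] := m1
  rw [← m1', sl_mul _ hg d1', L1, HkA.nr_fac hP, ← mul_assoc (cub _ _),
    HkA.symb hp0 hβ0 hpβ hαβ hab hdv hσ'] at H
  have e1 : (-((-l : ℤ) : ℝ) / 3 - ((l - (i + k) : ℤ) : ℝ)) = (i : ℝ) + k - 2 * l / 3 := by
    push_cast; ring
  rw [e1] at H
  simpa only [mul_assoc, Hk] using H

/-! ## part B: the constant terms of `Hz` vanish

Notation: `N = nN p = nr p * absS p` (`nf_eq_nN`), `ℓ(i, k) = ellp p (ac F σ) i k`,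
`ℓ(i + 3, k) = absS p ℓ(i, k)`, `ℓ(i, k + 3) = absS p³ ℓ(i, k)`, `A = conj (cub β₁ α)`, `a = a x`.
`T1, T2, T3` are the three families `(i, k, s) = (0, 0, a/p), (0, 3, 0), (-2, -1, a/p²)`.
Use `Hz_tendsto` to reduce to an identity between the limits given by `SD.term`. -/

theorem SD.adm_Hz {j : ℕ} (hj : Lev E j) {F : E → E → ℂ} (h : SD F) {p : R E} (hp : Prime p)
    (a : R E → R E) : Adm (Hz p F a) := by
  have hp' : (p : E) ≠ 0 := fun e => hp.ne_zero (Subtype.ext e)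
  exact ((Adm.sum _ fun x _ => (h.adm_Hk hj hp' 0 0 _).1).add
    ((h.adm_Hk hj hp' 0 3 0).1.const_mul _)).add
    (Adm.sum _ fun x _ => (h.adm_Hk hj hp' (-2) (-1) _).1.const_mul _)
/-- Linearity (`sl_add`, `sl_sum`, `sl_const_mul`, `P0_add`, `P0_sum`, `P0_const_mul`).  The terms
of `T3` with `p ∣ x` have the coefficient `0`. -/
theorem SD.Hz_tendsto {j : ℕ} (hj : Lev E j) {F : E → E → ℂ} (h : SD F) {p : R E} (hp : Prime p)
    (a : R E → R E) {g : Mt E} (hg : g.det ≠ 0) {L₁ L₃ : R E → ℂ} {L₂ : ℂ}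
    (h₁ : ∀ x, Tendsto (P0 (sl (Hk (p : E) F 0 0 ((a x : E) / p)) g)) (lB E) (𝓝 (L₁ x)))
    (h₂ : Tendsto (P0 (sl (Hk (p : E) F 0 3 0) g)) (lB E) (𝓝 L₂))
    (h₃ : ∀ x, ¬ p ∣ x →
      Tendsto (P0 (sl (Hk (p : E) F (-2) (-1) ((a x : E) / p ^ 2)) g)) (lB E) (𝓝 (L₃ x)))
    (H : ∑ x ∈ res p, L₁ x =
      ((nN p : ℂ) ^ 2)⁻¹ * L₂ + (nN p : ℂ) ^ 2 * ∑ x ∈ res p, cub p x * L₃ x) :
    Tendsto (P0 (sl (Hz p F a) g)) (lB E) (𝓝 0) := by
  have hp' : (p : E) ≠ 0 := fun e => hp.ne_zero (Subtype.ext e)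
  have A : ∀ (i k : ℤ) (s : E), Adm (sl (Hk (p : E) F i k s) g) := fun i k s =>
    (h.adm_Hk hj hp' i k s).1.sl hg
  have e : P0 (sl (Hz p F a) g) = fun η =>
      ∑ x ∈ res p, P0 (sl (Hk (p : E) F 0 0 ((a x : E) / p)) g) η +
        -((nN p : ℂ) ^ 2)⁻¹ * P0 (sl (Hk (p : E) F 0 3 0) g) η +
        ∑ x ∈ res p, -((nN p : ℂ) ^ 2 * cub p x) *
          P0 (sl (Hk (p : E) F (-2) (-1) ((a x : E) / p ^ 2)) g) η := by
    funext η
    have a1 := Adm.sum (res p) fun x _ => A 0 0 ((a x : E) / p)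
    have a2 := (A 0 3 0).const_mul (-((nN p : ℂ) ^ 2)⁻¹)
    have a3 := fun x => (A (-2) (-1) ((a x : E) / p ^ 2)).const_mul (-((nN p : ℂ) ^ 2 * cub p x))
    refine (P0_add (a1.add a2) (Adm.sum (res p) fun x _ => a3 x) η).trans ?_
    rw [P0_add a1 a2, P0_sum _ fun x _ => A 0 0 _, P0_sum _ fun x _ => a3 x, P0_const_mul (A 0 3 0)]
    exact congrArg _ (Finset.sum_congr rfl fun x _ => P0_const_mul (A _ _ _) _ η)
  have e0 : (0 : ℂ) = ∑ x ∈ res p, L₁ x + -((nN p : ℂ) ^ 2)⁻¹ * L₂ +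
      ∑ x ∈ res p, -((nN p : ℂ) ^ 2 * cub p x) * L₃ x := by
    simp only [neg_mul, mul_assoc, Finset.sum_neg_distrib, ← Finset.mul_sum, H]
    ring
  rw [e, e0]
  refine ((tendsto_finsetSum _ fun x _ => h₁ x).add (h₂.const_mul _)).add
    (tendsto_finsetSum _ fun x _ => ?_)
  by_cases hx : p ∣ x
  · rw [(cub_eq_zero_iff hp.ne_zero).2 fun hc => hp.coprime_iff_not_dvd.1 hc hx]
    simp
  · exact (h₃ x hx).const_mul _
open Classical in
theorem HeckeB_ite {p β : R E} (hp : Prime p) (hβ : ¬ p ∣ β) (α : R E) {f : R E → ℂ}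
    {c : ℂ} (hf : ∀ x, p ∣ α + x * β → f x = c) :
    ∑ x ∈ res p, (if p ∣ α + x * β then f x else 0) = c := by
  obtain ⟨u, v, huv⟩ := hp.coprime_iff_not_dvd.2 hβ
  obtain ⟨r, ⟨hr, k, hk⟩, hu⟩ := exists_unique_res hp.ne_zero (-α * v)
  have h1 : p ∣ α + r * β := ⟨α * u - k * β, by linear_combination -α * huv - β * hk⟩
  rw [Finset.sum_eq_single_of_mem r hr, if_pos h1, hf r h1]
  refine fun x hx hne => if_neg fun ⟨l, hl⟩ => hne (hu x ⟨hx, -l * v - u * x, ?_⟩)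
  linear_combination -v * hl + x * huv
theorem HeckeB_mul_conj {p x : R E} (hp : Prime p) (hx : ¬ p ∣ x) :
    cub p x * conj (cub p x) = 1 := by
  rw [conj_cub, ← pow_succ', cub_pow_three (hp.coprime_iff_not_dvd.2 hx)]
theorem HeckeB_zero {p x : R E} (hp : Prime p) (hx : p ∣ x) : cub p x = 0 :=
  (cub_eq_zero_iff hp.ne_zero).2 fun hc => hp.coprime_iff_not_dvd.1 hc hx
theorem HeckeB_aff {p β : R E} (hp : Prime p) (hβ : ¬ p ∣ β) (α : R E) :
    ∑ x ∈ res p, conj (cub p (α + x * β)) = 0 := by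
  have := sum_res_affine hp.ne_zero (fun y => cub p y ^ 2) (fun x y e => by rw [cub_congr e])
    (hp.coprime_iff_not_dvd.2 hβ).symm α
  rw [sum_res_cub_sq hp] at this
  simpa only [conj_cub, add_comm α, mul_comm β] using this
theorem sum_cub_conj {p : R E} (hp : Prime p) :
    ∑ x ∈ res p, cub p x * conj (cub p x) = (nN p : ℂ) - 1 := by
  classical
  have h := HeckeB_ite hp hp.not_dvd_one 0 (f := fun _ => 1) (c := 1) fun _ _ => rfl
  rw [← h, ← card_res hp.ne_zero, Finset.cast_card, ← Finset.sum_sub_distrib]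
  refine Finset.sum_congr rfl fun x _ => ?_
  rw [zero_add, mul_one]
  split_ifs with hx
  · rw [HeckeB_zero hp hx, zero_mul, sub_self]
  · rw [HeckeB_mul_conj hp hx, sub_zero]
/-- The Jacobi sum `J(χ, conj χ) = -1` after the substitution `x = -α y / β`. -/
theorem sum_cub_conj_affine {p α β : R E} (hp : Prime p) (hα : ¬ p ∣ α) (hβ : ¬ p ∣ β) :
    ∑ x ∈ res p, cub p x * conj (cub p (α + x * β)) = -conj (cub p β) := by
  classical
  obtain ⟨S, hS⟩ : ∃ S : R E → ℂ, ∀ y, S y = ∑ x ∈ res p, cub p x * conj (cub p (y + x * β)) :=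
    ⟨_, fun _ => rfl⟩
  have h1 : ∀ y, ¬ p ∣ y → S y = S 1 := fun y hy => by
    rw [hS, hS, ← sum_res_affine hp.ne_zero (fun x => cub p x * conj (cub p (y + x * β)))
      (fun x x' e => by
        rw [cub_congr e, cub_congr (a := y + x * β) (b := y + x' * β) (by
          rw [add_sub_add_left_eq_sub, ← sub_mul]; exact e.mul_right β)])
      (hp.coprime_iff_not_dvd.2 hy).symm 0]
    refine Finset.sum_congr rfl fun x _ => ?_
    rw [add_zero, show y + y * x * β = y * (1 + x * β) by ring, cub_mul_right, cub_mul_right,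
      map_mul]
    linear_combination cub p x * conj (cub p (1 + x * β)) * HeckeB_mul_conj hp hy
  have h0 : ∀ y, p ∣ y → S y = ((nN p : ℂ) - 1) * conj (cub p β) := fun y hy => by
    rw [hS, ← sum_cub_conj hp, Finset.sum_mul]
    refine Finset.sum_congr rfl fun x _ => ?_
    rw [cub_congr (a := y + x * β) (b := x * β) (by rwa [add_sub_cancel_right]), cub_mul_right,
      map_mul, mul_assoc]
  have h2 : ∑ y ∈ res p, S y = 0 := by
    simp only [hS]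
    rw [Finset.sum_comm]
    refine Finset.sum_eq_zero fun x _ => ?_
    have := HeckeB_aff hp hp.not_dvd_one (x * β)
    simp only [mul_one, add_comm (x * β)] at this
    rw [← Finset.mul_sum, this, mul_zero]
  have h3 := HeckeB_ite hp hp.not_dvd_one 0 (f := fun y => S y - S 1)
    (c := ((nN p : ℂ) - 1) * conj (cub p β) - S 1) fun y hy => by
      rw [h0 y (by simpa using hy)]
  have h4 : ∑ y ∈ res p, (if p ∣ 0 + y * 1 then S y - S 1 else 0) = ∑ y ∈ res p, (S y - S 1) := by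
    refine Finset.sum_congr rfl fun y _ => ?_
    rw [zero_add, mul_one]
    split_ifs with hy
    · rfl
    · rw [h1 y hy, sub_self]
  rw [h4, Finset.sum_sub_distrib, h2, Finset.sum_const, card_res hp.ne_zero, nsmul_eq_mul] at h3
  have hN : (nN p : ℂ) - 1 ≠ 0 := by
    have := (nN_prime_mod hp).2
    rw [sub_ne_zero]
    exact_mod_cast (by omega : nN p ≠ 1)
  rw [← hS, h1 α hα]
  refine mul_left_cancel₀ hN ?_
  linear_combination -h3
theorem sum_conj_cub_affine {p β : R E} (hp : Prime p) (hβ : ¬ p ∣ β) (α : R E) :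
    ∑ x ∈ res p, conj (cub p (α + x * β)) = 0 := HeckeB_aff hp hβ α
open Classical in
/-- There is exactly one class `x` with `p ∣ α + x β`. -/
theorem sum_res_ite_affine {p β : R E} (hp : Prime p) (hβ : ¬ p ∣ β) (α : R E) {f : R E → ℂ}
    {c : ℂ} (hf : ∀ x, p ∣ α + x * β → f x = c) :
    ∑ x ∈ res p, (if p ∣ α + x * β then f x else 0) = c := HeckeB_ite hp hβ α hf
theorem HeckeB_N {p : R E} (hp : Prime p) :
    (nN p : ℂ) = (nr (p : E) : ℂ) * (absS (p : E) : ℂ) ∧ (nN p : ℂ) ≠ 0 := by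
  refine ⟨?_, ?_⟩
  · rw [← Complex.ofReal_mul, ← nf, nf_eq_nN hp.ne_zero, Complex.ofReal_natCast]
  · have := (nN_prime_mod hp).2
    exact_mod_cast (by omega : nN p ≠ 0)
/-- `T1 = N ℓ(0,0)`, `T2 = nr p³ ℓ(0,3) = N³ ℓ(0,0)`, `T3 = 0` (`SD.term_inf`, `sl_one`). -/
theorem SD.Hz_inf {j : ℕ} (hj : Lev E j) {F : E → E → ℂ} (h : SD F) {p : R E} (hp : Prime p)
    (a : R E → R E) : Tendsto (P0 (Hz p F a)) (lB E) (𝓝 0) := by
  have hp' : (p : E) ≠ 0 := fun e => hp.ne_zero (Subtype.ext e)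
  have T := fun (i k : ℤ) (s : E) => (sl_one (Hk (p : E) F i k s)).symm ▸ h.term_inf hj hp' i k s
  rw [← sl_one (Hz p F a)]
  refine h.Hz_tendsto hj hp a (by simp) (fun x => T 0 0 _) (T 0 3 0) (fun x _ => T (-2) (-1) _) ?_
  have e := h.ellp_add_right hj hp' 0 0
  obtain ⟨hN, hN0⟩ := HeckeB_N hp
  rw [zero_add] at e
  rw [Finset.sum_const, ← Finset.sum_mul, sum_res_cub hp, card_res hp.ne_zero, nsmul_eq_mul, e]
  simp only [Int.cast_zero, zero_div, zero_add, Real.rpow_zero, Int.cast_ofNat, Real.rpow_ofNat]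
  push_cast
  field_simp
  rw [hN]
  ring
/-- The cube root of `nr p`. -/
def hB2_W (p : E) : ℂ := ((nr p ^ (1 / 3 : ℝ) : ℝ) : ℂ)
theorem hB2_W_ne {p : R E} (hp : Prime p) : hB2_W (p : E) ≠ 0 :=
  Complex.ofReal_ne_zero.2 (Real.rpow_pos_of_pos (nr_pos (by exact_mod_cast hp.ne_zero)) _).ne'
theorem hB2_N {p : R E} (hp : Prime p) : (nN p : ℂ) = hB2_W (p : E) ^ 3 * (absS (p : E) : ℂ) := by
  rw [hB2_W, ← Complex.ofReal_pow, ← Real.rpow_natCast, ← Real.rpow_mul (nr_nonneg _),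
    ← Complex.ofReal_mul, ← Complex.ofReal_natCast, ← nf_eq_nN hp.ne_zero, nf]
  norm_num
/-- `SD.term` with integral exponents. -/
theorem hB2_term {j : ℕ} (hj : Lev E j) {F : E → E → ℂ} (h : SD F) {p : R E} (hp : Prime p)
    {α x β₁ δ : R E} {e : ℕ} (hσ : α * δ - x * (p ^ e * β₁) = 1) (hβ : ¬ p ∣ β₁) (i k l : ℤ) {s : E}
    (hs : ac F (nM s) = F) (hs' : (p : E) ^ 2 * s ∈ RR E) (α' : R E) (e' : ℕ)
    (he : (e' : ℤ) + k = e + l) (hα : (p : E) ^ i * α' = (p : E) ^ l * (α + s * (p ^ e * β₁ : R E)))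
    (hc : e' ≠ 0 → ¬ p ∣ α') {u v m : ℤ} (hu : 3 * i + 3 * k - 2 * l = u) (hv : i - l = v)
    (hm : i + k - l = m) {L : ℂ}
    (hL : hB2_W (p : E) ^ u * conj (cub β₁ α) * cub p β₁ ^ v * conj (cub p α') ^ e' *
      ellp (p : E) (ac F (mR α x (p ^ e * β₁) δ)) l m = L) :
    Tendsto (P0 (sl (Hk (p : E) F i k s) (mR α x (p ^ e * β₁) δ))) (lB E) (𝓝 L) := by
  have h1 := h.term hj hp hσ hβ i k l hs ⟨2, hs'⟩ he hα hc
  have h2 : ((nr (p : E) ^ ((i : ℝ) + k - 2 * l / 3) : ℝ) : ℂ) = hB2_W (p : E) ^ u := by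
    rw [hB2_W, ← Complex.ofReal_zpow, ← Real.rpow_intCast, ← Real.rpow_mul (nr_nonneg _), ← hu]
    congr 2
    push_cast
    ring
  rwa [h2, hv, hm, hL] at h1
theorem hB2_nM_zero {F : E → E → ℂ} (h : SD F) : ac F (nM 0) = F := by
  rw [show nM (0 : E) = 1 from Matrix.one_fin_two.symm, ac_one h.zero_zero]
theorem hB2_mem_one {p : R E} (hp : Prime p) (a : R E) : (p : E) ^ 2 * ((a : E) / p) ∈ RR E := by
  have h0 : (p : E) ≠ 0 := by exact_mod_cast hp.ne_zero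
  rw [show (p : E) ^ 2 * ((a : E) / p) = ((p * a : R E) : E) by push_cast; field_simp]
  exact (p * a).2
theorem hB2_mem_two {p : R E} (hp : Prime p) (a : R E) :
    (p : E) ^ 2 * ((a : E) / p ^ 2) ∈ RR E := by
  have h0 : (p : E) ≠ 0 := by exact_mod_cast hp.ne_zero
  rw [mul_div_cancel₀ _ (pow_ne_zero 2 h0)]
  exact a.2
theorem hB2_cube {p β : R E} (hp : Prime p) (hβ : ¬ p ∣ β) : cub p β ^ 3 = 1 :=
  cub_pow_three (hp.irreducible.coprime_iff_not_dvd.2 hβ)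
theorem hB2_zero {p β : R E} (hp : Prime p) (hβ : p ∣ β) : cub p β = 0 :=
  (cub_eq_zero_iff hp.ne_zero).2 fun hc => hp.irreducible.coprime_iff_not_dvd.1 hc hβ
/-- The final identity: `B = N⁻² (N B) + N² (N - 1) N⁻³ B`. -/
theorem hB2_final {p α β : R E} (hp : Prime p) (hβ : ¬ p ∣ β) (B C : ℂ) :
    ∑ y ∈ res p, ((open Classical in if p ∣ α + y * β then B else 0) +
        C * conj (cub p (α + y * β))) =
      ((nN p : ℂ) ^ 2)⁻¹ * (nN p * B) +
        (nN p : ℂ) ^ 2 * ∑ y ∈ res p, cub p y * (((nN p : ℂ) ^ 3)⁻¹ * B * conj (cub p y)) := by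
  have hN : (nN p : ℂ) ≠ 0 := by
    have := (nN_prime_mod hp).2
    exact Nat.cast_ne_zero.2 (by omega)
  rw [Finset.sum_add_distrib, ← Finset.mul_sum, sum_conj_cub_affine hp hβ,
    sum_res_ite_affine hp hβ α (f := fun _ => B) fun _ _ => rfl,
    Finset.sum_congr rfl fun y _ => mul_left_comm (cub p y) _ _, ← Finset.mul_sum, sum_cub_conj hp]
  field_simp
  ring
/-- `e = 0`.  `T1`: for `p ∤ x` take `l = 1, e' = 1, α' = p α + a β₁` (the sum over `x` vanishes),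
for `p ∣ x` take `l = 0, e' = 0, α' = α + (a / p) β₁`: total `A ℓ(0,0)`.
`T2`: `l = 3, e' = 0, α' = p³ α`: `N A ℓ(0,0)`.
`T3`: `l = 0, e' = 1, α' = p² α + a β₁`: `N⁻³ A conj (cub p x) ℓ(0,0)`. -/
theorem SD.Hz_zero {j : ℕ} (hj : Lev E j) {F : E → E → ℂ} (h : SD F) {p : R E} (hp : Prime p)
    {a : R E → R E} (ha : Lift p F a) {α x β₁ δ : R E} (hσ : α * δ - x * (p ^ 0 * β₁) = 1)
    (hβ : ¬ p ∣ β₁) : Tendsto (P0 (sl (Hz p F a) (mR α x (p ^ 0 * β₁) δ))) (lB E) (𝓝 0) := by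
  have h0 : (p : E) ≠ 0 := by exact_mod_cast hp.ne_zero
  have hg : (mR α x (p ^ 0 * β₁) δ).det ≠ 0 := by rw [det_mR, hσ]; exact one_ne_zero
  have hG := h.act hj hg
  have hW := hB2_W_ne hp
  have hS : (absS (p : E) : ℂ) ≠ 0 := Complex.ofReal_ne_zero.2 (absS_pos _).ne'
  have hc := hB2_cube hp hβ
  have hc0 : cub p β₁ ≠ 0 := fun e => by simp [e] at hc
  have hcg : ∀ y (t : R E), p ∣ p * t + a y * β₁ - (0 + y * β₁) := fun y t => by
    obtain ⟨z, hz⟩ := (ha y).1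
    exact ⟨t + z * β₁, by linear_combination β₁ * hz⟩
  have hnd : ∀ y (t : R E), ¬ p ∣ 0 + y * β₁ → ¬ p ∣ p * t + a y * β₁ := fun y t hy hd =>
    hy (by simpa using dvd_sub hd (hcg y t))
  refine h.Hz_tendsto hj hp a hg (fun y => ?_) ?_ (fun y hy => ?_)
    (hB2_final (α := 0) hp hβ
      (conj (cub β₁ α) * ellp (p : E) (ac F (mR α x (p ^ 0 * β₁) δ)) 0 0)
      (hB2_W (p : E) ^ (-2 : ℤ) * conj (cub β₁ α) * cub p β₁ ^ (-1 : ℤ) *
        ellp (p : E) (ac F (mR α x (p ^ 0 * β₁) δ)) 1 (-1)))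
  · by_cases hy : p ∣ 0 + y * β₁
    · have h1 : p ∣ y := (hp.dvd_or_dvd (by simpa using hy)).resolve_right hβ
      obtain ⟨z, hz⟩ : p ∣ a y := by simpa using dvd_add (ha y).1 h1
      refine hB2_term hj h hp hσ hβ 0 0 0 (ha y).2.1 (hB2_mem_one hp _) (α + z * β₁) 0 rfl ?_
        (fun h => absurd rfl h) (u := 0) (v := 0) (m := 0) rfl rfl rfl ?_
      · rw [hz]
        push_cast
        field_simp
      · rw [if_pos hy, hB2_zero hp hy]
        simp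
    · refine hB2_term hj h hp hσ hβ 0 0 1 (ha y).2.1 (hB2_mem_one hp _) (p * α + a y * β₁) 1 rfl ?_
        (fun _ => hnd y α hy) (u := -2) (v := -1) (m := -1) rfl rfl rfl ?_
      · push_cast
        field_simp
      · rw [if_neg hy, cub_congr (hcg y α)]
        ring
  · refine hB2_term hj h hp hσ hβ 0 3 3 (hB2_nM_zero h) (by simp) (p ^ 3 * α) 0 rfl ?_
      (fun h => absurd rfl h) (u := 3) (v := -3) (m := 0) rfl rfl rfl ?_
    · push_cast
      field_simp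
      ring
    · rw [show (3 : ℤ) = 0 + 3 from rfl, hG.ellp_add_left hj h0, hB2_N hp, zero_add, zpow_neg,
        zpow_ofNat, zpow_ofNat, hc]
      ring
  · have hy' : ¬ p ∣ 0 + y * β₁ := fun hd =>
      (hp.dvd_or_dvd (by simpa using hd)).elim hy hβ
    refine hB2_term hj h hp hσ hβ (-2) (-1) 0 (ha y).2.2 (hB2_mem_two hp _)
      (p * (p * α) + a y * β₁) 1 rfl ?_ (fun _ => hnd y _ hy') (u := -9) (v := -2) (m := -3)
      rfl rfl rfl ?_
    · push_cast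
      field_simp
    · have h1 := hG.ellp_add_right hj h0 0 (-3)
      rw [show (-3 : ℤ) + 3 = 0 from rfl] at h1
      rw [h1, cub_congr (hcg y _), zero_add, cub_mul_right, map_mul, conj_cub p β₁, hB2_N hp]
      simp only [zpow_neg, zpow_ofNat]
      field_simp
/-- `e = 1`, `B = nr p^{2/3} A cub p β₁ ℓ(-1,1)`.  `T1`: if `p ∤ α + a β₁` take `l = 0, e' = 1`,
`α' = α + a β₁` (the sum vanishes), otherwise `l = -1, e' = 0, α' = (α + a β₁) / p`: total `B`.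
`T2`: `l = 2, e' = 0, α' = p² α`: `N B`.
`T3`: `l = -1, e' = 1, α' = p α + a β₁`: `N⁻³ conj (cub p x) B`. -/
theorem SD.Hz_one {j : ℕ} (hj : Lev E j) {F : E → E → ℂ} (h : SD F) {p : R E} (hp : Prime p)
    {a : R E → R E} (ha : Lift p F a) {α x β₁ δ : R E} (hσ : α * δ - x * (p ^ 1 * β₁) = 1)
    (hβ : ¬ p ∣ β₁) : Tendsto (P0 (sl (Hz p F a) (mR α x (p ^ 1 * β₁) δ))) (lB E) (𝓝 0) := by
  have h0 : (p : E) ≠ 0 := by exact_mod_cast hp.ne_zero
  have hg : (mR α x (p ^ 1 * β₁) δ).det ≠ 0 := by rw [det_mR, hσ]; exact one_ne_zero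
  have hG := h.act hj hg
  have hW := hB2_W_ne hp
  have hS : (absS (p : E) : ℂ) ≠ 0 := Complex.ofReal_ne_zero.2 (absS_pos _).ne'
  have hc := hB2_cube hp hβ
  have hc0 : cub p β₁ ≠ 0 := fun e => by simp [e] at hc
  have hcg : ∀ y (t : R E), p ∣ t + a y * β₁ - (t + y * β₁) := fun y t => by
    obtain ⟨z, hz⟩ := (ha y).1
    exact ⟨z * β₁, by linear_combination β₁ * hz⟩
  refine h.Hz_tendsto hj hp a hg (fun y => ?_) ?_ (fun y hy => ?_)
    (hB2_final (α := α) hp hβ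
      (hB2_W (p : E) ^ 2 * conj (cub β₁ α) * cub p β₁ *
        ellp (p : E) (ac F (mR α x (p ^ 1 * β₁) δ)) (-1) 1)
      (conj (cub β₁ α) * ellp (p : E) (ac F (mR α x (p ^ 1 * β₁) δ)) 0 0))
  · by_cases hy : p ∣ α + y * β₁
    · obtain ⟨z, hz⟩ : p ∣ α + a y * β₁ := by
        simpa only [sub_add_cancel] using dvd_add (hcg y α) hy
      have hz' : (α : E) + a y * β₁ = p * z := by exact_mod_cast congrArg Subtype.val hz
      refine hB2_term hj h hp hσ hβ 0 0 (-1) (ha y).2.1 (hB2_mem_one hp _) z 0 rfl ?_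
        (fun h => absurd rfl h) (u := 2) (v := 1) (m := 1) rfl rfl rfl ?_
      · push_cast
        field_simp
        linear_combination -hz'
      · rw [if_pos hy, hB2_zero hp hy]
        simp
    · refine hB2_term hj h hp hσ hβ 0 0 0 (ha y).2.1 (hB2_mem_one hp _) (α + a y * β₁) 1 rfl ?_
        (fun _ hd => hy (by simpa only [sub_sub_cancel] using dvd_sub hd (hcg y α)))
        (u := 0) (v := 0) (m := 0) rfl rfl rfl ?_
      · push_cast
        field_simp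
      · rw [if_neg hy, cub_congr (hcg y α)]
        simp only [zpow_zero]
        ring
  · refine hB2_term hj h hp hσ hβ 0 3 2 (hB2_nM_zero h) (by simp) (p ^ 2 * α) 0 rfl ?_
      (fun h => absurd rfl h) (u := 5) (v := -2) (m := 1) rfl rfl rfl ?_
    · push_cast
      field_simp
      ring
    · have h1 := hG.ellp_add_left hj h0 (-1) 1
      rw [show (-1 : ℤ) + 3 = 2 from rfl] at h1
      rw [h1, hB2_N hp]
      simp only [zpow_neg, zpow_ofNat]
      field_simp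
      linear_combination (-(conj (cub β₁ α) *
        ellp (p : E) (ac F (mR α x (p ^ 1 * β₁) δ)) (-1) 1)) * hc
  · have h2 : p ∣ p * α + a y * β₁ - y * β₁ := by
      obtain ⟨z, hz⟩ := (ha y).1
      exact ⟨α + z * β₁, by linear_combination β₁ * hz⟩
    refine hB2_term hj h hp hσ hβ (-2) (-1) (-1) (ha y).2.2 (hB2_mem_two hp _)
      (p * α + a y * β₁) 1 rfl ?_
      (fun _ hd => (hp.dvd_or_dvd (by simpa using dvd_sub hd h2)).elim hy hβ)
      (u := -7) (v := -1) (m := -2) rfl rfl rfl ?_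
    · push_cast
      field_simp
    · have h1 := hG.ellp_add_right hj h0 (-1) (-2)
      rw [show (-2 : ℤ) + 3 = 1 from rfl] at h1
      rw [h1, cub_congr h2, cub_mul_right, map_mul, conj_cub p β₁, hB2_N hp]
      simp only [zpow_neg, zpow_ofNat]
      field_simp
/-- `e = 2`.  `T1`: `l = 0, e' = 2, α' = α + a p β₁`: each term is `A cub p α ℓ(0,0)`.
`T2`: `l = 1, e' = 0, α' = p α`: `nr p^{7/3} A conj (cub p β₁) ℓ(1,2)`, `ℓ(1,2) = absS p⁴ ℓ(-2,-1)`.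
`T3`: if `p ∤ α + a β₁` take `l = -2, e' = 1, α' = α + a β₁`
(`nr p^{-5/3} A conj (cub p (α + x β₁)) ℓ(-2,-1)`, `sum_cub_conj_affine`: it cancels `T2`), otherwise
`l = -3, e' = 0, α' = (α + a β₁) / p` (`N⁻¹ A cub p β₁ ℓ(0,0)`, and `cub p x cub p β₁ = cub p α`: it
cancels `T1`). -/
theorem SD.Hz_two {j : ℕ} (hj : Lev E j) {F : E → E → ℂ} (h : SD F) {p : R E} (hp : Prime p)
    {a : R E → R E} (ha : Lift p F a) {α x β₁ δ : R E} (hσ : α * δ - x * (p ^ 2 * β₁) = 1)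
    (hβ : ¬ p ∣ β₁) : Tendsto (P0 (sl (Hz p F a) (mR α x (p ^ 2 * β₁) δ))) (lB E) (𝓝 0) := by
  classical
  have hp0 : (p : E) ≠ 0 := fun h0 => hp.ne_zero (Subtype.ext h0)
  have hdet : (mR α x (p ^ 2 * β₁) δ).det ≠ 0 := by
    rw [det_mR, hσ]
    exact one_ne_zero
  have hG := h.act hj hdet
  have hα : ¬ p ∣ α := fun h0 => hp.not_dvd_one (hσ ▸ dvd_sub (h0.mul_right δ)
    (((dvd_pow_self p two_ne_zero).mul_right β₁).mul_left x))
  have hc3 : cub p α ^ 3 = 1 := cub_pow_three (hp.coprime_iff_not_dvd.2 hα)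
  have hb3 : cub p β₁ ^ 3 = 1 := cub_pow_three (hp.coprime_iff_not_dvd.2 hβ)
  have hn := nr_pos hp0
  obtain ⟨r, hr0, hr3, hr⟩ : ∃ r : ℝ, 0 < r ∧ nr (p : E) = r ^ 3 ∧
      ∀ (k : ℤ) (t : ℝ), t = k / 3 → nr (p : E) ^ t = r ^ k := by
    refine ⟨nr (p : E) ^ (1 / 3 : ℝ), by positivity, ?_, fun k t ht => ?_⟩
    · rw [← Real.rpow_natCast, ← Real.rpow_mul hn.le]; norm_num
    · rw [← Real.rpow_intCast, ← Real.rpow_mul hn.le, ht]; congr 1; ring
  have hrC : (r : ℂ) ≠ 0 := Complex.ofReal_ne_zero.2 hr0.ne'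
  have hsC : (absS (p : E) : ℂ) ≠ 0 := Complex.ofReal_ne_zero.2 (absS_pos _).ne'
  have hN : (nN p : ℂ) = (r : ℂ) ^ 3 * absS (p : E) := by
    have := nf_eq_nN hp.ne_zero
    rw [nf, hr3] at this
    exact_mod_cast this.symm
  have hax : ∀ y, p ∣ (α + a y * β₁) - (α + y * β₁) := fun y => by
    rw [show (α + a y * β₁) - (α + y * β₁) = (a y - y) * β₁ by ring]
    exact (ha y).1.mul_right _
  have hF0 : ac F (nM 0) = F := by
    rw [show nM (0 : E) = 1 from Matrix.one_fin_two.symm]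
    exact ac_one h.zero_zero
  set G := ac F (mR α x (p ^ 2 * β₁) δ) with hGdef
  refine h.Hz_tendsto hj hp a hdet
    (L₁ := fun _ => conj (cub β₁ α) * cub p α * ellp (p : E) G 0 0)
    (L₂ := (r : ℂ) ^ 7 * conj (cub β₁ α) * conj (cub p β₁) * ellp (p : E) G 1 2)
    (L₃ := fun y => ((r : ℂ) ^ 5)⁻¹ * conj (cub β₁ α) * ellp (p : E) G (-2) (-1) *
        conj (cub p (α + y * β₁)) + if p ∣ α + y * β₁ then
          ((r : ℂ) ^ 3)⁻¹ * conj (cub β₁ α) * cub p β₁ * ellp (p : E) G (-3) 0 else 0)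
    (fun y => ?_) ?_ (fun y _ => ?_) ?_
  · have h1 : p ∣ (α + a y * p * β₁) - α := ⟨a y * β₁, by ring⟩
    have := h.term hj hp hσ hβ 0 0 0 (ha y).2.1
      ⟨1, by rw [pow_one, mul_div_cancel₀ _ hp0]; exact (a y).2⟩ (α' := α + a y * p * β₁) (e' := 2)
      (by norm_num) (by push_cast; field_simp)
      (fun _ h2 => hα ((dvd_sub_right h2).1 h1))
    convert this using 2
    rw [hr 0 _ (by norm_num), cub_congr h1, conj_cub p α]
    simp only [zpow_zero, Complex.ofReal_one, one_mul, sub_self, mul_one, add_zero]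
    linear_combination (-(conj (cub β₁ α) * cub p α * ellp (p : E) G 0 0)) * hc3
  · have := h.term hj hp hσ hβ 0 3 1 hF0 ⟨0, by rw [mul_zero]; exact (RR E).zero_mem⟩
      (α' := p * α) (e' := 0) (by norm_num) (by push_cast; simp) (fun h0 => (h0 rfl).elim)
    convert this using 2
    have h1 : cub p β₁ ^ ((0 : ℤ) - 1) = conj (cub p β₁) := by
      rw [zero_sub, zpow_neg_one, conj_cub]
      exact inv_eq_of_mul_eq_one_right (by rw [← hb3]; ring)
    rw [hr 7 _ (by norm_num), h1]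
    norm_num
    exact Or.inl rfl
  · have hs' : ∃ n : ℕ, (p : E) ^ n * ((a y : E) / (p : E) ^ 2) ∈ RR E :=
      ⟨2, by rw [mul_div_cancel₀ _ (pow_ne_zero 2 hp0)]; exact (a y).2⟩
    by_cases hy : p ∣ α + y * β₁
    · obtain ⟨α', hα'⟩ : p ∣ α + a y * β₁ := (dvd_sub_left hy).1 (hax y)
      have h2 : (α : E) + (a y : E) * β₁ = p * α' := by exact_mod_cast congrArg Subtype.val hα'
      have := h.term hj hp hσ hβ (-2) (-1) (-3) (ha y).2.2 hs' (α' := α') (e' := 0)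
        (by norm_num) (by
          push_cast
          rw [show (α : E) + (a y : E) / (p : E) ^ 2 * ((p : E) ^ 2 * β₁) = α + (a y : E) * β₁ by
            field_simp, h2]
          simp only [zpow_neg, zpow_ofNat]
          field_simp) (fun h0 => (h0 rfl).elim)
      convert this using 2
      rw [hr (-3) _ (by norm_num), if_pos hy,
        (cub_eq_zero_iff hp.ne_zero).2 fun hc => hp.coprime_iff_not_dvd.1 hc hy]
      norm_num
      exact Or.inl rfl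
    · have := h.term hj hp hσ hβ (-2) (-1) (-2) (ha y).2.2 hs' (α' := α + a y * β₁) (e' := 1)
        (by norm_num) (by
          push_cast
          congr 1
          field_simp) (fun _ h2 => hy ((dvd_sub_right h2).1 (hax y)))
      convert this using 2
      rw [hr (-5) _ (by norm_num), if_neg hy, cub_congr (hax y)]
      norm_num
      ring
  · have e1 : ellp (p : E) G 1 2 = (absS (p : E) : ℂ) ^ 4 * ellp (p : E) G (-2) (-1) := by
      have a1 := hG.ellp_add_left hj hp0 (-2) 2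
      have a2 := hG.ellp_add_right hj hp0 (-2) (-1)
      norm_num at a1 a2
      rw [a1, a2]; ring
    have e2 : ellp (p : E) G 0 0 = (absS (p : E) : ℂ) * ellp (p : E) G (-3) 0 := by
      have a1 := hG.ellp_add_left hj hp0 (-3) 0
      norm_num at a1
      exact a1
    have e3 := sum_res_ite_affine hp hβ α
      (f := fun y => cub p y * (((r : ℂ) ^ 3)⁻¹ * conj (cub β₁ α) * cub p β₁ * ellp (p : E) G (-3) 0))
      (c := ((r : ℂ) ^ 3)⁻¹ * conj (cub β₁ α) * cub p α * ellp (p : E) G (-3) 0) fun y hy => by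
        have : cub p y * cub p β₁ = cub p α := by
          rw [← cub_mul_right, ← cub_neg p α]
          exact cub_congr (by rwa [sub_neg_eq_add, add_comm])
        rw [← this]; ring
    have e4 := sum_cub_conj_affine hp hα hβ
    simp only [mul_add, Finset.sum_add_distrib, mul_ite, mul_zero, mul_left_comm (cub p _)
      (((r : ℂ) ^ 5)⁻¹ * conj (cub β₁ α) * ellp (p : E) G (-2) (-1)), ← Finset.mul_sum]
    rw [e3, e4, Finset.sum_const, card_res hp.ne_zero, nsmul_eq_mul, e1, e2, hN]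
    field_simp
    ring
/-- `e = n + 3`.  `T1`: `l = 0, e' = n + 3, α' = α + a p^{n+2} β₁`.  `T2`: `l = 0, e' = n, α' = α`
(`nr p³ ℓ(0,3) = N³ ℓ(0,0)`, `cub p α ^ 3 = 1`).  `T3`: `l = -2, e' = n + 2`,
`α' = α + a p^{n+1} β₁`: independent of `x`, `sum_res_cub`. -/
theorem SD.Hz_three {j : ℕ} (hj : Lev E j) {F : E → E → ℂ} (h : SD F) {p : R E} (hp : Prime p)
    {a : R E → R E} (ha : Lift p F a) {α x β₁ δ : R E} {n : ℕ}
    (hσ : α * δ - x * (p ^ (n + 3) * β₁) = 1) (hβ : ¬ p ∣ β₁) :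
    Tendsto (P0 (sl (Hz p F a) (mR α x (p ^ (n + 3) * β₁) δ))) (lB E) (𝓝 0) := by
  have hp' : (p : E) ≠ 0 := fun e => hp.ne_zero (Subtype.ext e)
  have hα : ¬ p ∣ α := fun hd => hp.not_dvd_one (hσ ▸ (hd.mul_right δ).sub
    (((dvd_pow_self p (by omega)).mul_right β₁).mul_left x))
  have hd : ∀ (y : R E) (m : ℕ), p ∣ α + y * p ^ (m + 1) * β₁ - α := fun y m => by
    rw [add_sub_cancel_left]
    exact ((dvd_pow_self p (by omega)).mul_left y).mul_right β₁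
  have hα' : ∀ (y : R E) (m : ℕ), ¬ p ∣ α + y * p ^ (m + 1) * β₁ := fun y m e =>
    hα (by simpa using e.sub (hd y m))
  have hg : (mR α x (p ^ (n + 3) * β₁) δ).det = 1 := by
    rw [mR, Matrix.det_fin_two_of]
    exact_mod_cast hσ
  have h₁ := fun y => h.term hj hp hσ hβ 0 0 0 (ha y).2.1
    ⟨1, by rw [pow_one, mul_div_cancel₀ _ hp']; exact (a y).2⟩
    (α' := α + a y * p ^ (n + 1 + 1) * β₁) (e' := n + 3) (by simp)
    (by push_cast; field_simp; ring) fun _ => hα' _ _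
  have h₂ := h.term hj hp hσ hβ 0 3 0 (s := 0)
    ((congrArg (ac F) Matrix.one_fin_two.symm).trans (ac_one h.zero_zero))
    ⟨0, by simp⟩ (α' := α) (e' := n) (by simp) (by simp) fun _ => hα
  have h₃ := fun y => h.term hj hp hσ hβ (-2) (-1) (-2) (ha y).2.2
    ⟨2, by rw [mul_div_cancel₀ _ (pow_ne_zero 2 hp')]; exact (a y).2⟩
    (α' := α + a y * p ^ (n + 1) * β₁) (e' := n + 2) (by push_cast; ring)
    (by push_cast; field_simp; ring) fun _ => hα' _ _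
  simp only [cub_congr (hd _ _)] at h₁ h₃
  refine h.Hz_tendsto hj hp a (hg ▸ one_ne_zero) h₁ h₂ (fun y _ => h₃ y) ?_
  have e := (h.act hj (hg ▸ one_ne_zero : (mR α x (p ^ (n + 3) * β₁) δ).det ≠ 0)).ellp_add_right
    hj hp' 0 0
  have e3 : conj (cub p α) ^ 3 = 1 := by
    rw [← map_pow, cub_pow_three (hp.coprime_iff_not_dvd.2 hα), map_one]
  obtain ⟨hN, hN0⟩ := HeckeB_N hp
  rw [Finset.sum_const, ← Finset.sum_mul, sum_res_cub hp, card_res hp.ne_zero, nsmul_eq_mul]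
  simp only [Int.cast_zero, zero_div, zero_add, Real.rpow_zero, Int.cast_ofNat, Real.rpow_ofNat,
    mul_zero, sub_zero, add_zero, zpow_zero, pow_add (conj (cub p α)), e3] at e ⊢
  rw [e]
  push_cast
  field_simp
  rw [hN]
  ring
/-- `vanish_SLR`, `up_spec`. -/
theorem SD.tt_Hz {j : ℕ} (hj : Lev E j) {F : E → E → ℂ} (h : SD F) {p : R E} (hp : Prime p)
    {a : R E → R E} (ha : Lift p F a) (ν : E) : tt (Hz p F a) ν = 0 := by
  refine vanish_SLR (h.adm_Hz hj hp a) (h.Hz_inf hj hp a) (fun α x β δ hσ hβ => ?_) ν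
  obtain ⟨h1, h2⟩ := up_spec hp hβ
  generalize vp p β = e, up p β = β₁ at h1 h2
  subst h1
  rcases e with _ | _ | _ | n
  exacts [h.Hz_zero hj hp ha hσ h2, h.Hz_one hj hp ha hσ h2, h.Hz_two hj hp ha hσ h2,
    h.Hz_three hj hp ha hσ h2]

/-! ## part C: the relations between the coefficients -/

theorem hkC_nr (p : E) (i : ℤ) : nr (p ^ i) = nr p ^ (i : ℝ) := by
  rw [Real.rpow_intCast]
  obtain ⟨n, rfl | rfl⟩ := i.eq_nat_or_neg
  · rw [zpow_natCast, zpow_natCast, nr_pow]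
  · rw [zpow_neg, zpow_neg, zpow_natCast, zpow_natCast, nr_inv, nr_pow]
theorem hkC_tt {j : ℕ} (hj : Lev E j) {F : E → E → ℂ} (h : SD F) {p : E} (hp : p ≠ 0) (i k : ℤ)
    (s ν : E) : tt (Hk p F i k s) ν = ((nr p ^ ((i : ℝ) / 3 + k) : ℝ) : ℂ) * eT (ν * s) *
      tF (ac F (dM (p ^ i) (p ^ k))) (ν * p ^ i / p ^ k) := by
  have hi := zpow_ne_zero i hp
  have hk := zpow_ne_zero k hp
  have h0 := nr_pos hp
  have h1 := (h.act hj (g := dM (p ^ i) (p ^ k)) (by rw [det_dM]; exact mul_ne_zero hi hk)).tt_up hj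
    (inv_ne_zero hi) (inv_ne_zero hk) ((p ^ i)⁻¹ * s) (ν * p ^ i / p ^ k)
  rw [upper_eq (inv_ne_zero hi), mul_div_cancel_left₀ _ (inv_ne_zero hi),
    show ν * p ^ i / p ^ k * (p ^ i)⁻¹ / (p ^ k)⁻¹ = ν by field_simp,
    show ν * p ^ i / p ^ k * ((p ^ i)⁻¹ * s) / (p ^ k)⁻¹ = ν * s by field_simp,
    nr_inv, nr_inv, hkC_nr, hkC_nr, ← Real.rpow_neg h0.le, ← Real.rpow_neg h0.le,
    ← Real.rpow_mul h0.le, ← Real.rpow_sub h0,
    show -(i : ℝ) * -(1 / 3) - -(k : ℝ) = i / 3 + k by ring] at h1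
  rw [Hk, zpow_neg, zpow_neg, h1]
theorem hkC_not_mem {p ν : R E} (hν : ¬ p ∣ ν) {x : E} {n : ℕ}
    (hx : x * (p : E) ^ (n + 1) = ν) : x ∉ RR E := fun h =>
  hν ⟨p ^ n * ⟨x, h⟩, Subtype.ext (by push_cast; rw [← hx]; ring)⟩
theorem hkC_gc {p : R E} (hp : Prime p) {k : R E} (h : p ∣ k) : gc p k = 0 :=
  (ft_of_dvd h).trans (sum_res_cub hp)

open Classical in
/-- Choose lifts with `a x / p`, `a x / p²` small for `F` and for `ac F (dM p⁻² p⁻¹)` (`SD.small`,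
`exists_sml_mul`, `exists_approx_sml`), expand `tt (Hz p F a) (p ν) = 0` (`tt_add`, `tt_sum`,
`tt_const_mul`, `SD.tt_up`).  On the supports `eT = eF` (`eT_eq_mul`), the sum over `x` is
`sum_res_ef` for `T1` and a Gauss sum for `T3`. -/
theorem SD.hecke {j : ℕ} (hj : Lev E j) {F : E → E → ℂ} (h : SD F) {p : R E} (hp : Prime p)
    (ν : R E) : (nN p : ℂ) * tF F ((p * ν : R E) : E) =
      ((nN p : ℂ) ^ 2)⁻¹ * (nr (p : E) : ℂ) ^ 3 * tF (ac F (dM 1 ((p : E) ^ 3))) ((ν : E) / p ^ 2) +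
      (nN p : ℂ) ^ 2 * ((nr (p : E) ^ (-(5 / 3 : ℝ)) : ℝ) : ℂ) * gc p ν *
        tF (ac F (dM ((p : E) ^ 2)⁻¹ (p : E)⁻¹)) ν := by
  have hp0 : (p : E) ≠ 0 := fun h => hp.ne_zero (Subtype.ext h)
  have hG := h.act hj (g := dM ((p : E) ^ 2)⁻¹ (p : E)⁻¹)
    (by rw [det_dM]; exact mul_ne_zero (inv_ne_zero (pow_ne_zero 2 hp0)) (inv_ne_zero hp0))
  obtain ⟨N₁, h1⟩ := h.small
  obtain ⟨N₂, h2⟩ := hG.small
  obtain ⟨M₁, m1⟩ := exists_sml_mul (p : E)⁻¹ (N₁ + N₂)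
  obtain ⟨M₂, m2⟩ := exists_sml_mul ((p : E) ^ 2)⁻¹ N₁
  choose a ha ha' using fun x => exists_approx_sml hp.ne_zero x 0 (M₁ + M₂)
  simp only [sub_zero] at ha'
  have s1 : ∀ x, Sml (N₁ + N₂) ((a x : E) / p) := fun x => by
    rw [div_eq_mul_inv]
    exact m1 _ ((ha' x).mono (Nat.le_add_right _ _))
  have s2 : ∀ x, Sml N₁ ((a x : E) / p ^ 2) := fun x => by
    rw [div_eq_mul_inv]
    exact m2 _ ((ha' x).mono (Nat.le_add_left _ _))
  have h0 := h.tt_Hz hj hp (a := a)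
    (fun x => ⟨ha x, (h1 _ ((s1 x).mono (Nat.le_add_right _ _))).1, (h1 _ (s2 x)).1⟩) (p * ν)
  have hA := fun i k s => h.adm_Hk hj hp0 i k s
  have e1 : ∀ x, tt (Hk (p : E) F 0 0 ((a x : E) / p)) (p * ν) = tF F (p * ν) := fun x => by
    rw [hkC_tt hj h hp0, zpow_zero, show dM (1 : E) 1 = 1 from Matrix.one_fin_two.symm,
      ac_one h.zero_zero, mul_one, div_one]
    rcases eq_or_ne (tF F (p * ν)) 0 with h3 | h3
    · rw [h3, mul_zero]
    · rw [eT_of_mem_RR, (h1 _ ((s1 x).mono (Nat.le_add_right _ _))).2 _ h3]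
      · simp
      · rw [show (p : E) * ν * (a x / p) = (ν * a x : R E) by push_cast; field_simp]
        exact Subtype.property _
  have e2 : tt (Hk (p : E) F 0 3 0) (p * ν) =
      (nr (p : E) : ℂ) ^ 3 * tF (ac F (dM 1 ((p : E) ^ 3))) ((ν : E) / p ^ 2) := by
    rw [hkC_tt hj h hp0, zpow_zero, zpow_ofNat, mul_zero, eT_zero, mul_one, mul_one,
      show (p : E) * ν / p ^ 3 = ν / p ^ 2 by field_simp,
      show ((0 : ℤ) : ℝ) / 3 + (3 : ℤ) = (3 : ℕ) by norm_num, Real.rpow_natCast, Complex.ofReal_pow]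
  have e3 : ∀ x, tt (Hk (p : E) F (-2) (-1) ((a x : E) / p ^ 2)) (p * ν) =
      ((nr (p : E) ^ (-(5 / 3 : ℝ)) : ℝ) : ℂ) * ef (ν * x) p *
        tF (ac F (dM ((p : E) ^ 2)⁻¹ (p : E)⁻¹)) ν := fun x => by
    rw [hkC_tt hj h hp0, zpow_neg, zpow_neg, zpow_one, zpow_ofNat,
      show (p : E) * ν * ((p : E) ^ 2)⁻¹ / (p : E)⁻¹ = ν by field_simp,
      show (p : E) * ν * (a x / p ^ 2) = ν * (a x / p) by field_simp,
      show ((-2 : ℤ) : ℝ) / 3 + (-1 : ℤ) = -(5 / 3) by norm_num]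
    rcases eq_or_ne (tF (ac F (dM ((p : E) ^ 2)⁻¹ (p : E)⁻¹)) ν) 0 with h3 | h3
    · rw [h3, mul_zero, mul_zero]
    · rw [eT_eq_mul, (h2 _ ((s1 x).mono (Nat.le_add_left _ _))).2 _ h3, mul_one,
        ← ef_congr (x := ν * a x) (by rw [← mul_sub]; exact (ha x).mul_left ν), ef,
        Subring.coe_mul, mul_div_assoc]
  have a1 := Adm.sum (res p) fun x _ => (hA 0 0 ((a x : E) / p)).1
  have c1 := CT.sum (res p) (fun x _ => (hA 0 0 ((a x : E) / p)).1) fun x _ => (hA 0 0 _).2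
  have a2 := (hA 0 3 0).1.const_mul (-((nN p : ℂ) ^ 2)⁻¹)
  have c2 := CT.const_mul (hA 0 3 0).1 (hA 0 3 0).2 (-((nN p : ℂ) ^ 2)⁻¹)
  have a3 := fun x => (hA (-2) (-1) ((a x : E) / p ^ 2)).1.const_mul (-((nN p : ℂ) ^ 2 * cub p x))
  have c3 := fun x => CT.const_mul (hA (-2) (-1) ((a x : E) / p ^ 2)).1 (hA _ _ _).2
    (-((nN p : ℂ) ^ 2 * cub p x))
  unfold Hz at h0
  rw [tt_add (a1.add a2) (Adm.sum _ fun x _ => a3 x) (CT.add a1 a2 c1 c2)
      (CT.sum _ (fun x _ => a3 x) fun x _ => c3 x), tt_add a1 a2 c1 c2,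
    tt_sum _ (fun x _ => (hA _ _ _).1) fun x _ => (hA _ _ _).2,
    tt_sum _ (fun x _ => a3 x) fun x _ => c3 x, tt_const_mul (hA _ _ _).1 (hA _ _ _).2, e2] at h0
  simp only [tt_const_mul (hA _ _ _).1 (hA _ _ _).2, e1, e3, Finset.sum_const, card_res hp.ne_zero,
    nsmul_eq_mul] at h0
  have e4 : ∑ x ∈ res p, -((nN p : ℂ) ^ 2 * cub p x) * (((nr (p : E) ^ (-(5 / 3 : ℝ)) : ℝ) : ℂ) *
      ef (ν * x) p * tF (ac F (dM ((p : E) ^ 2)⁻¹ (p : E)⁻¹)) ν) =
      -((nN p : ℂ) ^ 2 * ((nr (p : E) ^ (-(5 / 3 : ℝ)) : ℝ) : ℂ) * gc p ν *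
        tF (ac F (dM ((p : E) ^ 2)⁻¹ (p : E)⁻¹)) ν) := by
    rw [gc, ft, Finset.mul_sum, Finset.sum_mul, ← Finset.sum_neg_distrib]
    exact Finset.sum_congr rfl fun x _ => by ring
  rw [e4] at h0
  rw [Subring.coe_mul]
  linear_combination h0
theorem SD.hecke_one {j : ℕ} (hj : Lev E j) {F : E → E → ℂ} (h : SD F) {p : R E} (hp : Prime p)
    {ν : R E} (hν : ¬ p ∣ ν) : tF F ((p * ν : R E) : E) =
      ((nf (p : E) ^ (-(2 / 3 : ℝ)) : ℝ) : ℂ) * gc p ν * tF (Cop (p : E) F) ν := by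
  have hp0 : (p : E) ≠ 0 := fun h => hp.ne_zero (Subtype.ext h)
  have h1 := h.hecke hj hp ν
  have hN := nf_eq_nN hp.ne_zero
  have h0 := nf_pos hp0
  have hN' : (nN p : ℂ) = (nf (p : E) : ℂ) := by rw [hN, Complex.ofReal_natCast]
  have h2 : nf (p : E) ^ 2 * nr (p : E) ^ (-(5 / 3 : ℝ)) =
      nf (p : E) * (nf (p : E) ^ (-(2 / 3 : ℝ)) * absS (p : E) ^ (5 / 3 : ℝ)) := by
    have h3 : absS (p : E) = nf (p : E) / nr (p : E) := by
      rw [nf, mul_div_cancel_left₀ _ (nr_pos hp0).ne']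
    rw [h3, Real.div_rpow h0.le (nr_pos hp0).le, Real.rpow_neg (nr_pos hp0).le,
      ← mul_div_assoc, ← Real.rpow_add h0,
      show -(2 / 3 : ℝ) + 5 / 3 = 1 by norm_num, Real.rpow_one]
    ring
  have h4 := congrArg Complex.ofReal h2
  push_cast at h4
  rw [(h.act hj (by rw [det_dM, one_mul]; exact pow_ne_zero 3 hp0)).tF_of_not_mem
    (hkC_not_mem hν (n := 1) (div_mul_cancel₀ _ (pow_ne_zero 2 hp0))), mul_zero, zero_add,
    hN', h4] at h1
  refine mul_left_cancel₀ (Complex.ofReal_ne_zero.2 h0.ne') (h1.trans ?_)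
  unfold Cop
  rw [(h.act hj (by
    rw [det_dM]; exact mul_ne_zero (inv_ne_zero (pow_ne_zero 2 hp0)) (inv_ne_zero hp0))).tF_const_mul hj]
  ring
theorem SD.hecke_two {j : ℕ} (hj : Lev E j) {F : E → E → ℂ} (h : SD F) {p : R E} (hp : Prime p)
    {ν : R E} (hν : ¬ p ∣ ν) : tF F ((p ^ 2 * ν : R E) : E) = 0 := by
  have hp0 : (p : E) ≠ 0 := fun h => hp.ne_zero (Subtype.ext h)
  have h1 := h.hecke hj hp (p * ν)
  rw [(h.act hj (by rw [det_dM, one_mul]; exact pow_ne_zero 3 hp0)).tF_of_not_mem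
    (hkC_not_mem hν (n := 0) (by push_cast; field_simp)), hkC_gc hp (dvd_mul_right _ _),
    mul_zero, mul_zero, zero_mul, add_zero, ← mul_assoc, ← sq, mul_eq_zero] at h1
  exact h1.resolve_left (Nat.cast_ne_zero.2 (by linarith [(nN_prime_mod hp).2]))
/-- `tF F (p³ ν) = absS p⁻³ tF (ac F (dM 1 p³)) ν`, and
`ac F (dM 1 p³) = ac (ac F (dM p⁻⁶ p⁻³)) (dM p⁶ p⁶)`, `SD.tF_central` with `x = p²`. -/
theorem SD.hecke_three {j : ℕ} (hj : Lev E j) {F : E → E → ℂ} (h : SD F) {p : R E} (hp : Prime p)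
    (ν : R E) : tF F ((p ^ 3 * ν : R E) : E) = tF (Cop ((p : E) ^ 3) F) ν := by
  have hp0 : (p : E) ≠ 0 := fun h => hp.ne_zero (Subtype.ext h)
  have h1 := h.hecke hj hp (p ^ 2 * ν)
  have hx : (((p : E) ^ 3) ^ 2)⁻¹ ≠ 0 := inv_ne_zero (pow_ne_zero 2 (pow_ne_zero 3 hp0))
  have hy : ((p : E) ^ 3)⁻¹ ≠ 0 := inv_ne_zero (pow_ne_zero 3 hp0)
  have hz : ((p : E) ^ 2) ^ 3 ≠ 0 := pow_ne_zero 3 (pow_ne_zero 2 hp0)
  have hG := h.act hj (g := dM (((p : E) ^ 3) ^ 2)⁻¹ ((p : E) ^ 3)⁻¹)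
    (by rw [det_dM]; exact mul_ne_zero hx hy)
  have h2 := hG.tF_central hj (pow_ne_zero 2 hp0) ν
  rw [ac_dM_dM h.zero_zero hx hy hz hz, rho_cube_left (pow_ne_zero 2 hp0) hx, chi_zero,
    show (((p : E) ^ 3) ^ 2)⁻¹ * ((p : E) ^ 2) ^ 3 = 1 by field_simp,
    show ((p : E) ^ 3)⁻¹ * ((p : E) ^ 2) ^ 3 = (p : E) ^ 3 by field_simp, absS_pow] at h2
  simp only [one_mul] at h2
  have hN' : (nN p : ℂ) = (nr (p : E) : ℂ) * (absS (p : E) : ℂ) := by
    rw [← Complex.ofReal_mul, ← Complex.ofReal_natCast, ← nf_eq_nN hp.ne_zero, nf]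
  have h3 : (nr (p : E) : ℂ) ≠ 0 := Complex.ofReal_ne_zero.2 (nr_pos hp0).ne'
  have h4 : (absS (p : E) : ℂ) ≠ 0 := Complex.ofReal_ne_zero.2 (absS_pos _).ne'
  rw [hkC_gc hp (Dvd.dvd.mul_right (dvd_pow_self p two_ne_zero) _), mul_zero, zero_mul, add_zero,
    show ((p ^ 2 * ν : R E) : E) / p ^ 2 = ν by push_cast; field_simp, h2, ← mul_assoc p, ← pow_succ',
    hN'] at h1
  refine mul_left_cancel₀ (mul_ne_zero h3 h4) (h1.trans ?_)
  unfold Cop
  rw [hG.tF_const_mul hj, absS_pow, ← Real.rpow_natCast (absS (p : E)) 3,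
    ← Real.rpow_mul (absS_pos _).le, show ((3 : ℕ) : ℝ) * (5 / 3) = (5 : ℕ) by norm_num,
    Real.rpow_natCast]
  push_cast
  field_simp
/-- `ne_zero_induction` (for all `F`), `SD.tF_unit`, `Cop_Cop`, `rho_cube_left`. -/
theorem SD.tF_cube {j : ℕ} (hj : Lev E j) {F : E → E → ℂ} (h : SD F) {d : R E} (hd : d ≠ 0)
    (ν : R E) : tF F ((d ^ 3 * ν : R E) : E) = tF (Cop ((d : E) ^ 3) F) ν := by
  refine ne_zero_induction (P := fun d : R E => ∀ F : E → E → ℂ, SD F → ∀ ν : R E,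
    tF F ((d ^ 3 * ν : R E) : E) = tF (Cop ((d : E) ^ 3) F) ν) (fun u hu F h ν => ?_)
    (fun p n hp _ hn ih F h ν => ?_) hd F h ν
  · have := h.tF_unit hj (hu.pow 3) ν
    push_cast at this ⊢
    exact this
  · have hp' : (p : E) ≠ 0 := by exact_mod_cast hp.ne_zero
    have hn' : (n : E) ≠ 0 := by exact_mod_cast hn
    rw [mul_pow, mul_assoc, h.hecke_three hj hp, ih _ (h.cop hj (pow_ne_zero 3 hp')),
      Cop_Cop h.zero_zero (pow_ne_zero 3 hp') (pow_ne_zero 3 hn'),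
      (h.cop hj (mul_ne_zero (pow_ne_zero 3 hp') (pow_ne_zero 3 hn'))).tF_const_mul hj,
      rho_cube_left hp' (pow_ne_zero 3 hn'), chi_zero, one_mul, Subring.coe_mul, mul_pow]
/-- `squarefree_induction` (for all `F`, `ν`), `gc_mul`, `gc_mul_unit`, `Cop_Cop`, `cub_recip`. -/
theorem SD.tF_sqfree {j : ℕ} (hj : Lev E j) {F : E → E → ℂ} (h : SD F) {n : R E}
    (hn : Squarefree n) {ν : R E} (hν : IsCoprime n ν) : tF F ((n * ν : R E) : E) =
      ((nf (n : E) ^ (-(2 / 3 : ℝ)) : ℝ) : ℂ) * gc n ν * tF (Cop (n : E) F) ν := by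
  refine squarefree_induction (P := fun n : R E => ∀ F : E → E → ℂ, SD F → ∀ ν : R E,
    IsCoprime n ν → tF F ((n * ν : R E) : E) =
      ((nf (n : E) ^ (-(2 / 3 : ℝ)) : ℝ) : ℂ) * gc n ν * tF (Cop (n : E) F) ν)
    (fun u hu F h ν _ => ?_) (fun p n hp hn hpn ih F h ν hν => ?_) hn F h ν hν
  · rw [nf_eq_one_iff.2 hu, Real.one_rpow, gc_unit hu, Complex.ofReal_one, one_mul, one_mul,
      Subring.coe_mul, h.tF_unit hj hu]
  · have hp' : (p : E) ≠ 0 := by exact_mod_cast hp.ne_zero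
    have hn' : (n : E) ≠ 0 := by exact_mod_cast hn.ne_zero
    have h1 : IsCoprime p n := hp.coprime_iff_not_dvd.2 hpn
    have h2 : ¬ p ∣ n * ν := hp.coprime_iff_not_dvd.1 (h1.mul_right hν.of_mul_left_left)
    rw [mul_assoc p n ν, h.hecke_one hj hp h2, ih _ (h.cop hj hp') ν hν.of_mul_left_right,
      Cop_Cop h.zero_zero hp' hn', (h.cop hj (mul_ne_zero hp' hn')).tF_const_mul hj,
      mul_comm n ν, gc_mul_unit hp.ne_zero h1.symm, gc_mul hp.ne_zero hn.ne_zero h1,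
      cub_recip hp.ne_zero hn.ne_zero, conj_cub, Subring.coe_mul, nf_mul,
      Real.mul_rpow (nf_nonneg _) (nf_nonneg _), Complex.ofReal_mul]
    ring
/-- **Patterson's formula.** -/
theorem SD.patterson {j : ℕ} (hj : Lev E j) {F : E → E → ℂ} (h : SD F) {n d : R E}
    (hn : Squarefree n) (hd : d ≠ 0) : tF F ((n * d ^ 3 : R E) : E) =
      ((nf (n : E) ^ (-(2 / 3 : ℝ)) : ℝ) : ℂ) * gc n 1 * tF (Cop ((n * d ^ 3 : R E) : E) F) 1 := by
  have hd' : (d : E) ≠ 0 := by exact_mod_cast hd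
  have hn' : (n : E) ≠ 0 := by exact_mod_cast hn.ne_zero
  have h1 := (h.cop hj (pow_ne_zero 3 hd')).tF_sqfree hj hn isCoprime_one_right
  rw [mul_one, Cop_Cop h.zero_zero (pow_ne_zero 3 hd') hn',
    (h.cop hj (mul_ne_zero (pow_ne_zero 3 hd') hn')).tF_const_mul hj, rho_cube_left hd' hn',
    chi_zero, one_mul] at h1
  rw [mul_comm n, h.tF_cube hj hd, h1, Subring.coe_mul, SubmonoidClass.coe_pow, Subring.coe_one]
/-- `exists_sqfree_cube`; if `vp p ν = 3 k + 2` use `SD.tF_cube` and `SD.hecke_two`. -/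
theorem SD.tF_ne_zero {j : ℕ} (hj : Lev E j) {F : E → E → ℂ} (h : SD F) {ν : R E} (hν : ν ≠ 0)
    (h0 : tF F ν ≠ 0) : ∃ n d : R E, Squarefree n ∧ Nm d ∧ ν = n * d ^ 3 := by
  refine exists_sqfree_cube hν fun p hp h2 => h0 ?_
  have hp' := (of_mem_pf hp).2.1
  obtain ⟨h3, h4⟩ := up_spec hp' hν
  have h5 : (p ^ (vp p ν / 3)) ≠ 0 := pow_ne_zero _ hp'.ne_zero
  have h6 : ν = (p ^ (vp p ν / 3)) ^ 3 * (p ^ 2 * up p ν) := by
    rw [← pow_mul, ← mul_assoc, ← pow_add, show vp p ν / 3 * 3 + 2 = vp p ν by omega]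
    exact h3
  rw [h6, h.tF_cube hj h5]
  exact (h.cop hj (pow_ne_zero 3 (by exact_mod_cast h5))).hecke_two hj hp' h4

end Crest.Agent.R312
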