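import Crest.Agent.R312.KubDefs

/-!
# Row 312: the cocycle identity for the Kubota cocycle (auxiliary file for `Kub`, part B)
-/

set_option autoImplicit false
set_option linter.unusedSimpArgs false

noncomputable section

namespace Crest.Agent.R312

namespace KubB

variable {E : Type} [Field E] [NumberField E] [Fr E]

omit [NumberField E] [Fr E] in
theorem X_zero (d : E) : kX 0 d = d := if_pos rfl

omit [NumberField E] [Fr E] in
theorem X_ne {c : E} (h : c ≠ 0) (d : E) : kX c d = c := if_neg h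

omit [NumberField E] [Fr E] in
theorem X_nz {c d : E} (h : c ≠ 0 ∨ d ≠ 0) : kX c d ≠ 0 := by
  by_cases hc : c = 0
  · rw [hc, X_zero]
    exact h.resolve_left (not_not.2 hc)
  · rwa [X_ne hc]

omit [NumberField E] [Fr E] in
theorem X_mul {l : E} (hl : l ≠ 0) (c d : E) : kX (l * c) (l * d) = l * kX c d := by
  by_cases hc : c = 0
  · rw [hc, mul_zero, X_zero, X_zero]
  · rw [X_ne hc, X_ne (mul_ne_zero hl hc)]

omit [NumberField E] [Fr E] in
theorem row_ne {c d : E} (h : c ≠ 0 ∨ d ≠ 0) {g : Mt E} (hg : g.det ≠ 0) :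
    c * g 0 0 + d * g 1 0 ≠ 0 ∨ c * g 0 1 + d * g 1 1 ≠ 0 := by
  by_contra h'
  rw [not_or, not_not, not_not] at h'
  rw [Matrix.det_fin_two] at hg
  rcases h with h | h
  · exact mul_ne_zero h hg (by linear_combination g 1 1 * h'.1 - g 1 0 * h'.2)
  · exact mul_ne_zero h hg (by linear_combination g 0 0 * h'.2 - g 0 1 * h'.1)

omit [NumberField E] [Fr E] in
theorem row2_ne {g : Mt E} (hg : g.det ≠ 0) : g 1 0 ≠ 0 ∨ g 1 1 ≠ 0 := by
  simpa using row_ne (c := 0) (d := 1) (Or.inr one_ne_zero) hg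

/-- the defect of the cocycle identity in terms of the values of `kX` -/
def dl (A B C G G' H D : E) : ZMod 3 :=
  rho A B + rho B G + rho G A - rho B D + rho B C + rho C G' + rho G' B - rho A C - rho C H -
    rho H A + rho C D

theorem defect {c d : E} (h : c ≠ 0 ∨ d ≠ 0) {g g' : Mt E} (hg : g.det ≠ 0) (hg' : g'.det ≠ 0) :
    kb c d g + kb (c * g 0 0 + d * g 1 0) (c * g 0 1 + d * g 1 1) g' = kb c d (g * g') +
      dl (kX c d) (kX (c * g 0 0 + d * g 1 0) (c * g 0 1 + d * g 1 1))
        (kX ((c * g 0 0 + d * g 1 0) * g' 0 0 + (c * g 0 1 + d * g 1 1) * g' 1 0)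
          ((c * g 0 0 + d * g 1 0) * g' 0 1 + (c * g 0 1 + d * g 1 1) * g' 1 1))
        (kX (g 1 0) (g 1 1)) (kX (g' 1 0) (g' 1 1))
        (kX (g 1 0 * g' 0 0 + g 1 1 * g' 1 0) (g 1 0 * g' 0 1 + g 1 1 * g' 1 1)) g.det := by
  have e0 : c * (g * g') 0 0 + d * (g * g') 1 0 =
      (c * g 0 0 + d * g 1 0) * g' 0 0 + (c * g 0 1 + d * g 1 1) * g' 1 0 := by
    simp only [Matrix.mul_apply, Fin.sum_univ_two]; ring
  have e1 : c * (g * g') 0 1 + d * (g * g') 1 1 =
      (c * g 0 0 + d * g 1 0) * g' 0 1 + (c * g 0 1 + d * g 1 1) * g' 1 1 := by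
    simp only [Matrix.mul_apply, Fin.sum_univ_two]; ring
  have e2 : (g * g') 1 0 = g 1 0 * g' 0 0 + g 1 1 * g' 1 0 := by
    simp only [Matrix.mul_apply, Fin.sum_univ_two]
  have e3 : (g * g') 1 1 = g 1 0 * g' 0 1 + g 1 1 * g' 1 1 := by
    simp only [Matrix.mul_apply, Fin.sum_univ_two]
  unfold kb dl
  rw [e0, e1, e2, e3, Matrix.det_mul, rho_mul_right (X_nz (row_ne (row_ne h hg) hg')) hg hg']
  ring

/-- the defect does not depend on the row -/
def Good (g' : Mt E) : Prop := g'.det ≠ 0 ∧ ∀ g : Mt E, g.det ≠ 0 → ∃ k : ZMod 3, ∀ c d : E,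
  c ≠ 0 ∨ d ≠ 0 →
    kb c d g + kb (c * g 0 0 + d * g 1 0) (c * g 0 1 + d * g 1 1) g' = kb c d (g * g') + k

theorem Good.mul {g' g'' : Mt E} (h' : Good g') (h'' : Good g'') : Good (g' * g'') := by
  refine ⟨by rw [Matrix.det_mul]; exact mul_ne_zero h'.1 h''.1, fun g hg => ?_⟩
  obtain ⟨k1, h1⟩ := h'.2 g hg
  obtain ⟨k2, h2⟩ := h''.2 g' h'.1
  obtain ⟨k3, h3⟩ := h''.2 (g * g') (by rw [Matrix.det_mul]; exact mul_ne_zero hg h'.1)
  refine ⟨k1 - k2 + k3, fun c d h => ?_⟩
  have e0 : c * (g * g') 0 0 + d * (g * g') 1 0 =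
      (c * g 0 0 + d * g 1 0) * g' 0 0 + (c * g 0 1 + d * g 1 1) * g' 1 0 := by
    simp only [Matrix.mul_apply, Fin.sum_univ_two]; ring
  have e1 : c * (g * g') 0 1 + d * (g * g') 1 1 =
      (c * g 0 0 + d * g 1 0) * g' 0 1 + (c * g 0 1 + d * g 1 1) * g' 1 1 := by
    simp only [Matrix.mul_apply, Fin.sum_univ_two]; ring
  have a1 := h1 c d h
  have a2 := h2 _ _ (row_ne h hg)
  have a3 := h3 c d h
  rw [e0, e1, mul_assoc] at a3
  linear_combination a1 - a2 + a3

theorem dl_same {A B G z y D : E} (hA : A ≠ 0) (hB : B ≠ 0) (hG : G ≠ 0) (hz : z ≠ 0) (hy : y ≠ 0)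
    (hD : D ≠ 0) : dl A B (B * z) G y (G * z) D = rho z y - rho z G + rho z D := by
  unfold dl
  simp (disch := first | assumption | exact mul_ne_zero ‹_› ‹_›) only [rho_mul_left, rho_mul_right,
    rho_self]
  rw [rho_swap y B, rho_swap z A]
  ring

theorem good_upper {x y : E} (hx : x ≠ 0) (hy : y ≠ 0) (t : E) : Good !![x, t; 0, y] := by
  have hd : (!![x, t; 0, y] : Mt E).det ≠ 0 := by
    rw [Matrix.det_fin_two_of]; simpa using ⟨hx, hy⟩
  refine ⟨hd, fun g hg => ?_⟩
  have h2 := row2_ne hg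
  have hdet := Matrix.det_fin_two g
  by_cases h0 : g 1 0 = 0
  · have h1 : g 1 1 ≠ 0 := h2.resolve_left (not_not.2 h0)
    have hD : g.det = g 0 0 * g 1 1 := by rw [hdet, h0]; ring
    have ha : g 0 0 ≠ 0 := fun e => hg (by rw [hD, e, zero_mul])
    refine ⟨rho y y - rho y (g 1 1) + rho y g.det, fun c d h => ?_⟩
    rw [defect h hg hd]
    congr 1
    simp only [Matrix.of_apply, Matrix.cons_val', Matrix.cons_val_zero, Matrix.cons_val_one,
      Matrix.cons_val_fin_one, h0, mul_zero, add_zero, zero_mul, zero_add, X_zero]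
    by_cases hc : c = 0
    · have hd0 : d ≠ 0 := h.resolve_left (not_not.2 hc)
      simp only [hc, zero_mul, zero_add, X_zero]
      exact dl_same hd0 (mul_ne_zero hd0 h1) h1 hy hy hg
    · rw [X_ne hc, X_ne (mul_ne_zero hc ha), X_ne (mul_ne_zero (mul_ne_zero hc ha) hx), hD]
      generalize g 0 0 = a at ha
      generalize g 1 1 = e at h1
      unfold dl
      simp (disch := first | assumption | exact mul_ne_zero ‹_› ‹_› |
        exact mul_ne_zero (mul_ne_zero ‹_› ‹_›) ‹_›) only [rho_mul_left, rho_mul_right, rho_self]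
      simp only [rho_swap a c, rho_swap e c, rho_swap x c, rho_swap y c, rho_swap e a,
        rho_swap x a, rho_swap y a, rho_swap x e, rho_swap y e, rho_swap y x]
      ring
  · refine ⟨rho x y - rho x (g 1 0) + rho x g.det, fun c d h => ?_⟩
    rw [defect h hg hd]
    congr 1
    simp only [Matrix.of_apply, Matrix.cons_val', Matrix.cons_val_zero, Matrix.cons_val_one,
      Matrix.cons_val_fin_one, mul_zero, add_zero, X_zero, X_ne h0, X_ne (mul_ne_zero h0 hx)]
    by_cases hp : c * g 0 0 + d * g 1 0 = 0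
    · have hq := (row_ne h hg).resolve_left (not_not.2 hp)
      have hc : c ≠ 0 := fun hc => by
        rw [hc, zero_mul, zero_add] at hp
        exact mul_ne_zero (h.resolve_left (not_not.2 hc)) h0 hp
      have hB : c * g 0 1 + d * g 1 1 = -(c * g.det / g 1 0) := by
        rw [hdet]
        field_simp
        linear_combination g 1 1 * hp
      simp only [hp, zero_mul, zero_add, X_zero, X_ne hc, hB]
      generalize g.det = D at hg
      generalize g 1 0 = e at h0
      have h3 : c * D / e ≠ 0 := div_ne_zero (mul_ne_zero hc hg) h0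
      have h4 : -(c * D / e) ≠ 0 := neg_ne_zero.2 h3
      unfold dl
      simp (disch := first | assumption | exact mul_ne_zero ‹_› ‹_›) only [rho_mul_left,
        rho_mul_right, rho_neg_left, rho_neg_right, rho_div_left, rho_div_right, rho_self]
      simp only [rho_swap D c, rho_swap e c, rho_swap x c, rho_swap y c, rho_swap e D,
        rho_swap x D, rho_swap y D, rho_swap x e, rho_swap y e, rho_swap y x]
      ring
    · rw [X_ne hp, X_ne (mul_ne_zero hp hx)]
      exact dl_same (X_nz h) hp h0 hx hy hg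

theorem dl_scale {l G H D : E} (hl : l ≠ 0) (hG : G ≠ 0) (hH : H ≠ 0) (hD : D ≠ 0) :
    dl l (l * G) (l * H) G 1 H D = rho G H - rho G D + rho H D := by
  unfold dl
  simp (disch := first | assumption | exact mul_ne_zero ‹_› ‹_› | exact one_ne_zero) only
    [rho_mul_left, rho_mul_right, rho_self, rho_one_left, rho_one_right]
  rw [rho_swap G l, rho_swap H l]
  ring

theorem dl_generic {c p q G H D : E} (hc : c ≠ 0) (hp : p ≠ 0) (hq : q ≠ 0) (hG : G ≠ 0)
    (hH : H ≠ 0) (hD : D ≠ 0) (h : H * p + -(G * q) = c * D) :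
    dl c p q G 1 H D = rho G H - rho G D + rho H D := by
  have h1 := rho_add (mul_ne_zero hH hp) (neg_ne_zero.2 (mul_ne_zero hG hq))
    (by rw [h]; exact mul_ne_zero hc hD)
  rw [h] at h1
  unfold dl
  simp (disch := first | assumption | exact mul_ne_zero ‹_› ‹_›) only
    [rho_mul_left, rho_mul_right, rho_neg_right, rho_one_left, rho_one_right] at h1 ⊢
  simp only [rho_swap p c, rho_swap q c, rho_swap G c, rho_swap H c, rho_swap D c, rho_swap q p,
    rho_swap G p, rho_swap H p, rho_swap D p, rho_swap G q, rho_swap H q, rho_swap D q,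
    rho_swap H G, rho_swap D G, rho_swap D H] at h1 ⊢
  linear_combination h1

theorem dl_neg1 {A B C G H D : E} (hA : A ≠ 0) (hB : B ≠ 0) (hC : C ≠ 0) (hG : G ≠ 0)
    (hH : H ≠ 0) : dl (-A) B C G 1 H D = dl A B C G 1 H D := by
  unfold dl
  simp (disch := assumption) only [rho_neg_left, rho_neg_right]

theorem dl_neg3 {A B C G H D : E} (hA : A ≠ 0) (hB : B ≠ 0) (hC : C ≠ 0)
    (hH : H ≠ 0) (hD : D ≠ 0) : dl A B (-C) G 1 H D = dl A B C G 1 H D := by
  unfold dl
  simp (disch := first | assumption | exact one_ne_zero) only [rho_neg_left, rho_neg_right]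

theorem dl_neg6 {A B C G H D : E} (hA : A ≠ 0) (hC : C ≠ 0) (hH : H ≠ 0) :
    dl A B C G 1 (-H) D = dl A B C G 1 H D := by
  unfold dl
  simp (disch := assumption) only [rho_neg_left, rho_neg_right]

theorem dl_a {B G H D : E} (hB : B ≠ 0) (hG : G ≠ 0) (hH : H ≠ 0) (hD : D ≠ 0) :
    dl (H * B / D) B B G 1 H D = rho G H - rho G D + rho H D := by
  unfold dl
  simp (disch := first | assumption | exact mul_ne_zero ‹_› ‹_›) only
    [rho_mul_left, rho_mul_right, rho_div_left, rho_div_right, rho_one_left, rho_one_right,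
      rho_self]
  rw [rho_swap G B, rho_swap H B]
  ring

theorem dl_b {B C G D : E} (hB : B ≠ 0) (hC : C ≠ 0) (hG : G ≠ 0) (hD : D ≠ 0) :
    dl (G * B / D) B C G 1 G D = rho G G - rho G D + rho G D := by
  unfold dl
  simp (disch := first | assumption | exact mul_ne_zero ‹_› ‹_›) only
    [rho_mul_left, rho_mul_right, rho_div_left, rho_div_right, rho_one_left, rho_one_right,
      rho_self]
  rw [rho_swap G B, rho_swap D B, rho_swap G C, rho_swap D C]
  ring

theorem dl_c {B G H D : E} (hB : B ≠ 0) (hG : G ≠ 0) (hH : H ≠ 0) (hD : D ≠ 0) :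
    dl (G * B / D) B B G 1 H D = rho G H - rho G D + rho H D := by
  unfold dl
  simp (disch := first | assumption | exact mul_ne_zero ‹_› ‹_›) only
    [rho_mul_left, rho_mul_right, rho_div_left, rho_div_right, rho_one_left, rho_one_right,
      rho_self]
  rw [rho_swap G B, rho_swap H B, rho_swap H G]
  ring

theorem dl_d {B C G D : E} (hB : B ≠ 0) (hC : C ≠ 0) (hG : G ≠ 0) (hD : D ≠ 0) :
    dl (G * C / D) B C G 1 G D = rho G G - rho G D + rho G D := by
  unfold dl
  simp (disch := first | assumption | exact mul_ne_zero ‹_› ‹_›) only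
    [rho_mul_left, rho_mul_right, rho_div_left, rho_div_right, rho_one_left, rho_one_right,
      rho_self]
  rw [rho_swap G B, rho_swap D B, rho_swap G C, rho_swap D C, rho_swap C B]
  ring

/-- the identity for the inversion, `(p, q) = v g`, `(e, f)` the second row of `g` -/
theorem dl_w {c p q e f D : E} (hc : c ≠ 0) (hD : D ≠ 0) (h : f * p + -(e * q) = c * D) :
    dl c (kX p q) (kX q (-p)) (kX e f) 1 (kX f (-e)) D =
      rho (kX e f) (kX f (-e)) - rho (kX e f) D + rho (kX f (-e)) D := by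
  have hcD := mul_ne_zero hc hD
  by_cases h1 : e * q = 0
  · rw [h1, neg_zero, add_zero] at h
    have hf : f ≠ 0 := left_ne_zero_of_mul (h ▸ hcD)
    have hp : p ≠ 0 := right_ne_zero_of_mul (h ▸ hcD)
    have hA : c = f * p / D := by rw [h, mul_div_cancel_right₀ _ hD]
    rw [X_ne hf, X_ne hp]
    by_cases hq : q = 0
    · rw [hq, X_zero, dl_neg3 hc hp hp hf hD, hA]
      exact dl_a hp (X_nz (Or.inr hf)) hf hD
    · rw [(mul_eq_zero.1 h1).resolve_right hq, X_zero, X_ne hq, hA]
      exact dl_b hp hq hf hD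
  · have he : e ≠ 0 := left_ne_zero_of_mul h1
    have hq : q ≠ 0 := right_ne_zero_of_mul h1
    rw [X_ne he, X_ne hq]
    by_cases h2 : f * p = 0
    · rw [h2, zero_add] at h
      have hA : c = -(e * q / D) := by rw [← neg_div, h, mul_div_cancel_right₀ _ hD]
      have h3 : e * q / D ≠ 0 := div_ne_zero h1 hD
      by_cases hp : p = 0
      · have hH : kX f (-e) ≠ 0 := X_nz (Or.inr (neg_ne_zero.2 he))
        rw [hp, X_zero, hA, dl_neg1 h3 hq hq he hH]
        exact dl_c hq he hH hD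
      · rw [(mul_eq_zero.1 h2).resolve_right hp, X_zero, X_ne hp, dl_neg6 hc hq he,
          rho_neg_right he he, rho_neg_left he hD, hA, dl_neg1 h3 hp hq he he]
        exact dl_d hp hq he hD
    · have hf : f ≠ 0 := left_ne_zero_of_mul h2
      have hp : p ≠ 0 := right_ne_zero_of_mul h2
      rw [X_ne hf, X_ne hp]
      exact dl_generic hc hp hq he hf hD h

theorem good_w : Good (wM E) := by
  have hd : (wM E).det ≠ 0 := by
    rw [wM, Matrix.det_fin_two_of]; simp
  refine ⟨hd, fun g hg => ?_⟩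
  have h2 := row2_ne hg
  refine ⟨rho (kX (g 1 0) (g 1 1)) (kX (g 1 1) (-g 1 0)) - rho (kX (g 1 0) (g 1 1)) g.det +
    rho (kX (g 1 1) (-g 1 0)) g.det, fun c d h => ?_⟩
  rw [defect h hg hd]
  congr 1
  simp only [wM, Matrix.of_apply, Matrix.cons_val', Matrix.cons_val_zero, Matrix.cons_val_one,
    Matrix.cons_val_fin_one, mul_zero, add_zero, zero_add, mul_one, mul_neg,
    X_ne (one_ne_zero (α := E))]
  by_cases hc : c = 0
  · have hd0 : d ≠ 0 := h.resolve_left (not_not.2 hc)
    simp only [hc, zero_mul, zero_add, X_zero, ← mul_neg, X_mul hd0]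
    exact dl_scale hd0 (X_nz h2) (X_nz (h2.symm.imp id neg_ne_zero.2)) hg
  · rw [X_ne hc]
    exact dl_w hc hg (by rw [Matrix.det_fin_two]; ring)

theorem good {g : Mt E} (hg : g.det ≠ 0) : Good g := by
  have hdet := Matrix.det_fin_two g
  by_cases h0 : g 1 0 = 0
  · have hD : g.det = g 0 0 * g 1 1 := by rw [hdet, h0]; ring
    have e : g = !![g 0 0, g 0 1; 0, g 1 1] := by
      rw [← h0]
      exact Matrix.eta_fin_two g
    rw [e]
    exact good_upper (left_ne_zero_of_mul (hD ▸ hg)) (right_ne_zero_of_mul (hD ▸ hg)) _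
  · have e : g = !![1, g 0 0 / g 1 0; 0, 1] * wM E * !![g 1 0, g 1 1; 0, g.det / g 1 0] := by
      rw [hdet]
      ext i j
      fin_cases i <;> fin_cases j <;> simp [wM, Matrix.mul_apply, Fin.sum_univ_two] <;>
        field_simp <;> ring
    rw [e]
    exact ((good_upper one_ne_zero one_ne_zero _).mul good_w).mul
      (good_upper h0 (div_ne_zero hg h0) _)

theorem cocycle {c d : E} (h : c ≠ 0 ∨ d ≠ 0) {g g' : Mt E} (hg : g.det ≠ 0)
    (hg' : g'.det ≠ 0) :
    kb c d g + kb (c * g 0 0 + d * g 1 0) (c * g 0 1 + d * g 1 1) g' =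
      kb c d (g * g') + kB g g' := by
  obtain ⟨k, hk⟩ := (good hg').2 g hg
  have h1 := hk 0 1 (Or.inr one_ne_zero)
  simp only [zero_mul, zero_add, one_mul] at h1
  rw [hk c d h, kB, h1]
  ring

end KubB

end Crest.Agent.R312
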