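import Crest.Agent.R312.KubDefs
import Crest.Agent.R312.KubAuxB

/-!
# Row 312: the Kubota cocycle (pure algebra, only the formal properties of `rho` are used)
-/

set_option autoImplicit false

noncomputable section

namespace Crest.Agent.R312

open NumberField
open scoped ComplexConjugate

open Filter Topology

variable {E : Type} [Field E] [NumberField E] [Fr E]

/-! ## part A: matrices, the values of the cocycle, the action -/

omit [NumberField E] [Fr E] in
theorem det_dM (x y : E) : (dM x y).det = x * y := by simp [dM]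
omit [NumberField E] [Fr E] in
theorem det_nM (t : E) : (nM t).det = 1 := by simp [nM]
omit [NumberField E] [Fr E] in
theorem det_wM : (wM E).det = 1 := by simp [wM]
theorem det_mR (a b c d : R E) : (mR a b c d).det = ((a * d - b * c : R E) : E) := by
  simp [mR]
omit [NumberField E] [Fr E] in
theorem dM_mul (x y x' y' : E) : dM x y * dM x' y' = dM (x * x') (y * y') := by simp [dM]
omit [NumberField E] [Fr E] in
theorem nM_mul (s t : E) : nM s * nM t = nM (s + t) := by simp [nM, add_comm]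
omit [NumberField E] [Fr E] in
theorem upper_eq {x : E} (hx : x ≠ 0) (t y : E) : !![x, t; 0, y] = dM x y * nM (t / x) := by
  simp [dM, nM, mul_div_cancel₀ _ hx]
omit [NumberField E] [Fr E] in
theorem kX_ne {c d : E} (h : c ≠ 0 ∨ d ≠ 0) : kX c d ≠ 0 := by
  unfold kX
  split_ifs with hc
  exacts [h.resolve_left (not_not.2 hc), hc]
omit [NumberField E] [Fr E] in
theorem kX_row_ne {g : Mt E} (hg : g.det ≠ 0) : kX (g 1 0) (g 1 1) ≠ 0 := by
  refine kX_ne (by_contra fun h => hg ?_)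
  push Not at h
  rw [Matrix.det_fin_two, h.1, h.2, mul_zero, mul_zero, sub_zero]
omit [NumberField E] [Fr E] in
theorem row_mul_ne {c d : E} (h : c ≠ 0 ∨ d ≠ 0) {g : Mt E} (hg : g.det ≠ 0) :
    c * g 0 0 + d * g 1 0 ≠ 0 ∨ c * g 0 1 + d * g 1 1 ≠ 0 := by
  by_contra h'
  push Not at h'
  rw [Matrix.det_fin_two] at hg
  rcases h with h | h
  · exact mul_ne_zero h hg (by linear_combination g 1 1 * h'.1 - g 1 0 * h'.2)
  · exact mul_ne_zero h hg (by linear_combination g 0 0 * h'.2 - g 0 1 * h'.1)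
omit [NumberField E] [Fr E] in
theorem kubA_kX_of_ne {c : E} (h : c ≠ 0) (d : E) : kX c d = c := if_neg h
omit [NumberField E] [Fr E] in
theorem kubA_kX_zero (d : E) : kX 0 d = d := if_pos rfl
omit [NumberField E] [Fr E] in
theorem kubA_kX_mul {y : E} (hy : y ≠ 0) (c d : E) : kX (y * c) (y * d) = y * kX c d := by
  by_cases hc : c = 0
  · rw [hc, mul_zero, kubA_kX_zero, kubA_kX_zero]
  · rw [kubA_kX_of_ne hc, kubA_kX_of_ne (mul_ne_zero hy hc)]

theorem kb_upper {c x y : E} (hc : c ≠ 0) (hx : x ≠ 0) (hy : y ≠ 0) (d t : E) :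
    kb c d !![x, t; 0, y] = -rho c y := by
  have hcx := mul_ne_zero hc hx
  simp only [kb, Matrix.det_fin_two_of, Matrix.of_apply, Matrix.cons_val', Matrix.cons_val_zero,
    Matrix.cons_val_one, Matrix.cons_val_fin_one, mul_zero, add_zero, sub_zero, kubA_kX_zero,
    kubA_kX_of_ne hc, kubA_kX_of_ne hcx]
  rw [rho_mul_right hc hc hx, rho_mul_right hcx hx hy, rho_mul_left hc hx hx, rho_self, rho_self,
    rho_swap y c]
  ring
theorem kb_upper_zero {d x y : E} (hd : d ≠ 0) (hx : x ≠ 0) (hy : y ≠ 0) (t : E) :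
    kb 0 d !![x, t; 0, y] = rho x (d * y) := by
  have hdy := mul_ne_zero hd hy
  simp only [kb, Matrix.det_fin_two_of, Matrix.of_apply, Matrix.cons_val', Matrix.cons_val_zero,
    Matrix.cons_val_one, Matrix.cons_val_fin_one, mul_zero, zero_mul, add_zero, zero_add, sub_zero,
    kubA_kX_zero]
  rw [rho_mul_right hd hd hy, rho_mul_right hdy hx hy, rho_self, rho_swap y d, rho_swap x]
  ring
theorem kb_zero_one {g : Mt E} (hg : g.det ≠ 0) :
    kb 0 1 g = -rho (kX (g 1 0) (g 1 1)) g.det := by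
  simp only [kb, zero_mul, one_mul, zero_add, kubA_kX_zero, rho_self, rho_one_left (kX_row_ne hg),
    rho_one_right (kX_row_ne hg), add_zero, zero_sub]
theorem kB_eq {g g' : Mt E} (hg : g.det ≠ 0) (hg' : g'.det ≠ 0) :
    kB g g' = rho (kX (g 1 0) (g 1 1)) (kX ((g * g') 1 0) ((g * g') 1 1)) +
      rho (kX ((g * g') 1 0) ((g * g') 1 1)) (kX (g' 1 0) (g' 1 1)) +
      rho (kX (g' 1 0) (g' 1 1)) (kX (g 1 0) (g 1 1)) +
      rho (kX ((g * g') 1 0) ((g * g') 1 1) / kX (g 1 0) (g 1 1)) g.det := by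
  have h : (g * g').det ≠ 0 := by rw [Matrix.det_mul]; exact mul_ne_zero hg hg'
  have e : ∀ j, g 1 0 * g' 0 j + g 1 1 * g' 1 j = (g * g') 1 j := fun j => by
    rw [Matrix.mul_apply, Fin.sum_univ_two]
  rw [kB, kb_zero_one hg, kb_zero_one h, kb, e, e, Matrix.det_mul,
    rho_mul_right (kX_row_ne h) hg hg', rho_div_left (kX_row_ne h) (kX_row_ne hg) hg]
  ring
theorem kB_upper_left {x y : E} (hx : x ≠ 0) (hy : y ≠ 0) (t : E) {g : Mt E} (hg : g.det ≠ 0) :
    kB !![x, t; 0, y] g = rho (kX (g 1 0) (g 1 1)) x := by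
  have e : ∀ j, (!![x, t; 0, y] * g) 1 j = y * g 1 j := fun j => by
    simp [Matrix.mul_apply, Fin.sum_univ_two]
  have hX := kX_row_ne hg
  rw [kB_eq (by simpa using ⟨hx, hy⟩) hg, e, e, kubA_kX_mul hy]
  simp only [Matrix.det_fin_two_of, Matrix.of_apply, Matrix.cons_val', Matrix.cons_val_zero,
    Matrix.cons_val_one, Matrix.cons_val_fin_one, mul_zero, sub_zero, kubA_kX_zero]
  rw [mul_div_cancel_left₀ _ hy, rho_mul_right hy hy hX, rho_mul_left hy hX hX,
    rho_mul_right hX hx hy, rho_self, rho_self, rho_swap y]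
  ring
theorem kB_upper_right {g : Mt E} (hg : g.det ≠ 0) (h : g 1 0 ≠ 0) {x y : E} (hx : x ≠ 0)
    (hy : y ≠ 0) (t : E) :
    kB g !![x, t; 0, y] = rho (g 1 0) x + rho x y + rho x g.det := by
  have e : (g * !![x, t; 0, y]) 1 0 = g 1 0 * x := by simp [Matrix.mul_apply, Fin.sum_univ_two]
  rw [kB_eq hg (by simpa using ⟨hx, hy⟩), e, kubA_kX_of_ne h, kubA_kX_of_ne (mul_ne_zero h hx)]
  simp only [Matrix.of_apply, Matrix.cons_val', Matrix.cons_val_zero, Matrix.cons_val_one,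
    Matrix.cons_val_fin_one, kubA_kX_zero]
  rw [mul_div_cancel_left₀ _ h, rho_mul_right h h hx, rho_mul_left h hx hy, rho_self, rho_swap y]
  ring
theorem kB_nM_left (t : E) {g : Mt E} (hg : g.det ≠ 0) : kB (nM t) g = 0 := by
  rw [nM, kB_upper_left one_ne_zero one_ne_zero t hg, rho_one_right (kX_row_ne hg)]
theorem kB_nM_right {g : Mt E} (hg : g.det ≠ 0) (t : E) : kB g (nM t) = 0 := by
  by_cases h : g 1 0 = 0
  · have e0 : (g * nM t) 1 0 = g 1 0 := by simp [nM, Matrix.mul_apply, Fin.sum_univ_two]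
    have e1 : (g * nM t) 1 1 = g 1 1 := by simp [nM, Matrix.mul_apply, Fin.sum_univ_two, h]
    have e2 : kX (nM t 1 0) (nM t 1 1) = 1 := by simp [nM, kX]
    have hX := kX_row_ne hg
    rw [kB_eq hg (by rw [det_nM]; exact one_ne_zero), e0, e1, e2, div_self hX, rho_self,
      rho_one_right hX, rho_one_left hX, rho_one_left hg]
    ring
  · rw [nM, kB_upper_right hg h one_ne_zero one_ne_zero, rho_one_right h, rho_self,
      rho_one_left hg]
    ring
theorem kB_dM {x y x' y' : E} (hx : x ≠ 0) (hy : y ≠ 0) (hx' : x' ≠ 0) (hy' : y' ≠ 0) :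
    kB (dM x y) (dM x' y') = rho y' x := by
  rw [dM, kB_upper_left hx hy 0 (by rw [det_dM]; exact mul_ne_zero hx' hy')]
  simp [dM, kX]

theorem ac_apply (F : E → E → ℂ) {g : Mt E} (hg : g.det ≠ 0) (c d : E) :
    ac F g (c * g 0 0 + d * g 1 0) (c * g 0 1 + d * g 1 1) = chi (kb c d g) * F c d :=
  sl_apply (fun c d => chi (kb c d g) * F c d) hg c d
theorem ac_zero_zero {F : E → E → ℂ} (h : F 0 0 = 0) (g : Mt E) : ac F g 0 0 = 0 := by
  simp [ac, sl, h]
theorem norm_ac (F : E → E → ℂ) (g : Mt E) (c d : E) : ‖ac F g c d‖ = ‖sl F g c d‖ := by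
  simp only [ac, sl, norm_mul, norm_chi, one_mul]
theorem ac_const_mul (F : E → E → ℂ) (a : ℂ) (g : Mt E) :
    ac (fun c d => a * F c d) g = fun c d => a * ac F g c d := by
  funext c d
  simp only [ac, sl]
  ring
theorem ac_add (F F' : E → E → ℂ) (g : Mt E) :
    ac (fun c d => F c d + F' c d) g = fun c d => ac F g c d + ac F' g c d := by
  funext c d
  simp only [ac, sl]
  ring
theorem ac_sum {α : Type} (s : Finset α) (F : α → E → E → ℂ) (g : Mt E) :
    ac (fun c d => ∑ i ∈ s, F i c d) g = fun c d => ∑ i ∈ s, ac (F i) g c d := by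
  funext c d
  simp only [ac, sl, Finset.mul_sum]
theorem ac_upper (F : E → E → ℂ) {c x y : E} (hc : c ≠ 0) (hx : x ≠ 0) (hy : y ≠ 0) (d t : E) :
    ac F !![x, t; 0, y] c d = chi (-rho (c / x) y) * F (c / x) ((d - c * t / x) / y) := by
  rw [ac, sl_upper _ hx hy, kb_upper (div_ne_zero hc hx) hx hy]
theorem ac_upper_zero {F : E → E → ℂ} (h : F 0 0 = 0) {x y : E} (hx : x ≠ 0) (hy : y ≠ 0)
    (d t : E) : ac F !![x, t; 0, y] 0 d = chi (rho x d) * F 0 (d / y) := by
  rw [ac, sl_upper _ hx hy, zero_div, zero_mul, zero_div, sub_zero]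
  rcases eq_or_ne d 0 with rfl | hd
  · rw [zero_div, h, mul_zero, mul_zero]
  · rw [kb_upper_zero (div_ne_zero hd hy) hx hy, div_mul_cancel₀ _ hy]
theorem ac_nM {F : E → E → ℂ} (h : F 0 0 = 0) (t c d : E) : ac F (nM t) c d = F c (d - c * t) := by
  rcases eq_or_ne c 0 with rfl | hc
  · rw [nM, ac_upper_zero h one_ne_zero one_ne_zero, div_one, zero_mul, sub_zero]
    rcases eq_or_ne d 0 with rfl | hd
    · rw [h, mul_zero]
    · rw [rho_one_left hd, chi_zero, one_mul]
  · rw [nM, ac_upper F hc one_ne_zero one_ne_zero, div_one, div_one, div_one, rho_one_right hc,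
      neg_zero, chi_zero, one_mul]
theorem ac_one {F : E → E → ℂ} (h : F 0 0 = 0) : ac F 1 = F := by
  funext c d
  rw [show (1 : Mt E) = nM 0 from Matrix.one_fin_two, ac_nM h, mul_zero, sub_zero]
theorem ac_dM_cube {F : E → E → ℂ} (h : F 0 0 = 0) {x y : E} (hx : x ≠ 0) (hy : y ≠ 0) (c d : E) :
    ac F (dM (x ^ 3) (y ^ 3)) c d = F (c / x ^ 3) (d / y ^ 3) := by
  have hx' := pow_ne_zero 3 hx
  have hy' := pow_ne_zero 3 hy
  rcases eq_or_ne c 0 with rfl | hc
  · rw [dM, ac_upper_zero h hx' hy', zero_div]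
    rcases eq_or_ne d 0 with rfl | hd
    · rw [zero_div, h, mul_zero]
    · rw [rho_cube_left hx hd, chi_zero, one_mul]
  · rw [dM, ac_upper F hc hx' hy', rho_cube_right (div_ne_zero hc hx') hy, neg_zero, chi_zero,
      one_mul, mul_zero, zero_div, sub_zero]

/-! ## part B: the cocycle identity -/

/-- Write `X` for `kX`.  Call `g'` good if `kb v g + kb (v g) g' - kb v (g g')` does not depend on
`v ≠ 0`, for all invertible `g` (its value at `v = (0, 1)` is `kB g g'`).  Good matrices are closed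
under products (apply the hypothesis for `g''` twice: with `g := g'`, row `v g`, and with
`g := g g'`).  Upper triangular matrices are good (`X (v g')` is `X v · x` or `X v · y`; cases
`(v g)₀ = 0`, `g₁₀ = 0`).  `wM` is good: with `v g = (c', d')`, `g = (a₀ b₀; c₀ d₀)` one has
`d₀ c' - c₀ d' = c det g`, and in the generic case the identity is the Steinberg relation
`rho (d₀ c' / (c det g)) (-c₀ d' / (c det g)) = 0` expanded by bilinearity; the cases in which one
of `c, c', d', c₀, d₀` vanishes only use bilinearity, `rho_self`, `rho_swap`, `rho_neg_*`.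
Every invertible matrix is upper triangular or `nM s * wM * (upper triangular)`.
(Tested numerically, including all degenerate cases.) -/
theorem kb_cocycle {c d : E} (h : c ≠ 0 ∨ d ≠ 0) {g g' : Mt E} (hg : g.det ≠ 0)
    (hg' : g'.det ≠ 0) :
    kb c d g + kb (c * g 0 0 + d * g 1 0) (c * g 0 1 + d * g 1 1) g' = kb c d (g * g') + kB g g' := by
  exact KubB.cocycle h hg hg'

/-! ## part C: consequences -/

omit [NumberField E] [Fr E] in
private theorem kubC_row {g : Mt E} (hg : g.det ≠ 0) (c d : E) :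
    ∃ c₀ d₀ : E, c = c₀ * g 0 0 + d₀ * g 1 0 ∧ d = c₀ * g 0 1 + d₀ * g 1 1 := by
  refine ⟨(c * g 1 1 - d * g 1 0) / g.det, (d * g 0 0 - c * g 0 1) / g.det, ?_, ?_⟩ <;>
    rw [div_mul_eq_mul_div, div_mul_eq_mul_div, ← add_div, eq_div_iff hg, Matrix.det_fin_two] <;>
    ring
/-- Every row is `v g g'` (`ac_apply`, `kb_cocycle`). -/
theorem ac_ac {F : E → E → ℂ} (h : F 0 0 = 0) {g g' : Mt E} (hg : g.det ≠ 0) (hg' : g'.det ≠ 0) :
    ac (ac F g) g' = fun c d => chi (kB g g') * ac F (g * g') c d := by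
  funext c d
  have hgg : (g * g').det ≠ 0 := by rw [Matrix.det_mul]; exact mul_ne_zero hg hg'
  obtain ⟨c₀, d₀, rfl, rfl⟩ := kubC_row hgg c d
  have e : ∀ j, c₀ * (g * g') 0 j + d₀ * (g * g') 1 j =
      (c₀ * g 0 0 + d₀ * g 1 0) * g' 0 j + (c₀ * g 0 1 + d₀ * g 1 1) * g' 1 j := fun j => by
    simp only [Matrix.mul_apply, Fin.sum_univ_two]
    ring
  rw [ac_apply F hgg, e, e, ac_apply _ hg', ac_apply F hg]
  by_cases h0 : c₀ ≠ 0 ∨ d₀ ≠ 0
  · rw [← mul_assoc, ← mul_assoc, ← chi_add, ← chi_add, add_comm, kb_cocycle h0 hg hg', add_comm]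
  · obtain ⟨rfl, rfl⟩ : c₀ = 0 ∧ d₀ = 0 := by simpa using h0
    rw [h, mul_zero, mul_zero, mul_zero, mul_zero]
theorem ac_mul {F : E → E → ℂ} (h : F 0 0 = 0) {g g' : Mt E} (hg : g.det ≠ 0) (hg' : g'.det ≠ 0) :
    ac F (g * g') = fun c d => chi (-kB g g') * ac (ac F g) g' c d := by
  funext c d
  rw [ac_ac h hg hg', ← mul_assoc, ← chi_add, neg_add_cancel, chi_zero, one_mul]
theorem ac_nM_mul {F : E → E → ℂ} (h : F 0 0 = 0) (t : E) {g : Mt E} (hg : g.det ≠ 0) :
    ac F (nM t * g) = ac (ac F (nM t)) g := by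
  rw [ac_ac h (by rw [det_nM]; exact one_ne_zero) hg, kB_nM_left t hg]
  simp only [chi_zero, one_mul]
theorem ac_mul_nM {F : E → E → ℂ} (h : F 0 0 = 0) {g : Mt E} (hg : g.det ≠ 0) (t : E) :
    ac F (g * nM t) = ac (ac F g) (nM t) := by
  rw [ac_ac h hg (by rw [det_nM]; exact one_ne_zero), kB_nM_right hg t]
  simp only [chi_zero, one_mul]
theorem ac_dM_dM {F : E → E → ℂ} (h : F 0 0 = 0) {x y x' y' : E} (hx : x ≠ 0) (hy : y ≠ 0)
    (hx' : x' ≠ 0) (hy' : y' ≠ 0) : ac (ac F (dM x y)) (dM x' y') =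
      fun c d => chi (rho y' x) * ac F (dM (x * x') (y * y')) c d := by
  rw [ac_ac h (by rw [det_dM]; exact mul_ne_zero hx hy) (by rw [det_dM]; exact mul_ne_zero hx' hy'),
    kB_dM hx hy hx' hy', dM_mul]
/-- Cubes of scalars commute with everything. -/
theorem ac_central {F : E → E → ℂ} (h : F 0 0 = 0) {x : E} (hx : x ≠ 0) {g : Mt E}
    (hg : g.det ≠ 0) :
    ac (ac F (dM (x ^ 3) (x ^ 3))) g = ac (ac F g) (dM (x ^ 3) (x ^ 3)) := by
  have hx' := pow_ne_zero 3 hx
  have hz : (dM (x ^ 3) (x ^ 3)).det ≠ 0 := by rw [det_dM]; exact mul_ne_zero hx' hx'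
  have hX := kX_row_ne hg
  have e1 : dM (x ^ 3) (x ^ 3) * g = g * dM (x ^ 3) (x ^ 3) := by
    ext i j
    fin_cases i <;> fin_cases j <;> simp [dM, Matrix.mul_apply, Fin.sum_univ_two, mul_comm]
  have e2 : kX ((g * dM (x ^ 3) (x ^ 3)) 1 0) ((g * dM (x ^ 3) (x ^ 3)) 1 1) =
      kX (g 1 0) (g 1 1) * x ^ 3 := by
    by_cases h0 : g 1 0 = 0 <;> simp [kX, dM, Matrix.mul_apply, Fin.sum_univ_two, h0, hx]
  have e3 : kX (dM (x ^ 3) (x ^ 3) 1 0) (dM (x ^ 3) (x ^ 3) 1 1) = x ^ 3 := by simp [kX, dM]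
  have k1 : kB (dM (x ^ 3) (x ^ 3)) g = 0 := by
    rw [dM, kB_upper_left hx' hx' 0 hg, rho_cube_right hX hx]
  have k2 : kB g (dM (x ^ 3) (x ^ 3)) = 0 := by
    rw [kB_eq hg hz, e2, e3, rho_mul_right hX hX hx', rho_self, rho_cube_right hX hx,
      rho_cube_right (mul_ne_zero hX hx') hx, rho_cube_left hx hX, mul_div_cancel_left₀ _ hX,
      rho_cube_left hx hg]
    simp
  rw [ac_ac h hz hg, ac_ac h hg hz, k1, k2, e1]
theorem Cop_Cop {F : E → E → ℂ} (h : F 0 0 = 0) {x y : E} (hx : x ≠ 0) (hy : y ≠ 0) :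
    Cop y (Cop x F) = fun c d => chi (rho x y) * Cop (x * y) F c d := by
  have hx2 := pow_ne_zero 2 hx
  have e : rho y⁻¹ (x ^ 2)⁻¹ = rho x y := by
    rw [rho_inv_left hy (inv_ne_zero hx2), rho_inv_right hy hx2, neg_neg, rho_pow_right hy hx,
      rho_swap y x]
    generalize rho x y = a
    revert a
    decide
  funext c d
  rw [Cop, show Cop x F = fun c d => ((absS x ^ (5 / 3 : ℝ) : ℝ) : ℂ) *
      ac F (dM (x ^ 2)⁻¹ x⁻¹) c d from rfl, ac_const_mul,
    ac_dM_dM h (inv_ne_zero hx2) (inv_ne_zero hx) (inv_ne_zero (pow_ne_zero 2 hy)) (inv_ne_zero hy),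
    e, Cop, absS_mul hx hy, Real.mul_rpow (absS_pos x).le (absS_pos y).le, mul_pow, mul_inv, mul_inv]
  push_cast
  ring
theorem Cop_one {F : E → E → ℂ} (h : F 0 0 = 0) : Cop 1 F = F := by
  funext c d
  rw [Cop, absS_one, Real.one_rpow, one_pow, inv_one,
    show dM (1 : E) 1 = 1 from Matrix.one_fin_two.symm, ac_one h, Complex.ofReal_one, one_mul]
theorem Cop_const_mul (x : E) (F : E → E → ℂ) (a : ℂ) :
    Cop x (fun c d => a * F c d) = fun c d => a * Cop x F c d := by
  funext c d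
  simp only [Cop, ac_const_mul]
  ring
/-- The matrix of the Voronoi formula: `(a x; D δ) = nM (a / D) * wM * dM D D⁻¹ * nM (δ / D)`. -/
theorem ac_voronoi {F : E → E → ℂ} (h : F 0 0 = 0) {a x D δ : E} (hD : D ≠ 0)
    (hdet : a * δ - x * D = 1) :
    ac F !![a, x; D, δ] = ac (dualF (ac F (nM (a / D))) D) (nM (δ / D)) := by
  have hD' := inv_ne_zero hD
  have hw : (wM E).det ≠ 0 := by rw [det_wM]; exact one_ne_zero
  have hd : (dM D D⁻¹).det ≠ 0 := by rw [det_dM]; exact mul_ne_zero hD hD'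
  have hwd : (wM E * dM D D⁻¹).det ≠ 0 := by rw [Matrix.det_mul]; exact mul_ne_zero hw hd
  have e : !![a, x; D, δ] = nM (a / D) * (wM E * dM D D⁻¹) * nM (δ / D) := by
    ext i j
    fin_cases i <;> fin_cases j <;> simp [nM, wM, dM, Matrix.mul_apply, Fin.sum_univ_two, hD]
    · field_simp
      linear_combination -hdet
    · field_simp
  have k : kB (wM E) (dM D D⁻¹) = 0 := by
    have h1 : wM E 1 0 = 1 := rfl
    rw [dM, kB_upper_right hw (by rw [h1]; exact one_ne_zero) hD hD', h1, det_wM, rho_one_left hD,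
      rho_inv_right hD hD, rho_self, rho_one_right hD]
    simp
  rw [e, ac_mul_nM h (by rw [Matrix.det_mul, det_nM, one_mul]; exact hwd), ac_nM_mul h _ hwd, dualF,
    ac_ac (ac_zero_zero h _) hw hd, k]
  simp only [chi_zero, one_mul]

end Crest.Agent.R312
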