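import Crest.Agent.R312.ThNorm
import Crest.Agent.R17.ThetaLimAuxB

/-!
# Row 312: theta module H: the theta function (port of `R17/ThetaLim*.lean`)
-/

set_option autoImplicit false

noncomputable section

namespace Crest.Agent.R312

open NumberField
open scoped ComplexConjugate

open MeasureTheory Filter Topology
open scoped ENNReal
open Crest.Agent.R17 (H actC Qf μH Fk Mk IsWt W0 U1)

variable {E : Type} [Field E] [NumberField E] [Om E]

/-! ## part A: the coefficients -/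

theorem limA_enorm_add_sq (u v : ℂ) : ‖u + v‖ₑ ^ 2 ≤ 2 * ‖u‖ₑ ^ 2 + 2 * ‖v‖ₑ ^ 2 := by
  have h : ‖u + v‖₊ ^ 2 ≤ 2 * ‖u‖₊ ^ 2 + 2 * ‖v‖₊ ^ 2 := by
    rw [← NNReal.coe_le_coe]
    push_cast
    have h1 := norm_add_le u v
    have h2 := norm_nonneg (u + v)
    nlinarith [sq_nonneg (‖u‖ - ‖v‖)]
  simp only [enorm_eq_nnnorm]
  exact_mod_cast h

theorem limA_volume_bx (a : Pl E → ℝ) : volume (bx a) = 1 := by
  simp [bx, Real.volume_Icc_pi]

theorem limA_measurableSet_bx (a : Pl E → ℝ) : MeasurableSet (bx a) := measurableSet_Icc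

/-- Splitting off a bounded term. -/
theorem limA_add_le {u v w : (Pl E → ℝ) → ℂ} (a : Pl E → ℝ) {c : ℂ} {e : ℝ}
    (h : ∀ y, u y = v y + c * w y) (hv : ∀ y ∈ bx a, ‖v y‖ ≤ e) :
    ∫⁻ y in bx a, ‖u y‖ₑ ^ 2 ≤
      2 * ENNReal.ofReal e ^ 2 + 2 * ‖c‖ₑ ^ 2 * ∫⁻ y in bx a, ‖w y‖ₑ ^ 2 := by
  calc ∫⁻ y in bx a, ‖u y‖ₑ ^ 2
      ≤ ∫⁻ y in bx a, (2 * ENNReal.ofReal e ^ 2 + 2 * ‖c‖ₑ ^ 2 * ‖w y‖ₑ ^ 2) := by
        refine setLIntegral_mono' (limA_measurableSet_bx a) fun y hy => ?_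
        rw [h y]
        refine (limA_enorm_add_sq _ _).trans ?_
        rw [enorm_mul, mul_pow, ← mul_assoc]
        gcongr
        rw [← ofReal_norm]
        exact ENNReal.ofReal_le_ofReal (hv y hy)
    _ = _ := by
        rw [lintegral_add_left measurable_const, setLIntegral_const,
          lintegral_const_mul' _ _ (by finiteness), limA_volume_bx, mul_one]

theorem limA_comb {α : Type} {l : Filter α} {e : α → ℝ} {u : α → ℝ≥0∞} {d : ℝ≥0∞}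
    (hd : d ≠ ⊤) (he : Tendsto e l (𝓝 0)) (hu : Tendsto u l (𝓝 0)) :
    Tendsto (fun x => 2 * ENNReal.ofReal (e x) ^ 2 + d * u x) l (𝓝 0) := by
  have h1 : Tendsto (fun x => ENNReal.ofReal (e x) ^ 2) l (𝓝 0) := by
    simpa using ENNReal.Tendsto.pow (n := 2) (ENNReal.tendsto_ofReal he)
  simpa using (ENNReal.Tendsto.const_mul (a := 2) h1 (Or.inr (by simp))).add
    (ENNReal.Tendsto.const_mul hu (Or.inr hd))

theorem limA_ne : (2 * Real.pi : ℂ) ^ rk E ≠ 0 :=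
  pow_ne_zero _ (mul_ne_zero two_ne_zero (Complex.ofReal_ne_zero.2 Real.pi_ne_zero))

/-- The contribution of `c = 0` is small on a box. -/
theorem limA_E0 {ξ : E → E → ℂ} (h : Adm ξ) (a : Pl E → ℝ) : ∃ e : (Pl E → ℝ) → ℝ,
    Tendsto e (lB E) (𝓝 0) ∧ ∀ η ν, ∀ v ∈ bx a,
      ‖Acoef ξ η ν v - (2 * Real.pi : ℂ) ^ rk E * Sk (Gx ξ ν) (kF v (bb ν)) η‖ ≤ e η := by
  obtain ⟨C, hC⟩ := h.norm_E0_le
  refine ⟨fun η => |C| * Real.exp (∑ σ, (a + 1) σ) * Real.exp ((∑ σ, η σ) / 3), ?_,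
    fun η ν v hv => ?_⟩
  · have h1 : Tendsto (fun η : Pl E → ℝ => (∑ σ, η σ) / 3) (lB E) atBot :=
      Tendsto.atBot_div_const (by norm_num) tendsto_comap
    simpa using (Real.tendsto_exp_atBot.comp h1).const_mul (|C| * Real.exp (∑ σ, (a + 1) σ))
  · rw [Acoef, add_sub_cancel_right]
    beta_reduce
    split_ifs
    · refine (hC η v).trans ?_
      rw [mul_assoc, ← Real.exp_add]
      refine mul_le_mul (le_abs_self _) (Real.exp_le_exp.2 ?_) (Real.exp_pos _).le (abs_nonneg _)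
      have := Finset.sum_le_sum fun σ (_ : σ ∈ Finset.univ) => hv.2 σ
      linarith
    · rw [norm_zero]
      positivity

/-- The strips of `thY ξ η` and of the differences. -/
theorem limA_strip {ξ : E → E → ℂ} (h : Adm ξ) : ∃ C : ℝ, 0 < C ∧ ∀ (a : Pl E → ℝ) (ν : E),
    (∀ η, ∫⁻ v in bx a, ‖Acoef ξ η ν v‖ₑ ^ 2 ≤
      ENNReal.ofReal (C * (1 + Real.exp (2 * ∑ σ, a σ))) * N2 (Stab ξ) (thY ξ η)) ∧
    ∀ η η', ∫⁻ v in bx a, ‖Acoef ξ η ν v - Acoef ξ η' ν v‖ₑ ^ 2 ≤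
      ENNReal.ofReal (C * (1 + Real.exp (2 * ∑ σ, a σ))) * N2 (Stab ξ) (thY ξ η - thY ξ η') := by
  obtain ⟨C, hC, H⟩ := strip_le_N2 h.fin
  have hf : ∀ η, FExp (Lg (Stab ξ) 1) (thY ξ η) (Acoef ξ η) := fun η =>
    h.fexp (by rw [Lg_one]; exact fun t ht => ht.2) η
  refine ⟨C, hC, fun a ν => ⟨fun η => ?_, fun η η' => ?_⟩⟩
  · exact (ENNReal.le_tsum (f := fun ν => ∫⁻ v in bx a, ‖Acoef ξ η ν v‖ₑ ^ 2) ν).trans
      (H _ _ a (hf η) fun γ hγ w => thY_aut hγ η w)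
  · refine (ENNReal.le_tsum
      (f := fun ν => ∫⁻ v in bx a, ‖Acoef ξ η ν v - Acoef ξ η' ν v‖ₑ ^ 2) ν).trans
      (H _ _ a ((hf η).sub (hf η')) fun γ hγ w => ?_)
    rw [Pi.sub_apply, Pi.sub_apply, thY_aut hγ, thY_aut hγ]

theorem limA_cauchy {ξ : E → E → ℂ} (h : Adm ξ) (hc : CT ξ) (ν : E) (a : Pl E → ℝ) :
    Tendsto (fun p : (Pl E → ℝ) × (Pl E → ℝ) => ∫⁻ v in bx a,
      ‖Sk (Gx ξ ν) (kF v (bb ν)) p.1 - Sk (Gx ξ ν) (kF v (bb ν)) p.2‖ₑ ^ 2)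
      (lB E ×ˢ lB E) (𝓝 0) := by
  obtain ⟨C, -, H⟩ := limA_strip h
  obtain ⟨e, he, hE⟩ := limA_E0 h a
  set k : ℂ := (2 * Real.pi : ℂ) ^ rk E with hk
  have hk0 : k ≠ 0 := limA_ne
  have he2 : Tendsto (fun p : (Pl E → ℝ) × (Pl E → ℝ) => ‖k⁻¹‖ * (e p.2 + e p.1))
      (lB E ×ˢ lB E) (𝓝 0) := by
    simpa using ((he.comp tendsto_snd).add (he.comp tendsto_fst)).const_mul ‖k⁻¹‖
  have h1 := limA_comb (d := 2 * ‖k⁻¹‖ₑ ^ 2 * ENNReal.ofReal (C * (1 + Real.exp (2 * ∑ σ, a σ))))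
    (by finiteness) he2 (h.N2_cauchy hc)
  refine tendsto_of_tendsto_of_tendsto_of_le_of_le tendsto_const_nhds h1
    (fun _ => zero_le) fun p => ?_
  refine (limA_add_le a (c := k⁻¹)
    (v := fun v => k⁻¹ * ((Acoef ξ p.2 ν v - k * Sk (Gx ξ ν) (kF v (bb ν)) p.2) -
      (Acoef ξ p.1 ν v - k * Sk (Gx ξ ν) (kF v (bb ν)) p.1)))
    (w := fun v => Acoef ξ p.1 ν v - Acoef ξ p.2 ν v)
    (e := ‖k⁻¹‖ * (e p.2 + e p.1)) (fun v => ?_) fun v hv => ?_).trans ?_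
  · field_simp
    ring
  · rw [norm_mul]
    exact mul_le_mul_of_nonneg_left ((norm_sub_le _ _).trans
      (add_le_add (hE _ _ v hv) (hE _ _ v hv))) (norm_nonneg _)
  · rw [mul_assoc (2 * ‖k⁻¹‖ₑ ^ 2)]
    exact add_le_add le_rfl (mul_le_mul_right ((H a ν).2 p.1 p.2) _)

theorem limA_eq {ξ : E → E → ℂ} (h : Adm ξ) {ν : E} {t : ℂ} (ht : WD (Gx ξ ν) t) :
    tt ξ ν = (2 * Real.pi : ℂ) ^ rk E * t := by
  rw [tt, WD.unique (h.polyG ν) (Classical.epsilon_spec ⟨t, ht⟩) ht]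

/-- From `Adm.N2_cauchy`, `strip_le_N2`, `Adm.norm_E0_le`, `exists_wd_of_cauchy`, `WD.unique`. -/
theorem tt_spec {ξ : E → E → ℂ} (h : Adm ξ) (hc : CT ξ) (ν : E) :
    WD (Gx ξ ν) (tt ξ ν / (2 * Real.pi : ℂ) ^ rk E) ∧ ∀ a : Pl E → ℝ,
      Tendsto (fun η => ∫⁻ v in bx a, ‖Acoef ξ η ν v - tt ξ ν * (MkE v (bb ν) : ℂ)‖ₑ ^ 2)
        (lB E) (𝓝 0) := by
  obtain ⟨t, ht, H⟩ := exists_wd_of_cauchy (h.polyG ν) (bb_nonneg ν) (limA_cauchy h hc ν)
  have h1 := limA_eq h ht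
  refine ⟨by rwa [h1, mul_div_cancel_left₀ _ limA_ne], fun a => ?_⟩
  obtain ⟨e, he, hE⟩ := limA_E0 h a
  have h2 := limA_comb (d := 2 * ‖(2 * Real.pi : ℂ) ^ rk E‖ₑ ^ 2) (by finiteness) he (H a)
  refine tendsto_of_tendsto_of_tendsto_of_le_of_le tendsto_const_nhds h2
    (fun _ => zero_le) fun η => ?_
  refine limA_add_le a (fun v => ?_) (hE η ν)
  rw [h1]
  ring
theorem tt_eq_of_wd {ξ : E → E → ℂ} (h : Adm ξ) {ν : E} {t : ℂ} (ht : WD (Gx ξ ν) t) :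
    tt ξ ν = (2 * Real.pi : ℂ) ^ rk E * t := limA_eq h ht
theorem tt_eq_zero {ξ : E → E → ℂ} (h : Adm ξ) {t ν : E} (ht : ∀ c d, ξ c (d + c * t) = ξ c d)
    (hν : eT (ν * t) ≠ 1) : tt ξ ν = 0 := by
  have h1 : Gx ξ ν = fun _ => 0 := funext (h.Gx_eq_zero ht hν)
  rw [tt_eq_of_wd h (t := 0) (by rw [h1]; exact wd_zero), mul_zero]
theorem tt_const_mul {ξ : E → E → ℂ} (h : Adm ξ) (hc : CT ξ) (a : ℂ) (ν : E) :
    tt (fun c d => a * ξ c d) ν = a * tt ξ ν := by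
  have h1 : Gx (fun c d => a * ξ c d) ν = fun c => a * Gx ξ ν c := funext (Gx_const_mul h a ν)
  rw [tt_eq_of_wd (h.const_mul a) (by rw [h1]; exact (tt_spec h hc ν).1.const_mul a),
    mul_left_comm, mul_div_cancel₀ _ limA_ne]
theorem tt_add {ξ ξ' : E → E → ℂ} (h : Adm ξ) (h' : Adm ξ') (hc : CT ξ) (hc' : CT ξ') (ν : E) :
    tt (fun c d => ξ c d + ξ' c d) ν = tt ξ ν + tt ξ' ν := by
  have h1 : Gx (fun c d => ξ c d + ξ' c d) ν = fun c => Gx ξ ν c + Gx ξ' ν c :=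
    funext (Gx_add h h' ν)
  rw [tt_eq_of_wd (h.add h') (by
      rw [h1]; exact WD.add (h.polyG ν) (h'.polyG ν) (tt_spec h hc ν).1 (tt_spec h' hc' ν).1),
    mul_add, mul_div_cancel₀ _ limA_ne, mul_div_cancel₀ _ limA_ne]
theorem tt_sum {α : Type} (s : Finset α) {ξ : α → E → E → ℂ} (h : ∀ i ∈ s, Adm (ξ i))
    (hc : ∀ i ∈ s, CT (ξ i)) (ν : E) :
    tt (fun c d => ∑ i ∈ s, ξ i c d) ν = ∑ i ∈ s, tt (ξ i) ν := by
  classical
  induction s using Finset.induction_on with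
  | empty =>
    have h1 : Gx (fun _ _ : E => (0 : ℂ)) ν = fun _ => 0 := by
      funext c
      simp [Gx]
    simp only [Finset.sum_empty]
    rw [tt_eq_of_wd adm_zero (t := 0) (by rw [h1]; exact wd_zero), mul_zero]
  | insert a s ha ih =>
    have h1 : ∀ i ∈ s, Adm (ξ i) := fun i hi => h i (Finset.mem_insert_of_mem hi)
    have h2 : ∀ i ∈ s, CT (ξ i) := fun i hi => hc i (Finset.mem_insert_of_mem hi)
    simp only [Finset.sum_insert ha]
    rw [tt_add (h a (Finset.mem_insert_self _ _)) (Adm.sum s h1) (hc a (Finset.mem_insert_self _ _))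
      (CT.sum s h1 h2), ih h1 h2]
theorem tt_upper {ξ : E → E → ℂ} (h : Adm ξ) (hc : CT ξ) {a d : E} (ha : a ≠ 0) (hd : d ≠ 0)
    (b ν : E) : tt (sl ξ !![a, b; 0, d]) (ν * a / d) =
      ((nr a ^ (-(1 / 3 : ℝ)) / nr d : ℝ) : ℂ) * eT (ν * b / d) * tt ξ ν := by
  set k : ℂ := ((nr a / nr d : ℝ) : ℂ) * eT (ν * b / d) with hk
  have h1 : Gx (fun c d => k * ξ c d) ν = fun c => k * Gx ξ ν c := funext (Gx_const_mul h k ν)
  have h2 : PolyG fun c => k * Gx ξ ν c := by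
    rw [← h1]
    exact (h.const_mul k).polyG ν
  have hdet : (!![a, b; 0, d] : Mt E).det ≠ 0 := by
    rw [Matrix.det_fin_two_of, mul_zero, sub_zero]
    exact mul_ne_zero ha hd
  have h3 := WD.dilate h2 ((tt_spec h hc ν).1.const_mul k) ha (Gx_upper h ha hd b ν)
  have h4 : nr a ^ (-(1 / 3 : ℝ)) = nr a ^ (-(4 / 3 : ℝ)) * nr a := by
    rw [← Real.rpow_add_one (nr_pos ha).ne']
    norm_num
  rw [tt_eq_of_wd (h.sl hdet) h3, mul_left_comm, mul_left_comm _ k, mul_div_cancel₀ _ limA_ne, hk,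
    h4, mul_div_assoc (nr a ^ (-(4 / 3 : ℝ))), Complex.ofReal_mul]
  ring
theorem tt_zero {ξ : E → E → ℂ} (h : Adm ξ) {L : ℂ} (hL : Tendsto (P0 ξ) (lB E) (𝓝 L)) :
    tt ξ 0 * (W0 0 : ℂ) ^ rk E = (2 * Real.pi : ℂ) ^ rk E * L := by
  have hW : (W0 0 : ℂ) ^ rk E ≠ 0 :=
    pow_ne_zero _ (Complex.ofReal_ne_zero.2 (R17.W0_pos le_rfl).ne')
  have h1 : WD (Gx ξ 0) (L / (W0 0 : ℂ) ^ rk E) := by
    refine ⟨kF 0 0, KC_kF 0 fun _ => le_rfl, ?_⟩
    rw [Mo_kF 0 (b := 0) fun _ => le_rfl, MkE_zero]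
    have h2 : Sk (Gx ξ 0) (kF 0 0) = P0 ξ := by
      funext η
      rw [Sk_zero_eq]
      simp
    rw [h2]
    convert hL using 2
    simp only [Pi.zero_apply, Finset.sum_const_zero, mul_zero, Real.exp_zero, one_mul,
      Complex.ofReal_pow]
    exact div_mul_cancel₀ _ hW
  rw [tt_eq_of_wd h h1, mul_assoc, div_mul_cancel₀ _ hW]

theorem limA_support {ξ : E → E → ℂ} (h : Adm ξ) :
    ∃ D : ℕ, D ≠ 0 ∧ ∀ ν, tt ξ ν ≠ 0 → IsIntegral ℤ ((D : E) * ν) := by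
  obtain ⟨D, hD, H⟩ := h.isLat_Lx.dual
  refine ⟨D, hD, fun ν hν => H ν fun t ht => ?_⟩
  by_contra h1
  exact hν (tt_eq_zero h ht.2 h1)

/-- A bound for the strips gives a bound for the coefficient. -/
theorem limA_key {ξ : E → E → ℂ} (h : Adm ξ) (hc : CT ξ) (ν : E) (a : Pl E → ℝ) {c : ℝ}
    (hc0 : 0 ≤ c) (hM : ∀ v ∈ bx a, c ≤ MkE v (bb ν)) {u : (Pl E → ℝ) → ℝ≥0∞} {B : ℝ≥0∞}
    (hu : Tendsto u (lB E) (𝓝 B)) (hB : ∀ᶠ η in lB E, ∫⁻ v in bx a, ‖Acoef ξ η ν v‖ₑ ^ 2 ≤ u η) :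
    ENNReal.ofReal ((‖tt ξ ν‖ * c) ^ 2) ≤ 2 * B := by
  have h1 := (ENNReal.Tendsto.const_mul (a := 2) hu (Or.inr (by simp))).add
    (ENNReal.Tendsto.const_mul (a := 2) ((tt_spec h hc ν).2 a) (Or.inr (by simp)))
  rw [mul_zero, add_zero] at h1
  refine ge_of_tendsto h1 ?_
  filter_upwards [hB] with η hη
  have hm : Measurable fun v => 2 * ‖Acoef ξ η ν v‖ₑ ^ 2 :=
    ((measurable_Acoef _ _ _).enorm.pow_const 2).const_mul 2
  calc ENNReal.ofReal ((‖tt ξ ν‖ * c) ^ 2)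
      = ∫⁻ _ in bx a, ENNReal.ofReal ((‖tt ξ ν‖ * c) ^ 2) := by
        rw [setLIntegral_const, limA_volume_bx, mul_one]
    _ ≤ ∫⁻ v in bx a, (2 * ‖Acoef ξ η ν v‖ₑ ^ 2 +
          2 * ‖Acoef ξ η ν v - tt ξ ν * (MkE v (bb ν) : ℂ)‖ₑ ^ 2) := by
        refine setLIntegral_mono' (limA_measurableSet_bx a) fun v hv => ?_
        have h2 := limA_enorm_add_sq (Acoef ξ η ν v)
          (-(Acoef ξ η ν v - tt ξ ν * (MkE v (bb ν) : ℂ)))
        rw [enorm_neg, ← sub_eq_add_neg, sub_sub_cancel] at h2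
        refine le_trans ?_ h2
        rw [← ofReal_norm, ← ENNReal.ofReal_pow (norm_nonneg _)]
        refine ENNReal.ofReal_le_ofReal (pow_le_pow_left₀ (by positivity) ?_ 2)
        rw [norm_mul, Complex.norm_real]
        exact mul_le_mul_of_nonneg_left ((hM v hv).trans (le_abs_self _)) (norm_nonneg _)
    _ = 2 * (∫⁻ v in bx a, ‖Acoef ξ η ν v‖ₑ ^ 2) +
          2 * ∫⁻ v in bx a, ‖Acoef ξ η ν v - tt ξ ν * (MkE v (bb ν) : ℂ)‖ₑ ^ 2 := by
        rw [lintegral_add_left hm, lintegral_const_mul' _ _ (by simp),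
          lintegral_const_mul' _ _ (by simp)]
    _ ≤ _ := add_le_add (mul_le_mul_right hη _) le_rfl

/-- The `L²` bound (take `a = -lg ν / 2` in `strip_le_N2`, `le_MkE`). -/
theorem norm_tt_le {ξ : E → E → ℂ} (h : Adm ξ) (hc : CT ξ) :
    ∃ C : ℝ, ∀ ν : E, ν ≠ 0 → ‖tt ξ ν‖ ≤ C * nr ν ^ (1 / 3 : ℝ) := by
  obtain ⟨C, hC, H⟩ := limA_strip h
  obtain ⟨B, hB⟩ := h.N2_le hc
  obtain ⟨D, hD, hS⟩ := limA_support h
  obtain ⟨c, hc0, hM⟩ := le_MkE (E := E)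
  have hD' : (D : E) ≠ 0 := Nat.cast_ne_zero.2 hD
  have hD0 := nr_pos hD'
  refine ⟨Real.sqrt (2 * (C * (1 + nr (D : E)) * |B|)) / c, fun ν hν => ?_⟩
  have hn := nr_pos hν
  by_cases h0 : tt ξ ν = 0
  · rw [h0, norm_zero]
    positivity
  have h1 : 1 ≤ nr (D : E) * nr ν := by
    rw [← nr_mul]
    exact one_le_nr (mul_ne_zero hD' hν) (hS ν h0)
  have h2 : Real.exp (2 * ∑ σ, -lg ν σ / 2) ≤ nr (D : E) := by
    have h3 : 2 * ∑ σ, -lg ν σ / 2 = -∑ σ, lg ν σ := by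
      rw [← Finset.sum_div, Finset.sum_neg_distrib]
      ring
    rw [h3, Real.exp_neg, exp_sum_lg hν, inv_le_iff_one_le_mul₀ hn]
    exact h1
  have key := limA_key h hc ν (fun σ => -lg ν σ / 2) (by positivity) (fun v hv => hM ν v hν hv)
    (tendsto_const_nhds (x := ENNReal.ofReal (C * (1 + nr (D : E)) * |B|))) (by
      filter_upwards [hB] with η hη
      refine ((H _ ν).1 η).trans ?_
      rw [ENNReal.ofReal_mul (by positivity : 0 ≤ C * (1 + nr (D : E)))]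
      exact mul_le_mul' (ENNReal.ofReal_le_ofReal (by gcongr))
        (hη.trans (ENNReal.ofReal_le_ofReal (le_abs_self _))))
  rw [← ENNReal.ofReal_ofNat 2, ← ENNReal.ofReal_mul (by norm_num),
    ENNReal.ofReal_le_ofReal_iff (by positivity)] at key
  have h4 := Real.le_sqrt_of_sq_le key
  have h5 : 0 < nr ν ^ (1 / 3 : ℝ) := by positivity
  rw [Real.rpow_neg hn.le, ← mul_assoc, ← div_eq_mul_inv, div_le_iff₀ h5] at h4
  rw [div_mul_eq_mul_div, le_div_iff₀ hc0]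
  exact h4
theorem tt_support {ξ : E → E → ℂ} (h : Adm ξ) :
    ∃ D : ℕ, D ≠ 0 ∧ ∀ ν, tt ξ ν ≠ 0 → IsIntegral ℤ ((D : E) * ν) := limA_support h
/-- **Vanishing criterion.** -/
theorem tt_vanish {ξ : E → E → ℂ} (h : Adm ξ)
    (hc : ∀ g : Mt E, g.det = 1 → Tendsto (P0 (sl ξ g)) (lB E) (𝓝 0)) (ν : E) : tt ξ ν = 0 := by
  obtain ⟨C, -, H⟩ := limA_strip h
  obtain ⟨c, hc0, hM⟩ := (isCompact_Icc (a := (0 : Pl E → ℝ)) (b := 0 + 1)).exists_forall_le'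
    (continuous_MkE (bb_nonneg ν)).continuousOn (a := 0) fun v _ => MkE_pos v (bb_nonneg ν)
  have h1 := ENNReal.Tendsto.const_mul
    (a := ENNReal.ofReal (C * (1 + Real.exp (2 * ∑ σ, (0 : Pl E → ℝ) σ)))) (h.N2_zero hc)
    (Or.inr ENNReal.ofReal_ne_top)
  have key := limA_key h (fun g hg => ⟨0, hc g hg⟩) ν 0 hc0.le hM h1
    (Eventually.of_forall (H 0 ν).1)
  rw [mul_zero, mul_zero, nonpos_iff_eq_zero, ENNReal.ofReal_eq_zero] at key
  have h2 : ‖tt ξ ν‖ * c = 0 := pow_eq_zero_iff two_ne_zero |>.1 (le_antisymm key (sq_nonneg _))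
  exact norm_eq_zero.1 ((mul_eq_zero.1 h2).resolve_right hc0.ne')

/-! ## part B: the function -/

private theorem limB_exp {a v l : Pl E → ℝ} (hv : v ∈ bx a) {c α s₀ : ℝ} (hα : 1 ≤ α)
    (hc : c ≤ α - 1) (hs : s₀ ≤ ∑ σ, l σ) :
    Real.exp (c * ∑ σ, l σ) * (Real.exp (2 / 3 * ∑ σ, v σ) *
      Real.exp (-α * ∑ σ, (2 * v σ + l σ) - 1 * ∑ σ, |2 * v σ + l σ|)) ≤
      Real.exp ((c - α + 1) * s₀ + (8 / 3 - 2 * α) * ∑ σ, a σ + ∑ _σ : Pl E, 2) *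
        Real.exp (-1 * ∑ σ, (2 * a σ + l σ) - 1 * ∑ σ, |2 * a σ + l σ|) := by
  have h1 : ∑ σ, a σ ≤ ∑ σ, v σ := Finset.sum_le_sum fun σ _ => hv.1 σ
  have h2 : ∑ σ, |2 * a σ + l σ| ≤ ∑ σ, |2 * v σ + l σ| + ∑ _σ : Pl E, (2 : ℝ) := by
    rw [← Finset.sum_add_distrib]
    refine Finset.sum_le_sum fun σ _ => ?_
    have h3 : a σ ≤ v σ := hv.1 σ
    have h4 : v σ ≤ a σ + 1 := hv.2 σ
    exact abs_le.2 ⟨by linarith [neg_abs_le (2 * v σ + l σ)], by linarith [le_abs_self (2 * v σ + l σ)]⟩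
  rw [← Real.exp_add, ← Real.exp_add, ← Real.exp_add, Real.exp_le_exp]
  simp only [Finset.sum_add_distrib, ← Finset.mul_sum]
  nlinarith [mul_nonneg (sub_nonneg.2 hc) (sub_nonneg.2 hs),
    mul_nonneg (show 0 ≤ 2 * α - 2 / 3 by linarith) (sub_nonneg.2 h1)]

/-- A majorant which is locally uniform in `v` (`MkE_le`, `tsum_lattice_le`). -/
theorem exists_majorant {ξ : E → E → ℂ} (h : Adm ξ) (hc : CT ξ) (a : Pl E → ℝ) (B : ℝ) :
    ∃ u : E → ℝ, Summable u ∧ ∀ ν, ∀ v ∈ bx a,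
      ‖tt ξ ν * (MkE v (bb ν) : ℂ)‖ * (1 + nr ν ^ B) ≤ u ν := by
  classical
  obtain ⟨C, hC⟩ := norm_tt_le h hc
  obtain ⟨D, hD, hsupp⟩ := tt_support h
  obtain ⟨C', hC'⟩ := MkE_le (E := E) (a := |B| + 2) (δ := 1) zero_le_one (by linarith [abs_nonneg B])
  obtain ⟨_, -, hL⟩ := tsum_lattice_le (E := E) (δ := 1) (a := 1) one_pos le_rfl
  have hDE : (D : E) ≠ 0 := Nat.cast_ne_zero.2 hD
  obtain ⟨s₀, hs₀⟩ : ∃ s₀, s₀ = -Real.log (nr (D : E)) := ⟨_, rfl⟩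
  obtain ⟨K, hK⟩ : ∃ K : ℝ → ℝ, ∀ c, K c = Real.exp ((c - (|B| + 2) + 1) * s₀ +
    (8 / 3 - 2 * (|B| + 2)) * ∑ σ, a σ + ∑ _σ : Pl E, 2) := ⟨_, fun _ => rfl⟩
  have hK0 : ∀ c, 0 ≤ K c := fun c => hK c ▸ (Real.exp_pos _).le
  refine ⟨fun ν => (if ν = 0 then
      ‖tt ξ 0‖ * (Real.exp (2 / 3 * ∑ σ, (a σ + 1)) * W0 0 ^ rk E) * 2 else 0) +
      |C| * |C'| * (K (1 / 3) + K (1 / 3 + B)) * if ν ≠ 0 ∧ IsIntegral ℤ ((D : E) * ν) then
        Real.exp (-1 * ∑ σ, (2 * a σ + lg ν σ) - 1 * ∑ σ, |2 * a σ + lg ν σ|) else 0,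
    (hasSum_ite_eq (0 : E) _).summable.add ((hL D (fun σ => 2 * a σ) hDE).1.mul_left _),
    fun ν v hv => ?_⟩
  have hW := R17.W0_pos le_rfl
  have hM := MkE_pos v (bb_nonneg ν)
  beta_reduce
  rw [norm_mul, Complex.norm_real, Real.norm_of_nonneg hM.le]
  by_cases h0 : ν = 0
  · subst h0
    simp only [if_true, ne_eq, not_true, false_and, if_false, mul_zero, add_zero, bb_zero, MkE_zero,
      nr_zero]
    have h1 : ∑ σ, v σ ≤ ∑ σ, (a σ + 1) := Finset.sum_le_sum fun σ _ => hv.2 σ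
    gcongr
    linarith [Real.zero_rpow_le_one B]
  by_cases ht : tt ξ ν = 0
  · rw [ht, norm_zero, zero_mul, zero_mul, if_neg h0, zero_add]
    exact mul_nonneg (mul_nonneg (by positivity) (add_nonneg (hK0 _) (hK0 _)))
      (ite_nonneg (Real.exp_pos _).le le_rfl)
  have hn := nr_pos h0
  have hs : s₀ ≤ ∑ σ, lg ν σ := by
    have h1 := Real.log_nonneg (one_le_nr (mul_ne_zero hDE h0) (hsupp ν ht))
    rw [nr_mul, Real.log_mul (nr_pos hDE).ne' hn.ne'] at h1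
    rw [sum_lg h0, hs₀]
    linarith
  have e : ∀ c : ℝ, nr ν ^ c = Real.exp (c * ∑ σ, lg ν σ) := fun c => by
    rw [sum_lg h0, Real.rpow_def_of_pos hn, mul_comm]
  have k1 := limB_exp hv (c := 1 / 3) (α := |B| + 2) (by linarith [abs_nonneg B])
    (by linarith [abs_nonneg B]) hs
  have k2 := limB_exp hv (c := 1 / 3 + B) (α := |B| + 2) (by linarith [abs_nonneg B])
    (by linarith [le_abs_self B]) hs
  rw [← hK, ← e] at k1 k2
  rw [if_neg h0, if_pos ⟨h0, hsupp ν ht⟩, zero_add]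
  calc _ ≤ |C| * nr ν ^ (1 / 3 : ℝ) * (|C'| * Real.exp (2 / 3 * ∑ σ, v σ) *
        Real.exp (-(|B| + 2) * ∑ σ, (2 * v σ + lg ν σ) - 1 * ∑ σ, |2 * v σ + lg ν σ|)) *
        (1 + nr ν ^ B) := by
        gcongr
        · exact (hC ν h0).trans (by gcongr; exact le_abs_self _)
        · exact (hC' v ν h0).trans (by gcongr; exact le_abs_self _)
    _ ≤ _ := by
        rw [Real.rpow_add hn] at k2
        have := mul_le_mul_of_nonneg_left (add_le_add k1 k2) (show 0 ≤ |C| * |C'| by positivity)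
        refine le_trans (le_of_eq ?_) (this.trans (le_of_eq ?_)) <;> ring
private theorem limB_le {ξ : E → E → ℂ} (h : Adm ξ) (hc : CT ξ) (a : Pl E → ℝ) :
    ∃ u : E → ℝ, Summable u ∧ ∀ ν, ∀ v ∈ bx a, ‖tt ξ ν * (MkE v (bb ν) : ℂ)‖ ≤ u ν := by
  obtain ⟨u, hu, hle⟩ := exists_majorant h hc a 0
  exact ⟨u, hu, fun ν v hv => (le_mul_of_one_le_right (norm_nonneg _) (by simp)).trans (hle ν v hv)⟩
private theorem limB_cont (ξ : E → E → ℂ) (ν : E) :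
    Continuous fun v => tt ξ ν * (MkE v (bb ν) : ℂ) :=
  continuous_const.mul (Complex.continuous_ofReal.comp (continuous_MkE (bb_nonneg ν)))
theorem continuous_Th {ξ : E → E → ℂ} (h : Adm ξ) (hc : CT ξ) : Continuous (Th ξ) := by
  rw [continuous_iff_continuousAt]
  intro w₀
  obtain ⟨u, hu, hle⟩ := limB_le h hc fun σ => vc w₀ σ - 1 / 2
  have hs : vc ⁻¹' bx (fun σ => vc w₀ σ - 1 / 2) ∈ 𝓝 w₀ :=
    continuous_vc.continuousAt.preimage_mem_nhds (pi_Icc_mem_nhds (fun σ => by linarith)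
      fun σ => by simp only [Pi.add_apply, Pi.one_apply]; linarith)
  refine ContinuousOn.continuousAt ?_ hs
  refine continuousOn_tsum (fun ν => Continuous.continuousOn ?_) hu fun ν w hw => ?_
  · have h1 : Continuous fun w : HH E => (em ν, zc w) := continuous_const.prodMk continuous_zc
    have h2 := continuous_ez.comp h1
    have h3 := (limB_cont ξ ν).comp continuous_vc
    exact h3.mul h2
  · rw [norm_mul, norm_ez, mul_one]
    exact hle ν _ hw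
theorem fexp_Th {ξ : E → E → ℂ} (h : Adm ξ) (hc : CT ξ) :
    FExp (Lx ξ) (Th ξ) fun ν v => tt ξ ν * (MkE v (bb ν) : ℂ) := by
  refine ⟨(continuous_Th h hc).measurable, fun ν => (limB_cont ξ ν).measurable,
    fun ν v hν t ht => ?_, fun v => ⟨?_, fun z => rfl⟩⟩
  · by_contra hne
    exact left_ne_zero_of_mul hν (tt_eq_zero h ht.2 hne)
  · obtain ⟨u, hu, hle⟩ := limB_le h hc v
    exact hu.of_nonneg_of_le (fun _ => norm_nonneg _) fun ν =>
      hle ν v ⟨le_rfl, fun σ => by simp⟩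
private theorem limB_cauchy {ξ : E → E → ℂ} (h : Adm ξ) (hc : CT ξ) (a : Pl E → ℝ) :
    Tendsto (fun p : (Pl E → ℝ) × (Pl E → ℝ) => ∑' ν : E, ∫⁻ v in bx a,
      ‖Acoef ξ p.1 ν v - Acoef ξ p.2 ν v‖ₑ ^ 2) (lB E ×ˢ lB E) (𝓝 0) := by
  obtain ⟨C, -, hs⟩ := strip_le_N2 (E := E) h.fin
  have ht := ENNReal.Tendsto.const_mul (a := ENNReal.ofReal (C * (1 + Real.exp (2 * ∑ σ, a σ))))
    (h.N2_cauchy hc) (Or.inr ENNReal.ofReal_ne_top)
  rw [mul_zero] at ht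
  refine tendsto_of_tendsto_of_tendsto_of_le_of_le tendsto_const_nhds ht (fun _ => zero_le)
    fun p => hs _ _ a ?_ fun γ hγ w => by simp only [Pi.sub_apply, thY_aut hγ]
  rw [Lg_one]
  exact (h.fexp (L := Lx ξ) (fun t ht => ht.2) p.1).sub (h.fexp (L := Lx ξ) (fun t ht => ht.2) p.2)
theorem tendsto_strip {ξ : E → E → ℂ} (h : Adm ξ) (hc : CT ξ) (a : Pl E → ℝ) :
    Tendsto (fun η => ∑' ν : E, ∫⁻ v in bx a,
      ‖Acoef ξ η ν v - tt ξ ν * (MkE v (bb ν) : ℂ)‖ₑ ^ 2) (lB E) (𝓝 0) := by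
  rw [ENNReal.tendsto_nhds_zero]
  intro ε hε
  filter_upwards [(ENNReal.tendsto_nhds_zero.1 (limB_cauchy h hc a) _
    (ENNReal.half_pos hε.ne')).curry] with η hη
  rw [ENNReal.tsum_eq_iSup_sum]
  refine iSup_le fun S => ?_
  have ht : Tendsto (fun η' => ε + ∑ ν ∈ S, 2 * ∫⁻ v in bx a,
      ‖Acoef ξ η' ν v - tt ξ ν * (MkE v (bb ν) : ℂ)‖ₑ ^ 2) (lB E) (𝓝 (ε + ∑ ν ∈ S, 0)) :=
    tendsto_const_nhds.add (tendsto_finsetSum _ fun ν _ =>
      R17.LimB.tendsto_two_mul ((tt_spec h hc ν).2 a))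
  rw [Finset.sum_const_zero, add_zero] at ht
  refine ge_of_tendsto ht ?_
  filter_upwards [hη] with η' hη'
  calc _ ≤ ∑ ν ∈ S, (2 * (∫⁻ v in bx a, ‖Acoef ξ η ν v - Acoef ξ η' ν v‖ₑ ^ 2) +
          2 * ∫⁻ v in bx a, ‖Acoef ξ η' ν v - tt ξ ν * (MkE v (bb ν) : ℂ)‖ₑ ^ 2) :=
        Finset.sum_le_sum fun ν _ =>
          R17.LimB.lint_tri' _ _ (measurable_Acoef _ _ _) (measurable_Acoef _ _ _)
    _ ≤ _ := by
        rw [Finset.sum_add_distrib, ← Finset.mul_sum]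
        gcongr
        calc _ ≤ 2 * (ε / 2) := by
              gcongr
              exact (ENNReal.sum_le_tsum S).trans hη'
          _ ≤ ε := ENNReal.mul_div_le
theorem tendsto_local {ξ : E → E → ℂ} (h : Adm ξ) (hc : CT ξ) {K : Set (HH E)} (hK : IsCompact K) :
    Tendsto (fun η => ∫⁻ w in K, ‖thY ξ η w - Th ξ w‖ₑ ^ 2 ∂μE E) (lB E) (𝓝 0) := by
  obtain ⟨C, T, hT⟩ := compact_le_strip h.isLat_Lx hK
  have ht := ENNReal.Tendsto.const_mul (a := ENNReal.ofReal C)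
    (tendsto_finsetSum T fun a _ => tendsto_strip h hc a) (Or.inr ENNReal.ofReal_ne_top)
  rw [Finset.sum_const_zero, mul_zero] at ht
  exact tendsto_of_tendsto_of_tendsto_of_le_of_le tendsto_const_nhds ht (fun _ => zero_le)
    fun η => hT _ _ ((h.fexp (L := Lx ξ) (fun t ht => ht.2) η).sub (fexp_Th h hc))
private theorem limB_eq {F : (Pl E → ℝ) → HH E → ℂ} {G G' : HH E → ℂ} (hF : ∀ η, Measurable (F η))
    (hG : Continuous G) (hG' : Continuous G')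
    (h : ∀ K : Set (HH E), IsCompact K →
      Tendsto (fun η => ∫⁻ w in K, ‖F η w - G w‖ₑ ^ 2 ∂μE E) (lB E) (𝓝 0))
    (h' : ∀ K : Set (HH E), IsCompact K →
      Tendsto (fun η => ∫⁻ w in K, ‖F η w - G' w‖ₑ ^ 2 ∂μE E) (lB E) (𝓝 0)) (w : HH E) :
    G w = G' w := by
  have hK : IsCompact (Metric.closedBall w 1) := isCompact_closedBall w 1
  have h0 : ∫⁻ x in Metric.closedBall w 1, ‖G x - G' x‖ₑ ^ 2 ∂μE E = 0 := by
    have ht := (R17.LimB.tendsto_two_mul (h _ hK)).add (R17.LimB.tendsto_two_mul (h' _ hK))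
    rw [add_zero] at ht
    refine le_antisymm (ge_of_tendsto' ht fun η => ?_) zero_le
    have := R17.LimB.lint_tri' ((μE E).restrict (Metric.closedBall w 1)) G' hG.measurable (hF η)
    refine this.trans (le_of_eq ?_)
    congr 2
    refine lintegral_congr fun x => ?_
    rw [← enorm_neg, neg_sub]
  have hm : Measurable fun x => ‖G x - G' x‖ₑ ^ 2 :=
    (hG.measurable.sub hG'.measurable).enorm.pow_const 2
  rw [lintegral_eq_zero_iff hm] at h0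
  have h1 : G =ᵐ[(μE E).restrict (Metric.ball w 1)] G' := by
    refine ae_restrict_of_ae_restrict_of_subset Metric.ball_subset_closedBall ?_
    filter_upwards [h0] with x hx
    have : ‖G x - G' x‖ₑ = 0 := by simpa using hx
    exact sub_eq_zero.1 (enorm_eq_zero.1 this)
  exact Measure.eqOn_open_of_ae_eq h1 Metric.isOpen_ball hG.continuousOn hG'.continuousOn
    (Metric.mem_ball_self one_pos)
theorem Th_act {ξ : E → E → ℂ} (h : Adm ξ) (hc : CT ξ) {g : Mt E} (hg : g.det = 1) (w : HH E) :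
    Th ξ (act g w) = Th (sl ξ g) w := by
  have hg0 : g.det ≠ 0 := hg ▸ one_ne_zero
  have h' := h.sl hg0
  have hc' := CT.sl h hc hg0
  refine limB_eq (F := thY (sl ξ g)) (G := fun w => Th ξ (act g w))
    (fun η => (h'.continuous_thY η).measurable) ((continuous_Th h hc).comp (continuous_act hg0))
    (continuous_Th h' hc') (fun K hK => ?_) (fun K hK => tendsto_local h' hc' hK) w
  have hK' : IsCompact (act g '' K) := hK.image (continuous_act hg0)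
  refine tendsto_of_tendsto_of_tendsto_of_le_of_le tendsto_const_nhds (tendsto_local h hc hK')
    (fun _ => zero_le) fun η => ?_
  have hm : Measurable fun w => ‖thY ξ η w - Th ξ w‖ₑ ^ 2 :=
    ((h.continuous_thY η).measurable.sub (continuous_Th h hc).measurable).enorm.pow_const 2
  simp only [← thY_act_one ξ hg]
  rw [← (measurePreserving_act hg0).setLIntegral_comp_preimage hK'.measurableSet hm]
  exact lintegral_mono_set (Set.subset_preimage_image _ _)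
/-- The theta function is not reduced to its constant term (`Adm.exists_lower`, `w = (0, 0)`). -/
theorem exists_tt_ne {ξ : E → E → ℂ} (h : Adm ξ) (hc : CT ξ) (h0 : tt ξ 0 ≠ 0) :
    ∃ ν : E, ν ≠ 0 ∧ tt ξ ν ≠ 0 := by
  by_contra hne
  push Not at hne
  have hTh : ∀ w, Th ξ w = tt ξ 0 * ((Real.exp (2 / 3 * ∑ σ, vc w σ) * W0 0 ^ rk E : ℝ) : ℂ) :=
    fun w => by
      unfold Th
      rw [tsum_eq_single 0 fun ν hν => by rw [hne ν hν]; ring, em_zero, ez_zero_left, mul_one,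
        bb_zero, MkE_zero]
  obtain ⟨N, hN, γ, hγ, e⟩ := h.exists_lower
  have h1 := Th_act h hc (det_toM γ) (mkH 0 0)
  rw [mem_Stab.1 hγ, hTh, hTh] at h1
  have h2 := mul_right_cancel₀ (pow_pos (R17.W0_pos le_rfl) _).ne'
    (Complex.ofReal_injective (mul_left_cancel₀ h0 h1))
  have h3 : ∑ σ, vc (act (toM γ) (mkH 0 0)) σ < ∑ _σ : Pl E, (0 : ℝ) := by
    refine Finset.sum_lt_sum_of_nonempty Finset.univ_nonempty fun σ _ => ?_
    rw [← Real.exp_lt_one_iff, exp_vc_act (by rw [det_toM]; exact one_ne_zero), det_toM, e, Qv_mkH]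
    have : (0 : ℝ) < N := Nat.cast_pos.2 (Nat.pos_of_ne_zero hN)
    simp only [map_one, norm_one, Matrix.of_apply, Matrix.cons_val', Matrix.cons_val_zero,
      Matrix.cons_val_one, Matrix.cons_val_fin_one, Pi.zero_apply, mul_zero, zero_add, one_pow,
      neg_zero, Real.exp_zero, mul_one, map_natCast, Complex.norm_natCast]
    rw [div_lt_one (by positivity)]
    nlinarith
  rw [Real.exp_eq_exp] at h2
  simp only [vc_mkH, Pi.zero_apply, Finset.sum_const_zero] at h2 h3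
  linarith

/-! ## part C: the Voronoi formula -/

/-- `∑_{ζ⁴ = 1} conj ζ · e(2 Re (u ζ)) = 2 i sin (4π Re u) - 2 sin (4π Im u)`. -/
def S4 (u : ℂ) : ℂ := 2 * Complex.I * Real.sin (4 * Real.pi * u.re) - 2 * Real.sin (4 * Real.pi * u.im)

private theorem limC_sum4 (u : ℂ) :
    ∑ k : Fin 4, conj (Complex.I ^ (k : ℕ)) *
      Complex.exp (2 * Real.pi * Complex.I * ((2 * (u * Complex.I ^ (k : ℕ)).re : ℝ) : ℂ)) = S4 u := by
  have e : ∀ x : ℝ, Complex.exp (2 * Real.pi * Complex.I * ((2 * x : ℝ) : ℂ)) =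
      Real.cos (4 * Real.pi * x) + Real.sin (4 * Real.pi * x) * Complex.I := fun x => by
    rw [Complex.ofReal_cos, Complex.ofReal_sin, ← Complex.exp_mul_I]
    congr 1
    push_cast
    ring
  have h3 : Complex.I ^ 3 = -Complex.I := by rw [pow_succ, Complex.I_sq]; ring
  simp only [Fin.sum_univ_four, e, Fin.val_zero, Fin.val_one, Fin.val_two,
    show ((3 : Fin 4) : ℕ) = 3 from rfl, pow_zero, pow_one, Complex.I_sq, h3, mul_one, mul_neg,
    Complex.neg_re, Complex.mul_I_re, neg_neg, Real.sin_neg, Real.cos_neg, map_one, map_neg,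
    Complex.conj_I, S4, Complex.ofReal_neg]
  linear_combination (2 * (Real.sin (4 * Real.pi * u.im) : ℂ)) * Complex.I_sq

theorem sum_ez_roots (u : Pl E → ℂ) :
    ∑ k : Pl E → Fin 4, (∏ σ, conj (Complex.I ^ (k σ : ℕ))) * ez u (fun σ => Complex.I ^ (k σ : ℕ)) =
      ∏ σ, S4 (u σ) := by
  simp only [ez_eq_prod, ← Finset.prod_mul_distrib, ← limC_sum4]
  rw [Finset.prod_univ_sum, Fintype.piFinset_univ]
theorem norm_S4_le (u : ℂ) : ‖S4 u‖ ≤ 16 * Real.pi * ‖u‖ := by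
  have h1 : |Real.sin (4 * Real.pi * u.re)| ≤ 4 * Real.pi * ‖u‖ := by
    refine Real.abs_sin_le_abs.trans ?_
    rw [abs_mul, abs_of_pos (by positivity)]
    exact mul_le_mul_of_nonneg_left (Complex.abs_re_le_norm u) (by positivity)
  have h2 : |Real.sin (4 * Real.pi * u.im)| ≤ 4 * Real.pi * ‖u‖ := by
    refine Real.abs_sin_le_abs.trans ?_
    rw [abs_mul, abs_of_pos (by positivity)]
    exact mul_le_mul_of_nonneg_left (Complex.abs_im_le_norm u) (by positivity)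
  refine (norm_sub_le _ _).trans ?_
  simp only [norm_mul, Complex.norm_ofNat, Complex.norm_I, Complex.norm_real, Real.norm_eq_abs]
  linarith
theorem tendsto_S4 {u : ℝ → ℂ} {u₀ : ℂ} (hu : Tendsto u (𝓝[>] 0) (𝓝 u₀)) :
    Tendsto (fun t : ℝ => S4 (t * u t) / t) (𝓝[>] 0) (𝓝 (8 * Real.pi * Complex.I * u₀)) := by
  have key : ∀ {x : ℝ → ℝ} {x₀ : ℝ}, Tendsto x (𝓝[>] 0) (𝓝 x₀) →
      Tendsto (fun t : ℝ => Real.sin (4 * Real.pi * (t * x t)) / t) (𝓝[>] 0)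
        (𝓝 (4 * Real.pi * x₀)) := by
    intro x x₀ hx
    have h0 : Tendsto (fun t : ℝ => t) (𝓝[>] 0) (𝓝 0) := nhdsWithin_le_nhds
    have h1 := (hx.const_mul (4 * Real.pi)).mul
      ((Real.continuous_sinc.tendsto _).comp ((h0.mul hx).const_mul (4 * Real.pi)))
    simp only [zero_mul, mul_zero, Real.sinc_zero, mul_one] at h1
    refine h1.congr' ?_
    filter_upwards [self_mem_nhdsWithin] with t (ht : 0 < t)
    rcases eq_or_ne (x t) 0 with h | h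
    · simp [h]
    · rw [Function.comp_apply, Real.sinc_of_ne_zero (by positivity)]
      field_simp
  have h1 := (Complex.continuous_ofReal.tendsto _).comp
    (key ((Complex.continuous_re.tendsto _).comp hu))
  have h2 := (Complex.continuous_ofReal.tendsto _).comp
    (key ((Complex.continuous_im.tendsto _).comp hu))
  have h3 := (h1.const_mul (2 * Complex.I)).sub (h2.const_mul 2)
  have e : 2 * Complex.I * ((4 * Real.pi * u₀.re : ℝ) : ℂ) - 2 * ((4 * Real.pi * u₀.im : ℝ) : ℂ) =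
      8 * Real.pi * Complex.I * u₀ := by
    conv_rhs => rw [← Complex.re_add_im u₀]
    push_cast
    linear_combination (-8 * (Real.pi : ℂ) * u₀.im) * Complex.I_sq
  rw [e] at h3
  refine h3.congr fun t => ?_
  simp only [S4, Function.comp_apply, Complex.re_ofReal_mul, Complex.im_ofReal_mul,
    Complex.ofReal_div]
  ring

/-- The differentiated expansion (Tannery). -/
private theorem limC_tendsto {ξ : E → E → ℂ} (h : Adm ξ) (hc : CT ξ) {v c : ℝ → Pl E → ℝ}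
    {v₀ c₀ : Pl E → ℝ} (hv : Tendsto v (𝓝[>] 0) (𝓝 v₀)) (hcc : Tendsto c (𝓝[>] 0) (𝓝 c₀))
    {φ : ℂ → ℂ} (hφ : ∀ x, ‖φ x‖ = ‖x‖) :
    Tendsto (fun t : ℝ => ∑' ν : E, tt ξ ν * (MkE (v t) (bb ν) : ℂ) *
        ∏ σ, (S4 (t * (c t σ * φ (σ.1 ν))) / t)) (𝓝[>] 0)
      (𝓝 (∑' ν : E, tt ξ ν * (MkE v₀ (bb ν) : ℂ) *
        ∏ σ, (8 * Real.pi * Complex.I * (c₀ σ * φ (σ.1 ν))))) := by
  obtain ⟨u, hu, hb⟩ := exists_majorant h hc (fun σ => v₀ σ - 1 / 2) (1 / 2)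
  have hcσ : ∀ σ, Tendsto (fun t => c t σ) (𝓝[>] 0) (𝓝 (c₀ σ)) := tendsto_pi_nhds.1 hcc
  have hvσ : ∀ σ, Tendsto (fun t => v t σ) (𝓝[>] 0) (𝓝 (v₀ σ)) := tendsto_pi_nhds.1 hv
  have e1 : ∀ᶠ t in 𝓝[>] (0 : ℝ), ∀ σ, |c t σ| ≤ |c₀ σ| + 1 :=
    eventually_all.2 fun σ => ((hcσ σ).abs.eventually (gt_mem_nhds (lt_add_one _))).mono
      fun t ht => ht.le
  have e2 : ∀ᶠ t in 𝓝[>] (0 : ℝ), v t ∈ bx fun σ => v₀ σ - 1 / 2 := by
    have h1 : ∀ᶠ t in 𝓝[>] (0 : ℝ), ∀ σ, v₀ σ - 1 / 2 < v t σ :=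
      eventually_all.2 fun σ => (hvσ σ).eventually (lt_mem_nhds (by linarith))
    have h2 : ∀ᶠ t in 𝓝[>] (0 : ℝ), ∀ σ, v t σ < v₀ σ - 1 / 2 + 1 :=
      eventually_all.2 fun σ => (hvσ σ).eventually (gt_mem_nhds (by linarith))
    filter_upwards [h1, h2] with t h1 h2
    exact ⟨fun σ => (h1 σ).le, fun σ => (h2 σ).le⟩
  refine tendsto_tsum_of_dominated_convergence
    (hu.mul_left (∏ σ : Pl E, 16 * Real.pi * (|c₀ σ| + 1))) (fun ν => ?_) ?_
  · refine Tendsto.mul (Tendsto.const_mul _ ((Complex.continuous_ofReal.tendsto _).comp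
      (((continuous_MkE (bb_nonneg ν)).tendsto _).comp hv))) (tendsto_finsetProd _ fun σ _ => ?_)
    exact tendsto_S4 (u := fun t => c t σ * φ (σ.1 ν))
      (((Complex.continuous_ofReal.tendsto _).comp (hcσ σ)).mul_const _)
  · filter_upwards [e1, e2, self_mem_nhdsWithin] with t h1 h2 (ht : 0 < t) ν
    have h3 : ‖∏ σ : Pl E, (S4 (t * (c t σ * φ (σ.1 ν))) / t)‖ ≤
        (∏ σ : Pl E, 16 * Real.pi * (|c₀ σ| + 1)) * nr ν ^ (1 / 2 : ℝ) := by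
      have h4 : nr ν ^ (1 / 2 : ℝ) = ∏ σ : Pl E, ‖σ.1 ν‖ := by
        rw [← Real.sqrt_eq_rpow, nr, Finset.prod_pow,
          Real.sqrt_sq (Finset.prod_nonneg fun _ _ => norm_nonneg _)]
      rw [norm_prod, h4, ← Finset.prod_mul_distrib]
      refine Finset.prod_le_prod (fun _ _ => norm_nonneg _) fun σ _ => ?_
      rw [norm_div, Complex.norm_real, Real.norm_of_nonneg ht.le, div_le_iff₀ ht]
      refine (norm_S4_le _).trans ?_
      rw [norm_mul, norm_mul, hφ, Complex.norm_real, Complex.norm_real, Real.norm_of_nonneg ht.le,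
        Real.norm_eq_abs]
      calc 16 * Real.pi * (t * (|c t σ| * ‖σ.1 ν‖))
          ≤ 16 * Real.pi * (t * ((|c₀ σ| + 1) * ‖σ.1 ν‖)) := by gcongr; exact h1 σ
        _ = _ := by ring
    have h5 := hb ν _ h2
    have h6 : 0 ≤ ∏ σ : Pl E, 16 * Real.pi * (|c₀ σ| + 1) :=
      Finset.prod_nonneg fun _ _ => by positivity
    rw [norm_mul]
    calc _ ≤ ‖tt ξ ν * (MkE (v t) (bb ν) : ℂ)‖ *
          ((∏ σ : Pl E, 16 * Real.pi * (|c₀ σ| + 1)) * nr ν ^ (1 / 2 : ℝ)) := by gcongr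
      _ ≤ ‖tt ξ ν * (MkE (v t) (bb ν) : ℂ)‖ *
          ((∏ σ : Pl E, 16 * Real.pi * (|c₀ σ| + 1)) * (1 + nr ν ^ (1 / 2 : ℝ))) := by
          gcongr
          linarith
      _ = (∏ σ : Pl E, 16 * Real.pi * (|c₀ σ| + 1)) *
          (‖tt ξ ν * (MkE (v t) (bb ν) : ℂ)‖ * (1 + nr ν ^ (1 / 2 : ℝ))) := by ring
      _ ≤ _ := by gcongr

/-- The average over the fourth roots of unity. -/
private theorem limC_avg {ξ : E → E → ℂ} (h : Adm ξ) (hc : CT ξ) (v : Pl E → ℝ) (t : ℂ)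
    {z : (Pl E → Fin 4) → Pl E → ℂ} {u : E → Pl E → ℂ}
    (hz : ∀ k ν, ez (em ν) (z k) = ez (u ν) fun σ => Complex.I ^ (k σ : ℕ)) :
    (∑ k : Pl E → Fin 4, (∏ σ, conj (Complex.I ^ (k σ : ℕ))) * Th ξ (mkH (z k) v)) / t ^ rk E =
      ∑' ν : E, tt ξ ν * (MkE v (bb ν) : ℂ) * ∏ σ, (S4 (u ν σ) / t) := by
  obtain ⟨w, hw, hb⟩ := exists_majorant h hc v 0
  have hs : ∀ k : Pl E → Fin 4, Summable fun ν : E => (∏ σ, conj (Complex.I ^ (k σ : ℕ))) *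
      (tt ξ ν * (MkE v (bb ν) : ℂ) * ez (em ν) (z k)) := fun k => by
    refine Summable.mul_left _ (.of_norm_bounded hw fun ν => ?_)
    have h1 := hb ν v ⟨le_rfl, fun σ => by simp⟩
    rw [Real.rpow_zero] at h1
    rw [norm_mul, norm_ez, mul_one]
    linarith [norm_nonneg (tt ξ ν * (MkE v (bb ν) : ℂ))]
  simp only [Th, zc_mkH, vc_mkH, ← tsum_mul_left]
  rw [← Summable.tsum_finsetSum fun k _ => hs k, ← tsum_div_const]
  refine tsum_congr fun ν => ?_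
  rw [Finset.prod_div_distrib, Finset.prod_const, Finset.card_univ, ← sum_ez_roots,
    ← mul_div_assoc, Finset.mul_sum]
  congr 1
  refine Finset.sum_congr rfl fun k _ => ?_
  rw [hz]
  ring

/-- The profile `U1` in terms of `MkE`. -/
private theorem limC_U1 (ν : E) (η : Pl E → ℝ) (a : ℂ) (ha : ν = 0 → a = 0) :
    a * ((nr ν ^ (1 / 6 : ℝ) : ℝ) : ℂ) *
        ((∏ σ, U1 (4 * Real.pi ^ 2 * Real.exp (lg ν σ + η σ)) : ℝ) : ℂ) =
      ((((4 * Real.pi ^ 2) ^ (1 / 3 : ℝ)) ^ rk E : ℝ) : ℂ) *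
        ((MkE (fun σ => η σ / 2) (bb ν) : ℂ) * (a * (Real.sqrt (nr ν) : ℂ))) := by
  rcases eq_or_ne ν 0 with hν | hν
  · simp [ha hν]
  have h1 : ∀ σ : Pl E, U1 (4 * Real.pi ^ 2 * Real.exp (lg ν σ + η σ)) =
      (4 * Real.pi ^ 2) ^ (1 / 3 : ℝ) * (‖σ.1 ν‖ ^ 2) ^ (1 / 3 : ℝ) *
        Mk (Real.exp (η σ / 2)) (bb ν σ) := fun σ => by
    have e : Real.exp (η σ / 2) ^ 2 = Real.exp (η σ) := by
      rw [← Real.exp_nat_mul]; congr 1; push_cast; ring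
    have e' : Real.exp (η σ) ^ (1 / 3 : ℝ) = Real.exp (η σ / 2) ^ (2 / 3 : ℝ) := by
      rw [← Real.exp_mul, ← Real.exp_mul]; congr 1; ring
    rw [U1, Mk, bb, e, Real.exp_add, exp_lg hν, ← e',
      show 4 * Real.pi ^ 2 * (‖σ.1 ν‖ ^ 2 * Real.exp (η σ)) =
        Real.exp (η σ) * (4 * Real.pi ^ 2 * ‖σ.1 ν‖ ^ 2) by ring,
      Real.mul_rpow (by positivity) (by positivity), Real.mul_rpow (by positivity) (by positivity)]
    ring
  have h2 : ∏ σ : Pl E, (‖σ.1 ν‖ ^ 2) ^ (1 / 3 : ℝ) = nr ν ^ (1 / 3 : ℝ) :=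
    Real.finsetProd_rpow _ _ (fun _ _ => by positivity) _
  have h3 : Real.sqrt (nr ν) = nr ν ^ (1 / 6 : ℝ) * nr ν ^ (1 / 3 : ℝ) := by
    rw [← Real.rpow_add (nr_pos hν), Real.sqrt_eq_rpow]
    norm_num
  simp only [h1]
  rw [Finset.prod_mul_distrib, Finset.prod_mul_distrib, h2, h3, Finset.prod_const,
    Finset.card_univ, MkE]
  push_cast
  ring

private theorem limC_ez1 (t : ℝ) (k : Pl E → Fin 4) (ν : E) :
    ez (em ν) (fun σ => t * Complex.I ^ (k σ : ℕ)) =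
      ez (fun σ => t * (((1 : ℝ) : ℂ) * σ.1 ν)) fun σ => Complex.I ^ (k σ : ℕ) := by
  have e : ∀ σ : Pl E, em ν σ * (t * Complex.I ^ (k σ : ℕ)) =
      t * (((1 : ℝ) : ℂ) * σ.1 ν) * Complex.I ^ (k σ : ℕ) := fun σ => by
    rw [em, Complex.ofReal_one]
    ring
  simp only [ez, e]

private theorem limC_ez2 (t : ℝ) (q : Pl E → ℝ) (k : Pl E → Fin 4) (ν : E) :
    ez (em ν) (fun σ => -conj (t * Complex.I ^ (k σ : ℕ)) / ((q σ : ℝ) : ℂ)) =
      ez (fun σ => t * (((-(q σ)⁻¹ : ℝ) : ℂ) * conj (σ.1 ν))) fun σ => Complex.I ^ (k σ : ℕ) := by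
  have e : ∀ σ : Pl E, (em ν σ * (-conj (t * Complex.I ^ (k σ : ℕ)) / ((q σ : ℝ) : ℂ))).re =
      (t * (((-(q σ)⁻¹ : ℝ) : ℂ) * conj (σ.1 ν)) * Complex.I ^ (k σ : ℕ)).re := fun σ => by
    rw [← Complex.conj_re, em, map_mul, map_div₀, map_neg, Complex.conj_conj, Complex.conj_ofReal,
      Complex.ofReal_neg, Complex.ofReal_inv]
    congr 1
    ring
  simp only [ez, e]

/-- The identity for a fixed `t`. -/
private theorem limC_fix {ξ : E → E → ℂ} (h : Adm ξ) (hc : CT ξ) (η : Pl E → ℝ) {t : ℝ}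
    (ht : 0 < t) :
    ∑' ν : E, tt (sl ξ !![0, -1; 1, 0]) ν * (MkE (fun σ => η σ / 2) (bb ν) : ℂ) *
        ∏ σ : Pl E, (S4 (t * (((1 : ℝ) : ℂ) * σ.1 ν)) / t) =
      ∑' ν : E, tt ξ ν * (MkE (fun σ => η σ / 2 - Real.log (t ^ 2 + Real.exp (η σ))) (bb ν) : ℂ) *
        ∏ σ : Pl E, (S4 (t * (((-(t ^ 2 + Real.exp (η σ))⁻¹ : ℝ) : ℂ) * conj (σ.1 ν))) / t) := by
  have hd : (!![0, -1; 1, 0] : Mt E).det = 1 := by simp [Matrix.det_fin_two]
  have hd' : (!![0, -1; 1, 0] : Mt E).det ≠ 0 := by rw [hd]; exact one_ne_zero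
  have hn : ∀ k : Fin 4, ‖(t : ℂ) * Complex.I ^ (k : ℕ)‖ = t := fun k => by
    rw [norm_mul, norm_pow, Complex.norm_I, one_pow, mul_one, Complex.norm_real,
      Real.norm_of_nonneg ht.le]
  have h2 : ∀ σ : Pl E, 2 * (η σ / 2) = η σ := fun σ => by ring
  refine (limC_avg (h.sl hd') (hc.sl h hd') _ _ (limC_ez1 t)).symm.trans
    (Eq.trans ?_ (limC_avg h hc _ _ (limC_ez2 t fun σ => t ^ 2 + Real.exp (η σ))))
  refine congrArg (· / (t : ℂ) ^ rk E) (Finset.sum_congr rfl fun k _ => ?_)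
  rw [← Th_act h hc hd, act_w0]
  simp only [hn, h2]

/-- **Voronoi formula for the inversion.**  Put `z_σ = t i^{k σ}`, `v = η / 2` in
`Th ξ (w₀ w) = Th (sl ξ w₀) w` (`act_w0`), multiply by `∏ conj (i^k) / t^r`, sum over `k`, let
`t → 0` (Tannery, `exists_majorant`); `U1 (y² b) = b^{1/3} Mk y b`, `prod_em`. -/
theorem T8 {ξ : E → E → ℂ} (h : Adm ξ) (hc : CT ξ) (η : Pl E → ℝ) :
    ∑' ν : E, tt (sl ξ !![0, -1; 1, 0]) ν * al ν * ((nr ν ^ (1 / 6 : ℝ) : ℝ) : ℂ) *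
        ((∏ σ, U1 (4 * Real.pi ^ 2 * Real.exp (lg ν σ + η σ)) : ℝ) : ℂ) =
      (-1) ^ rk E * (Real.exp (-∑ σ, η σ) : ℂ) *
        ∑' ν : E, tt ξ ν * conj (al ν) * ((nr ν ^ (1 / 6 : ℝ) : ℝ) : ℂ) *
          ((∏ σ, U1 (4 * Real.pi ^ 2 * Real.exp (lg ν σ - η σ)) : ℝ) : ℂ) := by
  have hd' : (!![0, -1; 1, 0] : Mt E).det ≠ 0 := by simp [Matrix.det_fin_two]
  have h0 : Tendsto (fun t : ℝ => t) (𝓝[>] 0) (𝓝 0) := nhdsWithin_le_nhds
  have hq : ∀ σ : Pl E, Tendsto (fun t : ℝ => t ^ 2 + Real.exp (η σ)) (𝓝[>] 0)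
      (𝓝 (Real.exp (η σ))) := fun σ => by
    simpa using (h0.pow 2).add_const (Real.exp (η σ))
  have h1 := limC_tendsto (h.sl hd') (hc.sl h hd') (v := fun _ σ => η σ / 2) (c := fun _ _ => 1)
    tendsto_const_nhds tendsto_const_nhds (φ := fun x => x) fun _ => rfl
  have h2 := limC_tendsto h hc (v := fun t σ => η σ / 2 - Real.log (t ^ 2 + Real.exp (η σ)))
    (c := fun t σ => -(t ^ 2 + Real.exp (η σ))⁻¹) (v₀ := fun σ => -η σ / 2)
    (c₀ := fun σ => -Real.exp (-η σ))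
    (tendsto_pi_nhds.2 fun σ => by
      have := ((hq σ).log (Real.exp_pos _).ne').const_sub (η σ / 2)
      rwa [Real.log_exp, show η σ / 2 - η σ = -η σ / 2 by ring] at this)
    (tendsto_pi_nhds.2 fun σ => by
      rw [Real.exp_neg]
      exact ((hq σ).inv₀ (Real.exp_pos _).ne').neg)
    (φ := fun x => conj x) fun _ => Complex.norm_conj _
  have h3 := tendsto_nhds_unique_of_eventuallyEq h1 h2
    (eventually_mem_nhdsWithin.mono fun t ht => limC_fix h hc η ht)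
  have hI : (8 * Real.pi * Complex.I) ^ rk E ≠ 0 :=
    pow_ne_zero _ (mul_ne_zero (mul_ne_zero (by norm_num)
      (Complex.ofReal_ne_zero.2 Real.pi_ne_zero)) Complex.I_ne_zero)
  have e1 : ∀ ν : E, tt (sl ξ !![0, -1; 1, 0]) ν * (MkE (fun σ => η σ / 2) (bb ν) : ℂ) *
      ∏ σ : Pl E, (8 * Real.pi * Complex.I * (((1 : ℝ) : ℂ) * σ.1 ν)) =
      (8 * Real.pi * Complex.I) ^ rk E * ((MkE (fun σ => η σ / 2) (bb ν) : ℂ) *
        (tt (sl ξ !![0, -1; 1, 0]) ν * al ν * (Real.sqrt (nr ν) : ℂ))) := fun ν => by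
    simp only [Complex.ofReal_one, one_mul]
    rw [Finset.prod_mul_distrib, prod_em, Finset.prod_const, Finset.card_univ]
    ring
  have e2 : ∀ ν : E, tt ξ ν * (MkE (fun σ => -η σ / 2) (bb ν) : ℂ) *
      ∏ σ : Pl E, (8 * Real.pi * Complex.I * (((-Real.exp (-η σ) : ℝ) : ℂ) * conj (σ.1 ν))) =
      (8 * Real.pi * Complex.I) ^ rk E * ((-1) ^ rk E * (Real.exp (-∑ σ, η σ) : ℂ) *
        ((MkE (fun σ => -η σ / 2) (bb ν) : ℂ) *
          (tt ξ ν * conj (al ν) * (Real.sqrt (nr ν) : ℂ)))) := fun ν => by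
    rw [Finset.prod_mul_distrib, Finset.prod_const, Finset.prod_mul_distrib, ← map_prod, prod_em,
      Finset.card_univ, map_mul, Complex.conj_ofReal, ← Complex.ofReal_prod, Finset.prod_neg,
      ← Real.exp_sum, Finset.sum_neg_distrib, Finset.card_univ]
    push_cast
    ring
  simp only [e1, e2, tsum_mul_left] at h3
  have h4 := mul_left_cancel₀ hI h3
  have e3 := fun ν : E => limC_U1 ν η (tt (sl ξ !![0, -1; 1, 0]) ν * al ν) fun hν => by simp [hν]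
  have e4 := fun ν : E => limC_U1 ν (fun σ => -η σ) (tt ξ ν * conj (al ν)) fun hν => by simp [hν]
  simp only [sub_eq_add_neg, e3, e4, tsum_mul_left, h4]
  ring

end Crest.Agent.R312
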