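import Crest.Agent.R312.Recip
import Crest.Agent.R312.ThLim

/-!
# Row 312: the arithmetic theta module, definitions (owner helper42)

A row vector is `v = (c, d)`, `v g = (c g₀₀ + d g₁₀, c g₀₁ + d g₁₁)`.  `kb c d g` is the Kubota cocycle,
`ac F g` the twisted action of `GL₂(E)` on the functions of row vectors,
`ac F g (v g) = chi (kb v g) F v`; it is a projective action: `ac (ac F g) g' = chi (kB g g') ac F (g g')`.
`SD F` (`S`-adic data): `F` is bounded, supported on vectors of bounded content at `S`, and fixed by a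
principal congruence subgroup of `SL₂(OS)`.  `xi F (c, d) = conj (d / c)₃ F (c, d)` on coprime pairs in
`R` is an admissible function in the sense of `ThDefs`; `tF F ν = tt (xi F) ν`.
DO NOT change a definition of this file.
-/

set_option autoImplicit false

noncomputable section

namespace Crest.Agent.R312

open NumberField
open scoped ComplexConjugate

open Filter Topology

variable {E : Type} [Field E] [NumberField E] [Fr E]

open Classical in
/-- Kubota's function: `c` if `c ≠ 0`, and `d` otherwise. -/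
def kX (c d : E) : E := if c = 0 then d else c

/-- The Kubota cocycle of the row `(c, d)` and of the matrix `g`. -/
def kb (c d : E) (g : Mt E) : ZMod 3 :=
  rho (kX c d) (kX (c * g 0 0 + d * g 1 0) (c * g 0 1 + d * g 1 1)) +
    rho (kX (c * g 0 0 + d * g 1 0) (c * g 0 1 + d * g 1 1)) (kX (g 1 0) (g 1 1)) +
    rho (kX (g 1 0) (g 1 1)) (kX c d) -
    rho (kX (c * g 0 0 + d * g 1 0) (c * g 0 1 + d * g 1 1)) g.det

/-- The cocycle of two matrices. -/
def kB (g g' : Mt E) : ZMod 3 := kb 0 1 g + kb (g 1 0) (g 1 1) g' - kb 0 1 (g * g')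

/-- The twisted action. -/
def ac (F : E → E → ℂ) (g : Mt E) : E → E → ℂ := sl (fun c d => chi (kb c d g) * F c d) g

/-- Diagonal matrices. -/
def dM (x y : E) : Mt E := !![x, 0; 0, y]

/-- Translations. -/
def nM (t : E) : Mt E := !![1, t; 0, 1]

/-- The inversion. -/
def wM (E : Type) [Field E] : Mt E := !![0, -1; 1, 0]

/-- A matrix with entries in `R`. -/
def mR (a b c d : R E) : Mt E := !![(a : E), (b : E); (c : E), (d : E)]

/-- `x ∈ m^N OS`. -/
def Sml (N : ℕ) (x : E) : Prop := x / (mm E : E) ^ N ∈ OS E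

/-- The principal congruence subgroup of `SL₂(OS)`. -/
def KN (N : ℕ) (k : Mt E) : Prop := k.det = 1 ∧ ∀ i j, Sml N ((k - 1) i j)

/-- Vectors of bounded content at `S`. -/
def Bd (N : ℕ) (c d : E) : Prop :=
  (mm E : E) ^ N * c ∈ OS E ∧ (mm E : E) ^ N * d ∈ OS E ∧
    ∃ x ∈ OS E, ∃ y ∈ OS E, c * x + d * y = (mm E : E) ^ N

/-- `S`-adic data. -/
structure SD (F : E → E → ℂ) : Prop where
  bdd : ∃ B : ℝ, ∀ c d, ‖F c d‖ ≤ B
  supp : ∃ N : ℕ, ∀ c d, F c d ≠ 0 → Bd N c d
  inv : ∃ N : ℕ, ∀ k, KN N k → ac F k = F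

open Classical in
/-- The global function attached to `S`-adic data. -/
def xi (F : E → E → ℂ) (c d : E) : ℂ :=
  if h : c ∈ RR E ∧ d ∈ RR E then
    if IsCoprime (⟨c, h.1⟩ : R E) ⟨d, h.2⟩ then conj (cub ⟨c, h.1⟩ ⟨d, h.2⟩) * F c d else 0
  else 0

/-- The Fourier coefficients of the theta function of `F`. -/
def tF (F : E → E → ℂ) (ν : E) : ℂ := tt (xi F) ν

/-- The constant term at `∞`. -/
def Lm (F : E → E → ℂ) : ℂ := limUnder (lB E) (P0 (xi F))

/-- The `S`-adic integral over the rows `(n³, d)`. -/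
def LamS (F : E → E → ℂ) : ℂ := IS fun n => IS fun d => F (n ^ 3) d

/-- `φ(n) / N(n)`. -/
def phiN (n : R E) : ℂ := ∏ p ∈ pf n, (1 - ((nN p : ℂ))⁻¹)

open Classical in
/-- The basic data. -/
def F0 (j : ℕ) (c d : E) : ℂ := if Sml j c ∧ U j d then 1 else 0

/-- The operator in Patterson's relation `tF F (n d³ ν) = N(n)^{-2/3} g(n, ν) tF (Cop (n d³) F) ν`. -/
def Cop (x : E) (F : E → E → ℂ) : E → E → ℂ := fun c d =>
  ((absS x ^ (5 / 3 : ℝ) : ℝ) : ℂ) * ac F (dM (x ^ 2)⁻¹ x⁻¹) c d

/-- The constant terms of the translates by the powers of `p`. -/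
def ellp (p : E) (G : E → E → ℂ) (i k : ℤ) : ℂ := Lm (ac G (dM (p ^ i) (p ^ k)))

/-- The data on the dual side of the Voronoi formula with the denominator `D`. -/
def dualF (F : E → E → ℂ) (D : E) : E → E → ℂ := ac (ac F (wM E)) (dM D D⁻¹)

/-- Normalised coefficients (without the angular factor). -/
def tN (F : E → E → ℂ) (ν : E) : ℂ := tF F ν * ((nr ν ^ (1 / 6 : ℝ) : ℝ) : ℂ)

end Crest.Agent.R312
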