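import Crest.Agent.R312.KubDefs

/-!
# Row 312: the cubic symbol splits the Kubota cocycle (auxiliary lemmas)

With `h = gcd (c, c₀)`, `c = h c₁`, `c₀ = h c₂`, `c' = h c₃` one has `c₂ d' = d₀ c₃ - c₁ D`, and the
identity follows from the formal reciprocity law `cub_recip` for the pairs among `c₁, c₂, c₃`.
-/

set_option autoImplicit false

noncomputable section

namespace Crest.Agent.R312.KubGA

open NumberField
open scoped ComplexConjugate

variable {E : Type} [Field E] [NumberField E] [Fr E]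

theorem coe_ne {a : R E} (h : a ≠ 0) : (a : E) ≠ 0 := fun h0 => h (Subtype.ext h0)

theorem cub_zero (a : R E) : cub 0 a = 1 := by rw [cub, pf_zero, Finset.prod_empty]

theorem chi_zero : chi 0 = 1 := by simp [chi]

theorem generic {h c₁ c₂ c₃ d a₀ b₀ d₀ D : R E} (hh : h ≠ 0) (h1 : c₁ ≠ 0) (h2 : c₂ ≠ 0)
    (h3 : c₃ ≠ 0) (h12 : IsCoprime c₁ c₂) (e3 : c₃ = c₁ * a₀ + d * c₂)
    (eD : D = a₀ * d₀ - b₀ * (h * c₂)) (hD : IsUnit D) :
    cub (h * c₃) (h * c₁ * b₀ + d * d₀) = cub (h * c₁) d * cub (h * c₂) d₀ *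
      chi (rho ((h * c₁ : R E) : E) ((h * c₃ : R E) : E) +
        rho ((h * c₃ : R E) : E) ((h * c₂ : R E) : E) +
        rho ((h * c₂ : R E) : E) ((h * c₁ : R E) : E) - rho ((h * c₃ : R E) : E) (D : E) +
        rho ((h * c₂ : R E) : E) (D : E)) := by
  have n0 := coe_ne hh
  have n1 := coe_ne h1
  have n2 := coe_ne h2
  have n3 := coe_ne h3
  have nD := coe_ne hD.ne_zero
  have ha : IsCoprime a₀ c₂ := by
    obtain ⟨w, hw⟩ := hD.exists_left_inv
    exact ⟨w * d₀, -(w * b₀ * h), by rw [← hw, eD]; ring⟩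
  have h32 : IsCoprime c₃ c₂ := by
    rw [e3]
    exact (h12.mul_left ha).add_mul_right_left d
  have k1 : cub c₃ c₂ * cub c₃ (h * c₁ * b₀ + d * d₀) = cub c₃ c₁ * cub c₃ D := by
    rw [← cub_mul_right, ← cub_mul_right, ← cub_neg c₃ (c₁ * D)]
    exact cub_congr ⟨d₀, by rw [eD, e3]; ring⟩
  have k2 : cub h (h * c₁ * b₀ + d * d₀) = cub h d * cub h d₀ := by
    rw [← cub_mul_right]
    exact cub_congr ⟨c₁ * b₀, by ring⟩
  have k3 : cub c₁ c₃ = cub c₁ d * cub c₁ c₂ := by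
    rw [← cub_mul_right]
    exact cub_congr ⟨a₀, by rw [e3]; ring⟩
  have k4 : cub c₂ c₃ = cub c₂ c₁ * cub c₂ a₀ := by
    rw [← cub_mul_right]
    exact cub_congr ⟨d, by rw [e3]; ring⟩
  have k5 : cub c₂ a₀ * cub c₂ d₀ = chi (rho (D : E) (c₂ : E)) := by
    rw [← cub_mul_right, ← cub_unit_right hD h2]
    exact cub_congr ⟨b₀ * h, by rw [eD]; ring⟩
  have k6 := cub_recip h1 h3
  have k7 := cub_recip h2 h3
  have k8 := cub_recip h2 h1
  have k9 := cub_unit_right hD h3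
  have k10 : chi (rho ((h * c₁ : R E) : E) ((h * c₃ : R E) : E) +
        rho ((h * c₃ : R E) : E) ((h * c₂ : R E) : E) +
        rho ((h * c₂ : R E) : E) ((h * c₁ : R E) : E) - rho ((h * c₃ : R E) : E) (D : E) +
        rho ((h * c₂ : R E) : E) (D : E)) * chi (rho (c₂ : E) (c₃ : E)) *
        chi (rho (D : E) (c₂ : E)) = chi (rho (c₁ : E) (c₃ : E)) * chi (rho (c₂ : E) (c₁ : E)) *
        chi (rho (D : E) (c₃ : E)) := by
    simp only [← chi_add]
    congr 1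
    push_cast
    simp only [rho_mul_left n0 n1 (mul_ne_zero n0 n3), rho_mul_left n0 n3 (mul_ne_zero n0 n2),
      rho_mul_left n0 n2 (mul_ne_zero n0 n1), rho_mul_left n0 n3 nD, rho_mul_left n0 n2 nD,
      rho_mul_right n0 n0 n1, rho_mul_right n0 n0 n2, rho_mul_right n0 n0 n3,
      rho_mul_right n1 n0 n3, rho_mul_right n3 n0 n2, rho_mul_right n2 n0 n1, rho_self,
      rho_swap (c₁ : E) h, rho_swap (c₂ : E) h, rho_swap (c₃ : E) h, rho_swap (c₃ : E) c₂,
      rho_swap (D : E) c₂, rho_swap (D : E) c₃]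
    ring
  have hne : cub c₃ c₂ ≠ 0 := fun h0 => (cub_eq_zero_iff h3).1 h0 h32
  refine mul_left_cancel₀ hne ?_
  rw [cub_mul_left hh h3, cub_mul_left hh h1, cub_mul_left hh h2, mul_left_comm, k1, k2, k6, k3,
    k8, k9, k7, k4]
  rw [← k5] at k10
  linear_combination -(cub h d * cub h d₀ * cub c₁ d * cub c₂ c₁) * k10

open Classical in
/-- Kubota's function on `R`. -/
theorem kX_coe (c d : R E) : kX (c : E) (d : E) = ((if c = 0 then d else c : R E) : E) := by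
  unfold kX
  by_cases h : c = 0
  · simp [h]
  · rw [if_neg (coe_ne h), if_neg h]

open Classical in
theorem kb_eq (c d a₀ b₀ c₀ d₀ : R E) (hD : IsUnit (a₀ * d₀ - b₀ * c₀)) {X X₀ X' : R E}
    (hX : X = if c = 0 then d else c) (hX₀ : X₀ = if c₀ = 0 then d₀ else c₀)
    (hX' : X' = if c * a₀ + d * c₀ = 0 then c * b₀ + d * d₀ else c * a₀ + d * c₀) :
    kb (c : E) (d : E) (mR a₀ b₀ c₀ d₀) - kb 0 1 (mR a₀ b₀ c₀ d₀) =
      rho (X : E) (X' : E) + rho (X' : E) (X₀ : E) + rho (X₀ : E) (X : E) -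
        rho (X' : E) ((a₀ * d₀ - b₀ * c₀ : R E) : E) +
        rho (X₀ : E) ((a₀ * d₀ - b₀ * c₀ : R E) : E) := by
  have e0 : kX (c₀ : E) (d₀ : E) = X₀ := by rw [kX_coe, hX₀]
  have e1 : kX (c : E) (d : E) = X := by rw [kX_coe, hX]
  have e2 : kX ((c : E) * a₀ + d * c₀) ((c : E) * b₀ + d * d₀) = X' := by
    rw [hX', ← kX_coe]
    push_cast
    rfl
  have e3 : kX (0 : E) 1 = 1 := by simp [kX]
  have n0 : (X₀ : E) ≠ 0 := by
    refine coe_ne ?_
    rw [hX₀]
    split_ifs with h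
    · rintro rfl
      rw [h] at hD
      simp at hD
    · exact h
  have e4 : (mR a₀ b₀ c₀ d₀).det = ((a₀ * d₀ - b₀ * c₀ : R E) : E) := by
    rw [mR, Matrix.det_fin_two_of]
    push_cast
    rfl
  have m00 : mR a₀ b₀ c₀ d₀ 0 0 = (a₀ : E) := rfl
  have m01 : mR a₀ b₀ c₀ d₀ 0 1 = (b₀ : E) := rfl
  have m10 : mR a₀ b₀ c₀ d₀ 1 0 = (c₀ : E) := rfl
  have m11 : mR a₀ b₀ c₀ d₀ 1 1 = (d₀ : E) := rfl
  simp only [kb, e4, m00, m01, m10, m11, zero_mul, one_mul, zero_add, e0, e1, e2, e3, rho_self,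
    rho_one_left n0, rho_one_right n0]
  ring

theorem cocycle {c d a₀ b₀ c₀ d₀ : R E} (h : IsCoprime c d) (hD : IsUnit (a₀ * d₀ - b₀ * c₀)) :
    cub (c * a₀ + d * c₀) (c * b₀ + d * d₀) = cub c d * cub c₀ d₀ *
      chi (kb (c : E) (d : E) (mR a₀ b₀ c₀ d₀) - kb 0 1 (mR a₀ b₀ c₀ d₀)) := by
  have nD := coe_ne hD.ne_zero
  by_cases hc : c = 0
  · subst hc
    have hd : IsUnit d := isCoprime_zero_left.1 h
    have nd := coe_ne hd.ne_zero
    by_cases hc₀ : c₀ = 0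
    · subst hc₀
      have hd₀ : IsUnit d₀ := isUnit_of_mul_isUnit_right (by simpa using hD)
      rw [kb_eq 0 d a₀ b₀ 0 d₀ hD (X := d) (X₀ := d₀) (X' := d * d₀) (by simp) (by simp) (by simp),
        rho_unit_unit hd (hd.mul hd₀), rho_unit_unit (hd.mul hd₀) hd₀, rho_unit_unit hd₀ hd,
        rho_unit_unit (hd.mul hd₀) hD, rho_unit_unit hd₀ hD]
      simp
    · have n0 := coe_ne hc₀
      rw [kb_eq 0 d a₀ b₀ c₀ d₀ hD (X := d) (X₀ := c₀) (X' := d * c₀) (by simp) (by simp [hc₀])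
        (by simp [hc₀, hd.ne_zero]), zero_mul, zero_mul, zero_add, zero_add, cub_zero, one_mul,
        cub_mul_left hd.ne_zero hc₀, cub_unit_left hd, one_mul, cub_mul_right,
        cub_unit_right hd hc₀, mul_comm]
      congr 2
      rw [Subring.coe_mul, rho_mul_right nd nd n0, rho_mul_left nd n0 n0, rho_mul_left nd n0 nD,
        rho_unit_unit hd hD, rho_self, rho_self, rho_swap (c₀ : E) d]
      ring
  have n1 := coe_ne hc
  by_cases hc₀ : c₀ = 0
  · subst hc₀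
    have hD' : IsUnit (a₀ * d₀) := by simpa using hD
    have ha₀ : IsUnit a₀ := isUnit_of_mul_isUnit_left hD'
    have hd₀ : IsUnit d₀ := isUnit_of_mul_isUnit_right hD'
    have na := coe_ne ha₀.ne_zero
    have nd := coe_ne hd₀.ne_zero
    have k1 : cub c (c * b₀ + d * d₀) = cub c d * cub c d₀ := by
      rw [← cub_mul_right]
      exact cub_congr ⟨b₀, by ring⟩
    rw [kb_eq c d a₀ b₀ 0 d₀ hD (X := c) (X₀ := d₀) (X' := c * a₀) (by simp [hc]) (by simp)
      (by simp [hc, ha₀.ne_zero]), rho_unit_unit hd₀ hD, mul_zero, mul_zero, add_zero, sub_zero,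
      cub_zero, mul_one, cub_mul_left hc ha₀.ne_zero, cub_unit_left ha₀, mul_one, k1,
      cub_unit_right hd₀ hc]
    congr 2
    rw [Subring.coe_mul _ c, rho_mul_left n1 na (coe_ne hD'.ne_zero), rho_unit_unit ha₀ hD',
      Subring.coe_mul, rho_mul_right n1 n1 na, rho_mul_left n1 na nd, rho_mul_right n1 na nd,
      rho_unit_unit ha₀ hd₀, rho_self]
    ring
  have n0 := coe_ne hc₀
  by_cases hc' : c * a₀ + d * c₀ = 0
  · have e1 : c * (a₀ * d₀ - b₀ * c₀) = -(c₀ * (c * b₀ + d * d₀)) := by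
      linear_combination d₀ * hc'
    have e2 : d * (a₀ * d₀ - b₀ * c₀) = a₀ * (c * b₀ + d * d₀) := by
      linear_combination -b₀ * hc'
    have hd' : IsUnit (c * b₀ + d * d₀) := by
      obtain ⟨x, y, hxy⟩ := h
      refine isUnit_of_dvd_unit ⟨y * a₀ - x * c₀, ?_⟩ hD
      linear_combination -(a₀ * d₀ - b₀ * c₀) * hxy + x * e1 + y * e2
    have nd := coe_ne hd'.ne_zero
    have has : Associated c c₀ :=
      ((associated_mul_unit_right c _ hD).trans (by rw [e1]; exact (Associated.refl _).neg_left)).trans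
        (associated_mul_unit_left c₀ _ hd')
    have k1 : cub c₀ d * cub c₀ d₀ = chi (rho ((c * b₀ + d * d₀ : R E) : E) (c₀ : E)) := by
      rw [← cub_mul_right, ← cub_unit_right hd' hc₀]
      refine cub_congr ?_
      rw [show d * d₀ - (c * b₀ + d * d₀) = c * -b₀ by ring]
      exact has.symm.dvd.mul_right _
    have e3 : (c : E) * ((a₀ * d₀ - b₀ * c₀ : R E) : E) =
        -((c₀ : E) * ((c * b₀ + d * d₀ : R E) : E)) := by
      exact_mod_cast congrArg (fun x : R E => (x : E)) e1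
    have k2 := rho_mul_left n1 nD nd
    have k3 := rho_mul_right n0 n1 nD
    rw [e3, rho_neg_left (mul_ne_zero n0 nd) nd, rho_mul_left n0 nd nd, rho_self,
      rho_unit_unit hD hd'] at k2
    rw [e3, rho_neg_right n0 (mul_ne_zero n0 nd), rho_mul_right n0 n0 nd, rho_self] at k3
    rw [kb_eq c d a₀ b₀ c₀ d₀ hD (X := c) (X₀ := c₀) (X' := c * b₀ + d * d₀) (by simp [hc])
      (by simp [hc₀]) (by rw [if_pos hc']), hc', cub_zero, cub_of_associated has, k1, ← chi_add,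
      rho_unit_unit hd' hD, ← chi_zero]
    congr 1
    rw [rho_swap ((c * b₀ + d * d₀ : R E) : E) c₀]
    linear_combination k2 + k3
  obtain ⟨g, c₁, c₂, h12, rfl, rfl⟩ : ∃ g c₁ c₂ : R E, IsCoprime c₁ c₂ ∧ c = g * c₁ ∧ c₀ = g * c₂ := by
    obtain ⟨g, hg⟩ := (IsPrincipalIdealRing.principal (Ideal.span {c, c₀})).principal
    have hg' : Ideal.span {c, c₀} = Ideal.span {g} := hg
    obtain ⟨c₁, h1⟩ : g ∣ c := Ideal.mem_span_singleton.1 (hg' ▸ Ideal.subset_span (by simp))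
    obtain ⟨c₂, h2⟩ : g ∣ c₀ := Ideal.mem_span_singleton.1 (hg' ▸ Ideal.subset_span (by simp))
    obtain ⟨x, y, hxy⟩ := Ideal.mem_span_pair.1 (hg'.symm ▸ Ideal.mem_span_singleton_self g)
    have hg0 : g ≠ 0 := left_ne_zero_of_mul (h1 ▸ hc)
    refine ⟨g, c₁, c₂, ⟨x, y, mul_left_cancel₀ hg0 ?_⟩, h1, h2⟩
    rw [h1, h2] at hxy
    linear_combination hxy
  have e3 : g * c₁ * a₀ + d * (g * c₂) = g * (c₁ * a₀ + d * c₂) := by ring
  rw [kb_eq _ d a₀ b₀ _ d₀ hD (X := g * c₁) (X₀ := g * c₂) (X' := g * (c₁ * a₀ + d * c₂))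
    (by rw [if_neg hc]) (by rw [if_neg hc₀]) (by rw [if_neg hc', e3]), e3]
  exact generic (left_ne_zero_of_mul hc) (right_ne_zero_of_mul hc) (right_ne_zero_of_mul hc₀)
    (right_ne_zero_of_mul (e3 ▸ hc')) h12 rfl rfl hD

end Crest.Agent.R312.KubGA
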