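import Crest.Agent.R312.KubS
import Crest.Agent.R312.KubGAuxA

/-!
# Row 312: the Kubota symbol, the global functions `xi F`
-/

set_option autoImplicit false

noncomputable section

namespace Crest.Agent.R312

open NumberField
open scoped ComplexConjugate

open Filter Topology

variable {E : Type} [Field E] [NumberField E] [Fr E]

/-! ## part A -/

/-- **The cubic symbol splits the cocycle on `GL₂(R)`.**  No reciprocity law is used: both sides are
`chi` of a sum over the primes (`cub_eq_chi`, `rho_coe`, `rho0_eq_sum`), and the identity holds prime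
by prime.  Generic case `c, c₀, c' ≠ 0` (`c' = c a₀ + d c₀`, `d' = c b₀ + d d₀`, `D = det`), with
`i, i₀, i'` the valuations and `♭` the prime-to-`p` parts:
`i' ind d' = i ind d + i₀ ind d₀ + (c,c') + (c',c₀) + (c₀,c) + i' ind D - i₀ ind D`,
`(x,y) = v(y) ind x♭ - v(x) ind y♭`.  Use `c₀ d' = d₀ c' - c D`, `a₀ d₀ ≡ D (mod c₀)` and compare
`i, i₀`: if `i < i₀` then `i' = i`, `c'♭ ≡ c♭ a₀`; if `i > i₀` then `i' = i₀`, `c'♭ ≡ d c₀♭`; if
`i = i₀ < i'` then `c♭ a₀ ≡ -d c₀♭`.  Degenerate cases: `c₀ = 0` (`a₀, d₀` units), `c = 0` (`d` a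
unit), `c' = 0` (`d'` a unit, `c D = -c₀ d'`·(-1)…): `cub_unit_right`, `rho_unit_unit`.
(Tested numerically.) -/
theorem cub_cocycle {c d a₀ b₀ c₀ d₀ : R E} (h : IsCoprime c d) (hD : IsUnit (a₀ * d₀ - b₀ * c₀)) :
    cub (c * a₀ + d * c₀) (c * b₀ + d * d₀) = cub c d * cub c₀ d₀ *
      chi (kb (c : E) (d : E) (mR a₀ b₀ c₀ d₀) - kb 0 1 (mR a₀ b₀ c₀ d₀)) :=
  KubGA.cocycle h hD

/-! ## part B -/

open Classical in
theorem xi_coe (F : E → E → ℂ) (c d : R E) :
    xi F c d = if IsCoprime c d then conj (cub c d) * F c d else 0 := by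
  rw [xi, dif_pos ⟨c.2, d.2⟩]
theorem xi_coe' (F : E → E → ℂ) {c : R E} (hc : c ≠ 0) (d : R E) :
    xi F c d = conj (cub c d) * F c d := by
  rw [xi_coe]
  split_ifs with h
  · rfl
  · rw [(cub_eq_zero_iff hc).2 h, map_zero, zero_mul]
theorem xi_of_not_mem_left (F : E → E → ℂ) {c : E} (h : c ∉ RR E) (d : E) : xi F c d = 0 := by
  rw [xi, dif_neg fun h' => h h'.1]
theorem xi_of_not_mem_right (F : E → E → ℂ) (c : E) {d : E} (h : d ∉ RR E) : xi F c d = 0 := by
  rw [xi, dif_neg fun h' => h h'.2]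
theorem xi_const_mul (F : E → E → ℂ) (a : ℂ) :
    xi (fun c d => a * F c d) = fun c d => a * xi F c d := by
  funext c d
  unfold xi
  split_ifs <;> ring
theorem xi_add (F F' : E → E → ℂ) :
    xi (fun c d => F c d + F' c d) = fun c d => xi F c d + xi F' c d := by
  funext c d
  unfold xi
  split_ifs <;> ring
theorem xi_sum {α : Type} (s : Finset α) (F : α → E → E → ℂ) :
    xi (fun c d => ∑ i ∈ s, F i c d) = fun c d => ∑ i ∈ s, xi (F i) c d := by
  funext c d
  unfold xi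
  split_ifs
  · rw [Finset.mul_sum]
  · rw [Finset.sum_const_zero]
  · rw [Finset.sum_const_zero]
theorem KGB.coprime_iff {a b c d : R E} (h : IsUnit (a * d - b * c)) (u v : R E) :
    IsCoprime (u * a + v * c) (u * b + v * d) ↔ IsCoprime u v := by
  obtain ⟨w, hw⟩ := h.exists_right_inv
  constructor
  · rintro ⟨x, y, e⟩
    exact ⟨x * a + y * b, x * c + y * d, by linear_combination e⟩
  · rintro ⟨x, y, e⟩
    exact ⟨(x * d - y * b) * w, (y * a - x * c) * w, by linear_combination e + (x * u + y * v) * hw⟩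
/-- `GL₂(R)` permutes the coprime pairs; `cub_cocycle`, `sl_apply`, `ac_apply`. -/
theorem sl_xi_gen (F : E → E → ℂ) {a b c d : R E} (h : IsUnit (a * d - b * c)) :
    sl (xi F) (mR a b c d) =
      fun x y => cub c d * chi (-kb 0 1 (mR a b c d)) * xi (ac F (mR a b c d)) x y := by
  obtain ⟨h0, hi⟩ := isUnit_iff.1 h
  have hg : (mR a b c d).det ≠ 0 := by rw [det_mR]; exact h0
  have h0' : (a : E) * d - b * c ≠ 0 := by exact_mod_cast h0
  have hi' : ((a : E) * d - b * c)⁻¹ ∈ RR E := by exact_mod_cast hi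
  have hw := mul_inv_cancel₀ h0'
  funext x y
  obtain ⟨u, v, rfl, rfl⟩ : ∃ u v : E, x = u * a + v * c ∧ y = u * b + v * d :=
    ⟨(x * d - y * c) * ((a : E) * d - b * c)⁻¹, (y * a - x * b) * ((a : E) * d - b * c)⁻¹,
      by linear_combination -x * hw, by linear_combination -y * hw⟩
  have e1 : sl (xi F) (mR a b c d) (u * a + v * c) (u * b + v * d) = xi F u v :=
    sl_apply (xi F) hg u v
  have e2 : ac F (mR a b c d) (u * a + v * c) (u * b + v * d) =
      chi (kb u v (mR a b c d)) * F u v := ac_apply F hg u v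
  rw [e1]
  by_cases huv : u ∈ RR E ∧ v ∈ RR E
  · lift u to R E using huv.1
    lift v to R E using huv.2
    have e3 := xi_coe (ac F (mR a b c d)) (u * a + v * c) (u * b + v * d)
    push_cast at e3
    rw [e3, e2, xi_coe, KGB.coprime_iff h]
    split_ifs with hc
    · have hcd : IsCoprime c d := by simpa using (KGB.coprime_iff h 0 1).2 isCoprime_one_right
      have e4 : cub c d * conj (cub c d) = 1 := by
        rw [Complex.mul_conj, Complex.normSq_eq_norm_sq, norm_cub hcd]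
        norm_num
      have e5 : chi (-kb 0 1 (mR a b c d)) *
          chi (-(kb (u : E) (v : E) (mR a b c d) - kb 0 1 (mR a b c d))) *
          chi (kb (u : E) (v : E) (mR a b c d)) = 1 := by
        rw [← chi_add, ← chi_add, ← chi_zero]
        congr 1
        ring
      rw [cub_cocycle hc h, map_mul, map_mul, ← chi_neg]
      calc _ = 1 * 1 * (conj (cub u v) * F u v) := by ring
        _ = _ := by
          nth_rewrite 1 [← e4]
          rw [← e5]
          ring
    · rw [mul_zero]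
  · have hxy : ¬ (u * a + v * c ∈ RR E ∧ u * b + v * d ∈ RR E) := by
      rintro ⟨hx, hy⟩
      refine huv ⟨?_, ?_⟩
      · have e : u = ((u * a + v * c) * d - (u * b + v * d) * c) * ((a : E) * d - b * c)⁻¹ := by
          linear_combination -u * hw
        rw [e]
        exact mul_mem (sub_mem (mul_mem hx d.2) (mul_mem hy c.2)) hi'
      · have e : v = ((u * b + v * d) * a - (u * a + v * c) * b) * ((a : E) * d - b * c)⁻¹ := by
          linear_combination -v * hw
        rw [e]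
        exact mul_mem (sub_mem (mul_mem hy a.2) (mul_mem hx b.2)) hi'
    rw [xi, xi, dif_neg huv, dif_neg hxy, mul_zero]
theorem sl_xi (F : E → E → ℂ) {a b c d : R E} (h : a * d - b * c = 1) :
    sl (xi F) (mR a b c d) = fun x y => cub c d * xi (ac F (mR a b c d)) x y := by
  have hd : (mR a b c d).det = 1 := by rw [det_mR, h]; rfl
  have hg : (mR a b c d).det ≠ 0 := by rw [hd]; exact one_ne_zero
  rw [sl_xi_gen F (h ▸ isUnit_one), kb_zero_one hg, hd, rho_one_right (kX_row_ne hg), neg_zero,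
    neg_zero, chi_zero, mul_one]
theorem sl_xi_dM (F : E → E → ℂ) {u v : R E} (hu : IsUnit u) (hv : IsUnit v) :
    sl (xi F) (dM (u : E) (v : E)) = xi (ac F (dM (u : E) (v : E))) := by
  have h := sl_xi_gen F (a := u) (b := 0) (c := 0) (d := v) (by simpa using hu.mul hv)
  have e : kb 0 1 (mR u 0 0 v) = 0 := by
    have := kb_upper_zero (one_ne_zero (α := E)) (isUnit_iff.1 hu).1 (isUnit_iff.1 hv).1 0
    rw [one_mul, rho_unit_unit hu hv] at this
    exact this
  rw [e, neg_zero, chi_zero, cub_zero_left, one_mul] at h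
  simp only [one_mul] at h
  exact h
theorem sl_xi_nM (F : E → E → ℂ) (t : R E) : sl (xi F) (nM (t : E)) = xi (ac F (nM (t : E))) := by
  have h := sl_xi F (a := 1) (b := t) (c := 0) (d := 1) (by ring)
  simp only [cub_zero_left, one_mul] at h
  exact h
theorem sl_xi_wM (F : E → E → ℂ) : sl (xi F) (wM E) = xi (ac F (wM E)) := by
  have h := sl_xi F (a := 0) (b := -1) (c := 1) (d := 0) (by ring)
  simp only [cub_one_left, one_mul] at h
  exact h
/-- Support: with `c x₀ + d y₀ = 1` in `R` and `c x₁ + d y₁ = m^N` in `OS`, the solutions of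
`c x + d y = m^N` are `(m^N x₀ + t d, m^N y₀ - t c)`; choose `t ∈ R` close to `t₁ = x₁ y₀ - y₁ x₀`
(`exists_approx`, `isIntegral_iff`).  Stabiliser: `finiteIndex_Stab` with `m^N`, `sl_xi`. -/
theorem SD.adm {F : E → E → ℂ} (h : SD F) : Adm (xi F) := by
  obtain ⟨⟨B, hB⟩, ⟨N, hN⟩, ⟨M, hM⟩⟩ := h
  have hm : ∀ k : ℕ, mm E ^ k ≠ 0 := fun k => pow_ne_zero _ Fr.m_ne
  refine ⟨⟨B, fun c d => ?_⟩, ⟨mm E ^ N, hm N, fun c d h => ?_⟩,
    finiteIndex_Stab (hm M) fun γ hγ => ?_⟩
  · have h0 := (norm_nonneg _).trans (hB c d)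
    unfold xi
    split_ifs
    · rw [norm_mul, RCLike.norm_conj]
      exact (mul_le_of_le_one_left (norm_nonneg _) (norm_cub_le _ _)).trans (hB c d)
    · rwa [norm_zero]
    · rwa [norm_zero]
  · unfold xi at h
    split_ifs at h with h1 h2
    swap
    · exact absurd rfl h
    swap
    · exact absurd rfl h
    obtain ⟨h3, h4, x₁, hx, y₁, hy, e₁⟩ := hN c d (right_ne_zero_of_mul h)
    obtain ⟨x₀, y₀, e₀⟩ := h2
    have e₀' : (x₀ : E) * c + y₀ * d = 1 := congrArg Subtype.val e₀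
    obtain ⟨t, -, ht⟩ := exists_approx (one_ne_zero (α := R E)) 0 (x₁ * y₀ - y₁ * x₀) N
    have hm' : (mm E : E) ^ N ≠ 0 := pow_ne_zero _ mm_ne_zero
    have hR : (mm E : E) ^ N ∈ RR E := pow_mem (natCast_mem _ _) _
    rw [Nat.cast_pow]
    refine ⟨isIntegral_iff.2 ⟨mul_mem hR h1.1, h3⟩, isIntegral_iff.2 ⟨mul_mem hR h1.2, h4⟩,
      (mm E : E) ^ N * x₀ + t * d, (mm E : E) ^ N * y₀ - t * c,
      isIntegral_iff.2 ⟨add_mem (mul_mem hR x₀.2) (mul_mem t.2 h1.2), ?_⟩,
      isIntegral_iff.2 ⟨sub_mem (mul_mem hR y₀.2) (mul_mem t.2 h1.1), ?_⟩,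
      by linear_combination (mm E : E) ^ N * e₀'⟩
    · have := add_mem hx (mul_mem ht h4)
      rw [← mul_assoc, div_mul_cancel₀ _ hm'] at this
      convert this using 1
      linear_combination (-x₀ : E) * e₁ + x₁ * e₀'
    · have := sub_mem hy (mul_mem ht h3)
      rw [← mul_assoc, div_mul_cancel₀ _ hm'] at this
      convert this using 1
      linear_combination (-y₀ : E) * e₁ + y₁ * e₀'
  · have e : toM γ = mR (toR (γ 0 0)) (toR (γ 0 1)) (toR (γ 1 0)) (toR (γ 1 1)) := by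
      ext i j; fin_cases i <;> fin_cases j <;> rfl
    have hd : (toR (γ 0 0) * toR (γ 1 1) - toR (γ 0 1) * toR (γ 1 0) : R E) = 1 := by
      rw [← map_mul, ← map_mul, ← map_sub, ← Matrix.det_fin_two, γ.det_coe, map_one]
    have hK : KN M (toM γ) := ⟨det_toM γ, fun i j => by
      have := mem_OS_of_isIntegral (hγ i j)
      rwa [Nat.cast_pow] at this⟩
    refine ⟨cub (toR (γ 1 0)) (toR (γ 1 1)),
      cub_pow_three ⟨-toR (γ 0 1), toR (γ 0 0), by linear_combination hd⟩, ?_⟩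
    have := hM _ hK
    rw [e] at this ⊢
    rw [sl_xi F hd, this]
/-- `R` is principal: the first column is `a (α, β)` with `α, β` coprime in `R`. -/
theorem exists_SLR {g : Mt E} (hg : g.det = 1) : ∃ (α x β δ : R E) (a b : E),
    α * δ - x * β = 1 ∧ a ≠ 0 ∧ g = mR α x β δ * !![a, b; 0, a⁻¹] := by
  classical
  rw [Matrix.det_fin_two] at hg
  obtain ⟨n, hn, hn'⟩ := IsLocalization.exist_integer_multiples_of_finset
    (nonZeroDivisors (R E)) ({g 0 0, g 1 0} : Finset E) |>.elim fun n h =>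
      (⟨n.1, nonZeroDivisors.ne_zero n.2, h⟩ : ∃ n : R E, n ≠ 0 ∧
        ∀ x ∈ ({g 0 0, g 1 0} : Finset E), IsLocalization.IsInteger (R E) (n • x))
  obtain ⟨A, hA⟩ := hn' (g 0 0) (by simp)
  obtain ⟨B, hB⟩ := hn' (g 1 0) (by simp)
  have hA' : (A : E) = n * g 0 0 := hA
  have hB' : (B : E) = n * g 1 0 := hB
  have hnE : (n : E) ≠ 0 := fun h => hn (Subtype.ext h)
  obtain ⟨e, he⟩ := (IsPrincipalIdealRing.principal (Ideal.span {A, B})).principal
  have hsp : Ideal.span {A, B} = Ideal.span {e} := he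
  obtain ⟨α, hα⟩ := Ideal.mem_span_singleton'.1
    (hsp ▸ Ideal.subset_span (by simp) : A ∈ Ideal.span {e})
  obtain ⟨β, hβ⟩ := Ideal.mem_span_singleton'.1
    (hsp ▸ Ideal.subset_span (by simp) : B ∈ Ideal.span {e})
  obtain ⟨δ, x, hδ⟩ := Ideal.mem_span_pair.1
    (hsp ▸ Ideal.mem_span_singleton_self e : e ∈ Ideal.span {A, B})
  have hα' : (α : E) * e = n * g 0 0 := by rw [← hA', ← hα]; rfl
  have hβ' : (β : E) * e = n * g 1 0 := by rw [← hB', ← hβ]; rfl
  have he0 : (e : E) ≠ 0 := by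
    intro h
    rw [h, mul_zero] at hα' hβ'
    rw [(mul_eq_zero.1 hα'.symm).resolve_left hnE, (mul_eq_zero.1 hβ'.symm).resolve_left hnE]
      at hg
    simp at hg
  have h1 : α * δ - (-x) * β = 1 :=
    mul_right_cancel₀ (b := e) (fun h => he0 (by rw [h]; rfl))
      (by linear_combination δ * hα + x * hβ + hδ)
  have h1' : (α : E) * δ + x * β = 1 := by
    have := congrArg (fun z : R E => (z : E)) h1
    push_cast at this
    linear_combination this
  have g00 : g 0 0 = α * (e / n) := by field_simp; linear_combination -hα'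
  have g10 : g 1 0 = β * (e / n) := by field_simp; linear_combination -hβ'
  have ha : (e : E) / n ≠ 0 := div_ne_zero he0 hnE
  refine ⟨α, -x, β, δ, e / n, δ * g 0 1 + x * g 1 1, h1, ha, ?_⟩
  generalize (e : E) / n = a at g00 g10 ha
  rw [g00, g10] at hg
  have hi : a⁻¹ = α * g 1 1 - β * g 0 1 := by
    field_simp
    linear_combination -hg
  ext i j
  fin_cases i <;> fin_cases j <;> simp [mR, Matrix.mul_apply, Fin.sum_univ_two, hi]
  · exact g00
  · linear_combination -g 0 1 * h1'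
  · exact g10
  · linear_combination -g 1 1 * h1'
theorem exists_completion {α β : R E} (h : IsCoprime α β) : ∃ x δ : R E, α * δ - x * β = 1 := by
  obtain ⟨u, v, e⟩ := h
  exact ⟨-v, u, by linear_combination e⟩
theorem kubB2_upper {ξ : E → E → ℂ} (h : Adm ξ) {L : ℂ} (hL : Tendsto (P0 ξ) (lB E) (𝓝 L))
    {a d : E} (ha : a ≠ 0) (hd : d ≠ 0) (b : E) : Tendsto (P0 (sl ξ !![a, b; 0, d])) (lB E)
      (𝓝 (((nr a ^ (-(1 / 3 : ℝ)) / nr d : ℝ) : ℂ) * L)) :=
  ((hL.comp (tendsto_add_lB (lg a))).const_mul _).congr fun η => (P0_upper h ha hd b η).symm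
/-- It is enough to look at `∞` and at the cusps `α / β`, `β ≠ 0` (`P0_upper`, `tendsto_add_lB`). -/
theorem vanish_SLR {ζ : E → E → ℂ} (h : Adm ζ) (h0 : Tendsto (P0 ζ) (lB E) (𝓝 0))
    (h1 : ∀ α x β δ : R E, α * δ - x * β = 1 → β ≠ 0 →
      Tendsto (P0 (sl ζ (mR α x β δ))) (lB E) (𝓝 0)) (ν : E) : tt ζ ν = 0 := by
  refine tt_vanish h (fun g hg => ?_) ν
  obtain ⟨α, x, β, δ, a, b, hσ, ha, rfl⟩ := exists_SLR hg
  have hσ' : (α : E) * δ - x * β = 1 := congrArg Subtype.val hσ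
  by_cases hβ : β = 0
  · subst hβ
    rw [ZeroMemClass.coe_zero, mul_zero, sub_zero] at hσ'
    have e : mR α x 0 δ * !![a, b; 0, a⁻¹] = !![α * a, α * b + x * a⁻¹; 0, δ * a⁻¹] := by
      simp [mR]
    simpa only [e, mul_zero] using kubB2_upper h h0
      (mul_ne_zero (left_ne_zero_of_mul_eq_one hσ') ha)
      (mul_ne_zero (right_ne_zero_of_mul_eq_one hσ') (inv_ne_zero ha)) (α * b + x * a⁻¹)
  · have hd : (mR α x β δ).det ≠ 0 := by
      rw [mR, Matrix.det_fin_two_of, hσ']; exact one_ne_zero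
    rw [sl_mul _ hd (by simp [ha])]
    simpa only [mul_zero] using kubB2_upper (h.sl hd) (h1 α x β δ hσ hβ) ha (inv_ne_zero ha) b
theorem sl_const_mul (ξ : E → E → ℂ) (a : ℂ) (g : Mt E) :
    sl (fun c d => a * ξ c d) g = fun c d => a * sl ξ g c d := rfl
theorem sl_add (ξ ξ' : E → E → ℂ) (g : Mt E) :
    sl (fun c d => ξ c d + ξ' c d) g = fun c d => sl ξ g c d + sl ξ' g c d := rfl
theorem sl_sum {α : Type} (s : Finset α) (ξ : α → E → E → ℂ) (g : Mt E) :
    sl (fun c d => ∑ i ∈ s, ξ i c d) g = fun c d => ∑ i ∈ s, sl (ξ i) g c d := rfl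
theorem P0_sum {α : Type} (s : Finset α) {ξ : α → E → E → ℂ} (h : ∀ i ∈ s, Adm (ξ i))
    (η : Pl E → ℝ) : P0 (fun c d => ∑ i ∈ s, ξ i c d) η = ∑ i ∈ s, P0 (ξ i) η := by
  classical
  induction s using Finset.induction_on with
  | empty => simpa using P0_const_mul (adm_zero (E := E)) 0 η
  | insert i s hi ih =>
    have h' : ∀ j ∈ s, Adm (ξ j) := fun j hj => h j (Finset.mem_insert_of_mem hj)
    simp only [Finset.sum_insert hi]
    rw [P0_add (h i (Finset.mem_insert_self i s)) (Adm.sum s h'), ih h']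
theorem tendsto_P0_upper {ξ : E → E → ℂ} (h : Adm ξ) {L : ℂ} (hL : Tendsto (P0 ξ) (lB E) (𝓝 L))
    {a d : E} (ha : a ≠ 0) (hd : d ≠ 0) (b : E) : Tendsto (P0 (sl ξ !![a, b; 0, d])) (lB E)
      (𝓝 (((nr a ^ (-(1 / 3 : ℝ)) / nr d : ℝ) : ℂ) * L)) := kubB2_upper h hL ha hd b

end Crest.Agent.R312
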