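import Crest.Agent.R312.KubDefs
import Crest.Agent.R312.Count

/-!
# Row 312: Riemann sums for the kernel `exp (-|z|⁶)`
-/

set_option autoImplicit false

noncomputable section

namespace Crest.Agent.R312

open NumberField
open scoped ComplexConjugate

open Filter Topology

variable {E : Type} [Field E] [NumberField E] [Fr E]

/-- The kernel. -/
def K6 (η : Pl E → ℝ) (x : E) : ℝ := Real.exp (-∑ σ, (Real.exp (η σ) * ‖σ.1 x‖ ^ 2) ^ 3)

/-! ## part A -/

theorem K6_pos (η : Pl E → ℝ) (x : E) : 0 < K6 η x := Real.exp_pos _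

theorem KRA_cube {t : ℝ} (ht : 0 ≤ t) : -t ^ 3 + 4 * Real.pi * t ≤ 54 := by
  have h1 := Real.pi_le_four
  nlinarith [mul_nonneg ht (sq_nonneg (t - 3)), sq_nonneg (t - 3),
    mul_le_mul_of_nonneg_right h1 ht]

/-- `exp (-t³) ≤ C exp (-2π t)` for `t ≥ 0`. -/
theorem K6_le : ∃ C : ℝ, 0 < C ∧ ∀ (η : Pl E → ℝ) (x : E), K6 η x ≤ C * gz (em x) (-η) := by
  refine ⟨Real.exp (∑ _σ : Pl E, 54), Real.exp_pos _, fun η x => ?_⟩
  rw [K6, gz, ← Real.exp_add, Finset.mul_sum, ← Finset.sum_add_distrib, ← Finset.sum_neg_distrib]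
  refine Real.exp_le_exp.2 (Finset.sum_le_sum fun σ _ => ?_)
  rw [Pi.neg_apply, neg_neg, em, mul_comm (‖σ.1 x‖ ^ 2)]
  have ht : 0 ≤ Real.exp (η σ) * ‖σ.1 x‖ ^ 2 := by positivity
  generalize Real.exp (η σ) * ‖σ.1 x‖ ^ 2 = t at ht
  nlinarith [KRA_cube ht, mul_nonneg Real.pi_pos.le ht]

theorem K6_mul {a : E} (ha : a ≠ 0) (η : Pl E → ℝ) (x : E) : K6 η (a * x) = K6 (η + lg a) x := by
  unfold K6
  congr 2
  refine Finset.sum_congr rfl fun σ _ => ?_
  rw [Pi.add_apply, Real.exp_add, exp_lg ha, map_mul, norm_mul]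
  ring

/-- The Gaussian at one place. -/
def KRA_y (η : Pl E → ℝ) (x : E) (σ : Pl E) : ℝ :=
  Real.exp (-(2 * Real.pi) * (Real.exp (η σ) * ‖σ.1 x‖ ^ 2))

theorem KRA_y_mem (η : Pl E → ℝ) (x : E) (σ : Pl E) : KRA_y η x σ ∈ Set.Icc (0 : ℝ) 1 :=
  ⟨(Real.exp_pos _).le, Real.exp_le_one_iff.2 (mul_nonpos_of_nonpos_of_nonneg
    (by linarith [Real.pi_pos]) (by positivity))⟩

theorem KRA_gz (η : Pl E → ℝ) (x : E) (κ : Pl E → ℕ) :
    gz (em x) (-(η + fun σ => Real.log (κ σ + 1))) = gz (em x) (-η) * ∏ σ, KRA_y η x σ ^ κ σ := by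
  rw [gz, gz, Finset.mul_sum, Finset.mul_sum, Real.exp_sum, Real.exp_sum, ← Finset.prod_mul_distrib]
  refine Finset.prod_congr rfl fun σ _ => ?_
  rw [KRA_y, ← Real.exp_nat_mul, ← Real.exp_add, Pi.neg_apply, Pi.neg_apply, neg_neg, neg_neg,
    Pi.add_apply, Real.exp_add, Real.exp_log (by positivity), em]
  congr 1
  ring

/-- Monomials. -/
theorem KRA_mono {φ : E → ℂ} (hφ : Per φ) (κ : Pl E → ℕ) :
    Tendsto (fun η : Pl E → ℝ => (Real.exp (∑ σ, η σ) : ℂ) *
        ∑' x : E, φ x * ((gz (em x) (-η) * ∏ σ, KRA_y η x σ ^ κ σ : ℝ) : ℂ))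
      (lB E) (𝓝 (((∏ σ, ((κ σ : ℝ) + 1)⁻¹ : ℝ) : ℂ) * Mn φ)) := by
  refine (((tendsto_gz hφ).comp (tendsto_add_lB fun σ => Real.log (κ σ + 1))).const_mul
    ((∏ σ, ((κ σ : ℝ) + 1)⁻¹ : ℝ) : ℂ)).congr fun η => ?_
  simp only [Function.comp, KRA_gz]
  rw [← mul_assoc, ← Complex.ofReal_mul]
  congr 2
  simp only [Pi.add_apply, Finset.sum_add_distrib]
  rw [Real.exp_add, Real.exp_sum Finset.univ fun σ => Real.log (κ σ + 1), mul_left_comm,
    ← Finset.prod_mul_distrib, Finset.prod_eq_one, mul_one]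
  intro σ _
  rw [Real.exp_log (by positivity), inv_mul_cancel₀ (by positivity)]

theorem KRA_summable {φ : E → ℂ} (hφ : Per φ) (η : Pl E → ℝ) {F : E → ℝ} {M : ℝ}
    (hF : ∀ x, |F x| ≤ M) : Summable fun x => φ x * ((gz (em x) (-η) * F x : ℝ) : ℂ) := by
  have h := summable_gz hφ 0 (-η)
  simp only [add_zero] at h
  refine Summable.of_norm_bounded (h.mul_right M) fun x => ?_
  rw [Complex.ofReal_mul, ← mul_assoc, norm_mul, Complex.norm_real, Real.norm_eq_abs]
  exact mul_le_mul_of_nonneg_left (hF x) (norm_nonneg _)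

/-- Polynomials. -/
theorem KRA_poly {φ : E → ℂ} (hφ : Per φ) (p : Polynomial ℝ) :
    Tendsto (fun η : Pl E → ℝ => (Real.exp (∑ σ, η σ) : ℂ) *
        ∑' x : E, φ x * ((gz (em x) (-η) * ∏ σ, p.eval (KRA_y η x σ) : ℝ) : ℂ))
      (lB E) (𝓝 (((∏ _σ : Pl E, ∫ y in (0 : ℝ)..1, p.eval y : ℝ) : ℂ) * Mn φ)) := by
  classical
  set T := Fintype.piFinset fun _ : Pl E => Finset.range (p.natDegree + 1) with hT
  have h1 : ∫ y in (0 : ℝ)..1, p.eval y =
      ∑ k ∈ Finset.range (p.natDegree + 1), p.coeff k * ((k : ℝ) + 1)⁻¹ := by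
    simp only [Polynomial.eval_eq_sum_range]
    rw [intervalIntegral.integral_finsetSum fun k _ =>
      (by fun_prop : Continuous fun y : ℝ => p.coeff k * y ^ k).intervalIntegrable _ _]
    refine Finset.sum_congr rfl fun k _ => ?_
    rw [intervalIntegral.integral_const_mul, integral_pow]
    simp
  have h2 := tendsto_finsetSum T fun κ _ =>
    (KRA_mono hφ κ).const_mul ((∏ σ, p.coeff (κ σ) : ℝ) : ℂ)
  have h3 : ∑ κ ∈ T, ((∏ σ, p.coeff (κ σ) : ℝ) : ℂ) *
      (((∏ σ, ((κ σ : ℝ) + 1)⁻¹ : ℝ) : ℂ) * Mn φ) =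
      ((∏ _σ : Pl E, ∫ y in (0 : ℝ)..1, p.eval y : ℝ) : ℂ) * Mn φ := by
    rw [h1, Finset.prod_univ_sum, Complex.ofReal_sum, Finset.sum_mul]
    refine Finset.sum_congr rfl fun κ _ => ?_
    rw [Finset.prod_mul_distrib, Complex.ofReal_mul, mul_assoc]
  rw [h3] at h2
  refine h2.congr fun η => ?_
  have h4 : ∀ κ : Pl E → ℕ, Summable fun x =>
      φ x * ((gz (em x) (-η) * ∏ σ, KRA_y η x σ ^ κ σ : ℝ) : ℂ) := fun κ =>
    KRA_summable hφ η (M := 1) fun x => by
      rw [abs_of_nonneg (Finset.prod_nonneg fun σ _ => pow_nonneg (KRA_y_mem η x σ).1 _)]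
      exact Finset.prod_le_one (fun σ _ => pow_nonneg (KRA_y_mem η x σ).1 _)
        fun σ _ => pow_le_one₀ (KRA_y_mem η x σ).1 (KRA_y_mem η x σ).2
  simp only [mul_left_comm _ (Real.exp (∑ σ, η σ) : ℂ), ← Finset.mul_sum]
  congr 1
  simp only [← tsum_mul_left]
  rw [← Summable.tsum_finsetSum fun κ _ => (h4 κ).mul_left _]
  refine tsum_congr fun x => ?_
  simp only [Polynomial.eval_eq_sum_range]
  rw [Finset.prod_univ_sum, Finset.mul_sum, Complex.ofReal_sum, Finset.mul_sum]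
  refine Finset.sum_congr rfl fun κ _ => ?_
  rw [Finset.prod_mul_distrib]
  push_cast
  ring

theorem KRA_prod {ι : Type} (s : Finset ι) {a b : ι → ℝ} {M δ : ℝ} (hM : 1 ≤ M) (hδ : 0 ≤ δ)
    (ha : ∀ i, |a i| ≤ M) (hb : ∀ i, |b i| ≤ M) (h : ∀ i, |a i - b i| ≤ δ) :
    |∏ i ∈ s, a i| ≤ M ^ s.card ∧ |∏ i ∈ s, a i - ∏ i ∈ s, b i| ≤ s.card * M ^ s.card * δ := by
  classical
  induction s using Finset.induction_on with
  | empty => simp
  | insert i s hi ih =>
    rw [Finset.prod_insert hi, Finset.prod_insert hi, Finset.card_insert_of_notMem hi, abs_mul,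
      pow_succ']
    have hM0 : 0 ≤ M := by linarith
    refine ⟨mul_le_mul (ha i) ih.1 (abs_nonneg _) hM0, ?_⟩
    have e : a i * ∏ j ∈ s, a j - b i * ∏ j ∈ s, b j =
        (a i - b i) * ∏ j ∈ s, a j + b i * (∏ j ∈ s, a j - ∏ j ∈ s, b j) := by ring
    have h1 : M ^ s.card * δ ≤ M * (M ^ s.card * δ) := le_mul_of_one_le_left (by positivity) hM
    rw [e]
    refine (abs_add_le _ _).trans ?_
    rw [abs_mul, abs_mul]
    have h2 := mul_le_mul (h i) ih.1 (abs_nonneg _) hδ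
    have h3 := mul_le_mul (hb i) ih.2 (abs_nonneg _) hM0
    push_cast
    nlinarith

/-- Karamata's theorem for continuous functions. -/
theorem KRA_cont {φ : E → ℂ} (hφ : Per φ) {h : ℝ → ℝ} (hh : ContinuousOn h (Set.Icc 0 1)) :
    Tendsto (fun η : Pl E → ℝ => (Real.exp (∑ σ, η σ) : ℂ) *
        ∑' x : E, φ x * ((gz (em x) (-η) * ∏ σ, h (KRA_y η x σ) : ℝ) : ℂ))
      (lB E) (𝓝 (((∏ _σ : Pl E, ∫ y in (0 : ℝ)..1, h y : ℝ) : ℂ) * Mn φ)) := by
  obtain ⟨M₀, hM₀⟩ := isCompact_Icc.exists_bound_of_continuousOn hh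
  have hM0 : 0 ≤ M₀ := (norm_nonneg _).trans (hM₀ 0 ⟨le_rfl, zero_le_one⟩)
  set M := M₀ + 1 with hM
  have hM1 : 1 ≤ M := by linarith
  set B : ℝ := ‖Mn fun x => ((‖φ x‖ : ℝ) : ℂ)‖ + 1 with hB
  have hBev : ∀ᶠ η in lB E, ‖(Real.exp (∑ σ, η σ) : ℂ) *
      ∑' x : E, ((‖φ x‖ : ℝ) : ℂ) * gz (em x) (-η)‖ < B :=
    (tendsto_gz hφ.norm').norm.eventually_lt_const (by linarith)
  set L : ℝ := (Finset.univ : Finset (Pl E)).card * M ^ (Finset.univ : Finset (Pl E)).card with hL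
  have hL0 : 0 ≤ L := by positivity
  have hB0 : 0 ≤ B := by positivity
  rw [Metric.tendsto_nhds]
  intro ε hε
  set δ : ℝ := min 1 (ε / 2 / (L * (B + ‖Mn φ‖) + 1)) with hδ
  have hδ0 : 0 < δ := lt_min one_pos (by positivity)
  have hδ1 : δ ≤ 1 := min_le_left _ _
  have hδ2 : δ * (L * (B + ‖Mn φ‖) + 1) ≤ ε / 2 :=
    (le_div_iff₀ (by positivity)).1 (min_le_right _ _)
  obtain ⟨p, hp⟩ := exists_polynomial_near_of_continuousOn 0 1 h hh δ hδ0
  have hhM : ∀ y ∈ Set.Icc (0 : ℝ) 1, |h y| ≤ M := fun y hy => (hM₀ y hy).trans (by linarith)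
  have hpM : ∀ y ∈ Set.Icc (0 : ℝ) 1, |p.eval y| ≤ M := fun y hy => by
    have h1 : |h y| ≤ M₀ := hM₀ y hy
    have h2 := abs_sub_abs_le_abs_sub (p.eval y) (h y)
    linarith [hp y hy]
  have hint : ∀ {f : ℝ → ℝ} {C : ℝ}, (∀ y ∈ Set.Icc (0 : ℝ) 1, |f y| ≤ C) →
      |∫ y in (0 : ℝ)..1, f y| ≤ C := fun {f C} hf => by
    have := intervalIntegral.norm_integral_le_of_norm_le_const (a := 0) (b := 1) (f := f) (C := C)
      fun y hy => hf y (by rw [Set.uIoc_of_le zero_le_one] at hy; exact Set.Ioc_subset_Icc_self hy)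
    simpa using this
  have hI : |(∫ y in (0 : ℝ)..1, p.eval y) - ∫ y in (0 : ℝ)..1, h y| ≤ δ := by
    rw [← intervalIntegral.integral_sub (p.continuous.intervalIntegrable _ _)
      (hh.intervalIntegrable_of_Icc zero_le_one)]
    exact hint fun y hy => (hp y hy).le
  have hI2 := (KRA_prod (Finset.univ : Finset (Pl E)) hM1 hδ0.le (fun _ => hint hpM)
    (fun _ => hint hhM) fun _ => hI).2
  filter_upwards [hBev, Metric.tendsto_nhds.1 (KRA_poly hφ p) (ε / 2) (by positivity)]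
    with η h1 h2
  have k : ∀ x, _ := fun x => KRA_prod (Finset.univ : Finset (Pl E)) hM1 hδ0.le
    (fun σ => hpM _ (KRA_y_mem η x σ)) (fun σ => hhM _ (KRA_y_mem η x σ))
    fun σ => (hp _ (KRA_y_mem η x σ)).le
  have k' : ∀ x, _ := fun x => (KRA_prod (Finset.univ : Finset (Pl E)) hM1 le_rfl
    (fun σ => hhM _ (KRA_y_mem η x σ)) (fun σ => hhM _ (KRA_y_mem η x σ))
    fun σ => by simp).1
  have hs : Summable fun x => ‖φ x‖ * gz (em x) (-η) := by
    have h := summable_gz hφ 0 (-η)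
    simpa only [add_zero, norm_mul, Complex.norm_real, Real.norm_of_nonneg (gz_pos _ _).le] using h
  have h1' : Real.exp (∑ σ, η σ) * ∑' x : E, ‖φ x‖ * gz (em x) (-η) ≤ B := by
    simp only [← Complex.ofReal_mul, ← Complex.ofReal_tsum, Complex.norm_real] at h1
    exact (le_abs_self _).trans h1.le
  have h3 : ‖(Real.exp (∑ σ, η σ) : ℂ) *
        ∑' x : E, φ x * ((gz (em x) (-η) * ∏ σ, p.eval (KRA_y η x σ) : ℝ) : ℂ) -
      (Real.exp (∑ σ, η σ) : ℂ) *
        ∑' x : E, φ x * ((gz (em x) (-η) * ∏ σ, h (KRA_y η x σ) : ℝ) : ℂ)‖ ≤ B * (L * δ) := by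
    rw [← mul_sub, ← (KRA_summable hφ η fun x => (k x).1).tsum_sub (KRA_summable hφ η k'),
      norm_mul, Complex.norm_real, Real.norm_of_nonneg (Real.exp_pos _).le]
    refine le_trans ?_ (mul_le_mul_of_nonneg_right h1' (by positivity))
    rw [mul_assoc, ← tsum_mul_right]
    refine mul_le_mul_of_nonneg_left (tsum_of_norm_bounded (hs.mul_right _).hasSum fun x => ?_)
      (Real.exp_pos _).le
    rw [← mul_sub, ← Complex.ofReal_sub, ← mul_sub, norm_mul, Complex.norm_real, Real.norm_eq_abs,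
      abs_mul, abs_of_pos (gz_pos _ _), ← mul_assoc]
    exact mul_le_mul_of_nonneg_left (k x).2 (mul_nonneg (norm_nonneg _) (gz_pos _ _).le)
  have h4 : ‖((∏ _σ : Pl E, ∫ y in (0 : ℝ)..1, p.eval y : ℝ) : ℂ) * Mn φ -
      ((∏ _σ : Pl E, ∫ y in (0 : ℝ)..1, h y : ℝ) : ℂ) * Mn φ‖ ≤ L * δ * ‖Mn φ‖ := by
    rw [← sub_mul, ← Complex.ofReal_sub, norm_mul, Complex.norm_real, Real.norm_eq_abs]
    exact mul_le_mul_of_nonneg_right hI2 (norm_nonneg _)
  rw [← dist_eq_norm] at h3 h4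
  have h5 := dist_triangle4 _ _ _ _ |>.trans (add_le_add (add_le_add ((dist_comm _ _).le.trans h3)
    h2.le) h4)
  refine h5.trans_lt ?_
  nlinarith

/-- The function `exp (-t³ + 2π t)` of `y = exp (-2π t)`. -/
def KRA_h (y : ℝ) : ℝ :=
  y * Real.exp (-(-Real.log y / (2 * Real.pi)) ^ 3 + 4 * Real.pi * (-Real.log y / (2 * Real.pi)))

theorem KRA_h_cont : ContinuousOn KRA_h (Set.Icc 0 1) := by
  intro y hy
  rcases hy.1.eq_or_lt with rfl | h0
  · have h1 : Tendsto (fun y : ℝ => y * Real.exp 54) (𝓝[Set.Icc 0 1] 0) (𝓝 (KRA_h 0)) := by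
      have : KRA_h 0 = 0 * Real.exp 54 := by simp [KRA_h]
      rw [this]
      exact ((continuous_id.mul continuous_const).tendsto 0).mono_left nhdsWithin_le_nhds
    have h2 : Tendsto (fun _ : ℝ => (0 : ℝ)) (𝓝[Set.Icc 0 1] 0) (𝓝 (KRA_h 0)) := by
      have : KRA_h 0 = 0 := by simp [KRA_h]
      rw [this]
      exact tendsto_const_nhds
    refine tendsto_of_tendsto_of_tendsto_of_le_of_le' h2 h1
      (eventually_nhdsWithin_of_forall fun z hz => mul_nonneg hz.1 (Real.exp_pos _).le)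
      (eventually_nhdsWithin_of_forall fun z hz => mul_le_mul_of_nonneg_left
        (Real.exp_le_exp.2 (KRA_cube (div_nonneg ?_ (by positivity)))) hz.1)
    exact neg_nonneg.2 (Real.log_nonpos hz.1 hz.2)
  · refine ContinuousAt.continuousWithinAt ?_
    have := Real.continuousAt_log h0.ne'
    unfold KRA_h
    fun_prop

theorem KRA_h_eq (t : ℝ) : Real.exp (-(2 * Real.pi) * t) * KRA_h (Real.exp (-(2 * Real.pi) * t)) =
    Real.exp (-t ^ 3) := by
  have h : -(-(2 * Real.pi) * t) / (2 * Real.pi) = t := by field_simp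
  rw [KRA_h, Real.log_exp, h, ← Real.exp_add, ← Real.exp_add]
  congr 1
  ring

/-- Karamata's method.  With `y = exp (-2π t) ∈ (0, 1]`, `exp (-t³) = y h(y)` where
`h(y) = exp (-t³ + 2π t)` is continuous on `[0, 1]` (`h 0 = 0`).  For a polynomial `h` the limit is
`(∫₀¹ h)^r Mn φ`: expand the product, `y^{k+1}` is the Gaussian at `η + log (k + 1)`
(`tendsto_gz`, `tendsto_add_lB`).  In general use `exists_polynomial_near_of_continuousOn`; the error
is `≤ ε C e^{∑ η} ∑ |φ x| gz`, which is `O(ε)` eventually (`tsum_gz_le`). -/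
theorem riemann_K6 : ∃ c : ℝ, 0 < c ∧ ∀ φ : E → ℂ, Per φ →
    Tendsto (fun η : Pl E → ℝ => (Real.exp (∑ σ, η σ) : ℂ) * ∑' x : E, φ x * (K6 η x : ℂ))
      (lB E) (𝓝 (c * Mn φ)) := by
  refine ⟨∏ _σ : Pl E, ∫ y in (0 : ℝ)..1, KRA_h y, Finset.prod_pos fun _ _ =>
    intervalIntegral.intervalIntegral_pos_of_pos_on
      (KRA_h_cont.intervalIntegrable_of_Icc zero_le_one)
      (fun y hy => mul_pos hy.1 (Real.exp_pos _)) one_pos, fun φ hφ => ?_⟩
  refine (KRA_cont hφ KRA_h_cont).congr fun η => ?_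
  congr 1
  refine tsum_congr fun x => ?_
  congr 2
  rw [K6, gz, Finset.mul_sum, Real.exp_sum, ← Finset.sum_neg_distrib, Real.exp_sum,
    ← Finset.prod_mul_distrib]
  refine Finset.prod_congr rfl fun σ _ => ?_
  rw [← KRA_h_eq, KRA_y, Pi.neg_apply, neg_neg, em, mul_comm (‖σ.1 x‖ ^ 2)]

/-! ## part B -/

open Classical in
theorem KubRB_summable {F : Type} [SeminormedAddCommGroup F] {f : R E → F} {B : ℝ}
    (h : ∀ g, Nm g → ‖f g‖ ≤ B / nf (g : E) ^ 2) :
    Summable fun g : R E => ‖if Nm g then f g else 0‖ := by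
  refine Summable.of_nonneg_of_le (fun _ => norm_nonneg _) (fun g => ?_)
    ((summable_nf_rpow (E := E) one_lt_two).mul_left B)
  split_ifs with hg
  · rw [Real.rpow_neg (nf_nonneg _), Real.rpow_two]
    exact h g hg
  · simp

omit [Fr E] in
theorem KubRB_gz_le [Om E] {x : E} (hx : x ≠ 0) (η : Pl E → ℝ) :
    gz (em x) (-η) ≤ Real.exp (-1 * ∑ σ, (η σ + lg x σ) - 1 * ∑ σ, |η σ + lg x σ|) := by
  rw [gz_em hx, ← Real.exp_sum, Finset.mul_sum, Finset.mul_sum, ← Finset.sum_sub_distrib]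
  refine Real.exp_le_exp.2 (Finset.sum_le_sum fun σ _ => ?_)
  rw [show η σ + lg x σ = lg x σ - (-η) σ by rw [Pi.neg_apply]; ring]
  generalize lg x σ - (-η) σ = v
  have h1 := Real.add_one_le_exp v
  have h2 := Real.pi_gt_three
  have h3 := Real.exp_pos v
  have h4 : 3 * Real.exp v ≤ Real.pi * Real.exp v := mul_le_mul_of_nonneg_right h2.le h3.le
  rcases abs_cases v with h | h <;> linarith [h.1, h.2]

theorem phiN_eq_sum {n : R E} (hn : n ≠ 0) :
    phiN n = ∑ g ∈ dvs n, mu g / (nf (g : E) : ℂ) := by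
  classical
  have h1 : ∑ g ∈ dvs (rad n), mu g / (nf (g : E) : ℂ) = ∑ g ∈ dvs n, mu g / (nf (g : E) : ℂ) := by
    refine Finset.sum_subset (fun g hg => (mem_dvs hn).2
      ⟨(of_mem_dvs hg).1, (of_mem_dvs hg).2.trans (rad_dvd n)⟩) fun g hg hg' => ?_
    rw [mu_of_not, zero_div]
    intro hs
    refine hg' ((mem_dvs (nm_rad n).1).2 ⟨(of_mem_dvs hg).1, ?_⟩)
    have h2 : rad g ∣ rad n :=
      Finset.prod_dvd_prod_of_subset _ _ _ (pf_subset_of_dvd (of_mem_dvs hg).2 hn)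
    rwa [rad_eq_nrm hs, (of_mem_dvs hg).1.nrm_eq] at h2
  rw [← h1, sum_dvs_sqfree (squarefree_rad n), pf_rad, phiN]
  simp only [sub_eq_add_neg, Finset.prod_one_add]
  refine Finset.sum_congr rfl fun S hS => ?_
  have hpr : ∀ q ∈ S, Nm q ∧ Prime q := fun q hq =>
    ⟨(of_mem_pf (Finset.mem_powerset.1 hS hq)).1, (of_mem_pf (Finset.mem_powerset.1 hS hq)).2.1⟩
  obtain ⟨h2, -, h3⟩ := squarefree_prod_primes hpr
  rw [mu_of_squarefree h2, h3, nf_prod, Finset.prod_neg, Finset.prod_inv_distrib, div_eq_mul_inv,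
    Complex.ofReal_prod]
  congr 2
  exact Finset.prod_congr rfl fun q hq => by rw [nf_eq_nN (hpr q hq).1.1, Complex.ofReal_natCast]
theorem norm_phiN_le (n : R E) : ‖phiN n‖ ≤ 1 := by
  rw [phiN, norm_prod]
  refine Finset.prod_le_one (fun _ _ => norm_nonneg _) fun p _ => ?_
  have h1 : (0 : ℝ) ≤ ((nN p : ℝ))⁻¹ := by positivity
  have h2 : ((nN p : ℝ))⁻¹ ≤ 1 := Nat.cast_inv_le_one _
  rw [show (1 - ((nN p : ℂ))⁻¹) = ((1 - ((nN p : ℝ))⁻¹ : ℝ) : ℂ) by push_cast; rfl,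
    Complex.norm_real, Real.norm_eq_abs, abs_le]
  constructor <;> linarith
theorem phiN_of_pf {a b : R E} (h : pf a = pf b) : phiN a = phiN b := by rw [phiN, phiN, h]
open Classical in
/-- `(∑ μ(g) N g^{-2}) (∑ N g^{-2}) = ∑_n N n^{-2} ∑_{g ∣ n} μ(g) = 1`. -/
theorem tsum_mu_ne_zero :
    ∑' g : R E, (if Nm g then mu g / (nf (g : E) : ℂ) ^ 2 else 0) ≠ 0 := by
  have h1 : Summable fun g : R E => ‖if Nm g then mu g / (nf (g : E) : ℂ) ^ 2 else 0‖ :=
    KubRB_summable (B := 1) fun g hg => by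
      rw [norm_div, norm_pow, Complex.norm_real, Real.norm_of_nonneg (nf_nonneg _)]
      exact div_le_div_of_nonneg_right (norm_mu_le g) (sq_nonneg _)
  have h2 : Summable fun g : R E => ‖if Nm g then 1 / (nf (g : E) : ℂ) ^ 2 else 0‖ :=
    KubRB_summable (B := 1) fun g hg => by
      rw [norm_div, norm_pow, Complex.norm_real, Real.norm_of_nonneg (nf_nonneg _), norm_one]
  have h3 := (summable_mul_of_summable_norm h1 h2).hasSum
  rw [← tsum_mul_tsum_of_summable_norm h1 h2] at h3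
  have h4 := h3.tsum_fiberwise fun p : R E × R E => p.1 * p.2
  have h5 : ∀ n : R E, ∑' b : (fun p : R E × R E => p.1 * p.2) ⁻¹' {n},
      (if Nm b.1.1 then mu b.1.1 / (nf (b.1.1 : E) : ℂ) ^ 2 else 0) *
        (if Nm b.1.2 then 1 / (nf (b.1.2 : E) : ℂ) ^ 2 else 0) = if n = 1 then 1 else 0 := by
    intro n
    by_cases hn : Nm n
    · let e : {d // d ∈ dvs n} → (fun p : R E × R E => p.1 * p.2) ⁻¹' {n} :=
        fun d => ⟨(d.1, (of_mem_dvs d.2).2.choose), (of_mem_dvs d.2).2.choose_spec.symm⟩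
      have he : Function.Injective e := fun d d' h =>
        Subtype.ext (congrArg (fun b => b.1.1) h)
      rw [← he.tsum_eq]
      · have h6 : ∀ d : {d // d ∈ dvs n},
            (if Nm (e d).1.1 then mu (e d).1.1 / (nf ((e d).1.1 : E) : ℂ) ^ 2 else 0) *
              (if Nm (e d).1.2 then 1 / (nf ((e d).1.2 : E) : ℂ) ^ 2 else 0) =
              mu d.1 / (nf (n : E) : ℂ) ^ 2 := fun d => by
          have h7 : (e d).1.1 * (e d).1.2 = n := (e d).2
          have h8 : Nm (e d).1.1 := (of_mem_dvs d.2).1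
          rw [if_pos h8, if_pos (h8.of_mul (h7.symm ▸ hn)), div_mul_div_comm, mul_one, ← mul_pow,
            ← Complex.ofReal_mul, ← nf_mul, ← Subring.coe_mul, h7]
        rw [tsum_congr h6, Finset.tsum_subtype (dvs n) fun d => mu d / (nf (n : E) : ℂ) ^ 2,
          ← Finset.sum_div, sum_mu_dvs hn.1]
        by_cases h9 : n = 1
        · subst h9
          rw [if_pos isUnit_one, if_pos rfl, nf_eq_one_iff.2 isUnit_one]
          simp
        · rw [if_neg h9, if_neg fun h => h9 (hn.eq_one_of_isUnit h), zero_div]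
      · rintro ⟨⟨a, b⟩, hab⟩ h
        have hab' : a * b = n := hab
        have ha : Nm a := by
          by_contra ha
          exact h (by simp [ha])
        refine ⟨⟨a, (mem_dvs hn.1).2 ⟨ha, b, hab'.symm⟩⟩, Subtype.ext (Prod.ext rfl ?_)⟩
        exact mul_left_cancel₀ ha.1 ((e ⟨a, _⟩).2.trans hab'.symm)
    · rw [if_neg fun h : n = 1 => hn (h ▸ nm_one)]
      refine (tsum_congr ?_).trans tsum_zero
      rintro ⟨⟨a, b⟩, hab⟩
      have hab' : a * b = n := hab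
      by_cases ha : Nm a
      · rw [if_neg (c := Nm b) fun hb => hn (hab' ▸ ha.mul hb), mul_zero]
      · rw [if_neg ha, zero_mul]
  intro h0
  have h10 := h4.tsum_eq
  rw [tsum_congr h5, h0, zero_mul, tsum_ite_eq] at h10
  exact one_ne_zero h10
open Classical in
/-- The multiples of `g` in the lattice `R ∩ m^{-N} OS`: with a unit `u` such that `u g ∈ OS` and
`m^B / (u g) ∈ OS` (`exists_bdd_unit`) they lie in `D⁻¹ 𝓞`, `D = m^{B+N} / (u g)`,
`nr D ≤ C / nf g`; then `tsum_lattice_le` with `a = 1` and `gz_em`. -/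
theorem tsum_K6_dvd_le (N : ℕ) : ∃ C : ℝ, ∀ (g : R E) (η : Pl E → ℝ), g ≠ 0 →
    (Summable fun n : R E =>
      if n ≠ 0 ∧ g ∣ n ∧ (mm E : E) ^ N * n ∈ OS E then K6 η (n : E) else 0) ∧
    Real.exp (∑ σ, η σ) *
      ∑' n : R E, (if n ≠ 0 ∧ g ∣ n ∧ (mm E : E) ^ N * n ∈ OS E then K6 η (n : E) else 0) ≤
      C / nf (g : E) := by
  obtain ⟨B, hB⟩ := exists_bdd_unit (E := E)
  obtain ⟨C₁, hC₁, h1⟩ := K6_le (E := E)
  obtain ⟨C₂, hC₂, h2⟩ := tsum_lattice_le (E := E) (δ := 1) (a := 1) one_pos le_rfl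
  refine ⟨C₁ * C₂ * nr ((mm E : E) ^ (B + N)), fun g η hg => ?_⟩
  have hg' : (g : E) ≠ 0 := fun h => hg (Subtype.ext h)
  obtain ⟨u, hu, h3, h4⟩ := hB g hg'
  obtain ⟨hu0, hu1⟩ := isUnit_iff.1 hu
  have hx : (u : E) * g ≠ 0 := mul_ne_zero hu0 hg'
  have hD : (mm E : E) ^ (B + N) / ((u : E) * g) ≠ 0 := div_ne_zero (B2_pow_ne _) hx
  obtain ⟨h5, h6⟩ := h2 _ η hD
  have h7 : ∀ n : R E,
      (if n ≠ 0 ∧ g ∣ n ∧ (mm E : E) ^ N * n ∈ OS E then K6 η (n : E) else 0) ≤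
        C₁ * if (n : E) ≠ 0 ∧ IsIntegral ℤ ((mm E : E) ^ (B + N) / ((u : E) * g) * n) then
          Real.exp (-1 * ∑ σ, (η σ + lg (n : E) σ) - 1 * ∑ σ, |η σ + lg (n : E) σ|) else 0 := by
    intro n
    by_cases hn : n ≠ 0 ∧ g ∣ n ∧ (mm E : E) ^ N * n ∈ OS E
    · have hn0 : (n : E) ≠ 0 := fun h => hn.1 (Subtype.ext h)
      have hi : IsIntegral ℤ ((mm E : E) ^ (B + N) / ((u : E) * g) * n) := by
        refine isIntegral_iff.2 ⟨?_, ?_⟩
        · have := mul_mem (mul_mem (pow_mem (natCast_mem (RR E) (mm E)) (B + N)) hu1)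
            ((dvd_iff hg).1 hn.2.1)
          convert this using 1
          field_simp
        · have := mul_mem h4 hn.2.2
          convert this using 1
          ring
      rw [if_pos hn, if_pos ⟨hn0, hi⟩]
      exact (h1 η n).trans (mul_le_mul_of_nonneg_left (KubRB_gz_le hn0 η) hC₁.le)
    · rw [if_neg hn]
      exact mul_nonneg hC₁.le (by split_ifs; exacts [(Real.exp_pos _).le, le_rfl])
  have h8 : ∀ n : R E,
      0 ≤ (if n ≠ 0 ∧ g ∣ n ∧ (mm E : E) ^ N * n ∈ OS E then K6 η (n : E) else 0) := fun n => by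
    split_ifs
    exacts [(K6_pos _ _).le, le_rfl]
  have h9 := Summable.of_nonneg_of_le h8 h7
    ((h5.comp_injective Subtype.val_injective).mul_left C₁)
  refine ⟨h9, ?_⟩
  have h10 := Summable.tsum_le_tsum_of_inj (Subtype.val : R E → E) Subtype.val_injective
    (fun x _ => mul_nonneg hC₁.le (by split_ifs; exacts [(Real.exp_pos _).le, le_rfl])) h7 h9
    (h5.mul_left C₁)
  rw [tsum_mul_left] at h10
  have h11 : nf (g : E) ≤ nr ((u : E) * g) := by
    have h12 : nf ((u : E) * g) = nf (g : E) := by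
      rw [nf_mul, nf_eq_one_iff.2 hu, one_mul]
    rw [← h12]
    exact mul_le_of_le_one_right (nr_nonneg _) (absS_le_one h3)
  refine (mul_le_mul_of_nonneg_left (h10.trans (mul_le_mul_of_nonneg_left h6 hC₁.le))
    (Real.exp_pos _).le).trans ?_
  rw [Real.rpow_one, nr_div, neg_one_mul, Real.exp_neg]
  have h13 := Real.exp_pos (∑ σ, η σ)
  have h14 := nr_nonneg ((mm E : E) ^ (B + N))
  calc _ = C₁ * C₂ * nr ((mm E : E) ^ (B + N)) / nr ((u : E) * g) := by field_simp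
    _ ≤ _ := div_le_div_of_nonneg_left (by positivity) (nf_pos hg') h11
open Classical in
/-- `phiN_eq_sum`; for a fixed `g` apply `riemann_K6` to `x ↦ 1_{R}(x) φ(x) 1_{g ∣ x}` (`per_of_perS`,
`Mn_crt`: the mean is `IS φ / (√|disc| nf g)`; the term `x = 0` tends to `0`); Tannery's theorem
(`tendsto_tsum_of_dominated_convergence`) with `tsum_K6_dvd_le`, `summable_nf_rpow`. -/
theorem riemann_phi : ∃ c : ℂ, c ≠ 0 ∧ ∀ φ : E → ℂ, PerS φ →
    Tendsto (fun η : Pl E → ℝ => (Real.exp (∑ σ, η σ) : ℂ) *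
      ∑' n : R E, if n = 0 then 0 else φ n * phiN n * (K6 η (n : E) : ℂ))
      (lB E) (𝓝 (c * IS φ)) := by
  obtain ⟨c, hc, hR⟩ := riemann_K6 (E := E)
  refine ⟨c * (Real.sqrt |(discr E : ℝ)| : ℂ)⁻¹ *
    ∑' g : R E, (if Nm g then mu g / (nf (g : E) : ℂ) ^ 2 else 0),
    mul_ne_zero (mul_ne_zero (Complex.ofReal_ne_zero.2 hc.ne') (inv_ne_zero B2_sqrt_ne))
      tsum_mu_ne_zero, fun φ hφ => ?_⟩
  obtain ⟨B, hB⟩ := hφ.bdd
  have hB0 : 0 ≤ B := (norm_nonneg _).trans (hB 0)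
  obtain ⟨N, hN⟩ := hφ.2
  obtain ⟨C, hC⟩ := tsum_K6_dvd_le (E := E) N
  have k1 : ∀ (g n : R E) (η : Pl E → ℝ),
      ‖if n ≠ 0 ∧ g ∣ n then φ n * (K6 η (n : E) : ℂ) else 0‖ ≤
        B * if n ≠ 0 ∧ g ∣ n ∧ (mm E : E) ^ N * n ∈ OS E then K6 η (n : E) else 0 := by
    intro g n η
    by_cases h : n ≠ 0 ∧ g ∣ n ∧ (mm E : E) ^ N * n ∈ OS E
    · rw [if_pos h, if_pos ⟨h.1, h.2.1⟩, norm_mul, Complex.norm_real,
        Real.norm_of_nonneg (K6_pos _ _).le]
      exact mul_le_mul_of_nonneg_right (hB _) (K6_pos _ _).le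
    · rw [if_neg h, mul_zero]
      split_ifs with h'
      · have : φ n = 0 := by
          by_contra h0
          exact h ⟨h'.1, h'.2, hN _ h0⟩
        simp [this]
      · simp
  have k2 : ∀ (g : R E) (η : Pl E → ℝ), g ≠ 0 → Summable fun n : R E =>
      ‖if n ≠ 0 ∧ g ∣ n then φ n * (K6 η (n : E) : ℂ) else 0‖ := fun g η hg =>
    Summable.of_nonneg_of_le (fun _ => norm_nonneg _) (fun n => k1 g n η)
      ((hC g η hg).1.mul_left B)
  have k3 : ∀ (g : R E) (η : Pl E → ℝ), g ≠ 0 → Real.exp (∑ σ, η σ) * ∑' n : R E,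
      ‖if n ≠ 0 ∧ g ∣ n then φ n * (K6 η (n : E) : ℂ) else 0‖ ≤ B * (C / nf (g : E)) := by
    intro g η hg
    have h1 := (k2 g η hg).tsum_le_tsum (fun n => k1 g n η) ((hC g η hg).1.mul_left B)
    rw [tsum_mul_left] at h1
    refine (mul_le_mul_of_nonneg_left h1 (Real.exp_pos _).le).trans ?_
    rw [mul_left_comm]
    exact mul_le_mul_of_nonneg_left (hC g η hg).2 hB0
  have k4 : ∀ g : R E, ‖mu g / (nf (g : E) : ℂ)‖ ≤ 1 / nf (g : E) := fun g => by
    rw [norm_div, Complex.norm_real, Real.norm_of_nonneg (nf_nonneg _)]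
    exact div_le_div_of_nonneg_right (norm_mu_le g) (nf_nonneg _)
  have k5 : ∀ (g : R E) (η : Pl E → ℝ), g ≠ 0 → ‖mu g / (nf (g : E) : ℂ)‖ *
      (Real.exp (∑ σ, η σ) * ∑' n : R E,
        ‖if n ≠ 0 ∧ g ∣ n then φ n * (K6 η (n : E) : ℂ) else 0‖) ≤ B * C / nf (g : E) ^ 2 := by
    intro g η hg
    refine (mul_le_mul (k4 g) (k3 g η hg) (mul_nonneg (Real.exp_pos _).le
      (tsum_nonneg fun _ => norm_nonneg _)) (one_div_nonneg.2 (nf_nonneg _))).trans (le_of_eq ?_)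
    ring
  have k6 : Summable fun g : R E => if Nm g then B * C / nf (g : E) ^ 2 else 0 :=
    (KubRB_summable (B := |B * C|) (f := fun g : R E => B * C / nf (g : E) ^ 2) fun g _ => by
      rw [norm_div, norm_pow, Real.norm_of_nonneg (nf_nonneg _), Real.norm_eq_abs]).of_norm
  have hT := tendsto_tsum_of_dominated_convergence (𝓕 := lB E)
    (f := fun η (g : R E) => if Nm g then mu g / (nf (g : E) : ℂ) * ((Real.exp (∑ σ, η σ) : ℂ) *
      ∑' n : R E, if n ≠ 0 ∧ g ∣ n then φ n * (K6 η (n : E) : ℂ) else 0) else 0)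
    (g := fun g : R E => c * (Real.sqrt |(discr E : ℝ)| : ℂ)⁻¹ *
      (if Nm g then mu g / (nf (g : E) : ℂ) ^ 2 else 0) * IS φ) k6 (fun g => ?_)
    (Eventually.of_forall fun η g => ?_)
  · rw [tsum_mul_right, tsum_mul_left] at hT
    refine hT.congr fun η => ?_
    have h1 : Summable fun p : R E × R E => if Nm p.1 then mu p.1 / (nf (p.1 : E) : ℂ) *
        ((Real.exp (∑ σ, η σ) : ℂ) *
          if p.2 ≠ 0 ∧ p.1 ∣ p.2 then φ p.2 * (K6 η (p.2 : E) : ℂ) else 0) else 0 := by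
      refine Summable.of_norm ((summable_prod_of_nonneg fun _ => norm_nonneg _).2 ⟨fun g => ?_, ?_⟩)
      · by_cases hg : Nm g
        · simp only [if_pos hg, norm_mul]
          exact ((k2 g η hg.1).mul_left _).mul_left _
        · simp only [if_neg hg, norm_zero]
          exact summable_zero
      · refine Summable.of_nonneg_of_le (fun _ => tsum_nonneg fun _ => norm_nonneg _)
          (fun g => ?_) k6
        by_cases hg : Nm g
        · simp only [if_pos hg, norm_mul, tsum_mul_left, Complex.norm_real,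
            Real.norm_of_nonneg (Real.exp_pos _).le]
          exact k5 g η hg.1
        · simp only [if_neg hg, norm_zero, tsum_zero, le_refl]
    have h2 := Summable.tsum_comm (f := fun g n : R E => if Nm g then mu g / (nf (g : E) : ℂ) *
        ((Real.exp (∑ σ, η σ) : ℂ) *
          if n ≠ 0 ∧ g ∣ n then φ n * (K6 η (n : E) : ℂ) else 0) else 0) h1
    refine ((tsum_congr fun g => ?_).trans h2.symm).trans ?_
    · split_ifs
      · rw [tsum_mul_left, tsum_mul_left]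
      · rw [tsum_zero]
    · rw [← tsum_mul_left]
      refine tsum_congr fun n => ?_
      by_cases hn : n = 0
      · simp [hn]
      · rw [if_neg hn, tsum_eq_sum (s := dvs n), phiN_eq_sum hn, Finset.mul_sum, Finset.sum_mul,
          Finset.mul_sum]
        · refine Finset.sum_congr rfl fun g hg => ?_
          rw [if_pos (of_mem_dvs hg).1, if_pos ⟨hn, (of_mem_dvs hg).2⟩]
          ring
        · intro g hg
          split_ifs with h3 h4
          · exact absurd ((mem_dvs hn).2 ⟨h3, h4.2⟩) hg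
          · rw [mul_zero, mul_zero]
          · rfl
  · by_cases hg : Nm g
    · simp only [if_pos hg]
      have hf : ∀ x y : R E, g ∣ x - y →
          (if g ∣ x then (1 : ℂ) else 0) = if g ∣ y then (1 : ℂ) else 0 := fun x y h => by
        rw [dvd_iff_dvd_of_dvd_sub h]
      have h1 := hR _ (per_of_perS hφ hg.1 hf)
      have h2 : ∑ x ∈ res g, (if g ∣ x then (1 : ℂ) else 0) = 1 := by
        obtain ⟨r, ⟨hr, hr'⟩, hr''⟩ := exists_unique_res hg.1 0
        rw [zero_sub, dvd_neg] at hr'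
        rw [Finset.sum_eq_single_of_mem r hr, if_pos hr']
        intro x hx hxr
        exact if_neg fun h => hxr (hr'' x ⟨hx, by rwa [zero_sub, dvd_neg]⟩)
      rw [Mn_crt hφ hg.1 hf, h2, mul_one] at h1
      have h3 : Tendsto (fun η : Pl E → ℝ => (Real.exp (∑ σ, η σ) : ℂ) * φ 0) (lB E) (𝓝 0) := by
        have h4 : Tendsto (fun η : Pl E → ℝ => Real.exp (∑ σ, η σ)) (lB E) (𝓝 0) :=
          Real.tendsto_exp_atBot.comp tendsto_comap
        simpa using ((Complex.continuous_ofReal.tendsto 0).comp h4).mul_const (φ 0)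
      have h5 := (h1.sub h3).const_mul (mu g / (nf (g : E) : ℂ))
      convert h5 using 2 with η
      · congr 1
        rw [← mul_sub]
        congr 1
        have h6 : ∑' x : E, (if hx : x ∈ RR E then φ x * (if g ∣ ⟨x, hx⟩ then (1 : ℂ) else 0)
            else 0) * (K6 η x : ℂ) = ∑' n : R E,
              ((if n ≠ 0 ∧ g ∣ n then φ n * (K6 η (n : E) : ℂ) else 0) +
                if n = 0 then φ 0 else 0) := by
          rw [tsum_R_eq]
          refine tsum_congr fun x => ?_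
          by_cases hx : x ∈ RR E
          · rw [dif_pos hx, dif_pos hx]
            by_cases h0 : (⟨x, hx⟩ : R E) = 0
            · have h7 : x = 0 := congrArg Subtype.val h0
              subst h7
              simp [h0, K6]
            · by_cases h7 : g ∣ ⟨x, hx⟩ <;> simp [h0, h7]
          · rw [dif_neg hx, dif_neg hx, zero_mul]
        rw [h6, (k2 g η hg.1).of_norm.tsum_add (hasSum_ite_eq _ _).summable, tsum_ite_eq,
          add_sub_cancel_right]
      · push_cast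
        rw [mul_inv]
        ring
    · simp only [if_neg hg, mul_zero, zero_mul]
      exact tendsto_const_nhds
  · by_cases hg : Nm g
    · simp only [if_pos hg]
      refine le_trans ?_ (k5 g η hg.1)
      rw [norm_mul, norm_mul, Complex.norm_real, Real.norm_of_nonneg (Real.exp_pos _).le]
      exact mul_le_mul_of_nonneg_left (mul_le_mul_of_nonneg_left
        (norm_tsum_le_tsum_norm (k2 g η hg.1)) (Real.exp_pos _).le) (norm_nonneg _)
    · simp only [if_neg hg, norm_zero, le_refl]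

end Crest.Agent.R312
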