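import Crest.Agent.R312.KubG
import Crest.Agent.R312.KubR

/-!
# Row 312: the constant terms of `xi F`
-/

set_option autoImplicit false

noncomputable section

namespace Crest.Agent.R312

open NumberField
open scoped ComplexConjugate

open Filter Topology

variable {E : Type} [Field E] [NumberField E] [Fr E]

/-! ## part A: the limit formula -/

open Classical in
/-- `xi_coe'`, `Mn_crt`, `sum_res_cub_eq` (the value is real), `nf_eq_nN`. -/
theorem Mn_xi {j : ℕ} (hj : Lev E j) {F : E → E → ℂ} (h : SD F) {c : R E} (hc : c ≠ 0) :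
    Mn (xi F c) = if ∀ p ∈ pf c, 3 ∣ vp p c then
      (((Real.sqrt |(discr E : ℝ)|)⁻¹ : ℝ) : ℂ) * IS (F c) * phiN c else 0 := by
  have e : xi F c = fun x => if hx : x ∈ RR E then F c x * conj (cub c ⟨x, hx⟩) else 0 := by
    funext x
    split_ifs with hx
    · rw [mul_comm]
      exact xi_coe' F hc ⟨x, hx⟩
    · exact xi_of_not_mem_right F c hx
  rw [e, Mn_crt (h.perS hj c) hc (f := fun x => conj (cub c x)) fun x y hxy => by
    rw [cub_congr hxy], ← map_sum, sum_res_cub_eq hc]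
  split_ifs
  · have h0 : (nN c : ℂ) ≠ 0 := by
      have := nf_pos (x := (c : E)) fun h => hc (Subtype.ext h)
      rw [nf_eq_nN hc] at this
      exact_mod_cast this.ne'
    rw [nf_eq_nN hc, phiN]
    simp only [map_mul, map_prod, map_sub, map_one, map_inv₀, map_natCast, mul_inv]
    push_cast
    field_simp
  · simp
theorem Mn_xi_of_not_mem (F : E → E → ℂ) {c : E} (hc : c ∉ RR E) : Mn (xi F c) = 0 := by
  rw [show xi F c = fun _ => 0 * 0 from funext fun d => by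
    rw [xi_of_not_mem_left F hc, mul_zero], Mn_const_mul per_zero, zero_mul]
open Classical in
theorem KLA_cube {s : R E} (hs : s ≠ 0) {f : R E → ℂ} (hf : Summable f) :
    ∑' n : R E, (if n = 0 then 0 else f (s * n ^ 3)) =
      3 * ∑' c, if ∃ n, n ≠ 0 ∧ c = s * n ^ 3 then f c else 0 := by
  obtain ⟨r, hr⟩ : ∃ r : R E → R E, ∀ n, r (n ^ 3) ^ 3 = n ^ 3 :=
    ⟨fun c => epsilon fun n => n ^ 3 = c, fun n => epsilon_spec (p := fun x => x ^ 3 = n ^ 3)
      ⟨n, rfl⟩⟩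
  have h1 : HasSum (fun n : R E => if n ≠ 0 ∧ r (n ^ 3) = n then f (s * n ^ 3) else 0)
      (∑' c, if ∃ n, n ≠ 0 ∧ c = s * n ^ 3 then f c else 0) := by
    have hi : Function.Injective fun n : {n : R E | n ≠ 0 ∧ r (n ^ 3) = n} => s * n.1 ^ 3 :=
      fun a b h => Subtype.ext (by rw [← a.2.2, mul_left_cancel₀ hs h, b.2.2])
    have h2 := (hi.hasSum_iff (f := fun c => if ∃ n, n ≠ 0 ∧ c = s * n ^ 3 then f c else 0)
      fun c hc => if_neg fun ⟨n, hn, e⟩ => hc ⟨⟨r (n ^ 3), fun h => hn (by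
        simpa [h, eq_comm] using hr n), by rw [hr]⟩, by simp only [e, hr]⟩).2
      (Summable.of_norm_bounded hf.norm fun c => by split_ifs <;> simp).hasSum
    have h3 := (hasSum_subtype_iff_indicator (f := fun n => f (s * n ^ 3))).1
      (h2.congr_fun fun n => (if_pos ⟨n, n.2.1, rfl⟩).symm)
    exact h3.congr_fun fun n => by simp only [Set.indicator_apply, Set.mem_setOf_eq]
  have hω := omR_sq_add (E := E)
  have hω3 := omR_cube (E := E)
  have hu : IsUnit (omR : R E) := IsUnit.of_pow_eq_one hω3 three_ne_zero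
  have h2 := (hu.unit.mulLeft.hasSum_iff).2 h1
  have h3 := (hu.unit.mulLeft.hasSum_iff).2 h2
  have h4 : (omR : R E) ≠ 1 := fun h => (isUnit_three (E := E)).ne_zero (by
    rw [h] at hω; linear_combination hω)
  rw [show ∀ a : ℂ, 3 * a = a + a + a from fun a => by ring]
  refine (((h1.add h2).add h3).congr_fun fun n => ?_).tsum_eq
  simp only [Function.comp, Units.mulLeft_apply, IsUnit.unit_spec, mul_pow, hω3, one_mul]
  by_cases hn : n = 0
  · simp [hn]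
  have a1 : n ≠ omR * n := fun h => h4 (mul_right_cancel₀ hn (by rw [← h, one_mul]))
  have a2 : omR * n ≠ omR * (omR * n) := fun h => a1 (mul_left_cancel₀ hu.ne_zero h)
  have a3 : n ≠ omR * (omR * n) := fun h => a1 (by
    linear_combination (-omR) * h + (-n) * hω3)
  have a4 : (r (n ^ 3) - n) * ((r (n ^ 3) - omR * n) * (r (n ^ 3) - omR * (omR * n))) = 0 := by
    linear_combination hr n + (-r (n ^ 3) ^ 2 * n + r (n ^ 3) * n ^ 2) * hω +
      (r (n ^ 3) * n ^ 2 - n ^ 3) * hω3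
  simp only [mul_eq_zero, sub_eq_zero] at a4
  rcases a4 with h | h | h <;> simp [h, hn, hu.ne_zero, a1, a2, a3, a1.symm, a2.symm, a3.symm]
theorem KLA_vp {s n : R E} (hs : IsUnit s) (hn : n ≠ 0) :
    ∀ p ∈ pf (s * n ^ 3), 3 ∣ vp p (s * n ^ 3) := fun p hp => by
  have h := (of_mem_pf hp).2.1
  rw [vp_mul h hs.ne_zero (pow_ne_zero _ hn), vp_pow h hn,
    (vp_eq_zero_iff h hs.ne_zero).2 fun hd => h.not_isUnit (isUnit_of_dvd_unit hd hs), zero_add]
  exact dvd_mul_right _ _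
open Classical in
/-- Each `c ≠ 0` whose valuations are multiples of `3` is `s n³` with a unique `s ∈ T` and exactly
three values of `n` (`n, ω n, ω² n`). -/
theorem tsum_cubes {T : Finset (R E)} (hT : ∀ s ∈ T, IsUnit s)
    (hT' : ∀ u : R E, IsUnit u → ∃! s, s ∈ T ∧ ∃ v : R E, IsUnit v ∧ u = s * v ^ 3)
    {f : R E → ℂ} (hf : Summable f) :
    3 * ∑' c : R E, (if c ≠ 0 ∧ ∀ p ∈ pf c, 3 ∣ vp p c then f c else 0) =
      ∑ s ∈ T, ∑' n : R E, if n = 0 then 0 else f (s * n ^ 3) := by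
  rw [Finset.sum_congr rfl fun s hs => KLA_cube (hT s hs).ne_zero hf, ← Finset.mul_sum,
    ← Summable.tsum_finsetSum fun s _ =>
      Summable.of_norm_bounded hf.norm fun c => by split_ifs <;> simp]
  refine congrArg _ (tsum_congr fun c => ?_)
  split_ifs with hc
  · obtain ⟨u, hu, e⟩ := exists_unit_nrm hc.1
    obtain ⟨d, hd⟩ : ∃ d : R E, nrm c = d ^ 3 := ⟨∏ p ∈ pf c, p ^ (vp p c / 3), by
      rw [nrm_eq_prod hc.1, ← Finset.prod_pow]
      exact Finset.prod_congr rfl fun p hp => by rw [← pow_mul, Nat.div_mul_cancel (hc.2 p hp)]⟩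
    rw [hd] at e
    have hd0 : d ≠ 0 := fun h => hc.1 (by simp [e, h])
    obtain ⟨s, ⟨hs, v, hv, e'⟩, hs'⟩ := hT' u hu
    rw [Finset.sum_eq_single_of_mem s hs fun s' h' hne => if_neg fun ⟨n, _, e''⟩ => hne (
      let ⟨w, hw, _, h⟩ := sqfree_cube_unique hu.squarefree (hT s' h').squarefree hd0
        (e.symm.trans e'')
      hs' s' ⟨h', w, hw, h.trans (mul_comm _ _)⟩),
      if_pos ⟨v * d, mul_ne_zero hv.ne_zero hd0, by rw [e, e']; ring⟩]
  · refine (Finset.sum_eq_zero fun s hs => if_neg ?_).symm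
    rintro ⟨n, hn, rfl⟩
    exact hc ⟨mul_ne_zero (hT s hs).ne_zero (pow_ne_zero _ hn), KLA_vp (hT s hs) hn⟩
open Classical in
theorem KLA_P0 {j : ℕ} (hj : Lev E j) {T : Finset (R E)} (hT : ∀ s ∈ T, IsUnit s)
    (hT' : ∀ u : R E, IsUnit u → ∃! s, s ∈ T ∧ ∃ v : R E, IsUnit v ∧ u = s * v ^ 3)
    {F : E → E → ℂ} (h : SD F) (η : Pl E → ℝ) :
    P0 (xi F) η = (((Real.sqrt |(discr E : ℝ)|)⁻¹ : ℝ) : ℂ) / 3 * ∑ s ∈ T,
      ((nr (s : E) ^ (-(1 / 3 : ℝ)) : ℝ) : ℂ) *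
        ((Real.exp (∑ σ, (η σ + lg (s : E) σ) / 3) : ℂ) * ∑' n : R E, if n = 0 then 0 else
          IS (fun d => ac F (dM (s : E)⁻¹ 1) ((n : E) ^ 3) d) * phiN n *
            (K6 (fun σ => (η σ + lg (s : E) σ) / 3) (n : E) : ℂ)) := by
  obtain ⟨C, -, hC⟩ := EA_P0 h.adm
  have h1 := tsum_cubes hT hT' ((hC η).1.of_norm.comp_injective
    (Subtype.val_injective (p := fun x => x ∈ RR E)))
  rw [EA_P0_eq, ← (Subtype.val_injective (p := fun x => x ∈ RR E)).tsum_eq fun x hx =>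
    by_contra fun hc => hx (by
      rw [Mn_xi_of_not_mem F fun h => hc ⟨⟨x, h⟩, rfl⟩, ite_self, zero_mul])]
  rw [tsum_congr (g := fun c : R E => (if (c : E) = 0 then 0 else Mn (xi F c)) *
      (Real.exp (-∑ σ : Pl E, Real.exp (η σ) * ‖σ.1 c‖ ^ 2) : ℂ)) fun c => by
    by_cases h1 : c ≠ 0 ∧ ∀ p ∈ pf c, 3 ∣ vp p c
    · exact if_pos h1
    rw [if_neg h1]
    split_ifs with h2
    · rw [zero_mul]
    · have hc : c ≠ 0 := fun h => h2 (by rw [h]; rfl)
      rw [Mn_xi hj h hc, if_neg fun h => h1 ⟨hc, h⟩, zero_mul]] at h1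
  rw [(eq_div_iff three_ne_zero).2 ((mul_comm _ _).trans h1), mul_div_assoc', div_mul_eq_mul_div,
    Finset.mul_sum, Finset.mul_sum]
  refine congrArg (· / 3) (Finset.sum_congr rfl fun s hs => ?_)
  have hs0 : (s : E) ≠ 0 := fun h => (hT s hs).ne_zero (Subtype.ext h)
  have e1 : Real.exp ((∑ σ, η σ) / 3) =
      nr (s : E) ^ (-(1 / 3 : ℝ)) * Real.exp (∑ σ, (η σ + lg (s : E) σ) / 3) := by
    rw [← exp_sum_lg hs0, ← Real.exp_mul, ← Real.exp_add, ← Finset.sum_div, Finset.sum_add_distrib]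
    congr 1
    ring
  rw [e1, Complex.ofReal_mul, show ∀ a b c d : ℂ, a * (b * (c * d)) = b * c * (a * d) from
    fun a b c d => by ring, ← tsum_mul_left (a := (((Real.sqrt _)⁻¹ : ℝ) : ℂ))]
  refine congrArg _ (tsum_congr fun n => ?_)
  split_ifs with hn
  · rw [mul_zero]
  have hn0 : (n : E) ≠ 0 := fun h => hn (Subtype.ext h)
  have h3 := pow_ne_zero 3 hn
  have hc := mul_ne_zero (hT s hs).ne_zero h3
  have e2 : (fun d => ac F (dM (s : E)⁻¹ 1) ((n : E) ^ 3) d) = F ((s * n ^ 3 : R E) : E) := by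
    funext d
    rw [dM, ac_upper F (pow_ne_zero 3 hn0) (inv_ne_zero hs0) one_ne_zero,
      rho_one_right (div_ne_zero (pow_ne_zero 3 hn0) (inv_ne_zero hs0))]
    simp [mul_comm]
  have e3 : K6 (fun σ => (η σ + lg (s : E) σ) / 3) (n : E) =
      Real.exp (-∑ σ : Pl E, Real.exp (η σ) * ‖σ.1 ((s * n ^ 3 : R E) : E)‖ ^ 2) := by
    refine congrArg (fun x => Real.exp (-x)) (Finset.sum_congr rfl fun σ _ => ?_)
    rw [mul_pow, ← Real.exp_nat_mul, show ((3 : ℕ) : ℝ) * ((η σ + lg (s : E) σ) / 3) =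
      η σ + lg (s : E) σ by push_cast; ring, Real.exp_add, exp_lg hs0]
    push_cast
    rw [map_mul, map_pow, norm_mul, norm_pow]
    ring
  rw [Function.comp_apply, if_neg (show ¬ ((s * n ^ 3 : R E) : E) = 0 from
    fun h => hc (Subtype.ext h)), Mn_xi hj h hc,
    if_pos (KLA_vp (hT s hs) hn), e2, e3, phiN_of_pf (b := n) (by
      rw [pf_mul (hT s hs).ne_zero h3, pf_unit (hT s hs), Finset.empty_union,
        pf_pow three_ne_zero])]
  ring
/-- **The constant term.**  `Mn_xi`, `tsum_R_eq`, `tsum_cubes` (summability: `EA_P0` of `ThEisAuxA`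
or `Adm.norm_Mn_le` with `tsum_gz_le`); for `c = s n³`, `n ≠ 0`, one has
`F (s n³) d = G (n³) d`, `G = ac F (dM s⁻¹ 1)` (`ac_upper`), `phiN (s n³) = phiN n`, and the weight is
`K6 ((η + lg s) / 3) n`.  Apply `riemann_phi` to `n ↦ IS (G (n³))` (`SD.perS2`, `PerS2.IS_right`);
`η ↦ (η + lg s) / 3` maps `lB` to `lB`.  `C₀ = c / (3 √|disc|)`. -/
theorem exists_Lm {j : ℕ} (hj : Lev E j) : ∃ (T : Finset (R E)) (C₀ : ℂ), C₀ ≠ 0 ∧ T.Nonempty ∧
    (∀ s ∈ T, IsUnit s) ∧ ∀ F : E → E → ℂ, SD F → Tendsto (P0 (xi F)) (lB E)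
      (𝓝 (C₀ * ∑ s ∈ T, ((nr (s : E) ^ (-(1 / 3 : ℝ)) : ℝ) : ℂ) *
        LamS (ac F (dM (s : E)⁻¹ 1)))) := by
  obtain ⟨T, hT, hT'⟩ := exists_unit_pow_reps (E := E) three_ne_zero
  obtain ⟨c, hc, H⟩ := riemann_phi (E := E)
  obtain ⟨s₀, ⟨hs₀, -⟩, -⟩ := hT' 1 isUnit_one
  refine ⟨T, (((Real.sqrt |(discr E : ℝ)|)⁻¹ : ℝ) : ℂ) / 3 * c, mul_ne_zero (div_ne_zero (by
    rw [Complex.ofReal_inv]; exact inv_ne_zero B2_sqrt_ne) three_ne_zero) hc, ⟨s₀, hs₀⟩, hT,
    fun F h => ?_⟩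
  rw [show P0 (xi F) = _ from funext (KLA_P0 hj hT hT' h), mul_assoc, Finset.mul_sum T _ c]
  refine (tendsto_finsetSum _ fun s hs => ?_).const_mul _
  rw [mul_left_comm]
  have hs0 : (s : E) ≠ 0 := fun h => (hT s hs).ne_zero (Subtype.ext h)
  have hl : Tendsto (fun (η : Pl E → ℝ) σ => (η σ + lg (s : E) σ) / 3) (lB E) (lB E) := by
    refine tendsto_comap_iff.2 (((tendsto_comap_iff.1 (tendsto_add_lB (lg (s : E)))).atBot_div_const
      three_pos).congr fun η => ?_)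
    simp only [Function.comp, Pi.add_apply, Finset.sum_div]
  exact ((H _ ((h.act hj (g := dM (s : E)⁻¹ 1) (by
    rw [det_dM, mul_one]; exact inv_ne_zero hs0)).perS2 hj).IS_right).comp hl).const_mul _

/-! ## part B: consequences -/

theorem SD.tendsto_Lm {j : ℕ} (hj : Lev E j) {F : E → E → ℂ} (h : SD F) :
    Tendsto (P0 (xi F)) (lB E) (𝓝 (Lm F)) := by
  obtain ⟨T, C₀, -, -, -, H⟩ := exists_Lm hj
  exact tendsto_nhds_limUnder ⟨_, H F h⟩
theorem Lm_eq {F : E → E → ℂ} {L : ℂ} (hL : Tendsto (P0 (xi F)) (lB E) (𝓝 L)) : Lm F = L :=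
  hL.limUnder_eq
theorem KLB_det {α x β δ : R E} (hσ : α * δ - x * β = 1) : (mR α x β δ).det ≠ 0 := by
  rw [det_mR, hσ]
  exact one_ne_zero
/-- The constant term at the cusp `α / β` (`sl_xi`, `P0_const_mul`). -/
theorem SD.tendsto_cusp {j : ℕ} (hj : Lev E j) {F : E → E → ℂ} (h : SD F) {α x β δ : R E}
    (hσ : α * δ - x * β = 1) : Tendsto (P0 (sl (xi F) (mR α x β δ))) (lB E)
      (𝓝 (cub β δ * Lm (ac F (mR α x β δ)))) := by
  have hG := h.act hj (KLB_det hσ)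
  rw [sl_xi F hσ]
  exact ((hG.tendsto_Lm hj).const_mul _).congr fun η => (P0_const_mul hG.adm _ η).symm
/-- The same after an upper triangular matrix (`sl_mul`, `tendsto_P0_upper`). -/
theorem SD.tendsto_cusp_upper {j : ℕ} (hj : Lev E j) {F : E → E → ℂ} (h : SD F) {α x β δ : R E}
    (hσ : α * δ - x * β = 1) {a d : E} (ha : a ≠ 0) (hd : d ≠ 0) (b : E) :
    Tendsto (P0 (sl (xi F) (mR α x β δ * !![a, b; 0, d]))) (lB E)
      (𝓝 (((nr a ^ (-(1 / 3 : ℝ)) / nr d : ℝ) : ℂ) * (cub β δ * Lm (ac F (mR α x β δ))))) := by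
  rw [sl_mul _ (KLB_det hσ) (by simp [ha, hd])]
  exact tendsto_P0_upper (h.adm.sl (KLB_det hσ)) (h.tendsto_cusp hj hσ) ha hd b
/-- `exists_SLR`. -/
theorem SD.ct {j : ℕ} (hj : Lev E j) {F : E → E → ℂ} (h : SD F) : CT (xi F) := fun g hg => by
  obtain ⟨α, x, β, δ, a, b, hσ, ha, rfl⟩ := exists_SLR hg
  exact ⟨_, h.tendsto_cusp_upper hj hσ ha (inv_ne_zero ha) b⟩
theorem SD.Lm_const_mul {j : ℕ} (hj : Lev E j) {F : E → E → ℂ} (h : SD F) (a : ℂ) :
    Lm (fun c d => a * F c d) = a * Lm F := by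
  refine Lm_eq ?_
  rw [xi_const_mul]
  exact ((h.tendsto_Lm hj).const_mul a).congr fun η => (P0_const_mul h.adm a η).symm
/-- `P0 (xi (ac F (nM t))) = P0 (xi F)`: `Mn_xi`, `ac_nM`, `IS_add_const`. -/
theorem SD.Lm_nM {j : ℕ} (hj : Lev E j) {F : E → E → ℂ} (h : SD F) (t : E) :
    Lm (ac F (nM t)) = Lm F := by
  have hG := h.act hj ((det_nM t).trans_ne one_ne_zero)
  refine Lm_eq ((h.tendsto_Lm hj).congr fun η => ?_)
  unfold P0
  congr 1
  refine tsum_congr fun c => ?_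
  by_cases hc : c = 0
  · rw [if_pos hc, if_pos hc]
  rw [if_neg hc, if_neg hc]
  congr 1
  by_cases hR : c ∈ RR E
  · have h0 : (⟨c, hR⟩ : R E) ≠ 0 := fun h => hc (congrArg Subtype.val h)
    have e : IS (ac F (nM t) c) = IS (F c) := by
      rw [← IS_add_const (h.perS hj c) (-(c * t))]
      congr 1
      funext d
      rw [ac_nM h.zero_zero, sub_eq_add_neg]
    refine (Mn_xi hj h h0).trans (Eq.trans ?_ (Mn_xi hj hG h0).symm)
    rw [e]
  · rw [Mn_xi_of_not_mem _ hR, Mn_xi_of_not_mem _ hR]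
theorem SD.Lm_upper {j : ℕ} (hj : Lev E j) {F : E → E → ℂ} (h : SD F) {x y : E} (hx : x ≠ 0)
    (hy : y ≠ 0) (t : E) : Lm (ac F !![x, t; 0, y]) = Lm (ac F (dM x y)) := by
  have hd : (dM x y).det ≠ 0 := by rw [det_dM]; exact mul_ne_zero hx hy
  rw [upper_eq hx, ac_mul_nM h.zero_zero hd, (h.act hj hd).Lm_nM hj]
/-- `ac_dM_cube`, `IS_mul_left` twice (`SD.perS2`). -/
theorem SD.LamS_cube {j : ℕ} (hj : Lev E j) {F : E → E → ℂ} (h : SD F) {x y : E} (hx : x ≠ 0)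
    (hy : y ≠ 0) :
    LamS (ac F (dM (x ^ 3) (y ^ 3))) = ((absS x * absS y ^ 3 : ℝ) : ℂ) * LamS F := by
  have h1 : ∀ n : E, (IS fun d => ac F (dM (x ^ 3) (y ^ 3)) (n ^ 3) d) =
      ((absS y ^ 3 : ℝ) : ℂ) * IS fun d => F ((x⁻¹ * n) ^ 3) d := fun n => by
    have := IS_mul_left (h.perS hj ((x⁻¹ * n) ^ 3)) (inv_ne_zero (pow_ne_zero 3 hy))
    rw [absS_inv, inv_inv, absS_pow] at this
    rw [← this]
    congr 1
    funext d
    rw [ac_dM_cube h.zero_zero hx hy]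
    congr 1 <;> ring
  have h2 := (h.perS2 hj).IS_right
  have h3 := IS_mul_left h2 (inv_ne_zero hx)
  have h4 := h2.affine (inv_ne_zero hx) 0
  simp only [add_zero] at h4
  rw [absS_inv, inv_inv] at h3
  simp only [LamS, h1]
  rw [IS_const_mul h4, h3]
  push_cast
  ring
/-- `exists_Lm`; `dM x³ y³` commutes with `dM s⁻¹ 1` (`ac_dM_dM`). -/
theorem SD.Lm_cube {j : ℕ} (hj : Lev E j) {F : E → E → ℂ} (h : SD F) {x y : E} (hx : x ≠ 0)
    (hy : y ≠ 0) :
    Lm (ac F (dM (x ^ 3) (y ^ 3))) = ((absS x * absS y ^ 3 : ℝ) : ℂ) * Lm F := by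
  obtain ⟨T, C₀, -, -, hT, H⟩ := exists_Lm hj
  have hx3 := pow_ne_zero 3 hx
  have hy3 := pow_ne_zero 3 hy
  rw [Lm_eq (H F h), Lm_eq (H _ (h.act hj (by rw [det_dM]; exact mul_ne_zero hx3 hy3))),
    mul_left_comm, Finset.mul_sum _ _ ((absS x * absS y ^ 3 : ℝ) : ℂ)]
  congr 1
  refine Finset.sum_congr rfl fun s hs => ?_
  have hs0 : (s : E)⁻¹ ≠ 0 := inv_ne_zero (isUnit_iff.1 (hT s hs)).1
  have e : ac (ac F (dM (x ^ 3) (y ^ 3))) (dM (s : E)⁻¹ 1) =
      ac (ac F (dM (s : E)⁻¹ 1)) (dM (x ^ 3) (y ^ 3)) := by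
    rw [ac_dM_dM h.zero_zero hx3 hy3 hs0 one_ne_zero, ac_dM_dM h.zero_zero hs0 one_ne_zero hx3 hy3,
      rho_one_left hx3, rho_cube_left hy hs0, mul_comm (x ^ 3), mul_comm (y ^ 3)]
  rw [e, (h.act hj (by rw [det_dM, mul_one]; exact hs0)).LamS_cube hj hx hy]
  ring
theorem SD.ellp_add_left {j : ℕ} (hj : Lev E j) {G : E → E → ℂ} (h : SD G) {p : E} (hp : p ≠ 0)
    (i k : ℤ) : ellp p G (i + 3) k = (absS p : ℂ) * ellp p G i k := by
  have hi := zpow_ne_zero i hp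
  have hk := zpow_ne_zero k hp
  have h1 := (h.act hj (g := dM (p ^ i) (p ^ k))
    (by rw [det_dM]; exact mul_ne_zero hi hk)).Lm_cube hj hp one_ne_zero
  rw [ac_dM_dM h.zero_zero hi hk (pow_ne_zero 3 hp) (pow_ne_zero 3 one_ne_zero),
    rho_cube_left one_ne_zero hi] at h1
  simp only [chi_zero, one_mul, one_pow, mul_one, absS_one] at h1
  rw [ellp, ellp, zpow_add₀ hp, zpow_ofNat]
  exact h1
theorem SD.ellp_add_right {j : ℕ} (hj : Lev E j) {G : E → E → ℂ} (h : SD G) {p : E} (hp : p ≠ 0)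
    (i k : ℤ) : ellp p G i (k + 3) = (absS p : ℂ) ^ 3 * ellp p G i k := by
  have hi := zpow_ne_zero i hp
  have hk := zpow_ne_zero k hp
  have h1 := (h.act hj (g := dM (p ^ i) (p ^ k))
    (by rw [det_dM]; exact mul_ne_zero hi hk)).Lm_cube hj one_ne_zero hp
  rw [ac_dM_dM h.zero_zero hi hk (pow_ne_zero 3 one_ne_zero) (pow_ne_zero 3 hp),
    rho_cube_left hp hi] at h1
  simp only [chi_zero, one_mul, one_pow, mul_one, absS_one, Complex.ofReal_pow] at h1
  rw [ellp, ellp, zpow_add₀ hp, zpow_ofNat]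
  exact h1
theorem SD.ellp_zero {G : E → E → ℂ} (h : SD G) (p : E) : ellp p G 0 0 = Lm G := by
  rw [ellp, zpow_zero, dM, ← Matrix.one_fin_two, ac_one h.zero_zero]
/-- Monotonicity of the `S`-adic integral. -/
theorem KLB_IS {φ : E → ℂ} {ψ : E → ℝ} (h : PerS φ) (h' : PerS fun x => (ψ x : ℂ))
    (hle : ∀ x, ‖φ x‖ ≤ ψ x) :
    ‖IS φ‖ ≤ (IS fun x => (ψ x : ℂ)).re ∧
      (IS fun x => (ψ x : ℂ)) = ((IS fun x => (ψ x : ℂ)).re : ℂ) := by
  classical
  have p1 := B2_per h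
  have p2 := B2_per h'
  have e : (fun x => if x ∈ RR E then (ψ x : ℂ) else 0) =
      fun x => ((if x ∈ RR E then ψ x else 0 : ℝ) : ℂ) := by
    funext x
    split_ifs <;> simp
  constructor
  · have := norm_Mn_le_Mn p1 (e ▸ p2) fun x => by
      split_ifs
      exacts [hle x, norm_zero.le]
    rw [IS, IS, norm_mul, Complex.re_ofReal_mul, Complex.norm_real,
      Real.norm_of_nonneg (Real.sqrt_nonneg _), e]
    exact mul_le_mul_of_nonneg_left this (Real.sqrt_nonneg _)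
  · refine (Complex.conj_eq_iff_re.1 ?_).symm
    rw [IS, map_mul, Complex.conj_ofReal, ← Mn_conj p2]
    congr 2
    funext x
    split_ifs <;> simp
open Classical in
/-- `ac (F0 j) (dM s⁻¹ 1) (n³) d = 1[Sml j (s n³)] 1[U j d]` (also for `n = 0`: `ac_upper_zero`,
`Lev.rho_U_right`); the inner integral is `absS (m^j)` (`IS_add_const`, `IS_lat`), the outer one is
real and at least the integral of the indicator function of a lattice (`norm_Mn_le_Mn`, `Mn_conj`). -/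
theorem LamS_F0 {j : ℕ} (hj : Lev E j) {s : E} (hs : s ≠ 0) :
    ∃ c : ℝ, 0 < c ∧ LamS (ac (F0 j) (dM s⁻¹ 1)) = c := by
  have h := sd_F0 hj
  have hs' := inv_ne_zero hs
  have hm : (mm E : E) ^ j ≠ 0 := pow_ne_zero _ mm_ne_zero
  have h1 : ∀ n d : E, ac (F0 j) (dM s⁻¹ 1) (n ^ 3) d = F0 j (n ^ 3 * s) d := fun n d => by
    by_cases hn : n = 0
    · rw [hn, zero_pow three_ne_zero, zero_mul, dM, ac_upper_zero h.zero_zero hs' one_ne_zero,
        div_one]
      by_cases hd : U j d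
      · rw [hj.rho_U_right hs' hd, chi_zero, one_mul]
      · rw [F0, if_neg fun h => hd h.2, mul_zero]
    · have h3 := pow_ne_zero 3 hn
      rw [dM, ac_upper _ h3 hs' one_ne_zero, rho_one_right (div_ne_zero h3 hs')]
      simp
  have h2 : ∀ c : E, (IS fun d => F0 j c d) =
      ((if Sml j c then absS ((mm E : E) ^ j) else 0 : ℝ) : ℂ) := fun c => by
    by_cases hc : Sml j c
    · rw [if_pos hc, ← IS_lat hm, ← IS_add_const (perS_lat hm) (-1)]
      congr 1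
      funext d
      simp only [F0, hc, true_and, U_iff, sub_eq_add_neg]
    · have : (fun d => F0 j c d) = fun _ => 0 * 0 := by
        funext d
        rw [F0, if_neg fun h => hc h.1, mul_zero]
      rw [this, IS_const_mul perS_zero, if_neg hc, zero_mul, Complex.ofReal_zero]
  have h3 := ((h.act hj (g := dM s⁻¹ 1) (by rw [det_dM, mul_one]; exact hs')).perS2 hj).IS_right
  simp only [LamS]
  change PerS fun n => IS fun d => ac (F0 j) (dM s⁻¹ 1) (n ^ 3) d at h3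
  simp only [h1, h2] at h3 ⊢
  obtain ⟨N, hN⟩ := exists_sml_mul s j
  have ht : (mm E : E) ^ N ≠ 0 := pow_ne_zero _ mm_ne_zero
  have a0 := absS_pos ((mm E : E) ^ j)
  obtain ⟨k1, k2⟩ := KLB_IS ((perS_lat ht).const_mul (absS ((mm E : E) ^ j))) h3 fun n => by
    by_cases hn : n / (mm E : E) ^ N ∈ OS E
    · have hn' : Sml N n := hn
      have : Sml j (n ^ 3 * s) := hN _ (by
        rw [pow_succ']
        exact hn'.mul_mem (pow_mem hn'.mem_OS 2))
      rw [if_pos hn, if_pos this, mul_one, Complex.norm_real, Real.norm_of_nonneg a0.le]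
    · rw [if_neg hn, mul_zero, norm_zero]
      split_ifs
      exacts [a0.le, le_rfl]
  refine ⟨_, lt_of_lt_of_le ?_ k1, k2⟩
  rw [IS_const_mul (perS_lat ht), IS_lat ht, norm_pos_iff]
  exact mul_ne_zero (Complex.ofReal_ne_zero.2 a0.ne') (Complex.ofReal_ne_zero.2 (absS_pos _).ne')
theorem Lm_F0_ne {j : ℕ} (hj : Lev E j) : Lm (F0 (E := E) j) ≠ 0 := by
  obtain ⟨T, C₀, hC, hne, hT, H⟩ := exists_Lm hj
  have h0 : ∀ s ∈ T, (s : E) ≠ 0 := fun s hs => (isUnit_iff.1 (hT s hs)).1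
  choose! c hc hc' using fun (s : R E) (hs : (s : E) ≠ 0) => LamS_F0 hj hs
  rw [Lm_eq (H _ (sd_F0 hj)), Finset.sum_congr rfl fun s hs => by rw [hc' s (h0 s hs)]]
  refine mul_ne_zero hC ?_
  have := Finset.sum_pos (f := fun s : R E => nr (s : E) ^ (-(1 / 3 : ℝ)) * c s) (fun s hs =>
    mul_pos (Real.rpow_pos_of_pos (nr_pos (h0 s hs)) _) (hc s (h0 s hs))) hne
  exact_mod_cast this.ne'

end Crest.Agent.R312
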