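import Crest.Agent.R312.Kub

/-!
# Row 312: `S`-adic data
-/

set_option autoImplicit false

noncomputable section

namespace Crest.Agent.R312

open NumberField
open scoped ComplexConjugate

open Filter Topology

variable {E : Type} [Field E] [NumberField E] [Fr E]

/-! ## part A: congruence subgroups, closure properties -/

theorem kubA_pow (k : ℕ) : (mm E : E) ^ k ∈ OS E := pow_mem (natCast_mem _ _) _
theorem kubA_ne (k : ℕ) : (mm E : E) ^ k ≠ 0 := pow_ne_zero _ mm_ne_zero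
theorem kubA_eq {x y : E} (h : x ∈ OS E) (e : y = x) : y ∈ OS E := e ▸ h
theorem kubA_mul {N K : ℕ} {x a : E} (h : Sml (N + K) x) (ha : (mm E : E) ^ K * a ∈ OS E) :
    Sml N (x * a) := by
  have h1 := kubA_ne (E := E) N
  have h2 := kubA_ne (E := E) K
  refine kubA_eq (mul_mem h ha) ?_
  rw [pow_add]
  field_simp
theorem kubA_sml {N : ℕ} {x y : E} (h : Sml N x) (e : y = x) : Sml N y := e ▸ h
theorem kubA_den (g h : Mt E) : ∃ K : ℕ, ∀ i j, (mm E : E) ^ K * g i j ∈ OS E ∧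
    (mm E : E) ^ K * h i j ∈ OS E := by
  choose k hk using exists_pow_mul_mem_OS (E := E)
  refine ⟨∑ p : Fin 2 × Fin 2, (k (g p.1 p.2) + k (h p.1 p.2)), fun i j => ?_⟩
  obtain ⟨l, hl⟩ := Nat.exists_eq_add_of_le (Finset.single_le_sum
    (f := fun p : Fin 2 × Fin 2 => k (g p.1 p.2) + k (h p.1 p.2)) (fun _ _ => Nat.zero_le _)
    (Finset.mem_univ (i, j)))
  rw [hl]
  exact ⟨kubA_eq (mul_mem (kubA_pow (k (h i j) + l)) (hk (g i j))) (by ring),
    kubA_eq (mul_mem (kubA_pow (k (g i j) + l)) (hk (h i j))) (by ring)⟩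
theorem Sml.mem_OS {N : ℕ} {x : E} (h : Sml N x) : x ∈ OS E :=
  kubA_eq (mul_mem h (kubA_pow N)) (div_mul_cancel₀ _ (kubA_ne N)).symm
theorem Sml.mono {M N : ℕ} (hMN : M ≤ N) {x : E} (h : Sml N x) : Sml M x := by
  obtain ⟨k, rfl⟩ := Nat.exists_eq_add_of_le hMN
  exact kubA_sml (kubA_mul h (a := 1) (mul_mem (kubA_pow k) (one_mem _))) (mul_one x).symm
theorem sml_zero (N : ℕ) : Sml N (0 : E) := kubA_eq (zero_mem _) (zero_div _)
theorem Sml.add {N : ℕ} {x y : E} (h : Sml N x) (h' : Sml N y) : Sml N (x + y) :=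
  kubA_eq (add_mem h h') (add_div _ _ _)
theorem Sml.neg {N : ℕ} {x : E} (h : Sml N x) : Sml N (-x) :=
  kubA_eq (neg_mem h) (neg_div _ _)
theorem Sml.mul_mem {N : ℕ} {x y : E} (h : Sml N x) (hy : y ∈ OS E) : Sml N (x * y) :=
  kubA_eq ((OS E).mul_mem h hy) (mul_div_right_comm _ _ _)
theorem U_iff_sml {N : ℕ} {u : E} : U N u ↔ Sml N (u - 1) := U_iff
/-- Multiplication by a fixed element is continuous. -/
theorem exists_sml_mul (a : E) (N : ℕ) : ∃ N' : ℕ, ∀ x, Sml N' x → Sml N (x * a) := by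
  obtain ⟨k, hk⟩ := exists_pow_mul_mem_OS a
  exact ⟨N + k, fun x hx => kubA_mul hx hk⟩
theorem exists_approx_sml {c : R E} (hc : c ≠ 0) (x : R E) (y : E) (N : ℕ) :
    ∃ z : R E, c ∣ z - x ∧ Sml N ((z : E) - y) := exists_approx hc x y N
theorem KN.mono {M N : ℕ} (hMN : M ≤ N) {k : Mt E} (h : KN N k) : KN M k :=
  ⟨h.1, fun i j => (h.2 i j).mono hMN⟩
theorem KN.det_ne {N : ℕ} {k : Mt E} (h : KN N k) : k.det ≠ 0 := h.1.trans_ne one_ne_zero
theorem KN.mem_OS {N : ℕ} {k : Mt E} (h : KN N k) (i j : Fin 2) : k i j ∈ OS E := by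
  have h1 : (1 : Mt E) i j ∈ OS E := by
    rw [Matrix.one_apply]
    split_ifs
    exacts [one_mem _, zero_mem _]
  exact kubA_eq (add_mem (h.2 i j).mem_OS h1) (sub_add_cancel _ _).symm
theorem KN.U00 {N : ℕ} {k : Mt E} (h : KN N k) : U N (k 0 0) := U_iff.2 (h.2 0 0)
theorem KN.U11 {N : ℕ} {k : Mt E} (h : KN N k) : U N (k 1 1) := U_iff.2 (h.2 1 1)
theorem KN.sml01 {N : ℕ} {k : Mt E} (h : KN N k) : Sml N (k 0 1) :=
  kubA_sml (h.2 0 1) (sub_zero _).symm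
theorem KN.sml10 {N : ℕ} {k : Mt E} (h : KN N k) : Sml N (k 1 0) :=
  kubA_sml (h.2 1 0) (sub_zero _).symm
theorem kN_of {N : ℕ} {a b c d : E} (h : a * d - b * c = 1) (ha : U N a) (hb : Sml N b)
    (hc : Sml N c) (hd : U N d) : KN N !![a, b; c, d] := by
  refine ⟨(Matrix.det_fin_two_of a b c d).trans h, fun i j => ?_⟩
  fin_cases i <;> fin_cases j
  exacts [U_iff.1 ha, kubA_sml hb (sub_zero _), kubA_sml hc (sub_zero _), U_iff.1 hd]
theorem kN_nM {N : ℕ} {t : E} (h : Sml N t) : KN N (nM t) :=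
  kN_of (by ring) (U_one N) h (sml_zero N) (U_one N)
/-- Conjugation is continuous: `k = g k' g⁻¹`. -/
theorem exists_KN_conj {g : Mt E} (hg : g.det ≠ 0) (N : ℕ) :
    ∃ N' : ℕ, ∀ k', KN N' k' → ∃ k, KN N k ∧ g * k' = k * g := by
  obtain ⟨K, hK⟩ := kubA_den g g⁻¹
  have hu : IsUnit g.det := hg.isUnit
  refine ⟨N + K + K, fun k' hk => ⟨g * k' * g⁻¹, ⟨?_, fun i j => ?_⟩,
    (Matrix.nonsing_inv_mul_cancel_right g _ hu).symm⟩⟩
  · rw [Matrix.det_mul, Matrix.det_mul, hk.1, mul_one, ← Matrix.det_mul,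
      Matrix.mul_nonsing_inv g hu, Matrix.det_one]
  · have e : g * k' * g⁻¹ - 1 = g * (k' - 1) * g⁻¹ := by
      rw [Matrix.mul_sub, Matrix.sub_mul, Matrix.mul_one, Matrix.mul_nonsing_inv g hu]
    have h1 : ∀ a b, Sml N (g i a * (k' - 1) a b * g⁻¹ b j) := fun a b =>
      kubA_mul (kubA_sml (kubA_mul (hk.2 a b) (hK i a).1) (mul_comm _ _)) (hK b j).2
    rw [e]
    simp only [Matrix.mul_apply, Fin.sum_univ_two, add_mul]
    exact ((h1 0 0).add (h1 1 0)).add ((h1 0 1).add (h1 1 1))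
theorem Bd.mono {M N : ℕ} (hMN : M ≤ N) {c d : E} (h : Bd M c d) : Bd N c d := by
  obtain ⟨k, rfl⟩ := Nat.exists_eq_add_of_le hMN
  obtain ⟨h1, h2, x, hx, y, hy, h3⟩ := h
  exact ⟨kubA_eq (mul_mem (kubA_pow k) h1) (by ring), kubA_eq (mul_mem (kubA_pow k) h2) (by ring),
    _, mul_mem (kubA_pow k) hx, _, mul_mem (kubA_pow k) hy,
    by rw [pow_add]; linear_combination (mm E : E) ^ k * h3⟩
theorem Bd.ne_zero {N : ℕ} {c d : E} (h : Bd N c d) : c ≠ 0 ∨ d ≠ 0 := by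
  obtain ⟨-, -, x, -, y, -, h3⟩ := h
  by_contra h1
  rw [not_or, not_not, not_not] at h1
  rw [h1.1, h1.2, zero_mul, zero_mul, add_zero] at h3
  exact kubA_ne N h3.symm
theorem exists_Bd_mul {g : Mt E} (hg : g.det ≠ 0) (N : ℕ) : ∃ N' : ℕ, ∀ c d : E, Bd N c d →
    Bd N' (c * g 0 0 + d * g 1 0) (c * g 0 1 + d * g 1 1) := by
  obtain ⟨K, hK⟩ := kubA_den g g⁻¹
  have e := fun i j => congrFun (congrFun (Matrix.mul_nonsing_inv g hg.isUnit) i) j
  have e00 := e 0 0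
  have e01 := e 0 1
  have e10 := e 1 0
  have e11 := e 1 1
  simp only [Matrix.mul_apply, Fin.sum_univ_two, Matrix.one_apply_eq, ne_eq, zero_ne_one,
    one_ne_zero, not_false_eq_true, Matrix.one_apply_ne] at e00 e01 e10 e11
  refine ⟨N + K, fun c d ⟨h1, h2, x, hx, y, hy, h3⟩ =>
    ⟨kubA_eq (add_mem (mul_mem h1 (hK 0 0).1) (mul_mem h2 (hK 1 0).1)) (by ring),
      kubA_eq (add_mem (mul_mem h1 (hK 0 1).1) (mul_mem h2 (hK 1 1).1)) (by ring),
      _, add_mem (mul_mem (hK 0 0).2 hx) (mul_mem (hK 0 1).2 hy),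
      _, add_mem (mul_mem (hK 1 0).2 hx) (mul_mem (hK 1 1).2 hy), ?_⟩⟩
  rw [pow_add]
  linear_combination (mm E : E) ^ K * (h3 + c * x * e00 + c * y * e01 + d * x * e10 + d * y * e11)
/-- Close rows of bounded content are in the same orbit.  With `c x + d y = m^B`, `x' = x / m^B`,
`y' = y / m^B`, `w = c' x' + d' y' ∈ U`: `g = (y', -x'; c, d)`, `g' = (y'/w, -x'/w; c', d')`,
`k = g⁻¹ g' = 1 + g⁻¹ (g' - g)`. -/
theorem exists_KN (B N : ℕ) : ∃ N' : ℕ, ∀ c d c' d' : E, Bd B c d → Sml N' (c' - c) →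
    Sml N' (d' - d) → ∃ k, KN N k ∧ c' = c * k 0 0 + d * k 1 0 ∧ d' = c * k 0 1 + d * k 1 1 := by
  refine ⟨N + B + B + 1 + B, fun c d c' d' ⟨hc, hd, x, hx, y, hy, h⟩ h1 h2 => ?_⟩
  have hm := kubA_ne (E := E) B
  have hx' : (mm E : E) ^ B * (x / (mm E : E) ^ B) ∈ OS E := kubA_eq hx (mul_div_cancel₀ _ hm)
  have hy' : (mm E : E) ^ B * (y / (mm E : E) ^ B) ∈ OS E := kubA_eq hy (mul_div_cancel₀ _ hm)
  have e1 : c * (x / (mm E : E) ^ B) + d * (y / (mm E : E) ^ B) = 1 := by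
    rw [← mul_div_assoc, ← mul_div_assoc, ← add_div, h, div_self hm]
  generalize x / (mm E : E) ^ B = x' at hx' e1
  generalize y / (mm E : E) ^ B = y' at hy' e1
  have hw : U (N + B + B + 1) (c' * x' + d' * y') :=
    U_iff_sml.2 (kubA_sml ((kubA_mul h1 hx').add (kubA_mul h2 hy')) (by linear_combination e1))
  have e2 := inv_mul_cancel₀ (hw.ne_zero (Nat.le_add_left _ _))
  have hu : Sml (N + B + B) ((c' * x' + d' * y')⁻¹ - 1) :=
    (U_iff_sml.1 (hw.inv (Nat.le_add_left _ _))).mono (Nat.le_succ _)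
  generalize (c' * x' + d' * y')⁻¹ = u at e2 hu
  have h1' : Sml (N + B) (c' - c) := h1.mono (by omega)
  have h2' : Sml (N + B) (d' - d) := h2.mono (by omega)
  refine ⟨!![d * y' * u + x' * c', x' * d' - d * x' * u; y' * c' - c * y' * u, c * x' * u + y' * d'],
    kN_of (by linear_combination u * (c' * x' + d' * y') * e1 + e2)
      (U_iff_sml.2 (kubA_sml ((kubA_mul (kubA_mul hu hd) hy').add (kubA_mul h1' hx'))
        (by linear_combination e1)))
      (kubA_sml ((kubA_mul (kubA_mul hu hd) hx').neg.add (kubA_mul h2' hx')) (by ring))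
      (kubA_sml ((kubA_mul (kubA_mul hu hc) hy').neg.add (kubA_mul h1' hy')) (by ring))
      (U_iff_sml.2 (kubA_sml ((kubA_mul (kubA_mul hu hc) hx').add (kubA_mul h2' hy'))
        (by linear_combination e1))), ?_, ?_⟩
  · change c' = c * (d * y' * u + x' * c') + d * (y' * c' - c * y' * u)
    linear_combination (-c') * e1
  · change d' = c * (x' * d' - d * x' * u) + d * (c * x' * u + y' * d')
    linear_combination (-d') * e1

theorem SD.zero_zero {F : E → E → ℂ} (h : SD F) : F 0 0 = 0 := by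
  obtain ⟨N, hN⟩ := h.supp
  by_contra h0
  exact (hN 0 0 h0).ne_zero.elim (fun h => h rfl) fun h => h rfl
theorem SD.inv_ge {F : E → E → ℂ} (h : SD F) (j : ℕ) : ∃ N : ℕ, j ≤ N ∧ ∀ k, KN N k → ac F k = F := by
  obtain ⟨N, hN⟩ := h.inv
  exact ⟨max j N, le_max_left _ _, fun k hk => hN k (hk.mono (le_max_right _ _))⟩
theorem sd_zero : SD fun _ _ : E => (0 : ℂ) :=
  ⟨⟨0, fun _ _ => norm_zero.le⟩, ⟨0, fun _ _ h => absurd rfl h⟩,
    0, fun _ _ => funext fun _ => funext fun _ => mul_zero _⟩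
theorem SD.const_mul {F : E → E → ℂ} (h : SD F) (a : ℂ) : SD fun c d => a * F c d := by
  obtain ⟨⟨B, hB⟩, ⟨N, hN⟩, M, hM⟩ := h
  refine ⟨⟨‖a‖ * B, fun c d => ?_⟩, ⟨N, fun c d h => hN c d (right_ne_zero_of_mul h)⟩,
    M, fun k hk => by rw [ac_const_mul, hM k hk]⟩
  rw [norm_mul]
  exact mul_le_mul_of_nonneg_left (hB c d) (norm_nonneg _)
theorem SD.add {F F' : E → E → ℂ} (h : SD F) (h' : SD F') : SD fun c d => F c d + F' c d := by
  obtain ⟨⟨B, hB⟩, ⟨N, hN⟩, M, hM⟩ := h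
  obtain ⟨M', h1, hM'⟩ := h'.inv_ge M
  obtain ⟨⟨B', hB'⟩, ⟨N', hN'⟩, -⟩ := h'
  refine ⟨⟨B + B', fun c d => (norm_add_le _ _).trans (add_le_add (hB c d) (hB' c d))⟩,
    ⟨max N N', fun c d h => ?_⟩, M', fun k hk => by rw [ac_add, hM k (hk.mono h1), hM' k hk]⟩
  by_cases h0 : F c d = 0
  · exact (hN' c d fun h2 => h (by rw [h0, h2, add_zero])).mono (le_max_right _ _)
  · exact (hN c d h0).mono (le_max_left _ _)
theorem SD.sum {α : Type} (s : Finset α) {F : α → E → E → ℂ} (h : ∀ i ∈ s, SD (F i)) :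
    SD fun c d => ∑ i ∈ s, F i c d := by
  classical
  induction s using Finset.induction_on with
  | empty => simpa using sd_zero
  | insert a s ha ih =>
    simp only [Finset.sum_insert ha]
    exact (h a (Finset.mem_insert_self _ _)).add
      (ih fun i hi => h i (Finset.mem_insert_of_mem hi))
omit [NumberField E] [Fr E] in
theorem KubSA2_surj {g : Mt E} (hg : g.det ≠ 0) (c d : E) :
    ∃ c₀ d₀ : E, c = c₀ * g 0 0 + d₀ * g 1 0 ∧ d = c₀ * g 0 1 + d₀ * g 1 1 := by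
  refine ⟨(c * g 1 1 - d * g 1 0) / g.det, (d * g 0 0 - c * g 0 1) / g.det, ?_, ?_⟩ <;>
  · field_simp
    rw [Matrix.det_fin_two]
    ring
theorem KubSA2_act {F : E → E → ℂ} (h : SD F) {g : Mt E} (hg : g.det ≠ 0) {j : ℕ}
    (hc : ∀ k k', KN j k → KN j k' → g * k' = k * g → kB g k' = kB k g) : SD (ac F g) := by
  have h0 := h.zero_zero
  obtain ⟨M, hjM, hM⟩ := h.inv_ge j
  obtain ⟨⟨B, hB⟩, ⟨N, hN⟩, -⟩ := h
  obtain ⟨N', hN'⟩ := exists_Bd_mul hg N
  obtain ⟨M', hM'⟩ := exists_KN_conj hg M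
  refine ⟨⟨B, fun c d => ?_⟩, ⟨N', fun c d hcd => ?_⟩, max j M', fun k' hk' => ?_⟩
  · rw [norm_ac]
    exact hB _ _
  · obtain ⟨c₀, d₀, rfl, rfl⟩ := KubSA2_surj hg c d
    rw [ac_apply F hg] at hcd
    exact hN' _ _ (hN _ _ (right_ne_zero_of_mul hcd))
  · obtain ⟨k, hk, e⟩ := hM' k' (hk'.mono (le_max_right _ _))
    rw [ac_ac h0 hg hk'.det_ne, hc k k' (hk.mono hjM) (hk'.mono (le_max_left _ _)) e, e,
      ← ac_ac h0 hk.det_ne hg, hM k hk]
theorem KubSA2_upper {j : ℕ} (hj : Lev E j) {F : E → E → ℂ} (h : SD F) {x y : E} (hx : x ≠ 0)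
    (hy : y ≠ 0) (t : E) : SD (ac F !![x, t; 0, y]) := by
  have hg : (!![x, t; 0, y] : Mt E).det ≠ 0 := by simpa using And.intro hx hy
  refine KubSA2_act h hg (j := j) fun k k' hk hk' e => ?_
  have e1 : y * k' 1 0 = k 1 0 * x := by
    simpa [Matrix.mul_apply, Fin.sum_univ_two] using congrFun (congrFun e 1) 0
  rw [kB_upper_left hx hy t hk'.det_ne]
  by_cases h1 : k 1 0 = 0
  · have h2 : k' 1 0 = 0 := by simpa [h1, hy] using e1
    have h3 : k = !![k 0 0, k 0 1; 0, k 1 1] := by rw [← h1]; exact Matrix.eta_fin_two k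
    rw [h3, kB_upper_left (hk.U00.ne_zero hj.1) (hk.U11.ne_zero hj.1) _ hg, kX, if_pos h2,
      hj.rho_U_left hx hk'.U11, hj.rho_U_right (kX_row_ne hg) hk.U00]
  · have h2 : k' 1 0 = k 1 0 * x / y := by
      rw [← e1, mul_div_cancel_left₀ _ hy]
    rw [kB_upper_right hk.det_ne h1 hx hy, hk.1, rho_one_right hx, kX, h2,
      if_neg (div_ne_zero (mul_ne_zero h1 hx) hy), rho_div_left (mul_ne_zero h1 hx) hy hx,
      rho_mul_left h1 hx hx, rho_self, rho_swap y x]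
    ring
theorem KubSA2_wM {j : ℕ} (hj : Lev E j) {F : E → E → ℂ} (h : SD F) : SD (ac F (wM E)) := by
  have hg : (wM E).det ≠ 0 := by rw [det_wM]; exact one_ne_zero
  refine KubSA2_act h hg (j := j) fun k k' hk hk' _ => ?_
  have a0 := hk'.U00.ne_zero hj.1
  have a1 := hk.U11.ne_zero hj.1
  have e0 : kX (wM E 1 0) (wM E 1 1) = 1 := by simp [kX, wM]
  have e1 : kX ((wM E * k') 1 0) ((wM E * k') 1 1) = k' 0 0 := by
    simp [kX, wM, Matrix.mul_apply, Fin.sum_univ_two, a0]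
  have e2 : kX ((k * wM E) 1 0) ((k * wM E) 1 1) = k 1 1 := by
    simp [kX, wM, Matrix.mul_apply, Fin.sum_univ_two, a1]
  have x1 := kX_row_ne hk.det_ne
  have x2 := kX_row_ne hk'.det_ne
  rw [kB_eq hg hk'.det_ne, kB_eq hk.det_ne hg, e0, e1, e2, det_wM, hk.1, rho_one_left a0,
    hj.rho_U_left x2 hk'.U00, rho_one_right x2, rho_one_right (div_ne_zero a0 one_ne_zero),
    hj.rho_U_right x1 hk.U11, rho_one_right a1, rho_one_left x1,
    rho_one_right (div_ne_zero a1 x1)]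
/-- It is enough to treat upper triangular matrices and `wM` (`ac_mul`, Bruhat decomposition).
For `g k' = k g`: `ac (ac F g) k' = chi (kB g k' - kB k g) ac (ac F k) g`.  For `g = (x t; 0 y)`,
`kB g k' = rho (X k') x` and `kB k g` is the same (`k₁₀ = y k'₁₀ / x`; if `k'₁₀ = 0` everything is in
`U j`).  For `g = wM` both cocycles vanish (`kB_eq`: `X wM = 1`, `X (wM k') = k'₀₀ ∈ U j`). -/
theorem SD.act {j : ℕ} (hj : Lev E j) {F : E → E → ℂ} (h : SD F) {g : Mt E} (hg : g.det ≠ 0) :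
    SD (ac F g) := by
  by_cases h1 : g 1 0 = 0
  · have h2 : g = !![g 0 0, g 0 1; 0, g 1 1] := by rw [← h1]; exact Matrix.eta_fin_two g
    have h3 : g 0 0 * g 1 1 ≠ 0 := by simpa [Matrix.det_fin_two, h1] using hg
    rw [h2]
    exact KubSA2_upper hj h (left_ne_zero_of_mul h3) (right_ne_zero_of_mul h3) _
  · have hy : g.det / g 1 0 ≠ 0 := div_ne_zero hg h1
    have h2 : g = !![1, g 0 0 / g 1 0; 0, 1] * (wM E * !![g 1 0, g 1 1; 0, g.det / g 1 0]) := by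
      rw [Matrix.det_fin_two]
      ext a b
      fin_cases a <;> fin_cases b <;> simp [wM, Matrix.mul_apply, Fin.sum_univ_two] <;>
        field_simp
      ring
    have d1 : (!![1, g 0 0 / g 1 0; 0, 1] : Mt E).det ≠ 0 := by simp
    have d2 : (wM E).det ≠ 0 := by rw [det_wM]; exact one_ne_zero
    have d3 : (!![g 1 0, g 1 1; 0, g.det / g 1 0] : Mt E).det ≠ 0 := by
      rw [Matrix.det_fin_two_of, mul_zero, sub_zero]
      exact mul_ne_zero h1 hy
    have s1 := KubSA2_upper hj h one_ne_zero one_ne_zero (g 0 0 / g 1 0)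
    have s2 := KubSA2_upper hj (KubSA2_wM hj s1) h1 hy (g 1 1)
    rw [h2, ac_mul h.zero_zero d1 (by rw [Matrix.det_mul]; exact mul_ne_zero d2 d3),
      ac_mul s1.zero_zero d2 d3]
    exact (s2.const_mul _).const_mul _
theorem SD.cop {j : ℕ} (hj : Lev E j) {F : E → E → ℂ} (h : SD F) {x : E} (hx : x ≠ 0) :
    SD (Cop x F) :=
  (h.act hj (by
    rw [det_dM]
    exact mul_ne_zero (inv_ne_zero (pow_ne_zero _ hx)) (inv_ne_zero hx))).const_mul _
theorem SD.dual {j : ℕ} (hj : Lev E j) {F : E → E → ℂ} (h : SD F) {D : E} (hD : D ≠ 0) :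
    SD (dualF F D) :=
  (h.act hj (by rw [det_wM]; exact one_ne_zero)).act hj
    (by rw [det_dM]; exact mul_ne_zero hD (inv_ne_zero hD))

/-! ## part B: local constancy -/

/-- Close rows: `F v' = chi (kb v k) F v` (if `F v = 0 ≠ F v'` exchange `v` and `v'`). -/
theorem SD.near {F : E → E → ℂ} (h : SD F) (j : ℕ) : ∃ N : ℕ, ∀ c d c' d' : E, Sml N (c' - c) →
    Sml N (d' - d) → (F c d = 0 ∧ F c' d' = 0) ∨ ∃ k, KN j k ∧ c' = c * k 0 0 + d * k 1 0 ∧
      d' = c * k 0 1 + d * k 1 1 ∧ (c ≠ 0 ∨ d ≠ 0) ∧ F c' d' = chi (kb c d k) * F c d := by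
  obtain ⟨M, hjM, hM⟩ := h.inv_ge j
  obtain ⟨B, hB⟩ := h.supp
  obtain ⟨N, hN⟩ := exists_KN (E := E) B M
  have key : ∀ c d c' d' : E, Sml N (c' - c) → Sml N (d' - d) → F c d ≠ 0 →
      ∃ k, KN j k ∧ c' = c * k 0 0 + d * k 1 0 ∧ d' = c * k 0 1 + d * k 1 1 ∧
        (c ≠ 0 ∨ d ≠ 0) ∧ F c' d' = chi (kb c d k) * F c d := by
    intro c d c' d' hc hd h0
    obtain ⟨k, hk, e1, e2⟩ := hN c d c' d' (hB c d h0) hc hd
    refine ⟨k, hk.mono hjM, e1, e2, (hB c d h0).ne_zero, ?_⟩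
    rw [← ac_apply F hk.det_ne, hM k hk, ← e1, ← e2]
  refine ⟨N, fun c d c' d' hc hd => ?_⟩
  by_cases h0 : F c d = 0
  · refine Or.inl ⟨h0, ?_⟩
    by_contra h1
    obtain ⟨k, -, -, -, -, e⟩ := key c' d' c d (neg_sub c' c ▸ hc.neg) (neg_sub d' d ▸ hd.neg) h1
    have := congrArg norm e
    rw [h0, norm_zero, norm_mul, norm_chi, one_mul] at this
    exact h1 (norm_eq_zero.1 this.symm)
  · exact Or.inr (key c d c' d' hc hd h0)
theorem SD.transl {F : E → E → ℂ} (h : SD F) : ∃ N : ℕ, ∀ t, Sml N t → ac F (nM t) = F := by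
  obtain ⟨N, hN⟩ := h.inv
  exact ⟨N, fun t ht => hN _ (kN_nM ht)⟩
/-- For `c' = c ≠ 0` the cocycle is `rho c c + rho c X + rho X c = 0`; for `c = 0`, `k₁₀ = 0`. -/
theorem SD.loc {j : ℕ} (hj : Lev E j) {F : E → E → ℂ} (h : SD F) :
    ∃ N : ℕ, ∀ c d d' : E, Sml N (d' - d) → F c d' = F c d := by
  obtain ⟨N, hN⟩ := h.near j
  refine ⟨N, fun c d d' hd => ?_⟩
  rcases hN c d c d' (by rw [sub_self]; exact sml_zero N) hd with h1 | ⟨k, hk, e1, -, h0, e⟩
  · rw [h1.1, h1.2]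
  · suffices hs : kb c d k = 0 by rw [e, hs, chi_zero, one_mul]
    by_cases hc : c = 0
    · subst hc
      have hd0 : d ≠ 0 := h0.resolve_left fun h => h rfl
      have h1 : k 1 0 = 0 := by simpa [hd0] using e1.symm
      have h2 : k = !![k 0 0, k 0 1; 0, k 1 1] := by rw [← h1]; exact Matrix.eta_fin_two k
      rw [h2, kb_upper_zero hd0 (hk.U00.ne_zero hj.1) (hk.U11.ne_zero hj.1),
        hj.rho_U_left (mul_ne_zero hd0 (hk.U11.ne_zero hj.1)) hk.U00]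
    · have h1 : ∀ y, kX c y = c := fun y => if_neg hc
      rw [kb, ← e1, h1, h1, hk.1, rho_self, rho_one_right hc, rho_swap _ c]
      ring
theorem SD.perS {j : ℕ} (hj : Lev E j) {F : E → E → ℂ} (h : SD F) (c : E) : PerS (F c) := by
  obtain ⟨N, hN⟩ := h.loc hj
  obtain ⟨B, hB⟩ := h.supp
  refine ⟨⟨N, fun x y hy => hN c _ _ ?_⟩, B, fun x hx => (hB c x hx).2.1⟩
  rw [Sml, add_sub_cancel_left, mul_div_cancel_left₀ _ (pow_ne_zero _ mm_ne_zero)]
  exact hy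

theorem KubSB_add {N : ℕ} {u x : E} (hu : U N u) (hx : Sml N x) : U N (x + u) := by
  rw [U_iff_sml] at hu ⊢
  rw [add_sub_assoc]
  exact hx.add hu

theorem KubSB_sml {N B : ℕ} {x y : E} (hx : Sml (N + B) x) (hy : (mm E : E) ^ B * y ∈ OS E) :
    Sml N (x * y) := by
  have hm := mm_ne_zero (E := E)
  have := mul_mem hx hy
  unfold Sml
  convert this using 1
  rw [pow_add]
  field_simp

theorem KubSB_cube {x : E} (h : x ^ 3 ∈ OS E) : x ∈ OS E := by
  obtain ⟨b, hb, h⟩ := h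
  have hi : IsIntegral ℤ (b : E) := by exact_mod_cast isIntegral_algebraMap (x := (b : ℤ))
  refine ⟨b, hb, IsIntegral.of_pow (n := 3) (by norm_num) ?_⟩
  have := (hi.pow 2).mul h
  rwa [show (b : E) ^ 2 * (b * x ^ 3) = (b * x) ^ 3 by ring] at this

theorem KubSB_rhoL {j : ℕ} (hj : Lev E j) {x y u : E} (hx : x ≠ 0) (hy : y ≠ 0) (hu : U j u) :
    rho (x * u) y = rho x y := by
  rw [rho_mul_left hx (hu.ne_zero hj.1) hy, hj.rho_U_left hy hu, add_zero]

theorem KubSB_rhoR {j : ℕ} (hj : Lev E j) {x y u : E} (hx : x ≠ 0) (hy : y ≠ 0) (hu : U j u) :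
    rho x (y * u) = rho x y := by
  rw [rho_mul_right hx hy (hu.ne_zero hj.1), hj.rho_U_right hx hu, add_zero]

omit [NumberField E] [Fr E] in
theorem KubSB_kX0 (d : E) : kX 0 d = d := if_pos rfl

omit [NumberField E] [Fr E] in
theorem KubSB_kX {c : E} (hc : c ≠ 0) (d : E) : kX c d = c := if_neg hc

/-- `dM u u' = dM u u⁻¹ * dM 1 (u u')`, `dM u u⁻¹ ∈ KN`, and `SD.loc` on the support. -/
theorem SD.diagU {j : ℕ} (hj : Lev E j) {F : E → E → ℂ} (h : SD F) :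
    ∃ N : ℕ, j ≤ N ∧ ∀ u u' : E, U N u → U N u' → ac F (dM u u') = F := by
  obtain ⟨N₁, hN₁, h₁⟩ := h.inv_ge j
  obtain ⟨N₂, h₂⟩ := h.loc hj
  obtain ⟨B, hB⟩ := h.supp
  refine ⟨N₁ + (N₂ + B), hN₁.trans (Nat.le_add_right _ _), fun u u' hu hu' => ?_⟩
  have h1 : 1 ≤ N₁ := hj.1.trans hN₁
  have h1' : 1 ≤ N₁ + (N₂ + B) := h1.trans (Nat.le_add_right _ _)
  have hu1 : U N₁ u := hu.mono (Nat.le_add_right _ _)
  have hu0 := hu.ne_zero h1'
  have hw := hu.mul hu'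
  have hw0 := hw.ne_zero h1'
  have hwj : U j (u * u') := hw.mono (hN₁.trans (Nat.le_add_right _ _))
  have e1 : ac F (dM u u⁻¹) = F := h₁ _ (kN_of (by rw [mul_inv_cancel₀ hu0]; ring) hu1
    (sml_zero _) (sml_zero _) (hu1.inv h1))
  have e2 := ac_dM_dM h.zero_zero hu0 (inv_ne_zero hu0) one_ne_zero hw0
  rw [e1, hj.rho_U_left hu0 hwj, chi_zero, mul_one, inv_mul_cancel_left₀ hu0] at e2
  simp only [one_mul] at e2
  have e3 : ∀ c d, F c (d / (u * u')) = F c d := by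
    intro c d
    by_cases hd : (mm E : E) ^ B * d ∈ OS E
    · refine h₂ c d _ ?_
      have h3 : Sml (N₂ + B) ((u * u')⁻¹ - 1) :=
        U_iff_sml.1 ((hw.inv h1').mono (Nat.le_add_left _ _))
      have h4 := KubSB_sml h3 hd
      rwa [show ((u * u')⁻¹ - 1) * d = d / (u * u') - d by ring] at h4
    · have a1 : F c d = 0 := by
        by_contra h0
        exact hd (hB _ _ h0).2.1
      have a2 : F c (d / (u * u')) = 0 := by
        by_contra h0
        have := mul_mem (hB _ _ h0).2.1 hw.mem_OS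
        rw [mul_assoc, div_mul_cancel₀ _ hw0] at this
        exact hd this
      rw [a1, a2]
  refine e2.symm.trans ?_
  funext c d
  rcases eq_or_ne c 0 with rfl | hc
  · refine (ac_upper_zero h.zero_zero one_ne_zero hw0 d 0).trans ?_
    rw [e3]
    rcases eq_or_ne d 0 with rfl | hd
    · rw [h.zero_zero, mul_zero]
    · rw [rho_one_left hd, chi_zero, one_mul]
  · refine (ac_upper F hc one_ne_zero hw0 d 0).trans ?_
    rw [e3, div_one, hj.rho_U_right hc hwj, neg_zero, chi_zero, one_mul, mul_zero, zero_div,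
      sub_zero]

theorem KubSB_diag {j : ℕ} (hj : Lev E j) {F : E → E → ℂ} (h : SD F) :
    ∃ N : ℕ, j ≤ N ∧ ∀ u u' x y : E, U N u → U N u' → x ≠ 0 → y ≠ 0 →
      ac F (dM (u * x) (u' * y)) = ac F (dM x y) := by
  obtain ⟨N, hN, h₁⟩ := h.diagU hj
  refine ⟨N, hN, fun u u' x y hu hu' hx hy => ?_⟩
  have h1 : 1 ≤ N := hj.1.trans hN
  have e := ac_dM_dM h.zero_zero (hu.ne_zero h1) (hu'.ne_zero h1) hx hy
  rw [h₁ u u' hu hu', hj.rho_U_right hy (hu.mono hN), chi_zero] at e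
  simp only [one_mul] at e
  exact e.symm

theorem SD.cop_U {j : ℕ} (hj : Lev E j) {F : E → E → ℂ} (h : SD F) :
    ∃ N : ℕ, j ≤ N ∧ ∀ x x' : E, Ty N x x' →
      Cop x' F = Cop x F := by
  obtain ⟨N, hN, h₁⟩ := KubSB_diag hj h
  refine ⟨N, hN, fun x x' hx => ?_⟩
  have h1 : 1 ≤ N := hj.1.trans hN
  obtain ⟨h0, h0'⟩ := hx.ne_zero h1
  have hu : U N (x' / x)⁻¹ := U.inv h1 hx
  have e := h₁ _ _ _ _ (hu.pow 2) hu (inv_ne_zero (pow_ne_zero 2 h0)) (inv_ne_zero h0)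
  rw [show (x' / x)⁻¹ ^ 2 * (x ^ 2)⁻¹ = (x' ^ 2)⁻¹ by field_simp,
    show (x' / x)⁻¹ * x⁻¹ = x'⁻¹ by field_simp] at e
  unfold Cop
  rw [e, hx.absS_eq h1]
theorem SD.dual_Ty {j : ℕ} (hj : Lev E j) {F : E → E → ℂ} (h : SD F) :
    ∃ N : ℕ, j ≤ N ∧ ∀ D D' : E, Ty N D D' →
      dualF F D' = dualF F D := by
  obtain ⟨N, hN, h₁⟩ := KubSB_diag hj (h.act hj (g := wM E) (by rw [det_wM]; exact one_ne_zero))
  refine ⟨N, hN, fun D D' hD => ?_⟩
  have h1 : 1 ≤ N := hj.1.trans hN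
  obtain ⟨h0, h0'⟩ := hD.ne_zero h1
  have e := h₁ _ _ _ _ hD (U.inv h1 hD) h0 (inv_ne_zero h0)
  rwa [div_mul_cancel₀ _ h0, show (D' / D)⁻¹ * D⁻¹ = D'⁻¹ by field_simp] at e
/-- The units which fix all the dual data at once. -/
theorem SD.cop_dual {j : ℕ} (hj : Lev E j) {F : E → E → ℂ} (h : SD F) :
    ∃ N : ℕ, j ≤ N ∧ ∀ u D : E, U N u → D ≠ 0 →
      Cop u (dualF F D) = dualF F D := by
  have h' := h.act hj (g := wM E) (by rw [det_wM]; exact one_ne_zero)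
  obtain ⟨N, hN, h₁⟩ := KubSB_diag hj h'
  refine ⟨N, hN, fun u D hu hD => ?_⟩
  have h1 : 1 ≤ N := hj.1.trans hN
  have h0 := hu.ne_zero h1
  have e := ac_dM_dM h'.zero_zero hD (inv_ne_zero hD) (inv_ne_zero (pow_ne_zero 2 h0))
    (inv_ne_zero h0)
  rw [hj.rho_U_left hD ((hu.inv h1).mono hN), chi_zero, mul_comm D, mul_comm D⁻¹,
    h₁ _ _ _ _ ((hu.pow 2).inv h1) (hu.inv h1) hD (inv_ne_zero hD)] at e
  unfold Cop dualF
  rw [e, hu.absS_eq h1, Real.one_rpow]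
  simp only [Complex.ofReal_one, one_mul]

theorem KubSB_kb_cube {j : ℕ} (hj : Lev E j) {n n' d : E} {k : Mt E} (hk : KN j k)
    (hv : n ^ 3 ≠ 0 ∨ d ≠ 0) (h : n' ^ 3 = n ^ 3 * k 0 0 + d * k 1 0) : kb (n ^ 3) d k = 0 := by
  have hX' := kX_ne (row_mul_ne hv hk.det_ne)
  have hY := kX_row_ne hk.det_ne
  have hdet := hk.1
  rw [kb, hk.1, rho_one_right hX', sub_zero]
  rw [Matrix.det_fin_two] at hdet
  rw [← h] at hX' ⊢
  rcases eq_or_ne n 0 with rfl | hn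
  · have hd : d ≠ 0 := hv.resolve_left (by simp)
    rw [zero_pow three_ne_zero] at h hX' ⊢
    rw [zero_mul, zero_add] at h hX' ⊢
    rw [KubSB_kX0]
    rcases eq_or_ne n' 0 with rfl | hn'
    · rw [zero_pow three_ne_zero] at h ⊢
      have h10 : k 1 0 = 0 := (mul_eq_zero.1 h.symm).resolve_left hd
      rw [h10, KubSB_kX0, KubSB_kX0, KubSB_rhoR hj hd hd hk.U11, rho_self,
        hj.rho_U_right (mul_ne_zero hd (hk.U11.ne_zero hj.1)) hk.U11, hj.rho_U_left hd hk.U11]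
      simp
    · have h3 := pow_ne_zero 3 hn'
      have h10 : k 1 0 = n' ^ 3 / d := by rw [h]; field_simp
      have h0 : k 1 0 ≠ 0 := h10 ▸ div_ne_zero h3 hd
      rw [KubSB_kX h3, KubSB_kX h0, rho_cube_right hd hn', rho_cube_left hn' h0, h10,
        rho_div_left h3 hd hd, rho_cube_left hn' hd, rho_self]
      simp
  · have h3 := pow_ne_zero 3 hn
    rw [KubSB_kX h3, rho_cube_left hn hX', rho_cube_right hY hn, zero_add, add_zero]
    rcases eq_or_ne n' 0 with rfl | hn'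
    · rw [zero_pow three_ne_zero] at h hX' ⊢
      rw [KubSB_kX0] at hX' ⊢
      have h10 : k 1 0 = -(n ^ 3 / (n ^ 3 * k 0 1 + d * k 1 1)) := by
        rw [← neg_div, eq_div_iff hX']
        linear_combination -k 1 1 * h - n ^ 3 * hdet
      have h0 : k 1 0 ≠ 0 := h10 ▸ neg_ne_zero.2 (div_ne_zero h3 hX')
      rw [KubSB_kX h0, h10, rho_neg_right hX' (div_ne_zero h3 hX'), rho_div_right hX' h3 hX',
        rho_cube_right hX' hn, rho_self, sub_zero]
    · rw [KubSB_kX (pow_ne_zero 3 hn'), rho_cube_left hn' hY]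

/-- `SD.near` with `c = n³`, `c' = n'³`.  The cocycle vanishes: if `n, n' ≠ 0` all the terms contain
a cube; if `n = 0 ≠ n'` then `c' = d k₁₀` and `kb = rho k₁₀ d = rho (c'/d) d = 0`; if `n' = 0 ≠ n` then
`c = -d' k₁₀` and `kb = rho d' k₁₀ = 0`; if `n = n' = 0` then `k₁₀ = 0`, `d' = d k₁₁`. -/
theorem SD.perS2 {j : ℕ} (hj : Lev E j) {F : E → E → ℂ} (h : SD F) :
    PerS2 fun n d => F (n ^ 3) d := by
  obtain ⟨N, hN⟩ := h.near j
  obtain ⟨B, hB⟩ := h.supp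
  have hm : ∀ k : ℕ, (mm E : E) ^ k ∈ OS E := fun k => pow_mem (natCast_mem _ _) _
  have hm0 := mm_ne_zero (E := E)
  have hs : ∀ n d : E, F (n ^ 3) d ≠ 0 → (mm E : E) ^ B * n ∈ OS E := fun n d h0 => by
    refine KubSB_cube ?_
    have := mul_mem (hm (2 * B)) (hB _ _ h0).1
    rwa [show (mm E : E) ^ (2 * B) * ((mm E : E) ^ B * n ^ 3) = ((mm E : E) ^ B * n) ^ 3 by ring]
      at this
  refine ⟨N + 2 * B, fun n d h0 => ⟨?_, ?_⟩, fun n d a b ha hb => ?_⟩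
  · have := mul_mem (hm (N + B)) (hs n d h0)
    rwa [show (mm E : E) ^ (N + B) * ((mm E : E) ^ B * n) = (mm E : E) ^ (N + 2 * B) * n by ring]
      at this
  · have := mul_mem (hm (N + B)) (hB _ _ h0).2.1
    rwa [show (mm E : E) ^ (N + B) * ((mm E : E) ^ B * d) = (mm E : E) ^ (N + 2 * B) * d by ring]
      at this
  have hsm : ∀ y ∈ OS E, Sml (N + 2 * B) ((mm E : E) ^ (N + 2 * B) * y) := fun y hy => by
    rwa [Sml, mul_div_cancel_left₀ _ (pow_ne_zero _ hm0)]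
  have hz : (mm E : E) ^ B * ((mm E : E) ^ (N + 2 * B) * a) ∈ OS E :=
    mul_mem (hm _) (mul_mem (hm _) ha)
  beta_reduce
  by_cases hn : (mm E : E) ^ B * n ∈ OS E
  · have h1 : Sml N ((n + (mm E : E) ^ (N + 2 * B) * a) ^ 3 - n ^ 3) := by
      generalize hx : (mm E : E) ^ (N + 2 * B) * a = x at hz
      have h2 : (mm E : E) ^ (2 * B) * (3 * n ^ 2 + 3 * n * x + x ^ 2) ∈ OS E := by
        have h3 : (3 : E) ∈ OS E := ofNat_mem _ 3
        have := add_mem (add_mem (mul_mem h3 (pow_mem hn 2)) (mul_mem (mul_mem h3 hn) hz))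
          (pow_mem hz 2)
        convert this using 1
        ring
      have h4 := KubSB_sml (hx ▸ hsm a ha) h2
      convert h4 using 1
      ring
    have h2 : Sml N (d + (mm E : E) ^ (N + 2 * B) * b - d) := by
      rw [add_sub_cancel_left]
      exact (hsm b hb).mono (Nat.le_add_right _ _)
    rcases hN _ _ _ _ h1 h2 with ⟨a1, a2⟩ | ⟨k, hk, a1, -, a3, a4⟩
    · rw [a1, a2]
    · rw [a4, KubSB_kb_cube hj hk a3 a1, chi_zero, one_mul]
  · have a1 : F (n ^ 3) d = 0 := by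
      by_contra h0
      exact hn (hs _ _ h0)
    rw [a1]
    by_contra h0
    have := sub_mem (hs _ _ h0) hz
    rw [mul_add, add_sub_cancel_right] at this
    exact hn this
/-- The cocycle vanishes on the rows of `KN j` (generic case: `rho_add` for
`c' = c k₀₀ + d k₁₀`, `k₀₀, d ∈ U j`). -/
theorem kb_of_U {j : ℕ} (hj : Lev E j) {c d : E} (hd : U j d) {k : Mt E} (hk : KN j k)
    (hc : Sml j c) : kb c d k = 0 := by
  have hd0 := hd.ne_zero hj.1
  have hX' := kX_ne (row_mul_ne (c := c) (Or.inr hd0) hk.det_ne)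
  have hY := kX_row_ne hk.det_ne
  have h00 := hk.U00.ne_zero hj.1
  have hd' : U j (c * k 0 1 + d * k 1 1) :=
    KubSB_add (hd.mul hk.U11) (hc.mul_mem (hk.mem_OS 0 1))
  rw [kb, hk.1, rho_one_right hX', sub_zero]
  rcases eq_or_ne c 0 with rfl | hc0
  · rw [KubSB_kX0, hj.rho_U_left hX' hd, hj.rho_U_right hY hd, zero_add, add_zero]
    rcases eq_or_ne (k 1 0) 0 with h0 | h0
    · refine hj.rho_U_right hX' ?_
      rw [h0, KubSB_kX0]
      exact hk.U11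
    · rw [zero_mul, zero_add, KubSB_kX h0, KubSB_kX (mul_ne_zero hd0 h0), mul_comm,
        KubSB_rhoL hj h0 h0 hd, rho_self]
  rw [KubSB_kX hc0]
  rcases eq_or_ne (k 1 0) 0 with h0 | h0
  · have h1 := mul_ne_zero hc0 h00
    rw [h0, KubSB_kX0, mul_zero, add_zero, KubSB_kX h1, KubSB_rhoR hj hc0 hc0 hk.U00, rho_self,
      hj.rho_U_right h1 hk.U11, hj.rho_U_left hc0 hk.U11]
    simp
  rw [KubSB_kX h0]
  rcases eq_or_ne (c * k 0 0 + d * k 1 0) 0 with h1 | h1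
  · rw [h1, KubSB_kX0, hj.rho_U_right hc0 hd', hj.rho_U_left h0 hd', zero_add, zero_add,
      ← KubSB_rhoR hj h0 hc0 hk.U00, show c * k 0 0 = -(k 1 0 * d) by linear_combination h1,
      rho_neg_right h0 (mul_ne_zero h0 hd0), KubSB_rhoR hj h0 h0 hd, rho_self]
  · have h2 := rho_add (mul_ne_zero hc0 h00) (mul_ne_zero hd0 h0) h1
    rw [KubSB_rhoL hj hc0 (mul_ne_zero hd0 h0) hk.U00, KubSB_rhoL hj hc0 h1 hk.U00, mul_comm d,
      KubSB_rhoR hj hc0 h0 hd, KubSB_rhoR hj (mul_comm d (k 1 0) ▸ h1) h0 hd, mul_comm _ d] at h2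
    rw [KubSB_kX h1, ← h2, rho_swap (k 1 0), add_neg_cancel]
theorem sd_F0 {j : ℕ} (hj : Lev E j) : SD (F0 (E := E) j) := by
  classical
  refine ⟨⟨1, fun c d => ?_⟩, ⟨0, fun c d h => ?_⟩, ⟨j, fun k hk => ?_⟩⟩
  · unfold F0
    split_ifs <;> simp
  · have h1 : Sml j c ∧ U j d := by
      by_contra h0
      exact h (if_neg h0)
    refine ⟨by simpa using h1.1.mem_OS, by simpa using h1.2.mem_OS, 0, zero_mem _, d⁻¹,
      (h1.2.inv hj.1).mem_OS, ?_⟩
    rw [mul_zero, zero_add, mul_inv_cancel₀ (h1.2.ne_zero hj.1), pow_zero]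
  · funext c' d'
    have hdet := hk.1
    rw [Matrix.det_fin_two] at hdet
    have e := ac_apply (F0 j) hk.det_ne (c' * k 1 1 + -(d' * k 1 0)) (-(c' * k 0 1) + d' * k 0 0)
    have e1 : (c' * k 1 1 + -(d' * k 1 0)) * k 0 0 + (-(c' * k 0 1) + d' * k 0 0) * k 1 0 = c' := by
      linear_combination c' * hdet
    have e2 : (c' * k 1 1 + -(d' * k 1 0)) * k 0 1 + (-(c' * k 0 1) + d' * k 0 0) * k 1 1 = d' := by
      linear_combination d' * hdet
    rw [e1, e2] at e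
    rw [e]
    by_cases h : Sml j c' ∧ U j d'
    · have h1 : Sml j (c' * k 1 1 + -(d' * k 1 0)) :=
        (h.1.mul_mem (hk.mem_OS 1 1)).add (mul_comm d' (k 1 0) ▸ hk.sml10.mul_mem h.2.mem_OS).neg
      have h2 : U j (-(c' * k 0 1) + d' * k 0 0) :=
        KubSB_add (h.2.mul hk.U00) (h.1.mul_mem (hk.mem_OS 0 1)).neg
      rw [kb_of_U hj h2 hk h1, chi_zero, one_mul, F0, F0, if_pos h, if_pos ⟨h1, h2⟩]
    · rw [F0, F0, if_neg h, if_neg, mul_zero]
      rintro ⟨h1, h2⟩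
      refine h ⟨e1 ▸ (h1.mul_mem (hk.mem_OS 0 0)).add ?_, e2 ▸ KubSB_add (h2.mul hk.U11)
        (h1.mul_mem (hk.mem_OS 0 1))⟩
      rw [mul_comm]
      exact hk.sml10.mul_mem h2.mem_OS

end Crest.Agent.R312
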