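import Crest.Agent.R312.KubL

/-!
# Row 312: formal properties of the coefficients `tF F`
-/

set_option autoImplicit false

noncomputable section

namespace Crest.Agent.R312

open NumberField
open scoped ComplexConjugate

open Filter Topology

variable {E : Type} [Field E] [NumberField E] [Fr E]

/-! ## part A: support, linearity, translations -/

theorem KTA_small {F : E → E → ℂ} (h : SD F) : ∃ N : ℕ, (∀ t, Sml N t → ac F (nM t) = F) ∧
    ∀ ν, tF F ν ≠ 0 → ν ∈ RR E ∧ ∀ t, Sml N t → eS (ν * t) = 1 := by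
  obtain ⟨N, hN⟩ := h.transl
  refine ⟨N, hN, fun ν hν => ?_⟩
  have h1 : ∀ z : R E, Sml N (z : E) → eT (ν * z) = 1 := fun z hz => by
    by_contra hne
    refine hν (tt_eq_zero h.adm (fun c d => ?_) hne)
    have h2 := sl_apply (xi F) (g := nM (z : E)) (by rw [det_nM]; exact one_ne_zero) c d
    rw [sl_xi_nM, hN _ hz] at h2
    simpa [nM, add_comm] using h2
  obtain ⟨k, hk⟩ := exists_pow_mul_mem_OS ν
  have h2 : ∀ y : E, Sml (N + k) y → ν * y ∈ OS E := fun y hy => by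
    have h3 := (OS E).mul_mem hk (show y / (mm E : E) ^ k ∈ OS E from hy.mono (Nat.le_add_left k N))
    rwa [mul_div_assoc', mul_assoc, mul_div_cancel_left₀ _ (B2_pow_ne k)] at h3
  have h3 : ν ∈ RR E := mem_RR_of_eF fun x => by
    obtain ⟨b, hb, hb'⟩ := exists_nat_mul_mem_RR ν
    have hb0 : (b : R E) ≠ 0 := by
      rw [Nat.cast_ne_zero]
      rintro rfl
      have h4 := six_le_mm (E := E)
      rw [Nat.coprime_zero_left] at hb
      omega
    obtain ⟨z, ⟨w, hw⟩, hz⟩ := exists_approx_sml hb0 x 0 (N + k)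
    rw [sub_zero] at hz
    have h4 : ν * z = ν * x + (b : E) * ν * w := by
      have h5 : (z : E) - x = b * w := by exact_mod_cast congrArg Subtype.val hw
      linear_combination ν * h5
    have h5 := h1 z (hz.mono (Nat.le_add_right N k))
    rwa [eT_of_mem_OS (h2 _ hz), h4, eF_add, eF_of_mem ((RR E).mul_mem hb' w.2), mul_one] at h5
  refine ⟨h3, fun t ht => ?_⟩
  obtain ⟨z, -, hz⟩ := exists_approx_sml (one_ne_zero (α := R E)) 0 t (N + k)
  have h4 := h1 z (by simpa using (hz.mono (Nat.le_add_right N k)).add ht)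
  rwa [eT_of_mem_RR ((RR E).mul_mem h3 z.2), show ν * z = ν * t + ν * (z - t) by ring, eS_add,
    eS_of_mem (h2 _ hz), mul_one] at h4

/-- `tt_eq_zero` with the translations `t ∈ R`, `Sml N t` (`SD.transl`, `sl_xi_nM`) gives
`eT (ν t) = 1` for these `t`.  `ν ∈ R` by `mem_RR_of_eF`: for `x ∈ R` take `b` prime to `m` with
`b ν ∈ R` and `z ≡ x (mod b)` very small at `S` (`exists_approx`), then
`eF (ν x) = eF (ν z) = eT (ν z) conj (eS (ν z)) = 1`.  For `Sml N t` take `z ∈ R` very close to `t`: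
`eS (ν t) = eS (ν z) = eT (ν z) = 1`.  Finally `dS_spec`, `mm_div_dS_mem`. -/
theorem SD.tF_support {F : E → E → ℂ} (h : SD F) : ∃ N : ℕ, ∀ ν, tF F ν ≠ 0 →
    ν ∈ RR E ∧ (mm E : E) ^ N * ν ∈ OS E := by

  obtain ⟨N, -, hN⟩ := KTA_small h
  refine ⟨N + 1, fun ν hν => ⟨(hN ν hν).1, ?_⟩⟩
  have h1 := (dS_spec.2 ((mm E : E) ^ N * ν)).1 fun x hx => by
    rw [show (mm E : E) ^ N * ν * x = ν * ((mm E : E) ^ N * x) by ring]
    refine (hN ν hν).2 _ ?_
    rwa [Sml, mul_div_cancel_left₀ _ (B2_pow_ne N)]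
  have h2 := (OS E).mul_mem mm_div_dS_mem h1
  rwa [← mul_assoc, div_mul_cancel₀ _ dS_ne_zero, ← mul_assoc, ← pow_succ'] at h2
theorem SD.tF_of_not_mem {F : E → E → ℂ} (h : SD F) {ν : E} (hν : ν ∉ RR E) : tF F ν = 0 := by

  obtain ⟨N, hN⟩ := h.tF_support
  by_contra hne
  exact hν (hN ν hne).1
/-- Small translations: everything that is needed at once. -/
theorem SD.small {F : E → E → ℂ} (h : SD F) : ∃ N : ℕ, ∀ t, Sml N t →
    ac F (nM t) = F ∧ ∀ ν, tF F ν ≠ 0 → eS (ν * t) = 1 := by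

  obtain ⟨N, h1, h2⟩ := KTA_small h
  exact ⟨N, fun t ht => ⟨h1 t ht, fun ν hν => (h2 ν hν).2 t ht⟩⟩
theorem SD.tF_const_mul {j : ℕ} (hj : Lev E j) {F : E → E → ℂ} (h : SD F) (a : ℂ) (ν : E) :
    tF (fun c d => a * F c d) ν = a * tF F ν := by

  rw [tF, xi_const_mul, tt_const_mul h.adm (h.ct hj), tF]
theorem SD.tF_add {j : ℕ} (hj : Lev E j) {F F' : E → E → ℂ} (h : SD F) (h' : SD F') (ν : E) :
    tF (fun c d => F c d + F' c d) ν = tF F ν + tF F' ν := by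

  rw [tF, xi_add, tt_add h.adm h'.adm (h.ct hj) (h'.ct hj), tF, tF]
theorem tF_sum {j : ℕ} (hj : Lev E j) {α : Type} (s : Finset α) {F : α → E → E → ℂ}
    (h : ∀ i ∈ s, SD (F i)) (ν : E) :
    tF (fun c d => ∑ i ∈ s, F i c d) ν = ∑ i ∈ s, tF (F i) ν := by

  rw [tF, xi_sum, tt_sum s (fun i hi => (h i hi).adm) fun i hi => (h i hi).ct hj]
  rfl
/-- `tt_upper` in terms of `tF`. -/
theorem SD.tt_up {j : ℕ} (hj : Lev E j) {F : E → E → ℂ} (h : SD F) {a d : E} (ha : a ≠ 0)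
    (hd : d ≠ 0) (b ν : E) : tt (sl (xi F) !![a, b; 0, d]) (ν * a / d) =
      ((nr a ^ (-(1 / 3 : ℝ)) / nr d : ℝ) : ℂ) * eT (ν * b / d) * tF F ν :=
  tt_upper h.adm (h.ct hj) ha hd b ν
/-- Write `b = b₀ + t`, `b₀ ∈ R`, `t` small (`exists_approx`); `sl_xi_nM`, `tt_upper`,
`eT_of_mem_RR`. -/
theorem SD.tF_transl {j : ℕ} (hj : Lev E j) {F : E → E → ℂ} (h : SD F) (b ν : E) :
    tF (ac F (nM b)) ν = eS (ν * b) * tF F ν := by

  obtain ⟨N, hN⟩ := h.small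
  obtain ⟨z, -, hz⟩ := exists_approx_sml (one_ne_zero (α := R E)) 0 b N
  have h1 : ac F (nM b) = ac F (nM (z : E)) := by
    rw [show nM b = nM (-((z : E) - b)) * nM (z : E) by rw [nM_mul]; congr 1; ring,
      ac_nM_mul h.zero_zero _ (by rw [det_nM]; exact one_ne_zero), (hN _ hz.neg).1]
  have h2 := h.tt_up hj one_ne_zero one_ne_zero z ν
  simp only [mul_one, div_one, nr_one, Real.one_rpow, Complex.ofReal_one, one_mul] at h2
  rw [h1, tF, ← sl_xi_nM, nM, h2]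
  by_cases h3 : tF F ν = 0
  · rw [h3, mul_zero, mul_zero]
  · have h4 : ν ∈ RR E := by
      by_contra h4
      exact h3 (h.tF_of_not_mem h4)
    rw [eT_of_mem_RR ((RR E).mul_mem h4 z.2), show ν * z = ν * b + ν * (z - b) by ring, eS_add,
      (hN _ hz).2 ν h3, mul_one]
/-- Finite Fourier expansion on `m^{-M} OS / m^N OS`.  With `τ = (dS m^N)⁻¹`, `IS_lat_eS` and
`IS_eq_sum` (representatives `B2_reps`) write the indicator function of `t + m^N OS` on `m^{-M} OS`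
as `c ∑_{b ∈ B} eS (b (x - t))`. -/
theorem PrdS.fourier {φ : E → ℂ} (hφ : PrdS φ) (M : ℕ) : ∃ (B : Finset E) (c : E → ℂ),
    ∀ x : E, (mm E : E) ^ M * x ∈ OS E → φ x = ∑ b ∈ B, c b * eS (x * b) := by

  classical
  obtain ⟨N, hN⟩ := hφ
  have hm : ∀ k : ℕ, (mm E : E) ^ k ∈ OS E := fun k => (OS E).pow_mem (natCast_mem _ _) k
  obtain ⟨K, hK⟩ : ∃ K, K = M + N := ⟨_, rfl⟩
  have hper : ∀ x y, y ∈ OS E → φ (x + (mm E : E) ^ K * y) = φ x := fun x y hy => by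
    rw [hK, pow_add, mul_comm ((mm E : E) ^ M), mul_assoc, hN _ _ ((OS E).mul_mem (hm M) hy)]
  obtain ⟨T, hT, -⟩ := B2_reps (E := E) K
  obtain ⟨B, hB, hB'⟩ := B2_reps (E := E) (K + 1)
  have hτ : (dS E * (mm E : E) ^ K)⁻¹ ≠ 0 := inv_ne_zero (mul_ne_zero dS_ne_zero (B2_pow_ne K))
  have hτ' : (absS (dS E * (mm E : E) ^ K)⁻¹ : ℂ) ≠ 0 := by exact_mod_cast (absS_pos _).ne'
  have key : ∀ y : E, (mm E : E) ^ K * y ∈ OS E →
      (if y / (mm E : E) ^ K ∈ OS E then (1 : ℂ) else 0) =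
        (absS ((mm E : E) ^ (K + 1)) : ℂ) / (absS (dS E * (mm E : E) ^ K)⁻¹ : ℂ) * ∑ b ∈ B,
          (if b / (dS E * (mm E : E) ^ K)⁻¹ ∈ OS E then (1 : ℂ) else 0) * eS (y * b) := by
    intro y hy
    have h1 := IS_lat_eS hτ y
    rw [IS_eq_sum (N := K + 1) ((perS_lat hτ).mul_prd (prdS_eS y)) (fun b w hw => ?_) B
      (fun b hb => hB b ?_) hB'] at h1
    · rw [div_mul_eq_mul_div, h1, show dS E * (dS E * (mm E : E) ^ K)⁻¹ * y = y / (mm E : E) ^ K by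
        have := dS_ne_zero (E := E)
        field_simp]
      split_ifs
      · rw [div_self hτ']
      · rw [zero_div]
    · have h2 : dS E * (mm E : E) ^ K * ((mm E : E) ^ (K + 1) * w) ∈ OS E :=
        (OS E).mul_mem ((OS E).mul_mem dS_mem_OS (hm K)) ((OS E).mul_mem (hm _) hw)
      have h3 : y * ((mm E : E) ^ (K + 1) * w) ∈ OS E := by
        rw [show y * ((mm E : E) ^ (K + 1) * w) = (mm E : E) ^ K * y * ((mm E : E) ^ 1 * w) by ring]
        exact (OS E).mul_mem hy ((OS E).mul_mem (hm 1) hw)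
      rw [mul_add, eS_add, eS_of_mem h3, mul_one]
      congr 1
      refine if_congr ?_ rfl rfl
      rw [div_inv_eq_mul, div_inv_eq_mul, add_mul, mul_comm (_ * w)]
      exact (OS E).toAddSubgroup.add_mem_cancel_right h2
    · have h2 : b / (dS E * (mm E : E) ^ K)⁻¹ ∈ OS E := by
        by_contra h2
        rw [if_neg h2, zero_mul] at hb
        exact hb rfl
      have h3 := (OS E).mul_mem mm_div_dS_mem h2
      rwa [show (mm E : E) / dS E * (b / (dS E * (mm E : E) ^ K)⁻¹) = (mm E : E) ^ (K + 1) * b by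
        have := dS_ne_zero (E := E)
        field_simp
        ring] at h3
  refine ⟨B, fun b => ∑ t ∈ T.filter fun t => (mm E : E) ^ K * t ∈ OS E, φ t *
    ((absS ((mm E : E) ^ (K + 1)) : ℂ) / (absS (dS E * (mm E : E) ^ K)⁻¹ : ℂ) *
      ((if b / (dS E * (mm E : E) ^ K)⁻¹ ∈ OS E then (1 : ℂ) else 0) * eS (-t * b))),
    fun x hx => ?_⟩
  have hx' : (mm E : E) ^ K * x ∈ OS E := by
    rw [hK, pow_add, mul_comm ((mm E : E) ^ M), mul_assoc]
    exact (OS E).mul_mem (hm N) hx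
  obtain ⟨t, ⟨ht, ht'⟩, hu⟩ := hT x hx'
  have ht2 : (mm E : E) ^ K * t ∈ OS E := by
    have h1 := (OS E).sub_mem hx' ((OS E).mul_mem (hm K) ((OS E).mul_mem (hm K) ht'))
    rwa [mul_div_cancel₀ _ (B2_pow_ne K), ← mul_sub, sub_sub_cancel] at h1
  have h1 : φ x = ∑ s ∈ T.filter fun t => (mm E : E) ^ K * t ∈ OS E,
      φ s * if (x - s) / (mm E : E) ^ K ∈ OS E then (1 : ℂ) else 0 := by
    rw [Finset.sum_eq_single_of_mem t (Finset.mem_filter.2 ⟨ht, ht2⟩) fun s hs hne => ?_,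
      if_pos ht', mul_one, B2_per_eq hper ht']
    rw [if_neg fun h => hne (hu s ⟨(Finset.mem_filter.1 hs).1, h⟩), mul_zero]
  rw [h1]
  simp only [Finset.sum_mul]
  rw [Finset.sum_comm]
  refine Finset.sum_congr rfl fun s hs => ?_
  rw [key _ (by rw [mul_sub]; exact (OS E).sub_mem hx' (Finset.mem_filter.1 hs).2),
    Finset.mul_sum, Finset.mul_sum]
  refine Finset.sum_congr rfl fun b _ => ?_
  rw [show (x - s) * b = -s * b + x * b by ring, eS_add]
  ring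
/-- The coefficients may be cut by any `S`-adically locally constant function. -/
theorem SD.exists_cut {j : ℕ} (hj : Lev E j) {F : E → E → ℂ} (h : SD F) {φ : E → ℂ} (hφ : PrdS φ) :
    ∃ F', SD F' ∧ ∀ ν, tF F' ν = φ ν * tF F ν := by

  obtain ⟨N, hN⟩ := h.tF_support
  obtain ⟨B, c, hc⟩ := hφ.fourier N
  have h1 : ∀ b : E, SD (ac F (nM b)) := fun b => h.act hj (by rw [det_nM]; exact one_ne_zero)
  refine ⟨fun x y => ∑ b ∈ B, c b * ac F (nM b) x y,
    SD.sum B fun b _ => (h1 b).const_mul (c b), fun ν => ?_⟩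
  rw [tF_sum hj B fun b _ => (h1 b).const_mul (c b)]
  simp only [(h1 _).tF_const_mul hj, h.tF_transl hj, ← mul_assoc]
  rw [← Finset.sum_mul]
  by_cases h2 : tF F ν = 0
  · rw [h2, mul_zero, mul_zero]
  · rw [hc ν (hN ν h2).2]

/-! ## part B: diagonal matrices -/

/-- `G = ac F (dM u⁻² u⁻¹)`, `sl (xi G) (dM u² u) = xi F` (`sl_xi_dM`, `ac_dM_dM`, `ac_one`),
`tt_upper`, `nr_mul_absS_unit`. -/
theorem SD.tF_unit {j : ℕ} (hj : Lev E j) {F : E → E → ℂ} (h : SD F) {u : R E} (hu : IsUnit u)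
    (ν : E) : tF F (u * ν) = tF (Cop (u : E) F) ν := by
  have hu0 : (u : E) ≠ 0 := by simpa using hu.ne_zero
  have h2 : ((u : E) ^ 2)⁻¹ ≠ 0 := inv_ne_zero (pow_ne_zero _ hu0)
  have hG : SD (ac F (dM ((u : E) ^ 2)⁻¹ (u : E)⁻¹)) :=
    h.act hj (by rw [det_dM]; exact mul_ne_zero h2 (inv_ne_zero hu0))
  have e1 := sl_xi_dM (ac F (dM ((u : E) ^ 2)⁻¹ (u : E)⁻¹)) (hu.pow 2) hu
  have e2 : dM (1 : E) 1 = 1 := by
    ext i k
    fin_cases i <;> fin_cases k <;> simp [dM]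
  rw [Subring.coe_pow, ac_dM_dM h.zero_zero h2 (inv_ne_zero hu0) (pow_ne_zero _ hu0) hu0,
    rho_inv_right hu0 (pow_ne_zero _ hu0), rho_pow_right hu0 hu0, rho_self, mul_zero, neg_zero,
    chi_zero, inv_mul_cancel₀ (pow_ne_zero _ hu0), inv_mul_cancel₀ hu0, e2,
    ac_one h.zero_zero] at e1
  simp only [one_mul] at e1
  have e3 := hG.tt_up hj (pow_ne_zero 2 hu0) hu0 0 ν
  have e4 : ν * (u : E) ^ 2 / u = u * ν := by field_simp
  have e5 : eT (ν * 0 / (u : E)) = 1 := by simp [eT]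
  have e6 : nr ((u : E) ^ 2) ^ (-(1 / 3 : ℝ)) / nr (u : E) = absS (u : E) ^ (5 / 3 : ℝ) := by
    have hp := nr_pos hu0
    rw [eq_inv_of_mul_eq_one_right (nr_mul_absS_unit hu), nr_pow, ← Real.rpow_natCast,
      ← Real.rpow_mul hp.le, Real.inv_rpow hp.le, ← Real.rpow_neg hp.le,
      div_eq_iff hp.ne', ← Real.rpow_add_one hp.ne']
    norm_num
  rw [e4, e5, e6, mul_one] at e3
  change tt (sl _ (dM _ _)) _ = _ at e3
  rw [e1] at e3
  exact e3.trans (hG.tF_const_mul hj _ ν).symm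
theorem KubTB_Lm_add {j : ℕ} (hj : Lev E j) {F F' : E → E → ℂ} (h : SD F) (h' : SD F') :
    Lm (fun c d => F c d + F' c d) = Lm F + Lm F' := by
  refine Lm_eq ?_
  rw [xi_add]
  exact ((h.tendsto_Lm hj).add (h'.tendsto_Lm hj)).congr fun η => (P0_add h.adm h'.adm η).symm
theorem KubTB_det {α x β δ : R E} (h : α * δ - x * β = 1) : (mR α x β δ).det ≠ 0 := by
  rw [det_mR, h]
  simp
/-- Data with the same constant terms have the same coefficients (`vanish_SLR` for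
`xi F - xi F'`; at `∞` use `mR 1 0 0 1 = 1`). -/
theorem tF_eq_of_Lm {j : ℕ} (hj : Lev E j) {F F' : E → E → ℂ} (h : SD F) (h' : SD F')
    (H : ∀ α x β δ : R E, α * δ - x * β = 1 → Lm (ac F (mR α x β δ)) = Lm (ac F' (mR α x β δ)))
    (ν : E) : tF F ν = tF F' ν := by
  have hG : SD fun c d => F c d + (-1) * F' c d := h.add (h'.const_mul _)
  have H0 : ∀ α x β δ : R E, α * δ - x * β = 1 →
      Lm (ac (fun c d => F c d + (-1) * F' c d) (mR α x β δ)) = 0 := by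
    intro α x β δ hσ
    have hd := KubTB_det hσ
    rw [ac_add, ac_const_mul, KubTB_Lm_add hj (h.act hj hd) ((h'.act hj hd).const_mul _),
      (h'.act hj hd).Lm_const_mul hj, H α x β δ hσ]
    ring
  have e1 : mR (1 : R E) 0 0 1 = 1 := by
    ext i k
    fin_cases i <;> fin_cases k <;> simp [mR]
  have h0 := H0 1 0 0 1 (by simp)
  rw [e1, ac_one hG.zero_zero] at h0
  have e := vanish_SLR hG.adm (h0 ▸ hG.tendsto_Lm hj) (fun α x β δ hσ _ => by
    have := hG.tendsto_cusp hj hσ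
    rwa [H0 α x β δ hσ, mul_zero] at this) ν
  change tF _ ν = 0 at e
  rw [h.tF_add hj (h'.const_mul _), h'.tF_const_mul hj] at e
  linear_combination e
/-- `tF_eq_of_Lm`, `ac_central`, `SD.Lm_cube`. -/
theorem SD.tF_central {j : ℕ} (hj : Lev E j) {F : E → E → ℂ} (h : SD F) {x : E} (hx : x ≠ 0)
    (ν : E) : tF (ac F (dM (x ^ 3) (x ^ 3))) ν = (absS x : ℂ) ^ 4 * tF F ν := by
  rw [← h.tF_const_mul hj]
  refine tF_eq_of_Lm hj (h.act hj ?_) (h.const_mul _) (fun α y β δ hσ => ?_) ν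
  · rw [det_dM]
    exact mul_ne_zero (pow_ne_zero _ hx) (pow_ne_zero _ hx)
  · have hd := KubTB_det hσ
    rw [ac_central h.zero_zero hx hd, (h.act hj hd).Lm_cube hj hx hx, ac_const_mul,
      (h.act hj hd).Lm_const_mul hj]
    push_cast
    ring
theorem KubTB_unit {N : ℕ} (hN : 1 ≤ N) {u : E} (hu : V N u) : IsUnit (⟨u, hu.2.1⟩ : R E) :=
  IsUnit.of_mul_eq_one ⟨u⁻¹, hu.2.2⟩ (Subtype.ext (mul_inv_cancel₀ (hu.ne_zero hN)))
/-- `SD.tF_unit`, `SD.cop_U`, `Cop_one`. -/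
theorem SD.inv_tF {j : ℕ} (hj : Lev E j) {F : E → E → ℂ} (h : SD F) :
    ∃ N : ℕ, j ≤ N ∧ Inv N (tF F) := by
  obtain ⟨N, hN, H⟩ := h.cop_U hj
  refine ⟨N, hN, fun u x hu => ?_⟩
  have e := h.tF_unit hj (KubTB_unit (hj.1.trans hN) hu) x
  rwa [H 1 u (by simpa [Ty] using hu.1), Cop_one h.zero_zero] at e
/-- `SD.tF_unit`, `SD.cop_dual`. -/
theorem SD.inv_tF_dual {j : ℕ} (hj : Lev E j) {F : E → E → ℂ} (h : SD F) :
    ∃ N : ℕ, j ≤ N ∧ ∀ D : E, D ≠ 0 → Inv N (tF (dualF F D)) := by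
  obtain ⟨N, hN, H⟩ := h.cop_dual hj
  refine ⟨N, hN, fun D hD u x hu => ?_⟩
  have e := (h.dual hj hD).tF_unit hj (KubTB_unit (hj.1.trans hN) hu) x
  rwa [H u D hu.1 hD] at e
theorem SD.norm_tF_le {j : ℕ} (hj : Lev E j) {F : E → E → ℂ} (h : SD F) :
    ∃ C : ℝ, 0 < C ∧ ∀ ν : E, ν ≠ 0 → ‖tF F ν‖ ≤ C * nr ν ^ (1 / 3 : ℝ) := by
  obtain ⟨C, hC⟩ := norm_tt_le h.adm (h.ct hj)
  exact ⟨max C 1, lt_max_of_lt_right one_pos, fun ν hν => (hC ν hν).trans
    (mul_le_mul_of_nonneg_right (le_max_left _ _) (Real.rpow_nonneg (nr_nonneg _) _))⟩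
/-- `tt_zero`, `Lm_F0_ne`, `exists_tt_ne`. -/
theorem exists_tF_ne {j : ℕ} (hj : Lev E j) :
    ∃ ν : R E, ν ≠ 0 ∧ tF (F0 (E := E) j) (ν : E) ≠ 0 := by
  have h := sd_F0 hj
  have h0 : tt (xi (F0 (E := E) j)) 0 ≠ 0 := by
    intro e
    have := tt_zero h.adm (h.tendsto_Lm hj)
    rw [e, zero_mul] at this
    exact mul_ne_zero limA_ne (Lm_F0_ne hj) this.symm
  obtain ⟨ν, hν, h1⟩ := exists_tt_ne h.adm (h.ct hj) h0
  have hR : ν ∈ RR E := by
    by_contra hc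
    exact h1 (h.tF_of_not_mem hc)
  exact ⟨⟨ν, hR⟩, fun e => hν (congrArg Subtype.val e), h1⟩

end Crest.Agent.R312
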