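import Crest.Agent.R312.LSDefs

/-!
# Row 312, module LS (quadratic large sieve): the classes `Cl E`, the generator `tk`, ray classes
-/

set_option autoImplicit false

noncomputable section

namespace Crest.Agent.R312.LS2

open NumberField
open scoped ComplexConjugate
open Classical

variable {E : Type} [Field E] [NumberField E] [Fr E]

/-! ## part A: `Rel`, `Cl`, `tk` -/

private theorem clA_inv {u : R E} (hu : IsUnit u) : ∃ v : R E, IsUnit v ∧ (v : E) = (u : E)⁻¹ :=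
  ⟨⟨_, (isUnit_iff.1 hu).2⟩, isUnit_iff.2 ⟨inv_ne_zero (isUnit_iff.1 hu).1, by simp⟩, rfl⟩

theorem Rel.refl {x : E} (hx : x ≠ 0) : Rel x x :=
  ⟨1, isUnit_one, by simp [hx], by simp [hx]⟩

theorem Rel.symm {x y : E} (h : Rel x y) : Rel y x := by
  obtain ⟨u, hu, h1, h2⟩ := h
  obtain ⟨v, hv, e⟩ := clA_inv hu
  refine ⟨v, hv, ?_, ?_⟩
  · rwa [e, show (u : E)⁻¹ * y / x = y / (u * x) by ring]
  · rwa [e, show x / ((u : E)⁻¹ * y) = u * x / y by rw [div_mul_eq_div_div, div_inv_eq_mul, mul_comm]]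

theorem Rel.trans {x y z : E} (hy : y ≠ 0) (h : Rel x y) (h' : Rel y z) : Rel x z := by
  obtain ⟨u, hu, h1, h2⟩ := h
  obtain ⟨v, hv, h3, h4⟩ := h'
  refine ⟨u * v, hu.mul hv, ?_, ?_⟩
  · have := (OS E).mul_mem h1 h3
    rwa [show (u : E) * x / y * (v * y / z) = (u * v : R E) * x / z * (y / y) by push_cast; ring,
      div_self hy, mul_one] at this
  · have := (OS E).mul_mem h2 h4
    rwa [show y / ((u : E) * x) * (z / (v * y)) = z / ((u * v : R E) * x) * (y / y) by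
      push_cast; ring, div_self hy, mul_one] at this

theorem Rel.mul_right {x y z : E} (hz : z ≠ 0) : Rel (x * z) (y * z) ↔ Rel x y := by
  simp only [Rel, ← mul_assoc, mul_div_mul_right _ _ hz]

theorem Rel.inv {x y : E} (h : Rel x y) : Rel x⁻¹ y⁻¹ := by
  obtain ⟨u, hu, h1, h2⟩ := h
  obtain ⟨v, hv, e⟩ := clA_inv hu
  refine ⟨v, hv, ?_, ?_⟩
  · rwa [e, ← mul_inv, inv_div_inv]
  · rwa [e, ← mul_inv, inv_div_inv]

/-- `exists_classes` (or `exists_bdd_unit`, `exists_types`) and `FrameA3_reps`. -/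
theorem Cl_spec : (∀ y ∈ Cl E, y ≠ 0) ∧ ∀ x : E, x ≠ 0 → ∃! y, y ∈ Cl E ∧ Rel x y := by
  refine Classical.epsilon_spec (p := fun C : Finset E =>
    (∀ y ∈ C, y ≠ 0) ∧ ∀ x : E, x ≠ 0 → ∃! y, y ∈ C ∧ Rel x y) ?_
  obtain ⟨T, hT0, hT⟩ := exists_classes (E := E) (j := 1) le_rfl
  obtain ⟨T', h1, h2⟩ := FrameA3_reps (fun τ x : E => τ ≠ 0 ∧ x ≠ 0 ∧ Rel x τ)
    (fun a b x y h1 h2 h3 => ⟨h1.1, h3.2.1, (h3.2.2.trans h2.1 h2.2.2.symm).trans h1.2.1 h1.2.2⟩)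
    (fun x => x ≠ 0) T fun x hx => by
      obtain ⟨τ, ⟨h3, u, hu, h4⟩, -⟩ := hT x hx
      exact ⟨τ, h3, hT0 τ h3, hx, u, hu, h4.div_mem_OS, (h4.symm le_rfl).div_mem_OS⟩
  refine ⟨T', fun y hy => hT0 y (h1 hy), fun x hx => ?_⟩
  obtain ⟨τ, h3, h4⟩ := h2 x hx
  exact ⟨τ, ⟨h3.1, h3.2.2.2⟩, fun y hy => h4 y ⟨hy.1, hT0 y (h1 hy.1), hx, hy.2⟩⟩

private theorem clA_sum {M : Type} [AddCommMonoid M] (Φ : E → M)
    (hΦ : ∀ x y, x ≠ 0 → y ≠ 0 → Rel x y → Φ x = Φ y) (φ : E → E) (h0 : ∀ x, x ≠ 0 → φ x ≠ 0)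
    (hφ : ∀ x y, x ≠ 0 → y ≠ 0 → Rel (φ x) (φ y) → Rel x y) :
    ∑ y ∈ Cl E, Φ (φ y) = ∑ y ∈ Cl E, Φ y := by
  obtain ⟨hne, hC⟩ := Cl_spec (E := E)
  choose! c hc hu using hC
  have h1 : Set.MapsTo (fun y => c (φ y)) (Cl E) (Cl E) := fun y hy => (hc _ (h0 y (hne y hy))).1
  have h2 : Set.InjOn (fun y => c (φ y)) (Cl E) := fun y hy y' hy' e => by
    have a := hc _ (h0 y (hne y hy))
    have b := (hc _ (h0 y' (hne y' hy'))).2.symm
    rw [← show c (φ y) = c (φ y') from e] at b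
    exact (hu y (hne y hy) y ⟨hy, Rel.refl (hne y hy)⟩).trans
      (hu y (hne y hy) y' ⟨hy', hφ y y' (hne y hy) (hne y' hy') (a.2.trans (hne _ a.1) b)⟩).symm
  exact Finset.sum_nbij _ h1 h2 (Finset.surjOn_of_injOn_of_card_le _ h1 h2 le_rfl) fun y hy =>
    hΦ _ _ (h0 y (hne y hy)) (hne _ (h1 hy)) (hc _ (h0 y (hne y hy))).2

theorem sum_Cl_mul {M : Type} [AddCommMonoid M] (Φ : E → M)
    (hΦ : ∀ x y, x ≠ 0 → y ≠ 0 → Rel x y → Φ x = Φ y) {z : E} (hz : z ≠ 0) :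
    ∑ y ∈ Cl E, Φ (y * z) = ∑ y ∈ Cl E, Φ y :=
  clA_sum Φ hΦ (· * z) (fun _ hx => mul_ne_zero hx hz) fun _ _ _ _ h => (Rel.mul_right hz).1 h

theorem sum_Cl_div {M : Type} [AddCommMonoid M] (Φ : E → M)
    (hΦ : ∀ x y, x ≠ 0 → y ≠ 0 → Rel x y → Φ x = Φ y) {z : E} (hz : z ≠ 0) :
    ∑ y ∈ Cl E, Φ (z / y) = ∑ y ∈ Cl E, Φ y :=
  clA_sum Φ hΦ (z / ·) (fun _ hx => div_ne_zero hz hx) fun x y _ _ h => by
    have h1 := h.inv
    simp only [inv_div, div_eq_mul_inv _ z] at h1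
    exact (Rel.mul_right (inv_ne_zero hz)).1 h1

private theorem clA_of_sq {y : E} (h : y ^ 2 ∈ OS E) : y ∈ OS E := by
  obtain ⟨b, hb, h⟩ := h
  have hn : IsIntegral ℤ (b : E) := by exact_mod_cast isIntegral_algebraMap (x := (b : ℤ))
  refine ⟨b, hb, IsIntegral.of_pow two_pos ?_⟩
  rw [show ((b : E) * y) ^ 2 = b * (b * y ^ 2) by ring]
  exact hn.mul h

/-- Fractional ideals of `OS` are principal. -/
private theorem clA_principal (M : E → Prop) (hadd : ∀ a b, M a → M b → M (a + b))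
    (hmul : ∀ c y, M c → y ∈ OS E → M (c * y)) {k l : ℕ}
    (hk : ∀ c, M c → (mm E : E) ^ k * c ∈ OS E) (hl : M ((mm E : E) ^ l)) :
    ∃ t : E, t ≠ 0 ∧ ∀ c, M c ↔ c / t ∈ OS E := by
  have hm := mm_ne_zero (E := E)
  have hD : (mm E : E) ^ k ≠ 0 := pow_ne_zero k hm
  let A : Ideal (𝓞 E) :=
    { carrier := {a | M ((a : E) / (mm E : E) ^ k)}
      add_mem' := by
        intro a b ha hb
        have := hadd _ _ ha hb
        rwa [← add_div] at this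
      zero_mem' := by simpa using hmul _ _ hl (zero_mem _)
      smul_mem' := by
        intro c a ha
        have := hmul _ _ ha (mem_OS_of_isIntegral c.isIntegral_coe)
        rwa [div_mul_eq_mul_div, mul_comm] at this }
  have hA : ∀ a : 𝓞 E, a ∈ A ↔ M ((a : E) / (mm E : E) ^ k) := fun _ => Iff.rfl
  have hm' : (mm E : 𝓞 E) ≠ 0 := Nat.cast_ne_zero.2 Fr.m_ne
  have hmA : (mm E : 𝓞 E) ^ (l + k) ∈ A := by
    rw [hA]
    push_cast
    rwa [pow_add, mul_div_cancel_right₀ _ hD]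
  have hne : Ideal.span {(mm E : 𝓞 E)} * A ≠ 0 := fun h0 => by
    have := Ideal.mul_mem_mul (Ideal.mem_span_singleton_self (mm E : 𝓞 E)) hmA
    rw [h0] at this
    exact mul_ne_zero hm' (pow_ne_zero _ hm') this
  obtain ⟨g, hg⟩ := IsDedekindDomain.exists_sup_span_eq
    (Ideal.mul_le_right : Ideal.span {(mm E : 𝓞 E)} * A ≤ A) hne
  have hgA : g ∈ A := by
    rw [← hg]
    exact Ideal.mem_sup_right (Ideal.mem_span_singleton_self _)
  obtain ⟨r, hr1, hr⟩ := Submodule.exists_sub_one_mem_and_smul_le_of_fg_of_le_sup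
    (I := Ideal.span {(mm E : 𝓞 E)}) (N := Ideal.span {g}) (N' := A) (P := A)
    (IsNoetherian.noetherian A) le_rfl (by rw [smul_eq_mul, sup_comm, hg])
  obtain ⟨γ, hγ⟩ := Ideal.mem_span_singleton'.1 hr1
  have hrE : (r : E) = 1 + (mm E : E) * (γ : E) := by
    have : r = 1 + (mm E : 𝓞 E) * γ := by linear_combination -hγ
    rw [this]; push_cast; ring
  obtain ⟨hr0, hri⟩ := inv_mem_OS (mem_OS_of_isIntegral γ.isIntegral_coe)
  rw [← hrE] at hr0 hri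
  have key : ∀ a ∈ A, ∃ z : 𝓞 E, (z : E) * (g : E) = (r : E) * (a : E) := fun a ha => by
    obtain ⟨z, hz⟩ := Ideal.mem_span_singleton'.1 (hr (Submodule.smul_mem_pointwise_smul a r A ha))
    rw [smul_eq_mul] at hz
    exact ⟨z, by exact_mod_cast congrArg (fun t : 𝓞 E => (t : E)) hz⟩
  have hg0 : (g : E) ≠ 0 := fun h0 => by
    obtain ⟨z, hz⟩ := key _ hmA
    rw [h0, mul_zero] at hz
    exact mul_ne_zero hr0 (RingOfIntegers.coe_ne_zero_iff.2 (pow_ne_zero _ hm')) hz.symm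
  refine ⟨g / (mm E : E) ^ k, div_ne_zero hg0 hD, fun y => ⟨fun hy => ?_, fun hy => ?_⟩⟩
  · obtain ⟨b, hb, hby⟩ := hk y hy
    have hb0 : (b : E) ≠ 0 := by
      rw [Nat.cast_ne_zero]
      rintro rfl
      have h6 := six_le_mm (E := E)
      rw [Nat.coprime_zero_left] at hb
      omega
    let a : 𝓞 E := ⟨(b : E) * ((mm E : E) ^ k * y), hby⟩
    have ha : (a : E) = (b : E) * ((mm E : E) ^ k * y) := rfl
    have haA : a ∈ A := by
      rw [hA, ha, show (b : E) * ((mm E : E) ^ k * y) / (mm E : E) ^ k = y * b by field_simp]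
      exact hmul _ _ hy (natCast_mem _ b)
    obtain ⟨z, hz⟩ := key a haA
    have : y / (g / (mm E : E) ^ k) = (z : E) * (r : E)⁻¹ * (b : E)⁻¹ := by
      rw [ha] at hz
      field_simp
      linear_combination -hz
    rw [this]
    exact (OS E).mul_mem ((OS E).mul_mem (mem_OS_of_isIntegral z.isIntegral_coe) hri)
      (inv_natCast_mem_OS hb)
  · have := hmul _ _ ((hA g).1 hgA) hy
    rwa [mul_div_cancel₀ _ (div_ne_zero hg0 hD)] at this

/-- `{c | x c² ∈ OS}` is a fractional ideal of `OS` (`OS` is integrally closed), and `OS` is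
principal (see `dS_aux_exists` in `Char.lean`). -/
theorem tk_spec {x : E} (hx : x ≠ 0) :
    tk x ≠ 0 ∧ ∀ c : E, x * c ^ 2 ∈ OS E ↔ c / tk x ∈ OS E := by
  refine Classical.epsilon_spec
    (p := fun t : E => t ≠ 0 ∧ ∀ c : E, x * c ^ 2 ∈ OS E ↔ c / t ∈ OS E) ?_
  obtain ⟨k, hk⟩ := exists_pow_mul_mem_OS x⁻¹
  obtain ⟨l, hl⟩ := exists_pow_mul_mem_OS x
  have hm : ∀ n : ℕ, (mm E : E) ^ n ∈ OS E := fun n => pow_mem (natCast_mem _ _) n
  refine clA_principal (fun c => x * c ^ 2 ∈ OS E) (fun a b ha hb => ?_) (fun c y hc hy => ?_)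
    (k := k) (l := l) (fun c hc => clA_of_sq ?_) ?_
  · have h1 : x * a * b ∈ OS E := clA_of_sq (by
      rw [show (x * a * b) ^ 2 = x * a ^ 2 * (x * b ^ 2) by ring]
      exact mul_mem ha hb)
    rw [show x * (a + b) ^ 2 = x * a ^ 2 + x * b ^ 2 + x * a * b + x * a * b by ring]
    exact add_mem (add_mem (add_mem ha hb) h1) h1
  · rw [mul_pow, ← mul_assoc]
    exact mul_mem hc (pow_mem hy 2)
  · rw [show ((mm E : E) ^ k * c) ^ 2 = (mm E : E) ^ k * ((mm E : E) ^ k * x⁻¹) * (x * c ^ 2) by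
      field_simp]
    exact mul_mem (mul_mem (hm k) hk) hc
  · rw [show x * ((mm E : E) ^ l) ^ 2 = (mm E : E) ^ l * x * (mm E : E) ^ l by ring]
    exact mul_mem hl (hm l)

theorem nq_le_Nt {τ : E} (hτ : τ ≠ 0) {a : R E} (ha : a ≠ 0) : nq a ≤ Nt τ a := by
  have hx := div_ne_zero (coe_ne ha) hτ
  obtain ⟨ht, h⟩ := tk_spec hx
  have h1 := absS_le_one ((h _).2 (by rw [div_self ht]; exact one_mem _))
  rw [absS_mul hx (pow_ne_zero 2 ht), absS_div (coe_ne ha) hτ, absS_pow, div_mul_eq_mul_div,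
    div_le_one (absS_pos τ), ← le_div_iff₀ (pow_pos (absS_pos _) 2)] at h1
  rw [nq, nf, Nt, mul_div_assoc]
  exact mul_le_mul_of_nonneg_left h1 (nr_nonneg _)

theorem Nt_pos {τ : E} (hτ : τ ≠ 0) {a : R E} (ha : a ≠ 0) : 0 < Nt τ a :=
  (nq_pos ha).trans_le (nq_le_Nt hτ ha)

/-! ## part B: ray classes -/

/-- A colouring by ray classes (`exists_classes`). -/
theorem exists_colour {j : ℕ} (hj : 1 ≤ j) : ∃ (T : Finset E) (g : R E → E),
    ∀ n : R E, n ≠ 0 → g n ∈ T ∧ InCl j (g n) n := by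
  obtain ⟨T, -, hT⟩ := exists_classes (E := E) hj
  have h : ∀ n : R E, ∃ τ : E, n ≠ 0 → τ ∈ T ∧ InCl j τ n := by
    intro n
    by_cases hn : n = 0
    · exact ⟨0, fun h => absurd hn h⟩
    · obtain ⟨τ, hτ, -⟩ := hT n (coe_ne hn)
      exact ⟨τ, fun _ => hτ⟩
  choose g hg using h
  exact ⟨T, g, hg⟩

theorem LSClB_unit_mul {v : R E} (hv : IsUnit v) (n a : R E) : quad (v * n) a = quad n a :=
  quad_of_associated (associated_unit_mul_left n v hv) a

theorem LSClB_unit {j : ℕ} (hj : Lev E j) {t : E} {n n' u : R E} (hn : InCl j t n)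
    (hn' : InCl j t n') (hu : IsUnit u) : quad n' u = quad n u := by
  obtain ⟨v, hv, h⟩ := hn
  obtain ⟨v', hv', h'⟩ := hn'
  rw [← LSClB_unit_mul hv' n', ← LSClB_unit_mul hv n]
  exact hj.quad_unit_congr hu (n := v * n) (n' := v' * n') ((h.symm hj.1).trans hj.1 h')

/-- On a ray class the symbol of a unit is a constant of modulus one. -/
theorem norm_sum_unit {j : ℕ} (hj : Lev E j) {t : E} {S : Finset (R E)}
    (hS : ∀ n ∈ S, InCl j t n) (β : R E → ℂ) {u : R E} (hu : IsUnit u) (k : R E) :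
    ‖∑ n ∈ S, β n * quad n (u * k)‖ = ‖∑ n ∈ S, β n * quad n k‖ := by
  rcases S.eq_empty_or_nonempty with rfl | ⟨n₀, h₀⟩
  · simp
  have e : ∑ n ∈ S, β n * quad n (u * k) = quad n₀ u * ∑ n ∈ S, β n * quad n k := by
    rw [Finset.mul_sum]
    refine Finset.sum_congr rfl fun n hn => ?_
    rw [quad_mul_right, LSClB_unit hj (hS n₀ h₀) (hS n hn) hu]
    ring
  rw [e, norm_mul, norm_quad (gB_coprime_unit n₀ hu), one_mul]

/-- Quadratic reciprocity on a pair of ray classes: with `u k` of type `t` and `u' n` of type `t'`,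
`quad (u' n) (u k) = Rs (u' n) (u k) * quad (u k) (u' n)`; use `Lev.Rs_congr`,
`Lev.quad_unit_congr`, `quad_of_associated`. -/
theorem flip {j : ℕ} (hj : Lev E j) (t t' : E) : ∃ a b : R E → ℂ, (∀ k, ‖a k‖ = 1) ∧
    (∀ n, ‖b n‖ = 1) ∧ ∀ n k, InCl j t' n → InCl j t k → quad n k = b n * a k * quad k n := by
  by_cases hex : ∃ n₀ k₀ : R E, InCl j t' n₀ ∧ InCl j t k₀
  swap
  · exact ⟨fun _ => 1, fun _ => 1, fun _ => norm_one, fun _ => norm_one,
      fun n k hn hk => absurd ⟨n, k, hn, hk⟩ hex⟩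
  obtain ⟨n₀, k₀, hn₀, hk₀⟩ := hex
  have hch : ∀ (s : E) (k : R E), ∃ u : R E, IsUnit u ∧
      (InCl j s k → Ty j s ((u * k : R E) : E)) := by
    intro s k
    by_cases h : InCl j s k
    · obtain ⟨u, hu, h'⟩ := h
      exact ⟨u, hu, fun _ => h'⟩
    · exact ⟨1, isUnit_one, fun h' => absurd h' h⟩
  choose u hu hu' using hch
  have hne : ∀ {s : E} {k : R E}, InCl j s k → u s k * k ≠ 0 := fun h =>
    Rec_ne ((hu' _ _ h).ne_zero hj.1).2
  refine ⟨fun k => quad n₀ (u t k), fun n => Rs (u t' n₀ * n₀) (u t k₀ * k₀) * quad k₀ (u t' n),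
    fun k => norm_quad (gB_coprime_unit n₀ (hu t k)), fun n => ?_, fun n k hn hk => ?_⟩
  · rw [norm_mul, norm_Rs (hne hn₀) (hne hk₀), norm_quad (gB_coprime_unit k₀ (hu t' n)), one_mul]
  · have h1 := quad_recip (hne hn) (hne hk)
    rw [hj.Rs_congr (((hu' _ _ hn₀).symm hj.1).trans hj.1 (hu' _ _ hn))
      (((hu' _ _ hk₀).symm hj.1).trans hj.1 (hu' _ _ hk)), LSClB_unit_mul (hu _ _),
      LSClB_unit_mul (hu _ _), quad_mul_right, quad_mul_right, LSClB_unit hj hn₀ hn (hu _ _),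
      LSClB_unit hj hk₀ hk (hu _ _)] at h1
    have h2 := quad_sq (gB_coprime_unit n₀ (hu t k))
    linear_combination quad n₀ (u t k) * h1 - quad n k * h2

end Crest.Agent.R312.LS2
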