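import Crest.Agent.R312.Recip
import Crest.Agent.R312.PP
import Crest.Agent.R17.LS2Avg
import Crest.Agent.R17.LS2Dual

/-!
# Row 312, module LS (quadratic large sieve): definitions

Port of `R17/LS2*.lean`.  Plan of the proof (files `LS*.lean`):
* `LS ξ` : large sieve bound `K + N^ξ`;  `LSw j ξ` : its weighted dual form over the kernels;
  `Core j ξ` : the bound `M` for one block of columns when `N^ξ ≤ M`.
* `Core j 2` (`LSTriv`), `LS ξ → LSw j ξ` (`LSDual`), `LSw j ξ → Core j (2 - 1/ξ)` (`LSCore`),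
  `Core j ξ → LS ξ` (`LSRed`).

Dictionary with row 17: `O ↦ R E`, `nr ↦ nq`, `SP 6 ↦ SP`, `sp 6 ↦ sqs`, `Primary ↦ Nm`,
`∑' k : O, F k (nr k) ↦ Row j τ F` (sum over the lattices `R ∩ y² τ OS`, `y` in the finite set `Cl E`
of representatives of `Eˣ / Rˣ OSˣ`; Poisson summation exchanges `τ` and `(τ δ)⁻¹`, `δ = dS E`),
`6 ↦ nuK E j`, `nr a ↦ Nt τ a` for a kernel `a`.
DO NOT change a definition of this file.
-/

set_option autoImplicit false

noncomputable section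

namespace Crest.Agent.R312.LS2

open NumberField
open scoped ComplexConjugate

export Crest.Agent.R17.LS2 (FC MulF mulF_cpow duality norm_sum_sq_le_fiber)

variable {E : Type} [Field E] [NumberField E] [Fr E]

/-- The norm of an element of `R`. -/
def nq (n : R E) : ℝ := nf (n : E)

/-- Normalised squarefree elements. -/
def SP (n : R E) : Prop := Nm n ∧ Squarefree n

/-- The self-dual weight. -/
def gw (E : Type) [Field E] [NumberField E] [Fr E] (y : ℝ) : ℝ := Gw E (y / Real.sqrt (dE E))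

/-- `x` and `y` have the same class in `Eˣ / Rˣ OSˣ` (for `x, y ≠ 0`). -/
def Rel (x y : E) : Prop :=
  ∃ u : R E, IsUnit u ∧ (u : E) * x / y ∈ OS E ∧ y / ((u : E) * x) ∈ OS E

/-- Representatives of `Eˣ / Rˣ OSˣ`. -/
def Cl (E : Type) [Field E] [NumberField E] [Fr E] : Finset E :=
  Classical.epsilon fun C : Finset E =>
    (∀ y ∈ C, y ≠ 0) ∧ ∀ x : E, x ≠ 0 → ∃! y, y ∈ C ∧ Rel x y

open Classical in
/-- Sum over the lattice `R ∩ t OS` modulo `V j` of a function of the point and of its size. -/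
def Ls (j : ℕ) (t : E) (F : R E → ℝ → ℂ) : ℂ :=
  ∑' k : R E, if Lat j t k then F k (szl t k) else 0

/-- The sum over the rows. -/
def Row (j : ℕ) (τ : E) (F : R E → ℝ → ℂ) : ℂ := ∑ y ∈ Cl E, Ls j (y ^ 2 * τ) F

/-- Functions which are summable on every lattice. -/
def Dom (F : R E → ℝ → ℂ) : Prop := ∃ H : ℝ, ∀ k x, 1 ≤ x → ‖F k x‖ ≤ H * x ^ (-2 : ℝ)

/-- Invariance under `V j`. -/
def Inv1 (j : ℕ) (F : R E → ℝ → ℂ) : Prop := ∀ (u k : R E) (x : ℝ), V j (u : E) → F (u * k) x = F k x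

/-- Invariance under `V j` and under the squares of the units. -/
def Inv2 (j : ℕ) (F : R E → ℝ → ℂ) : Prop :=
  Inv1 j F ∧ ∀ (u k : R E) (x : ℝ), IsUnit u → F (u ^ 2 * k) x = F k x

open Classical in
/-- `∑_c gw (Y N(c)²)`. -/
def th2 (E : Type) [Field E] [NumberField E] [Fr E] (j : ℕ) (Y : ℝ) : ℝ :=
  ∑ y ∈ Cl E, ∑' c : R E, if Lat j y c then gw E (Y * szl y c ^ 2) else 0

/-- The remainder of `th2` after removing the main term `κ / √y`. -/
def Er (E : Type) [Field E] [NumberField E] [Fr E] (j : ℕ) (κ y : ℝ) : ℝ :=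
  th2 E j y - κ / Real.sqrt y

/-- Representatives of `Rˣ / (Rˣ)² V j`. -/
def Tk (E : Type) [Field E] [NumberField E] [Fr E] (j : ℕ) : Finset (R E) :=
  Classical.epsilon fun T : Finset (R E) => (∀ s ∈ T, IsUnit s) ∧ ∀ u : R E, IsUnit u →
    ∃! s, s ∈ T ∧ ∃ v w : R E, IsUnit v ∧ V j (w : E) ∧ u = s * v ^ 2 * w

open Classical in
/-- The kernels: squarefree elements of norm at most `W` modulo `(Rˣ)² V j`. -/
def sqf (j : ℕ) (W : ℝ) : Finset (R E) := (Tk E j ×ˢ sqs W).image fun p => p.1 * p.2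

/-- Non-zero elements whose squarefree kernel has norm at most `W`. -/
def PK (W : ℝ) : Set (R E) := {k | ∃ a c : R E, Squarefree a ∧ nq a ≤ W ∧ c ≠ 0 ∧ k = a * c ^ 2}

/-- The number of representations `k = a c²` modulo `V j`. -/
def nuK (E : Type) [Field E] [NumberField E] [Fr E] (j : ℕ) : ℕ :=
  Nat.card {w : E // Fd j w ∧ V j (w ^ 2)}

/-- A generator of the `OS`-module `{c | x c² ∈ OS}`. -/
def tk (x : E) : E :=
  Classical.epsilon fun t : E => t ≠ 0 ∧ ∀ c : E, x * c ^ 2 ∈ OS E ↔ c / t ∈ OS E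

/-- The size of the kernel `a` in the lattices of `Row j τ`. -/
def Nt (τ : E) (a : R E) : ℝ := nr (a : E) * absS τ / absS (tk ((a : E) / τ)) ^ 2

/-- The norm of the product of a finite set (of primes). -/
def nP (D : Finset (R E)) : ℝ := ∏ p ∈ D, nq p

open Classical in
/-- The cofactor of `∏ G` in the squarefree element `n`. -/
def cof (G : Finset (R E)) (n : R E) : R E := ∏ p ∈ pf n \ G, p

open Classical in
/-- Contribution of the kernel `a` (of size `ν`) on the original side, as a functional of a test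
function. -/
def origA (n₁ n₂ a : R E) (ν : ℝ) (f : ℝ → ℂ) : ℂ :=
  quad n₁ a * quad n₂ a * ∑ D ∈ (pf n₁ ∪ pf n₂).powerset, (-1) ^ D.card * f (ν * nP D ^ 2)

open Classical in
/-- Contribution of the kernel `a` on the dual side for the cofactors `m₁, m₂` and the set `G` of
common primes. -/
def dualB (G : Finset (R E)) (m₁ m₂ a : R E) (ν : ℝ) (f : ℝ → ℂ) : ℂ :=
  ∑ J ∈ G.powerset, (-1) ^ J.card / ((nP J * Real.sqrt (nq m₁) * Real.sqrt (nq m₂) : ℝ) : ℂ) *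
    (quad m₁ a * quad m₂ a) * ∑ D ∈ (pf m₁ ∪ pf m₂).powerset, (-1) ^ D.card *
      f (ν * nP D ^ 2 / (nP (J.filter (· ∣ a)) ^ 2 * nq m₁ * nq m₂))

open Classical in
/-- Contribution of the kernel `a` on the dual side, as a functional of a test function. -/
def dualA (n₁ n₂ a : R E) (ν : ℝ) (f : ℝ → ℂ) : ℂ :=
  dualB (pf n₁ ∩ pf n₂) (cof (pf n₁ ∩ pf n₂) n₁) (cof (pf n₁ ∩ pf n₂) n₂) a ν f

/-- Both families of lattices, original side. -/
def orig2 (n₁ n₂ a : R E) (f : ℝ → ℂ) : ℂ :=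
  origA n₁ n₂ a (Nt 1 a) f + origA n₁ n₂ a (Nt (dS E)⁻¹ a) f

/-- Both families of lattices, dual side. -/
def dual2 (n₁ n₂ a : R E) (f : ℝ → ℂ) : ℂ :=
  dualA n₁ n₂ a (Nt 1 a) f + dualA n₁ n₂ a (Nt (dS E)⁻¹ a) f

/-- Euler factors. -/
def eu (ψ : ℝ → ℂ) (S : Finset (R E)) : ℂ := ∏ p ∈ S, (1 - ψ (nq p) ^ 2)

/-- Large sieve inequality with exponent `ξ`. -/
def LS (E : Type) [Field E] [NumberField E] [Fr E] (ξ : ℝ) : Prop :=
  ∀ ε : ℝ, 0 < ε → ∃ C : ℝ, 0 < C ∧ ∀ (K N : ℝ) (β : R E → ℂ), 1 ≤ K → 1 ≤ N →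
    ∑ k ∈ sqs K, ‖∑ n ∈ sqs N, β n * quad n k‖ ^ 2 ≤
      C * (K * N) ^ ε * (K + N ^ ξ) * ∑ n ∈ sqs N, ‖β n‖ ^ 2

/-- Weighted large sieve over the rows `A`, with constant `D`, for all column lengths `N' ≤ N`. -/
def Sieve (A : Finset (R E)) (ξ N D : ℝ) : Prop :=
  ∀ N' : ℝ, 1 ≤ N' → N' ≤ N → ∀ (I : Finset (R E)) (m : R E → R E) (γ : R E → ℂ), Set.InjOn m I →
    (∀ i ∈ I, SP (m i) ∧ nq (m i) ≤ N') →
      ∑ a ∈ A, ‖∑ i ∈ I, γ i * quad (m i) a‖ ^ 2 / (N' + nq a ^ ξ) ≤ D * ∑ i ∈ I, ‖γ i‖ ^ 2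

/-- Weighted dual form of the large sieve with exponent `ξ`. -/
def LSw (E : Type) [Field E] [NumberField E] [Fr E] (j : ℕ) (ξ : ℝ) : Prop :=
  ∀ ε : ℝ, 0 < ε → ∃ C : ℝ, 0 < C ∧ ∀ W N : ℝ, 1 ≤ W → 1 ≤ N →
    Sieve (sqf j W : Finset (R E)) ξ N (C * (W * N) ^ ε)

/-- The ideal `(n)` lies in the ray class of `t`. -/
def InCl (j : ℕ) (t : E) (n : R E) : Prop := ∃ u : R E, IsUnit u ∧ Ty j t ((u : E) * (n : E))

/-- A block of columns: a dyadic range and a ray class. -/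
def Blk (j : ℕ) (N : ℝ) (S : Finset (R E)) : Prop :=
  (∀ n ∈ S, SP n ∧ N / 2 ≤ nq n ∧ nq n ≤ N) ∧ ∃ t : E, ∀ n ∈ S, InCl j t n

/-- The large sieve for one block of columns and long rows. -/
def Core (E : Type) [Field E] [NumberField E] [Fr E] (j : ℕ) (ξ : ℝ) : Prop :=
  ∀ ε : ℝ, 0 < ε → ∃ C : ℝ, 0 < C ∧ ∀ (M N : ℝ) (S : Finset (R E)) (β : R E → ℂ), 1 ≤ N →
    N ^ ξ ≤ M → Blk j N S → ∑ k ∈ sqs M, ‖∑ n ∈ S, β n * quad n k‖ ^ 2 ≤
      C * (M * N) ^ ε * M * ∑ n ∈ S, ‖β n‖ ^ 2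

/-! ### Elementary facts -/

theorem coe_ne {n : R E} (h : n ≠ 0) : (n : E) ≠ 0 := fun h' => h (Subtype.ext h')

theorem nq_nonneg (n : R E) : 0 ≤ nq n := nf_nonneg _

theorem one_le_nq {n : R E} (h : n ≠ 0) : 1 ≤ nq n := one_le_nf h

theorem nq_pos {n : R E} (h : n ≠ 0) : 0 < nq n := one_pos.trans_le (one_le_nq h)

theorem nq_mul (a b : R E) : nq (a * b) = nq a * nq b := nf_mul (a : E) (b : E)

theorem nq_pow (a : R E) (k : ℕ) : nq (a ^ k) = nq a ^ k := by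
  rw [nq, nq, ← nf_pow]; rfl

theorem nq_unit {u : R E} (h : IsUnit u) : nq u = 1 := nf_eq_one_iff.2 h

@[simp] theorem nq_one : nq (1 : R E) = 1 := nq_unit isUnit_one

theorem nq_le_of_dvd {a b : R E} (h : a ∣ b) (hb : b ≠ 0) : nq a ≤ nq b := nf_le_of_dvd h hb

theorem mem_sp {n : R E} {X : ℝ} : n ∈ sqs X ↔ SP n ∧ nq n ≤ X := by
  rw [mem_sqs, SP, and_assoc]; rfl

theorem ne_zero_of_SP {n : R E} (h : SP n) : n ≠ 0 := h.1.ne_zero

theorem SP_of_dvd {m n : R E} (hn : SP n) (hm : Nm m) (h : m ∣ n) : SP m :=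
  ⟨hm, hn.2.squarefree_of_dvd h⟩

theorem pf_sub {n p : R E} (h : p ∈ pf n) : Nm p ∧ Prime p := ⟨(of_mem_pf h).1, (of_mem_pf h).2.1⟩

theorem prod_dvd_of_subset {n : R E} {s : Finset (R E)} (h : s ⊆ pf n) : (∏ p ∈ s, p) ∣ n :=
  (prod_primes_dvd_iff (fun _ hp => pf_sub (h hp)) n).2 fun _ hp => (of_mem_pf (h hp)).2.2

theorem SP.eq_rad {n : R E} (h : SP n) : rad n = n := by
  rw [rad_eq_nrm h.2, h.1.nrm_eq]

theorem nq_prod (D : Finset (R E)) : nq (∏ p ∈ D, p) = nP D := nf_prod D fun p => p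

theorem nP_empty : nP (∅ : Finset (R E)) = 1 := by simp [nP]

theorem one_le_nP {D : Finset (R E)} (h : ∀ p ∈ D, p ≠ 0) : 1 ≤ nP D := by
  rw [← nq_prod]; exact one_le_nq (Finset.prod_ne_zero_iff.2 h)

theorem nP_pos {D : Finset (R E)} (h : ∀ p ∈ D, p ≠ 0) : 0 < nP D :=
  lt_of_lt_of_le one_pos (one_le_nP h)

theorem ne_zero_of_subset_pf {D : Finset (R E)} {n : R E} (h : D ⊆ pf n) : ∀ p ∈ D, p ≠ 0 :=
  fun _ hp => (pf_sub (h hp)).2.ne_zero

theorem nP_mono {D J : Finset (R E)} (h : D ⊆ J) (hJ : ∀ p ∈ J, p ≠ 0) : nP D ≤ nP J := by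
  classical
  rw [nP, nP, ← Finset.prod_sdiff h]
  have h1 : 1 ≤ nP (J \ D) := one_le_nP fun p hp => hJ p (Finset.sdiff_subset hp)
  have h2 : 0 < nP D := nP_pos fun p hp => hJ p (h hp)
  rw [nP] at h1 h2
  nlinarith

open Classical in
theorem cof_primes (G : Finset (R E)) (n : R E) : ∀ q ∈ pf n \ G, Nm q ∧ Prime q :=
  fun _ hq => pf_sub (Finset.sdiff_subset hq)

open Classical in
theorem pf_cof (G : Finset (R E)) (n : R E) : pf (cof G n) = pf n \ G :=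
  (squarefree_prod_primes (cof_primes G n)).2.2

theorem nm_cof (G : Finset (R E)) (n : R E) : Nm (cof G n) :=
  (squarefree_prod_primes (cof_primes G n)).2.1

theorem SP_cof (G : Finset (R E)) (n : R E) : SP (cof G n) :=
  ⟨nm_cof G n, (squarefree_prod_primes (cof_primes G n)).1⟩

theorem prod_mul_cof {G : Finset (R E)} {n : R E} (hn : SP n) (h : G ⊆ pf n) :
    (∏ p ∈ G, p) * cof G n = n := by
  classical
  have h1 := hn.eq_rad
  rw [rad, ← Finset.prod_sdiff h] at h1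
  rw [cof, mul_comm]; convert h1

theorem SP_prod {n : R E} {G : Finset (R E)} (h : G ⊆ pf n) : SP (∏ p ∈ G, p) :=
  ⟨(squarefree_prod_primes fun _ hq => pf_sub (h hq)).2.1,
    (squarefree_prod_primes fun _ hq => pf_sub (h hq)).1⟩

theorem pf_prod {n : R E} {G : Finset (R E)} (h : G ⊆ pf n) : pf (∏ p ∈ G, p) = G :=
  (squarefree_prod_primes fun _ hq => pf_sub (h hq)).2.2

theorem nq_cof {n : R E} (hn : SP n) {G : Finset (R E)} (h : G ⊆ pf n) :
    nq (cof G n) = nq n / nP G := by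
  have h1 := congrArg nq (prod_mul_cof hn h)
  rw [nq_mul, nq_prod] at h1
  rw [eq_div_iff (nP_pos (ne_zero_of_subset_pf h)).ne', ← h1, mul_comm]

open Classical in
theorem quad_sq_eq {q : R E} (hq : q ≠ 0) (c : R E) :
    quad q c ^ 2 = if ∀ p ∈ pf q, ¬ p ∣ c then 1 else 0 := by
  split_ifs with h
  · exact quad_sq ((isCoprime_iff_pf hq c).2 h)
  · rw [(quad_eq_zero_iff hq).2 fun h' => h ((isCoprime_iff_pf hq c).1 h')]
    norm_num

theorem quad_unit_sq (n : R E) {u : R E} (hu : IsUnit u) (k : R E) :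
    quad n (u ^ 2 * k) = quad n k := by
  rw [quad_mul_right, quad_pow_right, quad_sq (gB_coprime_unit n hu), one_mul]

theorem gw_pos (y : ℝ) : 0 < gw E y := Gw_pos _

theorem sqrt_dE_pos : 0 < Real.sqrt (dE E) := Real.sqrt_pos.2 (one_pos.trans_le one_le_dE)

theorem gw_anti {x y : ℝ} (hx : 0 < x) (h : x ≤ y) : gw E y ≤ gw E x :=
  TavB.tav_antitone (fun _ => (Real.exp_pos _).le) TavB.gauss_antitone kerOK_gauss.integrable
    (Real.log_le_log (div_pos hx sqrt_dE_pos) (div_le_div_of_nonneg_right h sqrt_dE_pos.le))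

theorem gw_le_rpow {σ : ℝ} (hσ : 0 < σ) :
    ∃ C : ℝ, 0 < C ∧ ∀ y : ℝ, 0 < y → gw E y ≤ C * y ^ (-σ) := by
  obtain ⟨C, hC, h⟩ := Gw_le_rpow (E := E) hσ
  have hd := sqrt_dE_pos (E := E)
  refine ⟨C * Real.sqrt (dE E) ^ σ, by positivity, fun y hy => (h _ (div_pos hy hd)).trans_eq ?_⟩
  rw [Real.div_rpow hy.le hd.le, Real.rpow_neg hd.le, div_inv_eq_mul]
  ring

theorem continuousOn_gw : ContinuousOn (gw E) (Set.Ioi 0) :=
  (continuousOn_Gw (E := E)).comp (continuous_id.div_const _).continuousOn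
    fun _ hy => div_pos hy sqrt_dE_pos

end Crest.Agent.R312.LS2
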