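import Crest.Agent.R312.LSKer

/-!
# Row 312, module LS (quadratic large sieve): duality and reciprocity
-/

set_option autoImplicit false

noncomputable section

namespace Crest.Agent.R312.LS2

open NumberField
open scoped ComplexConjugate
open Classical

variable {E : Type} [Field E] [NumberField E] [Fr E]

/-- One pair of ray classes. -/
theorem LSDual_pair {j : ℕ} (hj : Lev E j) {t t' : E} {B : ℝ} {S T S' T' : Finset (R E)}
    (hS : S' ⊆ S) (hT : T' ⊆ T) (h1 : ∀ n ∈ S', InCl j t' n) (h2 : ∀ k ∈ T', InCl j t k)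
    (h : ∀ β : R E → ℂ, ∑ n ∈ S, ‖∑ k ∈ T, β k * quad k n‖ ^ 2 ≤ B * ∑ k ∈ T, ‖β k‖ ^ 2)
    (x : R E → ℂ) : ∑ n ∈ S', ‖∑ k ∈ T', x k * quad n k‖ ^ 2 ≤ B * ∑ k ∈ T', ‖x k‖ ^ 2 := by
  obtain ⟨a, b, ha, hb, hab⟩ := flip hj t t'
  have h3 := h fun k => if k ∈ T' then x k * a k else 0
  have h4 : ∑ k ∈ T, ‖(if k ∈ T' then x k * a k else 0)‖ ^ 2 = ∑ k ∈ T', ‖x k‖ ^ 2 := by
    rw [← Finset.sum_subset hT fun k _ hk => by rw [if_neg hk, norm_zero, zero_pow two_ne_zero]]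
    exact Finset.sum_congr rfl fun k hk => by rw [if_pos hk, norm_mul, ha, mul_one]
  rw [h4] at h3
  refine le_trans (le_of_eq (Finset.sum_congr rfl fun n hn => ?_))
    ((Finset.sum_le_sum_of_subset_of_nonneg hS fun _ _ _ => sq_nonneg _).trans h3)
  rw [← Finset.sum_subset hT fun k _ hk => by rw [if_neg hk, zero_mul],
    ← one_mul ‖∑ k ∈ T', (if k ∈ T' then x k * a k else 0) * quad k n‖, ← hb n, ← norm_mul,
    Finset.mul_sum]
  refine congrArg (fun z : ℂ => ‖z‖ ^ 2) (Finset.sum_congr rfl fun k hk => ?_)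
  rw [if_pos hk, hab n k (h1 n hn) (h2 k hk)]
  ring

/-- Duality and quadratic reciprocity: the exponent moves to the rows. -/
theorem LS.swap {ξ : ℝ} (h : LS E ξ) {ε : ℝ} (hε : 0 < ε) : ∃ C : ℝ, 0 < C ∧
    ∀ (K N : ℝ) (β : R E → ℂ), 1 ≤ K → 1 ≤ N →
      ∑ k ∈ sqs K, ‖∑ n ∈ sqs N, β n * quad n k‖ ^ 2 ≤
        C * (K * N) ^ ε * (N + K ^ ξ) * ∑ n ∈ sqs N, ‖β n‖ ^ 2 := by
  obtain ⟨C, hC, h⟩ := h ε hε
  obtain ⟨j, hj⟩ := exists_lev (E := E)
  obtain ⟨T, g, hg⟩ := exists_colour (E := E) hj.one_le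
  have hT : (0 : ℝ) < T.card := Nat.cast_pos.2 (Finset.card_pos.2 ⟨_, (hg 1 one_ne_zero).1⟩)
  have hC' := mul_pos hT (mul_pos hT hC)
  refine ⟨_, hC', fun K N β hK hN => ?_⟩
  have hg' : ∀ (X : ℝ), ∀ k ∈ sqs X, g k ∈ T ∧ InCl j (g k) k := fun X k hk =>
    hg k (ne_zero_of_SP (mem_sp.1 hk).1)
  refine duality (sqs N) (sqs K) (fun n k => quad n k)
    (mul_nonneg (mul_nonneg hC'.le (by positivity)) (by positivity)) (fun x => ?_) β
  have h1 : ∀ t : E, ∑ n ∈ sqs N, ‖∑ k ∈ (sqs K).filter (fun k => g k = t), x k * quad n k‖ ^ 2 ≤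
      T.card * (C * (N * K) ^ ε * (N + K ^ ξ)) *
        ∑ k ∈ (sqs K).filter (fun k => g k = t), ‖x k‖ ^ 2 := fun t => by
    rw [← Finset.sum_fiberwise_of_maps_to fun n hn => (hg' N n hn).1, mul_assoc, ← nsmul_eq_mul]
    refine Finset.sum_le_card_nsmul _ _ _ fun t' _ => LSDual_pair hj (t := t) (t' := t')
      (Finset.filter_subset _ _) (Finset.filter_subset _ _) (fun n hn => ?_) (fun k hk => ?_)
      (fun β => h N K β hN hK) x
    · rw [← (Finset.mem_filter.1 hn).2]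
      exact (hg' N n (Finset.mem_filter.1 hn).1).2
    · rw [← (Finset.mem_filter.1 hk).2]
      exact (hg' K k (Finset.mem_filter.1 hk).1).2
  refine (Finset.sum_le_sum fun n _ => norm_sum_sq_le_fiber (sqs K) T g
    (fun k hk => (hg' K k hk).1) fun k => x k * quad n k).trans ?_
  rw [← Finset.mul_sum, Finset.sum_comm]
  refine (mul_le_mul_of_nonneg_left (Finset.sum_le_sum fun t _ => ?_) hT.le).trans_eq
    (b := T.card * ∑ t ∈ T, T.card * (C * (N * K) ^ ε * (N + K ^ ξ)) *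
      ∑ k ∈ (sqs K).filter (fun k => g k = t), ‖x k‖ ^ 2) ?_
  · exact h1 t
  · rw [← Finset.mul_sum, Finset.sum_fiberwise_of_maps_to fun k hk => (hg' K k hk).1, mul_comm N K]
    ring

/-- Reindexing along an injective map. -/
theorem LSDual_reindex {α : Type} [Nonempty α] (S I : Finset α) (m : α → α) (γ : α → ℂ)
    (hm : Set.InjOn m I)
    (hS : ∀ i ∈ I, m i ∈ S) : ∃ β : α → ℂ,
      (∀ F : α → ℂ, ∑ n ∈ S, β n * F n = ∑ i ∈ I, γ i * F (m i)) ∧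
        ∑ n ∈ S, ‖β n‖ ^ 2 = ∑ i ∈ I, ‖γ i‖ ^ 2 := by
  refine ⟨fun n => ∑ i ∈ I.filter (fun i => m i = n), γ i, fun F => ?_, ?_⟩
  · rw [← Finset.sum_fiberwise_of_maps_to hS]
    refine Finset.sum_congr rfl fun n _ => ?_
    rw [Finset.sum_mul]
    exact Finset.sum_congr rfl fun i hi => by rw [(Finset.mem_filter.1 hi).2]
  · rw [← Finset.sum_fiberwise_of_maps_to hS]
    refine Finset.sum_congr rfl fun n _ => ?_
    have hc : (I.filter (fun i => m i = n)).card ≤ 1 := by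
      rw [Finset.card_le_one]
      intro a ha b hb
      rw [Finset.mem_filter] at ha hb
      exact hm ha.1 hb.1 (ha.2.trans hb.2.symm)
    rcases Finset.card_le_one_iff_subset_singleton.1 hc with ⟨a, ha⟩
    rcases Finset.subset_singleton_iff.1 ha with e | e <;> simp [e]

/-- One dyadic block of rows. -/
theorem LSDual_block {ξ ε C V N W K : ℝ} (h0 : 0 ≤ ξ) (hε : 0 < ε) (hC : 0 < C) (hN : 1 ≤ N)
    (hW : 0 ≤ W) (hK : 1 ≤ K) (hKV : K ≤ V) (f : R E → ℝ) (hf : ∀ k, 0 ≤ f k)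
    (h : ∑ k ∈ sqs (2 * K), f k ≤ C * (2 * K * N) ^ ε * (N + (2 * K) ^ ξ) * W) :
    ∑ k ∈ (sqs V).filter (fun k => K ≤ nq k ∧ nq k ≤ 2 * K), f k / (N + nq k ^ ξ) ≤
      C * (2 * V * N) ^ ε * 2 ^ ξ * W := by
  have hD : 0 < N + K ^ ξ := by positivity
  have h1 : ∑ k ∈ (sqs V).filter (fun k => K ≤ nq k ∧ nq k ≤ 2 * K), f k / (N + nq k ^ ξ) ≤
      (∑ k ∈ sqs (2 * K), f k) / (N + K ^ ξ) := by
    rw [Finset.sum_div]
    refine (Finset.sum_le_sum fun k hk => ?_).trans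
      (Finset.sum_le_sum_of_subset_of_nonneg (fun k hk => ?_) fun k _ _ => div_nonneg (hf k) hD.le)
    · have := (Finset.mem_filter.1 hk).2.1
      gcongr
      exact hf k
    · exact mem_sp.2 ⟨(mem_sp.1 (Finset.mem_filter.1 hk).1).1, (Finset.mem_filter.1 hk).2.2⟩
  refine h1.trans ?_
  rw [div_le_iff₀ hD]
  refine h.trans ?_
  have h2 : (2 * K * N) ^ ε ≤ (2 * V * N) ^ ε := by gcongr
  have h3 : N + (2 * K) ^ ξ ≤ 2 ^ ξ * (N + K ^ ξ) := by
    rw [Real.mul_rpow (by norm_num) (by positivity), mul_add]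
    have : (1 : ℝ) ≤ 2 ^ ξ := Real.one_le_rpow one_le_two h0
    nlinarith
  have h4 : 0 ≤ 2 * V * N := by nlinarith
  calc C * (2 * K * N) ^ ε * (N + (2 * K) ^ ξ) * W
      ≤ C * (2 * V * N) ^ ε * (2 ^ ξ * (N + K ^ ξ)) * W := by gcongr
    _ = _ := by ring

theorem LSw_of_LS {j : ℕ} (hj : 1 ≤ j) {ξ : ℝ} (h0 : 0 ≤ ξ) (h : LS E ξ) : LSw E j ξ := by
  intro ε hε
  have hε2 : 0 < ε / 2 := by positivity
  obtain ⟨C, hC, h⟩ := h.swap hε2
  obtain ⟨D, hD, hd⟩ := dyadic hε2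
  obtain ⟨A, hA, hA0⟩ : ∃ A : ℝ, (Tk E j).card ≤ A ∧ 0 < A :=
    ⟨_, le_add_of_nonneg_right zero_le_one, Nat.cast_add_one_pos _⟩
  refine ⟨A * (D * (C * 2 ^ (ε / 2) * 2 ^ ξ)), by positivity,
    fun V N hV hN N' hN' hNN I m γ hm hI => ?_⟩
  set W : ℝ := ∑ i ∈ I, ‖γ i‖ ^ 2 with hW
  have hW0 : 0 ≤ W := Finset.sum_nonneg fun _ _ => sq_nonneg _
  have hden : ∀ a : R E, 0 < N' + nq a ^ ξ := fun a =>
    add_pos_of_pos_of_nonneg (by linarith) (Real.rpow_nonneg (nq_nonneg a) _)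
  have he : ∀ e ∈ Tk E j,
      ∑ k ∈ sqs V, ‖∑ i ∈ I, γ i * quad (m i) (e * k)‖ ^ 2 / (N' + nq (e * k) ^ ξ) ≤
        D * V ^ (ε / 2) * (C * (2 * V * N') ^ (ε / 2) * 2 ^ ξ * W) := by
    intro e he
    obtain ⟨β, hβ1, hβ2⟩ := LSDual_reindex (sqs N') I m (fun i => γ i * quad (m i) e) hm
      fun i hi => mem_sp.2 (hI i hi)
    have hβ3 : ∑ n ∈ sqs N', ‖β n‖ ^ 2 ≤ W := by
      rw [hβ2]
      refine Finset.sum_le_sum fun i _ => ?_
      rw [norm_mul]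
      exact pow_le_pow_left₀ (by positivity)
        (mul_le_of_le_one_right (norm_nonneg _) (norm_quad_le _ _)) 2
    refine le_trans (le_of_eq (Finset.sum_congr rfl fun k _ => ?_)) (hd nq V V _ (sqs V)
      (fun k => ‖∑ n ∈ sqs N', β n * quad n k‖ ^ 2 / (N' + nq k ^ ξ)) hV le_rfl
      (fun k hk => ⟨one_le_nq (ne_zero_of_SP (mem_sp.1 hk).1), (mem_sp.1 hk).2⟩)
      (fun k => div_nonneg (sq_nonneg _) (hden k).le) fun K hK hKV => ?_)
    · rw [hβ1 fun n => quad n k, nq_mul, nq_unit ((Tk_spec hj).1 e he), one_mul,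
        Finset.sum_congr rfl fun i _ => show γ i * quad (m i) (e * k) =
          γ i * quad (m i) e * quad (m i) k by rw [quad_mul_right, mul_assoc]]
    · refine LSDual_block h0 hε2 hC hN' hW0 hK hKV _ (fun _ => sq_nonneg _)
        ((h (2 * K) N' β (by linarith) hN').trans ?_)
      gcongr
  refine (CountA1_sum_le_prod (Tk E j) (sqs V) (fun e k => e * k) (fun a ha => mem_sqf.1 ha)
    (fun a => ‖∑ i ∈ I, γ i * quad (m i) a‖ ^ 2 / (N' + nq a ^ ξ))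
    (fun a => div_nonneg (sq_nonneg _) (hden a).le)).trans
    ((Finset.sum_le_card_nsmul _ _ _ he).trans ?_)
  rw [nsmul_eq_mul]
  have h3 : V ^ (ε / 2) ≤ (V * N) ^ (ε / 2) := by
    gcongr
    exact le_mul_of_one_le_right (by linarith) hN
  have h4 : (2 * V * N') ^ (ε / 2) ≤ 2 ^ (ε / 2) * (V * N) ^ (ε / 2) := by
    rw [← Real.mul_rpow (by norm_num) (by positivity), mul_assoc]
    gcongr
  have h5 : (V * N) ^ ε = (V * N) ^ (ε / 2) * (V * N) ^ (ε / 2) := by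
    rw [← Real.rpow_add (by positivity)]; congr 1; ring
  calc ((Tk E j).card : ℝ) * (D * V ^ (ε / 2) * (C * (2 * V * N') ^ (ε / 2) * 2 ^ ξ * W))
      ≤ A * (D * (V * N) ^ (ε / 2) * (C * (2 ^ (ε / 2) * (V * N) ^ (ε / 2)) * 2 ^ ξ * W)) := by
        gcongr
    _ = _ := by rw [h5]; ring

end Crest.Agent.R312.LS2
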