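import Crest.Agent.R312.LSLat

/-!
# Row 312, module LS (quadratic large sieve): squarefree kernels
-/

set_option autoImplicit false

noncomputable section

namespace Crest.Agent.R312.LS2

open NumberField
open scoped ComplexConjugate
open Classical

variable {E : Type} [Field E] [NumberField E] [Fr E]

/-- `exists_unit_pow_reps 2` and `FrameA3_reps`. -/
theorem Tk_spec {j : ℕ} (hj : 1 ≤ j) : (∀ s ∈ Tk E j, IsUnit s) ∧ ∀ u : R E, IsUnit u →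
    ∃! s, s ∈ Tk E j ∧ ∃ v w : R E, IsUnit v ∧ V j (w : E) ∧ u = s * v ^ 2 * w := by
  refine Classical.epsilon_spec (p := fun T : Finset (R E) => (∀ s ∈ T, IsUnit s) ∧
    ∀ u : R E, IsUnit u →
      ∃! s, s ∈ T ∧ ∃ v w : R E, IsUnit v ∧ V j (w : E) ∧ u = s * v ^ 2 * w) ?_
  obtain ⟨T₀, h1, h2⟩ := exists_unit_pow_reps (E := E) two_ne_zero
  obtain ⟨T, hT, h⟩ := FrameA3_reps
    (fun s u : R E => ∃ v w : R E, IsUnit v ∧ V j (w : E) ∧ u = s * v ^ 2 * w)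
    (by
      rintro a b x y ⟨v₁, w₁, a1, a2, a3⟩ ⟨v₂, w₂, b1, b2, b3⟩ ⟨v₃, w₃, c1, c2, c3⟩
      obtain ⟨v', hv'⟩ := b1.exists_right_inv
      have hw' : w₂ * (⟨(w₂ : E)⁻¹, b2.2.2⟩ : R E) = 1 :=
        Subtype.ext (mul_inv_cancel₀ (b2.ne_zero hj))
      refine ⟨v₁ * v' * v₃, w₁ * ⟨(w₂ : E)⁻¹, b2.2.2⟩ * w₃,
        (a1.mul (IsUnit.of_mul_eq_one_right _ hv')).mul c1, (a2.mul (b2.inv hj)).mul c2, ?_⟩
      generalize (⟨(w₂ : E)⁻¹, b2.2.2⟩ : R E) = w' at hw'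
      rw [c3]
      have e : a * v₁ ^ 2 * w₁ = b * v₂ ^ 2 * w₂ := a3.symm.trans b3
      linear_combination (-(v' ^ 2 * v₃ ^ 2 * w' * w₃)) * e -
        b * v₃ ^ 2 * w₃ * (v₂ * v') ^ 2 * hw' - b * v₃ ^ 2 * w₃ * (v₂ * v' + 1) * hv')
    IsUnit T₀ fun u hu => by
      obtain ⟨s, ⟨hs, v, hv, e⟩, -⟩ := h2 u hu
      exact ⟨s, hs, v, 1, hv, V_one j, by rw [mul_one]; exact e⟩
  exact ⟨T, fun s hs => h1 s (hT hs), h⟩

theorem mem_sqf {j : ℕ} {W : ℝ} {a : R E} :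
    a ∈ sqf j W ↔ ∃ s ∈ Tk E j, ∃ b ∈ sqs W, a = s * b := by
  rw [sqf, Finset.mem_image]
  constructor
  · rintro ⟨⟨s, b⟩, h, rfl⟩
    exact ⟨s, (Finset.mem_product.1 h).1, b, (Finset.mem_product.1 h).2, rfl⟩
  · rintro ⟨s, hs, b, hb, rfl⟩
    exact ⟨(s, b), Finset.mem_product.2 ⟨hs, hb⟩, rfl⟩

theorem of_mem_sqf {j : ℕ} (hj : 1 ≤ j) {W : ℝ} {a : R E} (h : a ∈ sqf j W) :
    Squarefree a ∧ nq a ≤ W := by
  obtain ⟨s, hs, b, hb, rfl⟩ := mem_sqf.1 h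
  have hu := (Tk_spec hj).1 s hs
  obtain ⟨h1, h2⟩ := mem_sp.1 hb
  exact ⟨h1.2.squarefree_of_dvd (by rw [hu.mul_left_dvd]), by rwa [nq_mul, nq_unit hu, one_mul]⟩

theorem ne_zero_of_mem_sqf {j : ℕ} (hj : 1 ≤ j) {W : ℝ} {a : R E} (h : a ∈ sqf j W) : a ≠ 0 :=
  (of_mem_sqf hj h).1.ne_zero

/-- The normalised squarefree elements are kernels up to units. -/
theorem sum_sqs_le {j : ℕ} (hj : 1 ≤ j) (W : ℝ) {f : R E → ℝ} (hf : ∀ k, 0 ≤ f k)
    (hu : ∀ u k, IsUnit u → f (u * k) = f k) : ∑ k ∈ sqs W, f k ≤ ∑ a ∈ sqf j W, f a := by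
  obtain ⟨s, ⟨hs, -⟩, -⟩ := (Tk_spec (E := E) hj).2 1 isUnit_one
  have hs' := (Tk_spec hj).1 s hs
  rw [← Finset.sum_congr rfl fun k _ => hu s k hs',
    ← Finset.sum_image (f := f) (g := fun k => s * k)
      (fun a _ b _ h => mul_left_cancel₀ hs'.ne_zero h)]
  refine Finset.sum_le_sum_of_subset_of_nonneg (fun a ha => ?_) fun a _ _ => hf a
  obtain ⟨b, hb, rfl⟩ := Finset.mem_image.1 ha
  exact mem_sqf.2 ⟨s, hs, b, hb, rfl⟩

theorem lt_nq_of_not_mem_PK {W : ℝ} {k : R E} (hk : k ≠ 0) (h : k ∉ PK W) : W < nq k := by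
  obtain ⟨a, c, ha, hc, rfl⟩ := exists_sqfree_sq hk
  by_contra hW
  exact h ⟨a, c, ha, (nq_le_of_dvd (dvd_mul_right _ _) hk).trans (not_lt.1 hW), hc.ne_zero, rfl⟩

theorem not_mem_PK_of_squarefree {W : ℝ} {k : R E} (hk : Squarefree k) (h : W < nq k) :
    k ∉ PK W := by
  rintro ⟨a, c, -, ha, -, rfl⟩
  have hu : IsUnit c := hk c ⟨a, by ring⟩
  rw [nq_mul, nq_unit (hu.pow 2), mul_one] at h
  exact absurd ha (not_le.2 h)

theorem unit_mul_mem_PK {W : ℝ} {u k : R E} (hu : IsUnit u) : u * k ∈ PK W ↔ k ∈ PK W := by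
  have key : ∀ u k : R E, IsUnit u → k ∈ PK W → u * k ∈ PK W := by
    rintro u k hu ⟨a, c, h1, h2, h3, rfl⟩
    exact ⟨u * a, c, h1.squarefree_of_dvd (by rw [hu.mul_left_dvd]),
      by rwa [nq_mul, nq_unit hu, one_mul], h3, by ring⟩
  refine ⟨fun h => ?_, key u k hu⟩
  obtain ⟨v, hv⟩ := hu.exists_left_inv
  have := key v _ (IsUnit.of_mul_eq_one _ hv) h
  rwa [← mul_assoc, hv, one_mul] at this

theorem prod_dvd_mul_sq_iff {J : Finset (R E)} (hJ : ∀ p ∈ J, Nm p ∧ Prime p) (a c : R E) :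
    (∏ p ∈ J, p) ∣ a * c ^ 2 ↔ (∏ p ∈ J.filter (fun p => ¬ p ∣ a), p) ∣ c := by
  rw [prod_primes_dvd_iff hJ, prod_primes_dvd_iff fun p hp => hJ p (Finset.mem_filter.1 hp).1]
  constructor
  · intro h p hp
    obtain ⟨hp1, hp2⟩ := Finset.mem_filter.1 hp
    exact (hJ p hp1).2.dvd_of_dvd_pow (((hJ p hp1).2.dvd_or_dvd (h p hp1)).resolve_left hp2)
  · intro h p hp
    by_cases hpa : p ∣ a
    · exact hpa.mul_right _
    · exact ((h p (Finset.mem_filter.2 ⟨hp, hpa⟩)).pow two_ne_zero).mul_left _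

/-- If `w² ∈ V j` then `w` is a unit of `𝓞`; there are finitely many of them modulo `V j`
(`exists_unit_reps`, `V_iff`; model: `frC2_finite`). -/
theorem finite_nuK {j : ℕ} (hj : 1 ≤ j) : Finite {w : E // Fd j w ∧ V j (w ^ 2)} := by
  have hm : ((mm E ^ j : ℕ) : 𝓞 E) ≠ 0 := Nat.cast_ne_zero.2 (pow_ne_zero _ Fr.m_ne)
  have hfin : Finite (𝓞 E ⧸ Ideal.span {((mm E ^ j : ℕ) : 𝓞 E)}) :=
    Ideal.finiteQuotientOfFreeOfNeBot _ (by simpa using hm)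
  have hex : ∀ s : {w : E // Fd j w ∧ V j (w ^ 2)}, ∃ v : (𝓞 E)ˣ, ((v : 𝓞 E) : E) = s := by
    rintro ⟨w, h0, hw⟩
    have h1 : IsIntegral ℤ w :=
      IsIntegral.of_pow (n := 2) (by norm_num) (isIntegral_iff.2 ⟨hw.2.1, hw.1.mem_OS⟩)
    have h2 : IsIntegral ℤ w⁻¹ := IsIntegral.of_pow (n := 2) (by norm_num) (by
      rw [inv_pow]; exact isIntegral_iff.2 ⟨hw.2.2, (hw.1.inv hj).mem_OS⟩)
    exact ⟨⟨⟨w, h1⟩, ⟨w⁻¹, h2⟩, RingOfIntegers.ext (mul_inv_cancel₀ h0.1),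
      RingOfIntegers.ext (inv_mul_cancel₀ h0.1)⟩, rfl⟩
  choose v hv using hex
  refine Finite.of_injective
    (fun s => Ideal.Quotient.mk (Ideal.span {((mm E ^ j : ℕ) : 𝓞 E)}) (v s : 𝓞 E)) ?_
  intro s s' h
  have h1 : ((mm E ^ j : ℕ) : 𝓞 E) ∣ (v s : 𝓞 E) - (v s' : 𝓞 E) :=
    Ideal.mem_span_singleton.1 (Ideal.Quotient.eq.1 h)
  have h2 : V j (((v s * (v s')⁻¹ : (𝓞 E)ˣ) : 𝓞 E) : E) := by
    refine (V_iff hj).2 ⟨_, rfl, ?_⟩
    have : ((v s * (v s')⁻¹ : (𝓞 E)ˣ) : 𝓞 E) - 1 =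
        ((v s : 𝓞 E) - (v s' : 𝓞 E)) * (((v s')⁻¹ : (𝓞 E)ˣ) : 𝓞 E) := by
      rw [sub_mul, Units.mul_inv, Units.val_mul]
    rw [this]
    exact h1.mul_right _
  refine Subtype.ext (Fd.eq hj s'.2.1 s.2.1 h2 ?_)
  have h3 : (v s : 𝓞 E) = ((v s * (v s')⁻¹ : (𝓞 E)ˣ) : 𝓞 E) * (v s' : 𝓞 E) := by
    rw [Units.val_mul, Units.inv_mul_cancel_right]
  rw [← hv s, ← hv s']
  conv_lhs => rw [h3]
  exact map_mul (algebraMap (𝓞 E) E) _ _

theorem nuK_pos {j : ℕ} (hj : 1 ≤ j) : 0 < nuK E j := by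
  have := finite_nuK (E := E) hj
  obtain ⟨u, hu, e⟩ := rep_spec j (1 : E)
  have : Nonempty {w : E // Fd j w ∧ V j (w ^ 2)} :=
    ⟨⟨rep j 1, fd_rep hj one_ne_zero, by rw [e, mul_one]; exact hu.pow 2⟩⟩
  exact Nat.card_pos

theorem kerB_mem_RR {w : E} (h : w ^ 2 ∈ RR E) : w ∈ RR E := by
  obtain ⟨k, hk⟩ := h
  have hm : IsIntegral ℤ (mm E : E) := by exact_mod_cast isIntegral_algebraMap (x := (mm E : ℤ))
  refine ⟨k, IsIntegral.of_pow two_pos ?_⟩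
  rw [show ((mm E : E) ^ k * w) ^ 2 = (mm E : E) ^ k * ((mm E : E) ^ k * w ^ 2) by ring]
  exact (hm.pow k).mul hk

theorem kerB_assoc {a a' c c' : R E} (ha : Squarefree a) (ha' : Squarefree a') (hc : c ≠ 0)
    (h : a * c ^ 2 = a' * c' ^ 2) : Associated c c' := by
  have hc' : c' ≠ 0 := by
    rintro rfl
    exact mul_ne_zero ha.ne_zero (pow_ne_zero 2 hc) (by rw [h]; ring)
  refine associated_of_vp hc hc' fun p hp hp' => ?_
  have key : ∀ {n : R E}, Squarefree n → vp p n ≤ 1 := fun {n} hn => by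
    by_cases hd : p ∣ n
    · exact ((squarefree_iff_vp hn.ne_zero).1 hn p ((mem_pf hn.ne_zero).2 ⟨hp', hp, hd⟩)).le
    · rw [(vp_eq_zero_iff hp hn.ne_zero).2 hd]; exact zero_le_one
  have h1 := congrArg (vp p) h
  rw [vp_mul hp ha.ne_zero (pow_ne_zero 2 hc), vp_mul hp ha'.ne_zero (pow_ne_zero 2 hc'),
    vp_pow hp hc, vp_pow hp hc'] at h1
  have h2 := key ha
  have h3 := key ha'
  omega

theorem kerB_uniq {j : ℕ} (hj : 1 ≤ j) {W : ℝ} {a a' c c' t v : R E} (ha : a ∈ sqf j W)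
    (ha' : a' ∈ sqf j W) (hc : c ≠ 0) (ht : V j (t : E)) (hv : V j (v : E))
    (h : t * (a * c ^ 2) = v * (a' * c' ^ 2)) :
    a = a' ∧ ∃ y : R E, V j ((y : E) ^ 2) ∧ c' = y * c := by
  have htu := ((V_iff_isUnit hj).1 ht).1
  have hvu := ((V_iff_isUnit hj).1 hv).1
  obtain ⟨y, rfl⟩ := kerB_assoc (a := t * a) (a' := v * a') (c' := c')
    ((associated_unit_mul_left a t htu).squarefree_iff.2 (of_mem_sqf hj ha).1)
    ((associated_unit_mul_left a' v hvu).squarefree_iff.2 (of_mem_sqf hj ha').1) hc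
    (by rw [mul_assoc, h, mul_assoc])
  have h1 : t * a = v * (y : R E) ^ 2 * a' :=
    mul_right_cancel₀ (pow_ne_zero 2 hc) (by linear_combination h)
  obtain ⟨s, hs, b, hb, rfl⟩ := mem_sqf.1 ha
  obtain ⟨s', hs', b', hb', rfl⟩ := mem_sqf.1 ha'
  obtain ⟨hT, hT'⟩ := Tk_spec (E := E) hj
  have hbb : b = b' := by
    refine (mem_sqs.1 hb).1.eq_of_associated (mem_sqs.1 hb').1 ?_
    refine (associated_unit_mul_left b _ (htu.mul (hT s hs))).symm.trans ?_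
    rw [mul_assoc, h1, ← mul_assoc]
    exact associated_unit_mul_left b' _ ((hvu.mul (y.isUnit.pow 2)).mul (hT s' hs'))
  subst hbb
  have h2 : t * s = v * (y : R E) ^ 2 * s' :=
    mul_right_cancel₀ (mem_sqs.1 hb).1.ne_zero (by linear_combination h1)
  have hss : s = s' := (hT' _ (htu.mul (hT s hs))).unique
    ⟨hs, 1, t, isUnit_one, ht, by ring⟩ ⟨hs', y, v, y.isUnit, hv, by rw [h2]; ring⟩
  subst hss
  refine ⟨rfl, y, ?_, mul_comm _ _⟩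
  have h3 : t = v * (y : R E) ^ 2 := mul_right_cancel₀ (hT s hs).ne_zero h2
  have h4 : ((y : R E) : E) ^ 2 = (v : E)⁻¹ * t := by
    rw [h3]
    push_cast
    rw [inv_mul_cancel_left₀ (hv.ne_zero hj)]
  rw [h4]
  exact (hv.inv hj).mul ht

theorem kerB_ex {j : ℕ} (hj : 1 ≤ j) {W : ℝ} {k : R E} (hk : k ∈ PK W) :
    ∃ a ∈ sqf j W, ∃ c v : R E, c ≠ 0 ∧ V j (v : E) ∧ k = v * (a * c ^ 2) := by
  obtain ⟨a, c, ha, hW, hc, rfl⟩ := hk
  obtain ⟨u, hu, e⟩ := exists_unit_nrm ha.ne_zero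
  obtain ⟨s, ⟨hs, t, v, ht, hv, rfl⟩, -⟩ := (Tk_spec hj).2 u hu
  refine ⟨s * nrm a, mem_sqf.2 ⟨s, hs, nrm a, mem_sqs.2 ⟨nm_nrm ha.ne_zero,
    (associated_nrm ha.ne_zero).squarefree_iff.2 ha, (nf_nrm ha.ne_zero).trans_le hW⟩, rfl⟩,
    t * c, v, mul_ne_zero ht.ne_zero hc, hv, ?_⟩
  linear_combination c ^ 2 * e

/-- Every `k ∈ PK W` has `nuK E j` representations `a c²` modulo `V j`: choose `k = v a₀ c₀²`
(`v ∈ V j`, `a₀ ∈ sqf j W`); the map `(w, k) ↦ (a₀, rep (w c₀))` is a bijection of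
`{w // Fd j w ∧ V j (w²)} × {k // Fd j k ∧ k ∈ PK W}` with `sqf j W × {c // Fd j c}`. -/
theorem tsum_kernel {j : ℕ} (hj : 1 ≤ j) (W : ℝ) {f : R E → ℂ} (hf : InvR j f)
    (hs : Summable fun k : R E => if Fd j (k : E) then f k else 0) :
    ∑ a ∈ sqf j W, ∑' c : R E, (if Fd j (c : E) then f (a * c ^ 2) else 0) =
      nuK E j * ∑' k : R E, (if Fd j (k : E) ∧ k ∈ PK W then f k else 0) := by
  have := finite_nuK (E := E) hj
  choose a₀ ha₀ c₀ v₀ hc₀ hv₀ hk using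
    fun k : {k : R E // Fd j (k : E) ∧ k ∈ PK W} => kerB_ex hj k.2.2
  obtain ⟨ι, hι⟩ : ∃ ι : {w : E // Fd j w ∧ V j (w ^ 2)} → R E, ∀ w, (ι w : E) = w :=
    ⟨fun w => ⟨w, kerB_mem_RR w.2.2.2.1⟩, fun _ => rfl⟩
  obtain ⟨φ, hφ⟩ : ∃ φ : {w : E // Fd j w ∧ V j (w ^ 2)} × {k : R E // Fd j (k : E) ∧ k ∈ PK W} →
      R E × R E, ∀ q, φ q = (a₀ q.2, repR j (ι q.1 * c₀ q.2)) := ⟨_, fun _ => rfl⟩
  obtain ⟨H, hH⟩ : ∃ H : R E × R E → ℂ, ∀ z, H z =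
    if z.1 ∈ sqf j W then (if Fd j (z.2 : E) then f (z.1 * z.2 ^ 2) else 0) else 0 :=
    ⟨_, fun _ => rfl⟩
  have hinj : Function.Injective φ := by
    rintro ⟨w, k⟩ ⟨w', k'⟩ h
    rw [hφ, hφ, Prod.mk.injEq] at h
    obtain ⟨h1, h2⟩ := h
    dsimp only at h1 h2
    obtain ⟨u, hu, e⟩ := repR_spec j (ι w * c₀ k)
    obtain ⟨u', hu', e'⟩ := repR_spec j (ι w' * c₀ k')
    rw [e, e'] at h2
    have h3 : (u : E) * (w * c₀ k) = u' * (w' * c₀ k') := by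
      rw [← hι w, ← hι w']; exact_mod_cast h2
    have h4 : (k.1 : E) = v₀ k * (a₀ k * c₀ k ^ 2) := by exact_mod_cast hk k
    have h5 : (k'.1 : E) = v₀ k' * (a₀ k * c₀ k' ^ 2) := by rw [h1]; exact_mod_cast hk k'
    have hkk : k' = k := by
      refine Subtype.ext (Subtype.ext (Fd.eq hj k.2.1 k'.2.1
        (((((hu'.pow 2).mul w'.2.2).mul (hv₀ k)).inv hj).mul
          (((hu.pow 2).mul w.2.2).mul (hv₀ k'))) ?_))
      rw [mul_assoc, eq_inv_mul_iff_mul_eq₀ ((((hu'.pow 2).mul w'.2.2).mul (hv₀ k)).ne_zero hj),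
        h4, h5]
      linear_combination (-((v₀ k : E) * v₀ k' * a₀ k * (u * (w * c₀ k) + u' * (w' * c₀ k')))) * h3
    subst hkk
    have hww : w' = w := by
      refine Subtype.ext (Fd.eq hj w.2.1 w'.2.1 ((hu'.inv hj).mul hu) ?_)
      rw [mul_assoc, eq_inv_mul_iff_mul_eq₀ (hu'.ne_zero hj)]
      exact mul_right_cancel₀ (coe_ne (hc₀ k')) (by linear_combination -h3)
    rw [hww]
  have hHφ : H ∘ φ = fun q => (1 : ℂ) * f q.2 := by
    funext ⟨w, k⟩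
    have h0 : ((ι w * c₀ k : R E) : E) ≠ 0 := by
      rw [Subring.coe_mul, hι]
      exact mul_ne_zero w.2.1.1 (coe_ne (hc₀ k))
    obtain ⟨u, hu, e⟩ := repR_spec j (ι w * c₀ k)
    simp only [Function.comp, hH, hφ]
    rw [if_pos (ha₀ k), if_pos (show Fd j ((repR j (ι w * c₀ k) : R E) : E) from fd_rep hj h0),
      one_mul, e, show a₀ k * (u * (ι w * c₀ k)) ^ 2 = (u ^ 2 * ι w ^ 2) * (a₀ k * c₀ k ^ 2) by ring,
      hf _ _ (by push_cast; rw [hι]; exact (hu.pow 2).mul w.2.2), ← hf _ _ (hv₀ k), ← hk k]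
  have hsupp : ∀ z ∉ Set.range φ, H z = 0 := by
    rintro ⟨a, c⟩ hz
    simp only [hH]
    split_ifs with h1 h2
    · exfalso
      apply hz
      have hc : c ≠ 0 := fun h => h2.1 (by rw [h]; rfl)
      have h0 : a * c ^ 2 ≠ 0 := mul_ne_zero (ne_zero_of_mem_sqf hj h1) (pow_ne_zero 2 hc)
      obtain ⟨t, ht, e⟩ := repR_spec j (a * c ^ 2)
      obtain ⟨k, hkk⟩ : ∃ k : {k : R E // Fd j (k : E) ∧ k ∈ PK W}, k.1 = t * (a * c ^ 2) :=
        ⟨⟨repR j (a * c ^ 2), fd_rep hj (coe_ne h0), by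
          rw [e, unit_mul_mem_PK ((V_iff_isUnit hj).1 ht).1]
          exact ⟨a, c, (of_mem_sqf hj h1).1, (of_mem_sqf hj h1).2, hc, rfl⟩⟩, e⟩
      obtain ⟨haa, y, hy, hcy⟩ := kerB_uniq hj (ha₀ k) h1 (hc₀ k) (hv₀ k) ht ((hk k).symm.trans hkk)
      have hy0 : (y : E) ≠ 0 := fun h => hy.ne_zero hj (by rw [h]; ring)
      obtain ⟨r, hr, er⟩ := rep_spec j (y : E)
      refine ⟨(⟨rep j y, fd_rep hj hy0, by rw [er, mul_pow]; exact (hr.pow 2).mul hy⟩, k), ?_⟩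
      rw [hφ, Prod.mk.injEq]
      refine ⟨haa, Subtype.ext ?_⟩
      change rep j ((ι _ * c₀ k : R E) : E) = c
      rw [Subring.coe_mul, hι]
      dsimp only
      rw [er, mul_assoc, rep_mul hj hr, ← Subring.coe_mul, ← hcy, h2.2]
    · rfl
    · rfl
  have hs1 : Summable fun _ : {w : E // Fd j w ∧ V j (w ^ 2)} => ‖(1 : ℂ)‖ := Summable.of_finite
  have hs2 : Summable fun k : {k : R E // Fd j (k : E) ∧ k ∈ PK W} => ‖f k‖ :=
    (hs.norm.subtype {k : R E | Fd j (k : E) ∧ k ∈ PK W}).congr fun k => by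
      simp only [Function.comp, if_pos k.2.1]
  have hsum : Summable H := by
    rw [← hinj.summable_iff hsupp, hHφ]
    exact summable_mul_of_summable_norm (f := fun _ => (1 : ℂ))
      (g := fun k : {k : R E // Fd j (k : E) ∧ k ∈ PK W} => f k) hs1 hs2
  have e1 : ∑' z, H z = nuK E j * ∑' k : {k : R E // Fd j (k : E) ∧ k ∈ PK W}, f k := by
    rw [← hinj.tsum_eq (f := H) (fun z hz => by by_contra h; exact hz (hsupp z h))]
    have := tsum_mul_tsum_of_summable_norm (f := fun _ => (1 : ℂ))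
      (g := fun k : {k : R E // Fd j (k : E) ∧ k ∈ PK W} => f k) hs1 hs2
    rw [show (fun q => H (φ q)) = H ∘ φ from rfl, hHφ, ← this, tsum_const, nsmul_eq_mul, mul_one,
      nuK]
  rw [← frC2_tsum_ite (fun k : R E => Fd j (k : E) ∧ k ∈ PK W) f, hsum.tsum_prod,
    tsum_eq_sum (s := sqf j W)] at e1
  · refine Eq.trans ?_ (e1.trans ?_)
    · exact Finset.sum_congr rfl fun a ha => tsum_congr fun c => by simp only [hH, if_pos ha]
    · congr 1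
      exact tsum_congr fun k => by congr
  · intro a ha
    simp only [hH, if_neg ha, tsum_zero]

/-- `tsum_kernel` for `f k = if k / (y² τ) ∈ OS then F k (szl (y² τ) k) else 0`, `tk_spec`. -/
theorem Row_kernel {j : ℕ} (hj : 1 ≤ j) (W : ℝ) {τ : E} (hτ : τ ≠ 0) {F : R E → ℝ → ℂ}
    (hF : Inv1 j F) (hD : Dom F) :
    nuK E j * Row j τ (fun k x => if k ∈ PK W then F k x else 0) =
      ∑ a ∈ sqf j W, ∑ y ∈ Cl E,
        Ls j (y * tk ((a : E) / τ)) (fun c x => F (a * c ^ 2) (Nt τ a * x ^ 2)) := by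
  rw [Row, Finset.mul_sum, Finset.sum_comm]
  refine Finset.sum_congr rfl fun y hy => ?_
  have hy0 : y ≠ 0 := Cl_spec.1 y hy
  have ht : y ^ 2 * τ ≠ 0 := mul_ne_zero (pow_ne_zero 2 hy0) hτ
  have h := tsum_kernel hj W
    (f := fun k => if (k : E) / (y ^ 2 * τ) ∈ OS E then F k (szl (y ^ 2 * τ) k) else 0)
    (fun u k hu => by
      have e1 : szl (y ^ 2 * τ) (u * k) = szl (y ^ 2 * τ) k := by
        rw [szl, szl, Subring.coe_mul, nr_mul, hu.nr_eq hj, one_mul]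
      have e2 : ((u * k : R E) : E) / (y ^ 2 * τ) ∈ OS E ↔ (k : E) / (y ^ 2 * τ) ∈ OS E := by
        rw [Subring.coe_mul, mul_div_assoc]
        refine ⟨fun h => ?_, fun h => mul_mem hu.1.mem_OS h⟩
        have := mul_mem (hu.1.inv hj).mem_OS h
        rwa [inv_mul_cancel_left₀ (hu.ne_zero hj)] at this
      simp only [e1, e2, hF u k _ hu])
    ((hD.summable hj ht).congr fun k => by
      unfold Lat
      by_cases h1 : Fd j (k : E) <;> simp [h1])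
  have e1 : Ls j (y ^ 2 * τ) (fun k x => if k ∈ PK W then F k x else 0) =
      ∑' k : R E, (if Fd j (k : E) ∧ k ∈ PK W then
        (if (k : E) / (y ^ 2 * τ) ∈ OS E then F k (szl (y ^ 2 * τ) k) else 0) else 0) := by
    refine tsum_congr fun k => ?_
    unfold Lat
    by_cases h1 : Fd j (k : E) <;> by_cases h2 : k ∈ PK W <;> simp [h1, h2]
  rw [e1, ← h]
  refine Finset.sum_congr rfl fun a ha => tsum_congr fun c => ?_
  have ha0 : (a : E) ≠ 0 := coe_ne (ne_zero_of_mem_sqf hj ha)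
  obtain ⟨k0, k1⟩ := tk_spec (div_ne_zero ha0 hτ)
  have e2 : ((a * c ^ 2 : R E) : E) / (y ^ 2 * τ) ∈ OS E ↔
      (c : E) / (y * tk ((a : E) / τ)) ∈ OS E := by
    rw [← div_div (c : E) y, ← k1]
    have : ((a * c ^ 2 : R E) : E) / (y ^ 2 * τ) = (a : E) / τ * ((c : E) / y) ^ 2 := by
      push_cast
      field_simp
    rw [this]
  have e3 : szl (y ^ 2 * τ) (a * c ^ 2) = Nt τ a * szl (y * tk ((a : E) / τ)) c ^ 2 := by
    have := (absS_pos (tk ((a : E) / τ))).ne'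
    rw [szl, szl, Nt, absS_mul (pow_ne_zero 2 hy0) hτ, absS_mul hy0 k0, absS_pow, Subring.coe_mul,
      SubmonoidClass.coe_pow, nr_mul, nr_pow]
    field_simp
  unfold Lat
  rw [e3]
  by_cases h1 : Fd j (c : E) <;> simp only [h1, e2, true_and, false_and, if_true, if_false]

end Crest.Agent.R312.LS2
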