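import Crest.Agent.R312.LSCl

/-!
# Row 312, module LS (quadratic large sieve): sums over lattices
-/

set_option autoImplicit false

noncomputable section

namespace Crest.Agent.R312.LS2

open NumberField
open scoped ComplexConjugate
open Classical

variable {E : Type} [Field E] [NumberField E] [Fr E]

/-! ## part A: formal properties -/

theorem Ls_congr {j : ℕ} {t t' : E} (ht : t ≠ 0) (ht' : t' ≠ 0) (h : t / t' ∈ OS E)
    (h' : t' / t ∈ OS E) (F : R E → ℝ → ℂ) : Ls j t F = Ls j t' F := by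
  obtain ⟨h1, h2⟩ := Lat_congr (j := j) ht ht' h h'
  unfold Ls
  rw [h1, h2]

theorem Ls_congr_fun {j : ℕ} {t : E} {F G : R E → ℝ → ℂ}
    (h : ∀ k, Lat j t k → F k (szl t k) = G k (szl t k)) : Ls j t F = Ls j t G := by
  refine tsum_congr fun k => ?_
  split_ifs with hk
  exacts [h k hk, rfl]

theorem Ls_mul_left (j : ℕ) (t : E) (c : ℂ) (F : R E → ℝ → ℂ) :
    Ls j t (fun k x => c * F k x) = c * Ls j t F := by
  simp only [Ls, ← tsum_mul_left, mul_ite, mul_zero]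

theorem Row_mul_left (j : ℕ) (τ : E) (c : ℂ) (F : R E → ℝ → ℂ) :
    Row j τ (fun k x => c * F k x) = c * Row j τ F := by
  simp only [Row, Ls_mul_left, Finset.mul_sum]

/-- `tsum_Lat_dvd`, `szl_mul`. -/
theorem Ls_dvd {j : ℕ} (hj : 1 ≤ j) {t : E} (ht : t ≠ 0) {g : R E} (hg : g ≠ 0)
    {F : R E → ℝ → ℂ} (hF : Inv1 j F) :
    Ls j t (fun k x => if g ∣ k then F k x else 0) =
      Ls j (t / g) (fun k x => F (g * k) (nq g * x)) := by
  have h := tsum_Lat_dvd hj t hg (f := fun k => F k (szl t k)) fun u x hu => by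
    have : szl t (u * x) = szl t x := by
      rw [szl, szl, Subring.coe_mul, nr_mul, hu.nr_eq hj, one_mul]
    simp only [this]
    exact hF u x _ hu
  simp only [szl_mul ht hg, ite_and] at h
  exact h

theorem Ls_unit {j : ℕ} (hj : 1 ≤ j) {t : E} (ht : t ≠ 0) {u : R E} (hu : IsUnit u)
    {F : R E → ℝ → ℂ} (hF : Inv1 j F) : Ls j t F = Ls j (t / u) (fun k x => F (u * k) x) := by
  have h := Ls_dvd hj ht hu.ne_zero hF
  simpa only [hu.dvd, if_true, nq_unit hu, one_mul] using h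

theorem Ls_rel {j : ℕ} (hj : 1 ≤ j) {F : R E → ℝ → ℂ}
    (hF : ∀ (u k : R E) (x : ℝ), IsUnit u → F (u * k) x = F k x) {x y : E} (hx : x ≠ 0)
    (hy : y ≠ 0) (h : Rel x y) : Ls j x F = Ls j y F := by
  obtain ⟨u, hu, h1, h2⟩ := h
  have hu0 := coe_ne hu.ne_zero
  have h3 := Ls_unit hj (mul_ne_zero hu0 hx) hu (F := F) fun v k x hv =>
    hF v k x ((V_iff_isUnit hj).1 hv).1
  simp only [hF u _ _ hu, mul_div_cancel_left₀ x hu0] at h3
  rw [← h3]
  exact Ls_congr (mul_ne_zero hu0 hx) hy h1 h2 F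

theorem Ls_rel_sq {j : ℕ} (hj : 1 ≤ j) {τ : E} (hτ : τ ≠ 0) {F : R E → ℝ → ℂ} (hF : Inv2 j F)
    {x y : E} (hx : x ≠ 0) (hy : y ≠ 0) (h : Rel x y) :
    Ls j (x ^ 2 * τ) F = Ls j (y ^ 2 * τ) F := by
  obtain ⟨u, hu, h1, h2⟩ := h
  have hu0 := coe_ne hu.ne_zero
  have h0 : ((u : E) * x) ^ 2 * τ ≠ 0 := mul_ne_zero (pow_ne_zero 2 (mul_ne_zero hu0 hx)) hτ
  have h3 := Ls_unit hj h0 (hu.pow 2) hF.1
  have e : ((u : E) * x) ^ 2 * τ / ((u ^ 2 : R E) : E) = x ^ 2 * τ := by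
    push_cast
    field_simp
  simp only [hF.2 u _ _ hu, e] at h3
  rw [← h3]
  refine Ls_congr h0 (mul_ne_zero (pow_ne_zero 2 hy) hτ) ?_ ?_ F
  · rw [mul_div_mul_right _ _ hτ, ← div_pow]
    exact pow_mem h1 2
  · rw [mul_div_mul_right _ _ hτ, ← div_pow]
    exact pow_mem h2 2

theorem Col_mul {j : ℕ} (hj : 1 ≤ j) {F : R E → ℝ → ℂ}
    (hF : ∀ (u k : R E) (x : ℝ), IsUnit u → F (u * k) x = F k x) {z : E} (hz : z ≠ 0) :
    ∑ y ∈ Cl E, Ls j (y * z) F = ∑ y ∈ Cl E, Ls j y F :=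
  sum_Cl_mul (fun y => Ls j y F) (fun _ _ hx hy h => Ls_rel hj hF hx hy h) hz

theorem Col_div {j : ℕ} (hj : 1 ≤ j) {F : R E → ℝ → ℂ}
    (hF : ∀ (u k : R E) (x : ℝ), IsUnit u → F (u * k) x = F k x) {z : E} (hz : z ≠ 0) :
    ∑ y ∈ Cl E, Ls j (z / y) F = ∑ y ∈ Cl E, Ls j y F :=
  sum_Cl_div (fun y => Ls j y F) (fun _ _ hx hy h => Ls_rel hj hF hx hy h) hz

theorem Row_div {j : ℕ} (hj : 1 ≤ j) {τ : E} (hτ : τ ≠ 0) {F : R E → ℝ → ℂ} (hF : Inv2 j F)
    {z : E} (hz : z ≠ 0) : ∑ y ∈ Cl E, Ls j ((z / y) ^ 2 * τ) F = Row j τ F :=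
  sum_Cl_div (fun y => Ls j (y ^ 2 * τ) F) (fun _ _ hx hy h => Ls_rel_sq hj hτ hF hx hy h) hz

theorem Dom.summable {j : ℕ} (hj : 1 ≤ j) {t : E} (ht : t ≠ 0) {F : R E → ℝ → ℂ} (hF : Dom F) :
    Summable fun k : R E => if Lat j t k then F k (szl t k) else 0 := by
  obtain ⟨H, hH⟩ := hF
  obtain ⟨C, -, hC⟩ := cnt_Lat (E := E) hj
  refine Summable.of_norm_bounded (((hC t ht).summable_rpow one_lt_two).mul_left H) fun k => ?_
  split_ifs with hk
  · exact hH k _ (one_le_szl ht hk)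
  · simp

theorem Dom.of_gw {F : R E → ℝ → ℂ} {H Y : ℝ} (hY : 0 < Y)
    (h : ∀ k x, 1 ≤ x → ‖F k x‖ ≤ H * gw E (Y * x)) : Dom F := by
  obtain ⟨C, -, hC⟩ := gw_le_rpow (E := E) two_pos
  have hH : 0 ≤ H :=
    nonneg_of_mul_nonneg_left ((norm_nonneg _).trans (h 0 1 le_rfl)) (gw_pos _)
  refine ⟨H * C * Y ^ (-2 : ℝ), fun k x hx => ?_⟩
  have hx0 : 0 < x := one_pos.trans_le hx
  refine (h k x hx).trans ((mul_le_mul_of_nonneg_left (hC _ (mul_pos hY hx0)) hH).trans_eq ?_)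
  rw [Real.mul_rpow hY.le hx0.le]
  ring

theorem Dom.mono {F G : R E → ℝ → ℂ} (hF : Dom F) (h : ∀ k x, 1 ≤ x → ‖G k x‖ ≤ ‖F k x‖) :
    Dom G := by
  obtain ⟨H, hH⟩ := hF
  exact ⟨H, fun k x hx => (h k x hx).trans (hH k x hx)⟩

theorem Dom.const_mul {F : R E → ℝ → ℂ} (hF : Dom F) (c : ℂ) : Dom fun k x => c * F k x := by
  obtain ⟨H, hH⟩ := hF
  refine ⟨‖c‖ * H, fun k x hx => ?_⟩
  rw [norm_mul, mul_assoc]
  exact mul_le_mul_of_nonneg_left (hH k x hx) (norm_nonneg _)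

theorem Dom.add {F G : R E → ℝ → ℂ} (hF : Dom F) (hG : Dom G) : Dom fun k x => F k x + G k x := by
  obtain ⟨H, hH⟩ := hF
  obtain ⟨H', hH'⟩ := hG
  refine ⟨H + H', fun k x hx => ?_⟩
  rw [add_mul]
  exact (norm_add_le _ _).trans (add_le_add (hH k x hx) (hH' k x hx))

theorem Dom.sum {α : Type} (s : Finset α) {F : α → R E → ℝ → ℂ} (h : ∀ i ∈ s, Dom (F i)) :
    Dom fun k x => ∑ i ∈ s, F i k x := by
  induction s using Finset.induction_on with
  | empty => exact ⟨0, fun k x _ => by simp⟩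
  | insert a s ha ih =>
    simp only [Finset.sum_insert ha]
    exact (h a (Finset.mem_insert_self _ _)).add (ih fun i hi => h i (Finset.mem_insert_of_mem hi))

theorem Ls_add {j : ℕ} (hj : 1 ≤ j) {t : E} (ht : t ≠ 0) {F G : R E → ℝ → ℂ} (hF : Dom F)
    (hG : Dom G) : Ls j t (fun k x => F k x + G k x) = Ls j t F + Ls j t G := by
  rw [Ls, Ls, Ls, ← (hF.summable hj ht).tsum_add (hG.summable hj ht)]
  refine tsum_congr fun k => ?_
  split_ifs
  exacts [rfl, (add_zero _).symm]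

theorem Ls_sum {j : ℕ} (hj : 1 ≤ j) {t : E} (ht : t ≠ 0) {α : Type} (s : Finset α)
    {F : α → R E → ℝ → ℂ} (h : ∀ i ∈ s, Dom (F i)) :
    Ls j t (fun k x => ∑ i ∈ s, F i k x) = ∑ i ∈ s, Ls j t (F i) := by
  unfold Ls
  rw [← Summable.tsum_finsetSum fun i hi => (h i hi).summable hj ht]
  refine tsum_congr fun k => ?_
  split_ifs
  exacts [rfl, Finset.sum_const_zero.symm]

theorem Row_add {j : ℕ} (hj : 1 ≤ j) {τ : E} (hτ : τ ≠ 0) {F G : R E → ℝ → ℂ} (hF : Dom F)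
    (hG : Dom G) : Row j τ (fun k x => F k x + G k x) = Row j τ F + Row j τ G := by
  rw [Row, Row, Row, ← Finset.sum_add_distrib]
  exact Finset.sum_congr rfl fun y hy =>
    Ls_add hj (mul_ne_zero (pow_ne_zero 2 (Cl_spec.1 y hy)) hτ) hF hG

theorem Row_sum {j : ℕ} (hj : 1 ≤ j) {τ : E} (hτ : τ ≠ 0) {α : Type} (s : Finset α)
    {F : α → R E → ℝ → ℂ} (h : ∀ i ∈ s, Dom (F i)) :
    Row j τ (fun k x => ∑ i ∈ s, F i k x) = ∑ i ∈ s, Row j τ (F i) := by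
  unfold Row
  rw [Finset.sum_comm]
  exact Finset.sum_congr rfl fun y hy =>
    Ls_sum hj (mul_ne_zero (pow_ne_zero 2 (Cl_spec.1 y hy)) hτ) s h

/-- Legendre's sieve. -/
theorem Ls_sieve {j : ℕ} (hj : 1 ≤ j) {t : E} (ht : t ≠ 0) {S : Finset (R E)}
    (hS : ∀ p ∈ S, Nm p ∧ Prime p) {F : R E → ℝ → ℂ} (hF : Dom F) :
    Ls j t (fun k x => if ∀ p ∈ S, ¬ p ∣ k then F k x else 0) =
      ∑ T ∈ S.powerset, (-1) ^ T.card * Ls j t (fun k x => if (∏ p ∈ T, p) ∣ k then F k x else 0) := by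
  have e : ∀ (k : R E) (x : ℝ), (if ∀ p ∈ S, ¬ p ∣ k then F k x else 0) =
      ∑ T ∈ S.powerset, (-1) ^ T.card * (if (∏ p ∈ T, p) ∣ k then F k x else 0) := by
    intro k x
    have h1 := Finset.prod_one_add (f := fun p : R E => -(if p ∣ k then (1 : ℂ) else 0)) S
    have h2 : ∏ p ∈ S, (1 + -(if p ∣ k then (1 : ℂ) else 0)) =
        if ∀ p ∈ S, ¬ p ∣ k then 1 else 0 := by
      rw [← Finset.prod_boole]
      refine Finset.prod_congr rfl fun p _ => ?_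
      by_cases hp : p ∣ k <;> simp [hp]
    rw [h2] at h1
    rw [← boole_mul, h1, Finset.sum_mul]
    refine Finset.sum_congr rfl fun T hT => ?_
    rw [Finset.prod_neg, Finset.prod_boole, mul_assoc, boole_mul]
    simp only [prod_primes_dvd_iff fun q hq => hS q (Finset.mem_powerset.1 hT hq)]
  simp only [e]
  rw [Ls_sum hj ht]
  · exact Finset.sum_congr rfl fun T _ => Ls_mul_left _ _ _ _
  · refine fun T _ => (hF.mono fun k x _ => ?_).const_mul _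
    split_ifs <;> simp

theorem Row_sieve {j : ℕ} (hj : 1 ≤ j) {τ : E} (hτ : τ ≠ 0) {S : Finset (R E)}
    (hS : ∀ p ∈ S, Nm p ∧ Prime p) {F : R E → ℝ → ℂ} (hF : Dom F) :
    Row j τ (fun k x => if ∀ p ∈ S, ¬ p ∣ k then F k x else 0) =
      ∑ T ∈ S.powerset, (-1) ^ T.card *
        Row j τ (fun k x => if (∏ p ∈ T, p) ∣ k then F k x else 0) := by
  unfold Row
  simp only [Finset.mul_sum]
  rw [Finset.sum_comm]
  exact Finset.sum_congr rfl fun y hy =>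
    Ls_sieve hj (mul_ne_zero (pow_ne_zero 2 (Cl_spec.1 y hy)) hτ) hS hF

theorem th2_eq (j : ℕ) (Y : ℝ) :
    (th2 E j Y : ℂ) = ∑ y ∈ Cl E, Ls j y (fun _ x => (gw E (Y * x ^ 2) : ℂ)) := by
  simp only [th2, Ls, Complex.ofReal_sum, Complex.ofReal_tsum, apply_ite Complex.ofReal,
    Complex.ofReal_zero]

/-- `Ls_sieve`, `Ls_dvd`, `Col_mul`. -/
theorem Col_sieve {j : ℕ} (hj : 1 ≤ j) {z : E} (hz : z ≠ 0) {S : Finset (R E)}
    (hS : ∀ p ∈ S, Nm p ∧ Prime p) {Y : ℝ} (hY : 0 < Y) :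
    ∑ y ∈ Cl E, Ls j (y * z)
        (fun c x => if ∀ p ∈ S, ¬ p ∣ c then (gw E (Y * x ^ 2) : ℂ) else 0) =
      ∑ D ∈ S.powerset, (-1) ^ D.card * (th2 E j (Y * nP D ^ 2) : ℂ) := by
  have hD : Dom fun (_ : R E) (x : ℝ) => (gw E (Y * x ^ 2) : ℂ) := by
    refine Dom.of_gw (H := 1) hY fun _ x hx => ?_
    rw [one_mul, Complex.norm_real, Real.norm_of_nonneg (gw_pos _).le]
    exact gw_anti (by positivity) (mul_le_mul_of_nonneg_left (by nlinarith) hY.le)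
  rw [Finset.sum_congr rfl fun y hy => Ls_sieve hj (mul_ne_zero (Cl_spec.1 y hy) hz) hS hD,
    Finset.sum_comm]
  refine Finset.sum_congr rfl fun D hDS => ?_
  have hg : (∏ p ∈ D, p) ≠ 0 :=
    Finset.prod_ne_zero_iff.2 fun p hp => (hS p (Finset.mem_powerset.1 hDS hp)).2.ne_zero
  rw [← Finset.mul_sum, th2_eq, ← Col_mul hj (fun _ _ _ _ => rfl) (div_ne_zero hz (coe_ne hg))]
  congr 1
  refine Finset.sum_congr rfl fun y hy => ?_
  rw [Ls_dvd hj (mul_ne_zero (Cl_spec.1 y hy) hz) hg fun _ _ _ _ => rfl, mul_div_assoc, nq_prod]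
  simp only [mul_pow, mul_assoc]

/-! ## part B: Poisson summation and size estimates -/

/-- `PP1` at the scale `X √d`. -/
theorem PPs {j : ℕ} (hj : 1 ≤ j) : ∃ κ : ℝ, 0 < κ ∧
    ∀ (t : E) (c : R E) (f : R E → ℂ) (X : ℝ), t ≠ 0 → c ≠ 0 →
      (∀ x y, c ∣ x - y → f x = f y) → InvR j f → 0 < X →
      κ * f 0 + Ls j t (fun k x => f k * (gw E (x / X) : ℂ)) =
        ((X / nq c : ℝ) : ℂ) * (κ * ft c f 0 +
          Ls j (c / (t * dS E)) (fun k x => ft c f k * (gw E (X * x / nq c) : ℂ))) := by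
  obtain ⟨κ, hκ, H⟩ := PP1 (E := E) hj
  refine ⟨κ, hκ, fun t c f X ht hc hf hi hX => ?_⟩
  have hd := sqrt_dE_pos (E := E)
  have hn : 0 < nf (c : E) := nq_pos hc
  have e := H t c f (X * Real.sqrt (dE E)) ht hc hf hi (mul_pos hX hd)
  have e1 : X * Real.sqrt (dE E) / (Real.sqrt (dE E) * nf (c : E)) = X / nq c := by
    rw [nq]; field_simp
  have e2 : ∀ y : ℝ, X * Real.sqrt (dE E) * y / (dE E * nf (c : E)) =
      X * y / nq c / Real.sqrt (dE E) := fun y => by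
    have h2 : dE E = Real.sqrt (dE E) * Real.sqrt (dE E) :=
      (Real.mul_self_sqrt (abs_nonneg _)).symm
    generalize Real.sqrt (dE E) = r at hd h2
    rw [h2, nq]; field_simp
  have e3 : ∀ y : ℝ, y / (X * Real.sqrt (dE E)) = y / X / Real.sqrt (dE E) := fun y =>
    (div_div _ _ _).symm
  simp only [e1, e2, e3] at e
  exact e

/-- `cnt_Lat`, `tsum_rpow_le`, `gw_le_rpow`. -/
theorem Ls_tail {j : ℕ} (hj : 1 ≤ j) {A : ℝ} (hA : 1 < A) : ∃ C : ℝ, 0 < C ∧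
    ∀ (t : E) (F : R E → ℝ → ℂ) (W Y : ℝ), t ≠ 0 → 0 < W → 0 < Y →
      (∀ k, Lat j t k → ‖F k (szl t k)‖ ≤ if W ≤ szl t k then gw E (Y * szl t k) else 0) →
      ‖Ls j t F‖ ≤ C * (Y ^ (-A) * W ^ (1 - A)) := by
  obtain ⟨C₀, -, hC₀⟩ := cnt_Lat (E := E) hj
  obtain ⟨C₁, h₁, hC₁⟩ := tsum_rpow_le C₀ hA
  obtain ⟨C₂, h₂, hC₂⟩ := gw_le_rpow (E := E) (one_pos.trans hA)
  refine ⟨C₂ * C₁, mul_pos h₂ h₁, fun t F W Y ht hW hY hF => ?_⟩
  have hs : Summable fun k : R E =>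
      if Lat j t k ∧ W ≤ szl t k then szl t k ^ (-A) else 0 := by
    refine ((hC₀ t ht).summable_rpow hA).of_nonneg_of_le (fun k => ?_) fun k => ?_
    · split_ifs with h
      · exact Real.rpow_nonneg (zero_le_one.trans (one_le_szl ht h.1)) _
      · exact le_rfl
    · by_cases h : Lat j t k
      · rw [if_pos h]
        split_ifs
        · exact le_rfl
        · exact Real.rpow_nonneg (zero_le_one.trans (one_le_szl ht h)) _
      · rw [if_neg h, if_neg fun h' => h h'.1]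
  have hY' : 0 ≤ C₂ * Y ^ (-A) := by positivity
  calc _ ≤ ∑' k : R E, C₂ * Y ^ (-A) *
        (if Lat j t k ∧ W ≤ szl t k then szl t k ^ (-A) else 0) := by
        refine tsum_of_norm_bounded (hs.mul_left _).hasSum fun k => ?_
        by_cases h : Lat j t k
        · rw [if_pos h]
          refine (hF k h).trans ?_
          have hp : 0 < szl t k := one_pos.trans_le (one_le_szl ht h)
          by_cases h' : W ≤ szl t k
          · rw [if_pos h', if_pos ⟨h, h'⟩, mul_assoc, ← Real.mul_rpow hY.le hp.le]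
            exact hC₂ _ (mul_pos hY hp)
          · rw [if_neg h', if_neg fun h'' => h' h''.2, mul_zero]
        · rw [if_neg h, if_neg fun h' => h h'.1, mul_zero, norm_zero]
    _ ≤ C₂ * Y ^ (-A) * (C₁ * W ^ (1 - A)) := by
        rw [tsum_mul_left]
        exact mul_le_mul_of_nonneg_left (hC₁ _ _ (hC₀ t ht) W hW) hY'
    _ = _ := by ring

theorem LatB_summable {j : ℕ} (hj : 1 ≤ j) {t : E} (ht : t ≠ 0) {f : R E → ℝ} {H : ℝ}
    (hf : ∀ k, 0 ≤ f k ∧ f k ≤ H) {X : ℝ} (hX : 0 < X) :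
    Summable fun k : R E => if Lat j t k then f k * gw E (szl t k / X) else 0 := by
  have := summable_Gw hj ht (f := fun k => (f k : ℂ)) (H := H) (fun k => by
    rw [Complex.norm_real, Real.norm_of_nonneg (hf k).1]; exact (hf k).2)
    (mul_pos hX (sqrt_dE_pos (E := E)))
  refine this.congr fun k => ?_
  split_ifs
  · rw [← Complex.ofReal_mul, Complex.norm_real,
      Real.norm_of_nonneg (mul_nonneg (hf k).1 (Gw_pos _).le), gw, div_div]
  · exact norm_zero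

theorem LatB_re (j : ℕ) (t : E) (f : R E → ℝ) (X : ℝ) :
    (Ls j t (fun k x => ((f k * gw E (x / X) : ℝ) : ℂ))).re =
      ∑' k : R E, if Lat j t k then f k * gw E (szl t k / X) else 0 := by
  rw [← Complex.ofReal_re (∑' k : R E, _), Complex.ofReal_tsum, Ls]
  congr 2
  funext k
  split_ifs <;> simp

/-- `tsum_Gw_le`. -/
theorem Ls_le {j : ℕ} (hj : 1 ≤ j) : ∃ C : ℝ, 0 < C ∧
    ∀ (t : E) (F : R E → ℝ → ℂ) (X : ℝ), t ≠ 0 → 0 < X →
      (∀ k, Lat j t k → ‖F k (szl t k)‖ ≤ gw E (szl t k / X)) → ‖Ls j t F‖ ≤ C * X := by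
  obtain ⟨C, hC, H⟩ := tsum_Gw_le (E := E) hj 0
  have hd := sqrt_dE_pos (E := E)
  refine ⟨C * Real.sqrt (dE E), mul_pos hC hd, fun t F X ht hX hF => ?_⟩
  have hs := LatB_summable hj ht (f := fun _ => 1) (H := 1) (fun _ => ⟨zero_le_one, le_rfl⟩) hX
  simp only [one_mul] at hs
  calc _ ≤ ∑' k : R E, (if Lat j t k then gw E (szl t k / X) else 0) := by
        refine tsum_of_norm_bounded hs.hasSum fun k => ?_
        split_ifs with h
        · exact hF k h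
        · exact norm_zero.le
    _ ≤ C * (X * Real.sqrt (dE E)) := by
        have := (H t _ ht (mul_pos hX hd)).trans (mul_le_mul_of_nonneg_left (min_le_left _ _) hC.le)
        simpa only [gw, div_div] using this
    _ = _ := by ring

theorem Ls_re_nonneg (j : ℕ) (t : E) {f : R E → ℝ} (hf : ∀ k, 0 ≤ f k) (X : ℝ) :
    0 ≤ (Ls j t (fun k x => ((f k * gw E (x / X) : ℝ) : ℂ))).re := by
  rw [LatB_re]
  refine tsum_nonneg fun k => ?_
  split_ifs
  · exact mul_nonneg (hf k) (gw_pos _).le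
  · exact le_rfl

theorem Row_re_nonneg (j : ℕ) (τ : E) {f : R E → ℝ} (hf : ∀ k, 0 ≤ f k) (X : ℝ) :
    0 ≤ (Row j τ (fun k x => ((f k * gw E (x / X) : ℝ) : ℂ))).re := by
  rw [Row, Complex.re_sum]
  exact Finset.sum_nonneg fun _ _ => Ls_re_nonneg j _ hf X

/-- `sum_nms_le`, `gw_anti`. -/
theorem le_Ls {j : ℕ} (hj : 1 ≤ j) : ∃ c : ℝ, 1 ≤ c ∧ ∀ (M X H : ℝ) (f : R E → ℝ), 0 < M → 0 < X →
    (∀ k, 0 ≤ f k ∧ f k ≤ H) → (∀ u k, IsUnit u → f (u * k) = f k) →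
    gw E (c * M / X) * ∑ k ∈ nms M, f k ≤
      (Ls j 1 (fun k x => ((f k * gw E (x / X) : ℝ) : ℂ))).re := by
  obtain ⟨c, hc, H⟩ := sum_nms_le (E := E) hj
  refine ⟨c, hc, fun M X B f hM hX hf hu => ?_⟩
  rw [LatB_re]
  calc _ ≤ gw E (c * M / X) * ∑ k ∈ lats j (1 : E) (c * M), f (nrm k) :=
        mul_le_mul_of_nonneg_left (H M f fun k => (hf k).1) (gw_pos _).le
    _ ≤ ∑ k ∈ lats j (1 : E) (c * M),
          (if Lat j (1 : E) k then f k * gw E (szl (1 : E) k / X) else 0) := by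
        rw [Finset.mul_sum]
        refine Finset.sum_le_sum fun k hk => ?_
        obtain ⟨h1, h2⟩ := (mem_lats hj one_ne_zero).1 hk
        have hk0 : k ≠ 0 := fun e => h1.1.1 (by rw [e]; rfl)
        obtain ⟨u, e⟩ := associated_nrm hk0
        have e' : f (nrm k) = f k := by rw [← hu _ _ u.isUnit, mul_comm, e]
        rw [if_pos h1, e', mul_comm]
        exact mul_le_mul_of_nonneg_left (gw_anti
          (div_pos (one_pos.trans_le (one_le_szl one_ne_zero h1)) hX)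
          (div_le_div_of_nonneg_right h2 hX.le)) (hf k).1
    _ ≤ _ := by
        refine (LatB_summable hj one_ne_zero hf hX).sum_le_tsum _ fun k _ => ?_
        split_ifs
        · exact mul_nonneg (hf k).1 (gw_pos _).le
        · exact le_rfl

/-- `le_Ls`, `Ls_rel_sq` for the representative of the class of `1`, `Ls_re_nonneg`. -/
theorem le_Row {j : ℕ} (hj : 1 ≤ j) : ∃ c : ℝ, 1 ≤ c ∧ ∀ (M X H : ℝ) (f : R E → ℝ), 0 < M → 0 < X →
    (∀ k, 0 ≤ f k ∧ f k ≤ H) → (∀ u k, IsUnit u → f (u * k) = f k) →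
    gw E (c * M / X) * ∑ k ∈ nms M, f k ≤
      (Row j 1 (fun k x => ((f k * gw E (x / X) : ℝ) : ℂ))).re := by
  obtain ⟨c, hc, H⟩ := le_Ls (E := E) hj
  refine ⟨c, hc, fun M X B f hM hX hf hu => (H M X B f hM hX hf hu).trans ?_⟩
  obtain ⟨y, ⟨hy, hr⟩, -⟩ := (Cl_spec (E := E)).2 1 one_ne_zero
  have hI : Inv2 j fun (k : R E) (x : ℝ) => ((f k * gw E (x / X) : ℝ) : ℂ) := by
    refine ⟨fun u k x h => ?_, fun u k x h => ?_⟩
    · have : IsUnit u := IsUnit.of_mul_eq_one ⟨(u : E)⁻¹, h.2.2⟩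
        (Subtype.ext (mul_inv_cancel₀ (h.ne_zero hj)))
      simp only [hu u k this]
    · simp only [hu _ k (h.pow 2)]
  have e := Ls_rel_sq hj one_ne_zero hI one_ne_zero ((Cl_spec (E := E)).1 y hy) hr
  rw [one_pow, one_mul] at e
  rw [e, Row, Complex.re_sum]
  exact Finset.single_le_sum (f := fun y : E =>
    (Ls j (y ^ 2 * 1) fun (k : R E) (x : ℝ) => ((f k * gw E (x / X) : ℝ) : ℂ)).re)
    (fun _ _ => Ls_re_nonneg j _ (fun k => (hf k).1) X) hy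

end Crest.Agent.R312.LS2
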