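import Crest.Agent.R312.LSPois
import Crest.Agent.R312.LSEval

/-!
# Row 312, module LS (quadratic large sieve): the sum over the rows with large kernel for a pair of columns
-/

set_option autoImplicit false

noncomputable section

namespace Crest.Agent.R312.LS2

open NumberField
open scoped ComplexConjugate
open Classical

variable {E : Type} [Field E] [NumberField E] [Fr E]

theorem dom_pair {X : ℝ} (hX : 0 < X) (n₁ n₂ : R E) :
    Dom (fun (k : R E) (x : ℝ) => (gw E (x / X) : ℂ) * (quad n₁ k * quad n₂ k)) := by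
  refine Dom.of_gw (H := 1) (Y := X⁻¹) (inv_pos.2 hX) fun k x _ => ?_
  rw [norm_mul, norm_mul, Complex.norm_real, Real.norm_of_nonneg (gw_pos _).le, one_mul,
    ← div_eq_inv_mul]
  exact mul_le_of_le_one_right (gw_pos _).le
    (mul_le_one₀ (norm_quad_le _ _) (norm_nonneg _) (norm_quad_le _ _))

theorem pair_quad_sq {n : R E} (h : n ≠ 0) (a c : R E) :
    quad n (a * c ^ 2) = if ∀ p ∈ pf n, ¬ p ∣ c then quad n a else 0 := by
  rw [quad_mul_right, quad_pow_right, quad_sq_eq h]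
  split_ifs <;> simp

theorem pair_row {j : ℕ} (hj : 1 ≤ j) {z : E} (hz : z ≠ 0) {ν X : ℝ} (hν : 0 < ν) (hX : 0 < X)
    {n₁ n₂ : R E} (h₁ : n₁ ≠ 0) (h₂ : n₂ ≠ 0) (a : R E) :
    ∑ y ∈ Cl E, Ls j (y * z) (fun c x =>
        (gw E (ν * x ^ 2 / X) : ℂ) * (quad n₁ (a * c ^ 2) * quad n₂ (a * c ^ 2))) =
      origA n₁ n₂ a ν (fun y => (th2 E j (y / X) : ℂ)) := by
  have hS : ∀ p ∈ pf n₁ ∪ pf n₂, Nm p ∧ Prime p := fun p hp => by
    rcases Finset.mem_union.1 hp with h | h <;> exact pf_sub h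
  have hs := Col_sieve hj hz hS (div_pos hν hX)
  have e1 : (fun (c : R E) (x : ℝ) =>
      (gw E (ν * x ^ 2 / X) : ℂ) * (quad n₁ (a * c ^ 2) * quad n₂ (a * c ^ 2))) =
      fun c x => quad n₁ a * quad n₂ a * (if ∀ p ∈ pf n₁ ∪ pf n₂, ¬ p ∣ c then
        (gw E (ν / X * x ^ 2) : ℂ) else 0) := by
    funext c x
    have e : ν * x ^ 2 / X = ν / X * x ^ 2 := by ring
    rw [pair_quad_sq h₁, pair_quad_sq h₂, e]
    simp only [Finset.forall_mem_union]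
    by_cases k₁ : ∀ p ∈ pf n₁, ¬ p ∣ c <;> by_cases k₂ : ∀ p ∈ pf n₂, ¬ p ∣ c
    · rw [if_pos k₁, if_pos k₂, if_pos ⟨k₁, k₂⟩]; ring
    · rw [if_neg k₂, if_neg (c := _ ∧ _) fun h => k₂ h.2]; ring
    · rw [if_neg k₁, if_neg (c := _ ∧ _) fun h => k₁ h.1]; ring
    · rw [if_neg k₁, if_neg (c := _ ∧ _) fun h => k₁ h.1]; ring
  rw [e1]
  simp only [Ls_mul_left]
  rw [← Finset.mul_sum, hs, origA]
  congr 1
  refine Finset.sum_congr rfl fun T _ => ?_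
  rw [show ν / X * nP T ^ 2 = ν * nP T ^ 2 / X by ring]

theorem pair_origA_sub (n₁ n₂ a : R E) (ν : ℝ) (f g : ℝ → ℂ) :
    origA n₁ n₂ a ν (fun y => f y - g y) = origA n₁ n₂ a ν f - origA n₁ n₂ a ν g := by
  simp only [origA, mul_sub, Finset.sum_sub_distrib]

theorem pair_dualA_sub (n₁ n₂ a : R E) (ν : ℝ) (f g : ℝ → ℂ) :
    dualA n₁ n₂ a ν (fun y => f y - g y) = dualA n₁ n₂ a ν f - dualA n₁ n₂ a ν g := by
  simp only [dualA, dualB, mul_sub, Finset.sum_sub_distrib]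

theorem Row_not_mem {j : ℕ} (hj : 1 ≤ j) {τ : E} (hτ : τ ≠ 0) {F : R E → ℝ → ℂ} (hF : Dom F)
    (P : Set (R E)) : Row j τ (fun k x => if k ∈ P then 0 else F k x) =
      Row j τ F - Row j τ (fun k x => if k ∈ P then F k x else 0) := by
  rw [eq_sub_iff_add_eq, ← Row_add hj hτ]
  · congr 1
    funext k x
    split_ifs <;> simp
  · refine hF.mono fun k x _ => ?_
    split_ifs <;> simp
  · refine hF.mono fun k x _ => ?_
    split_ifs <;> simp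

/-- Original side. -/
theorem orig_eq {j : ℕ} (hj : Lev E j) (W : ℝ) {τ : E} (hτ : τ ≠ 0) {X : ℝ} (hX : 0 < X)
    {n₁ n₂ : R E} (h₁ : n₁ ≠ 0) (h₂ : n₂ ≠ 0) :
    nuK E j * Row j τ (fun k x =>
        if k ∈ PK W then (gw E (x / X) : ℂ) * (quad n₁ k * quad n₂ k) else 0) =
      ∑ a ∈ sqf j W, origA n₁ n₂ a (Nt τ a) (fun y => (th2 E j (y / X) : ℂ)) := by
  rw [Row_kernel hj.one_le W hτ (fun u k x hu => by
    rw [hj.invR_quad n₁ u k hu, hj.invR_quad n₂ u k hu]) (dom_pair hX n₁ n₂)]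
  refine Finset.sum_congr rfl fun a ha => ?_
  have ha0 := ne_zero_of_mem_sqf hj.one_le ha
  exact pair_row hj.one_le (tk_spec (div_ne_zero (coe_ne ha0) hτ)).1 (Nt_pos hτ ha0) hX h₁ h₂ a

theorem pair_est {j : ℕ} (hj : Lev E j) {A : ℝ} (hA : 1 < A) : ∃ C : ℝ, 0 < C ∧
    ∀ (t : E) (κ W X : ℝ) (n₁ n₂ : R E), 0 < W → 0 < X → SP n₁ → SP n₂ →
      InCl j t n₁ → InCl j t n₂ →
      ‖nuK E j * (Row j 1 (fun k x =>
            if k ∈ PK W then 0 else (gw E (x / X) : ℂ) * (quad n₁ k * quad n₂ k)) +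
          Row j (dS E)⁻¹ (fun k x =>
            if k ∈ PK W then 0 else (gw E (x / X) : ℂ) * (quad n₁ k * quad n₂ k))) -
        ∑ a ∈ sqf j W, ((X : ℂ) * dual2 n₁ n₂ a (fun y => (Er E j κ (y * X) : ℂ)) -
          orig2 n₁ n₂ a (fun y => (Er E j κ (y / X) : ℂ)))‖ ≤
        C * 2 ^ (pf n₁).card * ((if n₁ = n₂ then 1 + X else 0) +
          X * ((X / (nq n₁ * nq n₂)) ^ (-A) * W ^ (1 - A))) := by
  obtain ⟨C, hC, hd⟩ := dual_est hj hA
  refine ⟨2 * C, by positivity, fun t κ W X n₁ n₂ hW hX h₁ h₂ c₁ c₂ => ?_⟩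
  have hδ : (dS E)⁻¹ ≠ 0 := inv_ne_zero dS_ne_zero
  have d₁ := hd 1 t W X n₁ n₂ one_ne_zero hW hX h₁ h₂ c₁ c₂
  have d₂ := hd (dS E)⁻¹ t W X n₁ n₂ hδ hW hX h₁ h₂ c₁ c₂
  rw [one_mul] at d₁
  rw [inv_mul_cancel₀ dS_ne_zero, inv_one] at d₂
  have e2 : ∀ a ∈ sqf j W, (X : ℂ) * dual2 n₁ n₂ a (fun y => (Er E j κ (y * X) : ℂ)) -
      orig2 n₁ n₂ a (fun y => (Er E j κ (y / X) : ℂ)) =
      ((X : ℂ) * dualA n₁ n₂ a (Nt (dS E)⁻¹ a) (fun y => (th2 E j (y * X) : ℂ)) +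
        (X : ℂ) * dualA n₁ n₂ a (Nt 1 a) (fun y => (th2 E j (y * X) : ℂ))) -
        (origA n₁ n₂ a (Nt 1 a) (fun y => (th2 E j (y / X) : ℂ)) +
          origA n₁ n₂ a (Nt (dS E)⁻¹ a) (fun y => (th2 E j (y / X) : ℂ))) := by
    intro a ha
    have ha0 := ne_zero_of_mem_sqf hj.one_le ha
    have k₁ := main_cancel (a := a) κ hX h₁ h₂ (Nt_pos one_ne_zero ha0)
    have k₂ := main_cancel (a := a) κ hX h₁ h₂ (Nt_pos hδ ha0)
    simp only [Er, Complex.ofReal_sub, dual2, orig2]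
    rw [pair_origA_sub, pair_origA_sub, pair_dualA_sub, pair_dualA_sub, ← k₁, ← k₂]
    ring
  rw [Row_not_mem hj.one_le one_ne_zero (dom_pair hX n₁ n₂),
    Row_not_mem hj.one_le hδ (dom_pair hX n₁ n₂), Finset.sum_congr rfl e2, Finset.sum_sub_distrib,
    Finset.sum_add_distrib, Finset.sum_add_distrib,
    ← orig_eq hj W one_ne_zero hX (ne_zero_of_SP h₁) (ne_zero_of_SP h₂),
    ← orig_eq hj W hδ hX (ne_zero_of_SP h₁) (ne_zero_of_SP h₂), ← Finset.mul_sum, ← Finset.mul_sum]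
  refine le_trans (le_of_eq ?_) ((norm_add_le _ _).trans ((add_le_add d₁ d₂).trans_eq (by ring)))
  congr 1
  ring

end Crest.Agent.R312.LS2
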