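import Crest.Agent.R312.LSKer

/-!
# Row 312, module LS (quadratic large sieve): Poisson summation for a pair of columns
-/

set_option autoImplicit false

noncomputable section

namespace Crest.Agent.R312.LS2

open NumberField
open scoped ComplexConjugate
open Classical

variable {E : Type} [Field E] [NumberField E] [Fr E]

theorem Pois_ft {q : R E} (hs : Squarefree q) (hg : g2 q = 1) (h : R E) :
    ft q (quad q) h = quad q h * (Real.sqrt (nq q) : ℂ) := by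
  have h2 : (Real.sqrt (nf (q : E)) : ℂ) ≠ 0 := by
    exact_mod_cast (Real.sqrt_pos.2 (nq_pos hs.ne_zero)).ne'
  have h3 : gs 3 q 1 / (Real.sqrt (nf (q : E)) : ℂ) = 1 := (g2_eq_gam hs).symm.trans hg
  rw [div_eq_one_iff_eq h2] at h3
  rw [← gs_three, gs_sqfree (by norm_num) hs, sym_pow_three, conj_quad, h3, nq]

/-- For each `y`: `Ls_dvd`, `PPs` with `t = y² τ / e`, `c = q`, scale `X / nq e`; the dual lattice
`q e / (y² τ δ)` equals the lattice `(z e / y)² (τ δ)⁻¹ / e` (`Ls_congr`); `Ls_dvd` backwards, then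
`Row_div`. -/
theorem Pois_step {j : ℕ} (hj : Lev E j) : ∃ κ : ℝ, 0 < κ ∧ ∀ (τ z : E) (q e : R E) (X : ℝ),
    τ ≠ 0 → Squarefree q → Ty j (z ^ 2) (q : E) → e ≠ 0 → 0 < X →
    κ * (quad q e * quad q 0) +
        Row j τ (fun k x => if e ∣ k then quad q k * (gw E (x / X) : ℂ) else 0) =
      ((X / (nq e * Real.sqrt (nq q)) : ℝ) : ℂ) * (κ * (quad q e * quad q 0) +
        Row j (τ * dS E)⁻¹ (fun k x =>
          if e ∣ k then quad q k * (gw E (X * x / (nq e ^ 2 * nq q)) : ℂ) else 0)) := by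
  have hj1 := hj.one_le
  obtain ⟨κ, hκ, H⟩ := PPs (E := E) hj1
  obtain ⟨y₀, ⟨hy₀, -⟩, -⟩ := (Cl_spec (E := E)).2 1 one_ne_zero
  have hc : (0 : ℝ) < (Cl E).card := by exact_mod_cast Finset.card_pos.2 ⟨y₀, hy₀⟩
  refine ⟨(Cl E).card * κ, by positivity, fun τ z q e X hτ hs hq he hX => ?_⟩
  have hq0 := hs.ne_zero
  have hz : z ≠ 0 := fun h => (hq.ne_zero hj1).1 (by simp [h])
  have hδ := dS_ne_zero (E := E)
  have heE := coe_ne he
  have hqE := coe_ne hq0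
  have hNe := nq_pos he
  have hNq := nq_pos hq0
  have hsq := Real.sqrt_pos.2 hNq
  have hI : ∀ w : ℝ → ℂ, Inv1 j fun k x => quad q k * w x := fun w u k x hu => by
    simp only [hj.invR_quad q u k hu]
  have hI2 : Inv2 j fun k x =>
      if e ∣ k then quad q k * (gw E (X * x / (nq e ^ 2 * nq q)) : ℂ) else 0 := by
    refine ⟨fun u k x hu => ?_, fun u k x hu => ?_⟩
    · simp only [hj.invR_quad q u k hu, ((V_iff_isUnit hj1).1 hu).1.dvd_mul_left]
    · simp only [quad_unit_sq q hu, (hu.pow 2).dvd_mul_left]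
  rw [← Row_div hj1 (inv_ne_zero (mul_ne_zero hτ hδ)) hI2 (mul_ne_zero hz heE), Row]
  have hsum : ∀ (c : ℂ) (f : E → ℂ), (((Cl E).card * κ : ℝ) : ℂ) * c + ∑ y ∈ Cl E, f y =
      ∑ y ∈ Cl E, (κ * c + f y) := fun c f => by
    rw [Finset.sum_add_distrib, Finset.sum_const, nsmul_eq_mul]
    push_cast
    ring
  rw [hsum, hsum, Finset.mul_sum]
  refine Finset.sum_congr rfl fun y hy => ?_
  have hy0 := (Cl_spec (E := E)).1 y hy
  have ht : y ^ 2 * τ ≠ 0 := mul_ne_zero (pow_ne_zero _ hy0) hτ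
  have ht' : (z * e / y) ^ 2 * (τ * dS E)⁻¹ ≠ 0 :=
    mul_ne_zero (pow_ne_zero _ (div_ne_zero (mul_ne_zero hz heE) hy0))
      (inv_ne_zero (mul_ne_zero hτ hδ))
  have h1 := H (y ^ 2 * τ / e) q (quad q) (X / nq e) (div_ne_zero ht heE) hq0
    (fun x y h => quad_congr h) (hj.invR_quad q) (div_pos hX hNe)
  rw [Ls_congr (t' := (z * e / y) ^ 2 * (τ * dS E)⁻¹ / e)
    (div_ne_zero hqE (mul_ne_zero (div_ne_zero ht heE) hδ)) (div_ne_zero ht' heE)
    (by convert hq.div_mem_OS using 1; field_simp)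
    (by convert (hq.symm hj1).div_mem_OS using 1; field_simp)] at h1
  simp only [Pois_ft hs (hj.g2_sq hq)] at h1
  rw [Ls_dvd hj1 ht he (hI fun x => (gw E (x / X) : ℂ)),
    Ls_dvd hj1 ht' he (hI fun x => (gw E (X * x / (nq e ^ 2 * nq q)) : ℂ))]
  have e1 : (fun (k : R E) (x : ℝ) => quad q (e * k) * (gw E (nq e * x / X) : ℂ)) =
      fun k x => quad q e * (quad q k * (gw E (x / (X / nq e)) : ℂ)) := by
    funext k x
    rw [quad_mul_right, mul_assoc]
    congr 4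
    field_simp
  have e2 : (fun (k : R E) (x : ℝ) =>
      quad q (e * k) * (gw E (X * (nq e * x) / (nq e ^ 2 * nq q)) : ℂ)) =
      fun k x => quad q e * (quad q k * (gw E (X / nq e * x / nq q) : ℂ)) := by
    funext k x
    rw [quad_mul_right, mul_assoc]
    congr 4
    field_simp
  have e3 : (fun (k : R E) (x : ℝ) =>
      quad q k * (Real.sqrt (nq q) : ℂ) * (gw E (X / nq e * x / nq q) : ℂ)) =
      fun k x => (Real.sqrt (nq q) : ℂ) * (quad q k * (gw E (X / nq e * x / nq q) : ℂ)) := by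
    funext k x
    ring
  rw [e3, Ls_mul_left] at h1
  rw [e1, e2, Ls_mul_left, Ls_mul_left]
  have h6 : ((X / (nq e * Real.sqrt (nq q)) : ℝ) : ℂ) =
      ((X / nq e / nq q : ℝ) : ℂ) * (Real.sqrt (nq q) : ℂ) := by
    rw [← Complex.ofReal_mul]
    congr 1
    rw [div_div, div_mul_eq_mul_div, div_eq_div_iff (by positivity) (by positivity)]
    linear_combination (-(X * nq e)) * Real.mul_self_sqrt hNq.le
  rw [h6]
  linear_combination quad q e * h1

theorem Pois_kernel {j : ℕ} (hj : Lev E j) {q a : R E} (hq : q ≠ 0) {J : Finset (R E)}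
    (hJ : ∀ p ∈ J, Nm p ∧ Prime p) (hd : Disjoint J (pf q)) {z : E} (hz : z ≠ 0) {ν X : ℝ}
    (hν : 0 < ν) (hX : 0 < X) :
    ∑ y ∈ Cl E, Ls j (y * z) (fun c x => if (∏ p ∈ J, p) ∣ a * c ^ 2 then quad q (a * c ^ 2) *
      (gw E (X * (ν * x ^ 2) / (nq (∏ p ∈ J, p) ^ 2 * nq q)) : ℂ) else 0) =
      quad q a * ∑ D ∈ (pf q).powerset, (-1) ^ D.card *
        (th2 E j (ν * nP D ^ 2 / (nP (J.filter (· ∣ a)) ^ 2 * nq q) * X) : ℂ) := by
  have hj1 := hj.one_le
  set J₂ := J.filter (fun p => ¬ p ∣ a) with hJ₂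
  have hJ₂' : ∀ p ∈ J₂, Nm p ∧ Prime p := fun p hp => hJ p (Finset.filter_subset _ _ hp)
  obtain ⟨-, hp₂, hpf₂⟩ := squarefree_prod_primes hJ₂'
  have hg := hp₂.ne_zero
  have hN₁ : 0 < nP (J.filter (· ∣ a)) :=
    nP_pos fun p hp => (hJ p (Finset.filter_subset _ _ hp)).2.ne_zero
  have hN₂ : 0 < nP J₂ := nP_pos fun p hp => (hJ₂' p hp).2.ne_zero
  have hNE : nq (∏ p ∈ J, p) = nP (J.filter (· ∣ a)) * nP J₂ := by
    rw [nq_prod, nP, nP, nP, Finset.prod_filter_mul_prod_filter_not]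
  have hNq := nq_pos hq
  have h3 : quad q (∏ p ∈ J₂, p) ^ 2 = 1 := by
    refine quad_sq (isCoprime_of_disjoint_pf hq hg ?_)
    rw [hpf₂]
    exact (hd.mono_left (Finset.filter_subset _ _)).symm
  have hY0 : 0 < ν / (nP (J.filter (· ∣ a)) ^ 2 * nq q) * X := by positivity
  have h1 := Col_sieve hj1 (div_ne_zero hz (coe_ne hg)) (S := pf q) (fun p hp => pf_sub hp) hY0
  have h2 : ∀ D : Finset (R E), ν * nP D ^ 2 / (nP (J.filter (· ∣ a)) ^ 2 * nq q) * X =
      ν / (nP (J.filter (· ∣ a)) ^ 2 * nq q) * X * nP D ^ 2 := fun D => by ring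
  simp only [h2]
  rw [← h1, Finset.mul_sum]
  refine Finset.sum_congr rfl fun y hy => ?_
  have hy0 := (Cl_spec (E := E)).1 y hy
  simp only [prod_dvd_mul_sq_iff hJ a, ← hJ₂]
  rw [Ls_dvd hj1 (mul_ne_zero hy0 hz) hg (F := fun c x => quad q (a * c ^ 2) *
      (gw E (X * (ν * x ^ 2) / (nq (∏ p ∈ J, p) ^ 2 * nq q)) : ℂ)) fun u k x hu => by
    simp only [mul_pow, mul_left_comm a, quad_unit_sq q ((V_iff_isUnit hj1).1 hu).1],
    mul_div_assoc, ← Ls_mul_left]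
  congr 1
  funext c x
  have h4 : X * (ν * (nq (∏ p ∈ J₂, p) * x) ^ 2) / (nq (∏ p ∈ J, p) ^ 2 * nq q) =
      ν / (nP (J.filter (· ∣ a)) ^ 2 * nq q) * X * x ^ 2 := by
    rw [nq_prod J₂, hNE]
    field_simp
  rw [h4, quad_mul_right, quad_pow_right, quad_mul_right, mul_pow, h3, one_mul, quad_sq_eq hq]
  split_ifs <;> simp

theorem PoisB_norm_le (q k : R E) (x : ℝ) : ‖quad q k * (gw E x : ℂ)‖ ≤ gw E x := by
  rw [norm_mul, Complex.norm_real, Real.norm_of_nonneg (gw_pos x).le]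
  exact mul_le_of_le_one_left (gw_pos x).le (norm_quad_le q k)

/-- Dual side: Poisson summation modulo the associate `q = u₁ u₂ m₁ m₂` of type `(t / g)²`. -/
theorem dual_est {j : ℕ} (hj : Lev E j) {A : ℝ} (hA : 1 < A) : ∃ C : ℝ, 0 < C ∧
    ∀ (τ t : E) (W X : ℝ) (n₁ n₂ : R E), τ ≠ 0 → 0 < W → 0 < X → SP n₁ → SP n₂ →
      InCl j t n₁ → InCl j t n₂ →
      ‖nuK E j * Row j τ (fun k x => (gw E (x / X) : ℂ) * (quad n₁ k * quad n₂ k)) -
          (X : ℂ) * ∑ a ∈ sqf j W,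
            dualA n₁ n₂ a (Nt (τ * dS E)⁻¹ a) (fun y => (th2 E j (y * X) : ℂ))‖ ≤
        C * 2 ^ (pf n₁).card * ((if n₁ = n₂ then 1 + X else 0) +
          X * ((X / (nq n₁ * nq n₂)) ^ (-A) * W ^ (1 - A))) := by
  have hj1 := hj.one_le
  obtain ⟨κ, hκ, hP⟩ := Pois_step hj
  obtain ⟨C, hC, hT⟩ := Ls_tail (E := E) hj1 hA
  have hnu : (0 : ℝ) < nuK E j := by exact_mod_cast nuK_pos (E := E) hj1
  refine ⟨nuK E j * (κ + (Cl E).card * C), by positivity, ?_⟩
  rintro τ t W X n₁ n₂ hτ hW hX h₁ h₂ ⟨u₁, hu₁, ht₁⟩ ⟨u₂, hu₂, ht₂⟩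
  simp only [dualA]
  set G := pf n₁ ∩ pf n₂ with hG
  set m₁ := cof G n₁ with hm₁
  set m₂ := cof G n₂ with hm₂
  have hτ' : (τ * dS E)⁻¹ ≠ 0 := inv_ne_zero (mul_ne_zero hτ dS_ne_zero)
  have hG₁ : G ⊆ pf n₁ := Finset.inter_subset_left
  have hG₂ : G ⊆ pf n₂ := Finset.inter_subset_right
  have hGp : ∀ p ∈ G, Nm p ∧ Prime p := fun p hp => pf_sub (hG₁ hp)
  have e₁ : (∏ p ∈ G, p) * m₁ = n₁ := prod_mul_cof h₁ hG₁
  have e₂ : (∏ p ∈ G, p) * m₂ = n₂ := prod_mul_cof h₂ hG₂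
  have s₁ : SP m₁ := SP_cof G n₁
  have s₂ : SP m₂ := SP_cof G n₂
  have sg : SP (∏ p ∈ G, p) := SP_prod hG₁
  have hz₁ := ne_zero_of_SP s₁
  have hz₂ := ne_zero_of_SP s₂
  have hzg := ne_zero_of_SP sg
  have hN₁ := one_le_nq hz₁
  have hN₂ := one_le_nq hz₂
  have hcop : IsCoprime m₁ m₂ := by
    refine isCoprime_of_disjoint_pf hz₁ hz₂ ?_
    rw [hm₁, hm₂, pf_cof, pf_cof, Finset.disjoint_left]
    intro p hp hp'
    exact (Finset.mem_sdiff.1 hp).2
      (Finset.mem_inter.2 ⟨(Finset.mem_sdiff.1 hp).1, (Finset.mem_sdiff.1 hp').1⟩)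
  obtain ⟨q, hqd⟩ : ∃ q : R E, q = u₁ * u₂ * (m₁ * m₂) := ⟨_, rfl⟩
  have hqa : Associated q (m₁ * m₂) := hqd ▸ associated_unit_mul_left _ _ (hu₁.mul hu₂)
  have hqs : Squarefree q := hqa.squarefree_iff.2
    ((squarefree_mul_iff).2 ⟨hcop.isRelPrime, s₁.2, s₂.2⟩)
  have hq0 : q ≠ 0 := hqs.ne_zero
  have hpq : pf q = pf m₁ ∪ pf m₂ := (pf_of_associated hqa).trans (pf_mul hz₁ hz₂)
  have hquad : ∀ k, quad q k = quad m₁ k * quad m₂ k := fun k =>
    (quad_of_associated hqa k).trans (quad_mul_left hz₁ hz₂ k)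
  have hdis : Disjoint G (pf q) := by
    rw [hpq, hm₁, hm₂, pf_cof, pf_cof, Finset.disjoint_union_right]
    exact ⟨Finset.disjoint_sdiff, Finset.disjoint_sdiff⟩
  have hTy : Ty j ((t / ((∏ p ∈ G, p : R E) : E)) ^ 2) (q : E) := by
    have h1 := ht₁.mul ht₂
    have h2 : (u₁ : E) * n₁ * (u₂ * n₂) = ((∏ p ∈ G, p : R E) : E) ^ 2 * q := by
      have : u₁ * n₁ * (u₂ * n₂) = (∏ p ∈ G, p) ^ 2 * q := by
        rw [hqd]
        conv_lhs => rw [← e₁, ← e₂]
        ring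
      exact_mod_cast congrArg (fun x : R E => (x : E)) this
    rwa [h2, Ty_mul_iff, ← sq, ← div_pow] at h1
  have hNq : nq q = nq m₁ * nq m₂ := (nf_of_associated hqa).trans (nq_mul _ _)
  have hNq1 : 1 ≤ nq q := one_le_nq hq0
  -- the sieve and Poisson summation
  let φ : Finset (R E) → R E → ℝ → ℂ := fun J k x => if (∏ p ∈ J, p) ∣ k then quad q k *
    (gw E (X * x / (nq (∏ p ∈ J, p) ^ 2 * nq q)) : ℂ) else 0
  let w : Finset (R E) → ℝ := fun J => X / (nq (∏ p ∈ J, p) * Real.sqrt (nq q))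
  let z : Finset (R E) → ℂ := fun J => κ * (quad q (∏ p ∈ J, p) * quad q 0)
  have hE0 : ∀ J ∈ G.powerset, (∏ p ∈ J, p) ≠ 0 := fun J hJ =>
    Finset.prod_ne_zero_iff.2 (ne_zero_of_subset_pf ((Finset.mem_powerset.1 hJ).trans hG₁))
  have hφ : ∀ J k x, ‖φ J k x‖ ≤ gw E (X * x / (nq (∏ p ∈ J, p) ^ 2 * nq q)) := fun J k x => by
    simp only [φ]
    split_ifs
    · exact PoisB_norm_le _ _ _
    · rw [norm_zero]
      exact (gw_pos _).le
  have hφs : ∀ J ∈ G.powerset, Dom (φ J) := fun J hJ => by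
    have := nq_pos (hE0 J hJ)
    refine Dom.of_gw (H := 1) (Y := X / (nq (∏ p ∈ J, p) ^ 2 * nq q)) (by positivity)
      fun k x _ => ?_
    rw [one_mul, div_mul_eq_mul_div]
    exact hφ J k x
  have hφi : ∀ J, Inv1 j (φ J) := fun J u k x hu => by
    simp only [φ]
    rw [if_congr (((V_iff_isUnit hj1).1 hu).1.dvd_mul_left) rfl rfl, hj.invR_quad q u k hu]
  have hA' : Row j τ (fun k x => (gw E (x / X) : ℂ) * (quad n₁ k * quad n₂ k)) =
      ∑ J ∈ G.powerset, (-1) ^ J.card *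
        ((w J : ℂ) * (z J + Row j (τ * dS E)⁻¹ (φ J)) - z J) := by
    have h1 : (fun (k : R E) (x : ℝ) => (gw E (x / X) : ℂ) * (quad n₁ k * quad n₂ k)) = fun k x =>
        if ∀ p ∈ G, ¬ p ∣ k then quad q k * (gw E (x / X) : ℂ) else 0 := by
      funext k x
      have h2 := quad_sq_eq hzg k
      rw [pf_prod hG₁] at h2
      have h3 : quad n₁ k * quad n₂ k = quad (∏ p ∈ G, p) k ^ 2 * quad q k := by
        conv_lhs => rw [← e₁, ← e₂]
        rw [quad_mul_left hzg hz₁, quad_mul_left hzg hz₂, hquad]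
        ring
      rw [h3, h2]
      split_ifs <;> simp [mul_comm]
    rw [h1, Row_sieve hj1 hτ hGp (Dom.of_gw (H := 1) (Y := X⁻¹) (by positivity) fun k x _ => by
      rw [one_mul, ← div_eq_inv_mul]
      exact PoisB_norm_le _ _ _)]
    refine Finset.sum_congr rfl fun J hJ => ?_
    rw [← hP τ _ q _ X hτ hqs hTy (hE0 J hJ) hX]
    simp only [z]
    ring
  have hB : (X : ℂ) * ∑ a ∈ sqf j W,
      dualB G m₁ m₂ a (Nt (τ * dS E)⁻¹ a) (fun y => (th2 E j (y * X) : ℂ)) =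
      ∑ J ∈ G.powerset, (-1) ^ J.card * ((w J : ℂ) *
        (nuK E j * Row j (τ * dS E)⁻¹ fun k x => if k ∈ PK W then φ J k x else 0)) := by
    simp only [dualB]
    rw [Finset.sum_comm, Finset.mul_sum]
    refine Finset.sum_congr rfl fun J hJ => ?_
    have hJ' := Finset.mem_powerset.1 hJ
    rw [Row_kernel hj1 W hτ' (hφi J) (hφs J hJ), Finset.mul_sum, Finset.mul_sum, Finset.mul_sum]
    refine Finset.sum_congr rfl fun a ha => ?_
    have ha0 := ne_zero_of_mem_sqf hj1 ha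
    simp only [φ]
    rw [Pois_kernel hj hq0 (fun p hp => hGp p (hJ' hp)) (hdis.mono_left hJ')
      (tk_spec (div_ne_zero (coe_ne ha0) hτ')).1 (Nt_pos hτ' ha0) hX, hpq, hquad]
    simp only [w, nq_prod, hNq, Real.sqrt_mul (zero_le_one.trans hN₁), mul_assoc]
    push_cast
    ring
  have hNn : 0 < nq n₁ * nq n₂ := mul_pos (nq_pos h₁.1.ne_zero) (nq_pos h₂.1.ne_zero)
  set Q : ℝ := (X / (nq n₁ * nq n₂)) ^ (-A) * W ^ (1 - A) with hQ
  have hQ0 : 0 ≤ Q := by positivity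
  have hrest : ∀ J ∈ G.powerset,
      ‖Row j (τ * dS E)⁻¹ fun k x => if k ∈ PK W then 0 else φ J k x‖ ≤
        (Cl E).card * (C * Q) := fun J hJ => by
    rw [← nsmul_eq_mul]
    refine (norm_sum_le _ _).trans (Finset.sum_le_card_nsmul _ _ _ fun y hy => ?_)
    have hy0 : y ^ 2 * (τ * dS E)⁻¹ ≠ 0 := mul_ne_zero (pow_ne_zero 2 (Cl_spec.1 y hy)) hτ'
    refine hT _ _ W _ hy0 hW (div_pos hX hNn) fun k hk => ?_
    have hk0 : k ≠ 0 := fun h => hk.1.1 (by rw [h]; rfl)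
    have hs := one_le_szl hy0 hk
    by_cases hk' : k ∈ PK W
    · rw [if_pos hk', norm_zero]
      split_ifs
      · exact (gw_pos _).le
      · exact le_rfl
    rw [if_neg hk', if_pos ((lt_nq_of_not_mem_PK hk0 hk').le.trans (nf_le_szl hy0 hk))]
    refine (hφ J k _).trans (gw_anti (by positivity) ?_)
    have h5 := nq_pos (hE0 J hJ)
    have h6 : nq (∏ p ∈ J, p) ≤ nq (∏ p ∈ G, p) := by
      rw [nq_prod, nq_prod]
      exact nP_mono (Finset.mem_powerset.1 hJ) (ne_zero_of_subset_pf hG₁)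
    rw [div_mul_eq_mul_div]
    refine div_le_div_of_nonneg_left (by positivity) (by positivity) ?_
    conv_rhs => rw [← e₁, ← e₂]
    rw [nq_mul (∏ p ∈ G, p), nq_mul (∏ p ∈ G, p), hNq]
    calc nq (∏ p ∈ J, p) ^ 2 * (nq m₁ * nq m₂) ≤ nq (∏ p ∈ G, p) ^ 2 * (nq m₁ * nq m₂) := by
          gcongr
      _ = _ := by ring
  have hsplit : ∀ J ∈ G.powerset, Row j (τ * dS E)⁻¹ (φ J) =
      (Row j (τ * dS E)⁻¹ fun k x => if k ∈ PK W then φ J k x else 0) +
        Row j (τ * dS E)⁻¹ fun k x => if k ∈ PK W then 0 else φ J k x := fun J hJ => by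
    rw [← Row_add hj1 hτ']
    · congr 1
      funext k x
      split_ifs <;> simp
    · refine (hφs J hJ).mono fun k x _ => ?_
      split_ifs <;> simp
    · refine (hφs J hJ).mono fun k x _ => ?_
      split_ifs <;> simp
  have hz : ∀ J, ‖z J‖ ≤ κ * if n₁ = n₂ then 1 else 0 := fun J => by
    simp only [z]
    rw [norm_mul, Complex.norm_real, Real.norm_of_nonneg hκ.le]
    refine mul_le_mul_of_nonneg_left ?_ hκ.le
    split_ifs with hn
    · rw [norm_mul]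
      exact mul_le_one₀ (norm_quad_le _ _) (norm_nonneg _) (norm_quad_le _ _)
    · have h5 : quad q 0 = 0 := by
        refine (quad_eq_zero_iff hq0).2 fun h => hn ?_
        rw [isCoprime_zero_right, hqa.isUnit_iff] at h
        rw [← e₁, ← e₂, s₁.1.eq_one_of_isUnit (isUnit_of_mul_isUnit_left h),
          s₂.1.eq_one_of_isUnit (isUnit_of_mul_isUnit_right h)]
      simp [h5]
  rw [hA', hB, Finset.mul_sum, ← Finset.sum_sub_distrib]
  have hterm : ∀ J ∈ G.powerset, ‖nuK E j * ((-1) ^ J.card *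
      ((w J : ℂ) * (z J + Row j (τ * dS E)⁻¹ (φ J)) - z J)) - (-1) ^ J.card * ((w J : ℂ) *
        (nuK E j * Row j (τ * dS E)⁻¹ fun k x => if k ∈ PK W then φ J k x else 0))‖ ≤
      nuK E j * (κ + (Cl E).card * C) * ((if n₁ = n₂ then 1 + X else 0) + X * Q) := fun J hJ => by
    have h1 : nuK E j * ((-1) ^ J.card *
        ((w J : ℂ) * (z J + Row j (τ * dS E)⁻¹ (φ J)) - z J)) - (-1) ^ J.card * ((w J : ℂ) *
          (nuK E j * Row j (τ * dS E)⁻¹ fun k x => if k ∈ PK W then φ J k x else 0)) =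
        nuK E j * (-1) ^ J.card * ((w J : ℂ) * z J - z J + (w J : ℂ) *
          Row j (τ * dS E)⁻¹ fun k x => if k ∈ PK W then 0 else φ J k x) := by
      rw [hsplit J hJ]
      ring
    have h2 := one_le_nq (hE0 J hJ)
    have h3 : 1 ≤ Real.sqrt (nq q) := Real.one_le_sqrt.2 hNq1
    have h5 : 0 ≤ w J := by positivity
    have h6 : w J ≤ X := div_le_self hX.le (one_le_mul_of_one_le_of_one_le h2 h3)
    rw [h1, norm_mul, norm_mul, norm_pow, norm_neg, norm_one, one_pow, mul_one,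
      Complex.norm_natCast, mul_assoc]
    refine mul_le_mul_of_nonneg_left ?_ hnu.le
    refine (norm_add_le _ _).trans ((add_le_add_left (norm_sub_le _ _) _).trans ?_)
    rw [norm_mul (w J : ℂ), norm_mul (w J : ℂ), Complex.norm_real, Real.norm_of_nonneg h5]
    have h7 := mul_le_mul h6 (hz J) (norm_nonneg _) hX.le
    have h8 := mul_le_mul h6 (hrest J hJ) (norm_nonneg _) hX.le
    have h9 := hz J
    have h10 : 0 ≤ κ * (X * Q) := by positivity
    have h11 : 0 ≤ ((Cl E).card : ℝ) * C * (1 + X) := by positivity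
    split_ifs at h7 h9 ⊢ <;> linarith
  refine (norm_sum_le _ _).trans ((Finset.sum_le_card_nsmul _ _ _ hterm).trans ?_)
  rw [Finset.card_powerset, nsmul_eq_mul, Nat.cast_pow, Nat.cast_ofNat]
  have h0 : 0 ≤ (if n₁ = n₂ then 1 + X else 0) + X * Q := by positivity
  calc (2 : ℝ) ^ G.card * (nuK E j * (κ + (Cl E).card * C) *
        ((if n₁ = n₂ then 1 + X else 0) + X * Q)) ≤ 2 ^ (pf n₁).card *
        (nuK E j * (κ + (Cl E).card * C) * ((if n₁ = n₂ then 1 + X else 0) + X * Q)) := by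
        gcongr
        norm_num
    _ = _ := by ring

end Crest.Agent.R312.LS2
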