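import Crest.Agent.R312.Arch

/-!
# Row 312: systems of representatives of `D⁻¹ 𝓞 / D 𝓞` (auxiliary lemmas for `Mean`, part A)
-/

set_option autoImplicit false

noncomputable section

namespace Crest.Agent.R312

open NumberField

variable {E : Type} [Field E] [NumberField E]

theorem mA1_int (n : ℕ) : IsIntegral ℤ (n : E) := by
  exact_mod_cast isIntegral_algebraMap (x := (n : ℤ))

theorem mA1_card (k : ℕ) :
    Nat.card (𝓞 E ⧸ Ideal.span {(k : 𝓞 E)}) = k ^ Module.finrank ℚ E := by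
  rw [← Submodule.cardQuot_apply, ← Ideal.absNorm_apply, Ideal.absNorm_span_natCast,
    RingOfIntegers.rank]

theorem mA1_card_sq (D : ℕ) :
    Nat.card (𝓞 E ⧸ Ideal.span {(D : 𝓞 E) ^ 2}) = D ^ (2 * Module.finrank ℚ E) := by
  rw [← Nat.cast_pow, mA1_card, pow_mul]

theorem mA1_finite {k : ℕ} (hk : k ≠ 0) : Finite (𝓞 E ⧸ Ideal.span {(k : 𝓞 E)}) :=
  Nat.finite_of_card_ne_zero (by rw [mA1_card]; exact pow_ne_zero _ hk)

theorem mA1_finite_sq {D : ℕ} (hD : D ≠ 0) : Finite (𝓞 E ⧸ Ideal.span {(D : 𝓞 E) ^ 2}) :=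
  Nat.finite_of_card_ne_zero (by rw [mA1_card_sq]; exact pow_ne_zero _ hD)

/-- Congruence modulo a nonzero element of `𝓞`. -/
theorem mA1_mk_eq {c : 𝓞 E} (hc : c ≠ 0) (a b : 𝓞 E) :
    Ideal.Quotient.mk (Ideal.span {c}) a = Ideal.Quotient.mk (Ideal.span {c}) b ↔
      IsIntegral ℤ (((a : E) - b) / c) := by
  have hc' : (c : E) ≠ 0 := by simpa using hc
  rw [Ideal.Quotient.eq, Ideal.mem_span_singleton]
  constructor
  · rintro ⟨z, hz⟩
    have h1 : ((a : E) - b) / c = z := by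
      have := congrArg (algebraMap (𝓞 E) E) hz
      simp only [map_sub, map_mul] at this
      rw [div_eq_iff hc', mul_comm]
      exact this
    rw [h1]
    exact z.isIntegral_coe
  · intro h
    refine ⟨⟨_, h⟩, ?_⟩
    apply RingOfIntegers.ext
    simp only [map_sub, map_mul]
    change (a : E) - b = c * (((a : E) - b) / c)
    field_simp

/-- `T` contains exactly one element of each class of `D⁻¹ 𝓞 / D 𝓞`. -/
def mA1_Reps (D : ℕ) (T : Finset E) : Prop :=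
  ∀ x, IsIntegral ℤ ((D : E) * x) → ∃! t, t ∈ T ∧ IsIntegral ℤ ((x - t) / D)

open Classical in
theorem mA1_count {D k : ℕ} (hD : D ≠ 0) (hk : k ≠ 0) {T : Finset E} (hT : mA1_Reps (D * k) T)
    {s : E} (hs : IsIntegral ℤ ((D : E) * s)) :
    (T.filter fun t => IsIntegral ℤ ((t - s) / D)).card = k ^ Module.finrank ℚ E := by
  have hD' : (D : E) ≠ 0 := Nat.cast_ne_zero.2 hD
  have hk' : (k : E) ≠ 0 := Nat.cast_ne_zero.2 hk
  have hk'' : (k : 𝓞 E) ≠ 0 := Nat.cast_ne_zero.2 hk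
  rw [← mA1_card, ← Nat.card_eq_finsetCard]
  have hint : ∀ t : E, IsIntegral ℤ ((t - s) / D) → IsIntegral ℤ (((D * k : ℕ) : E) * t) := by
    intro t ht
    have h1 : ((D * k : ℕ) : E) * t = k * (D * s + D * (D * ((t - s) / D))) := by
      push_cast
      field_simp
      ring
    rw [h1]
    exact (mA1_int k).mul (hs.add ((mA1_int D).mul ((mA1_int D).mul ht)))
  refine Nat.card_congr (Equiv.ofBijective (fun t => Ideal.Quotient.mk (Ideal.span {(k : 𝓞 E)})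
    ⟨(t.1 - s) / D, (Finset.mem_filter.1 t.2).2⟩) ⟨?_, ?_⟩)
  · rintro ⟨t, ht⟩ ⟨u, hu⟩ h
    have h1 := (mA1_mk_eq hk'' _ _).1 h
    obtain ⟨ht1, ht2⟩ := Finset.mem_filter.1 ht
    obtain ⟨hu1, hu2⟩ := Finset.mem_filter.1 hu
    refine Subtype.ext ((hT t (hint t ht2)).unique ⟨ht1, ?_⟩ ⟨hu1, ?_⟩)
    · simpa using isIntegral_zero
    · have h2 : (t - u) / ((D * k : ℕ) : E) = ((t - s) / D - (u - s) / D) / k := by
        push_cast
        field_simp
        ring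
      rw [h2]
      simpa using h1
  · intro q
    obtain ⟨z, rfl⟩ := Ideal.Quotient.mk_surjective q
    have h0 : (s + D * (z : E) - s) / D = z := by field_simp; ring
    obtain ⟨t, ⟨ht, ht'⟩, -⟩ := hT (s + D * (z : E)) (hint _ (by rw [h0]; exact z.isIntegral_coe))
    have h1 : (t - s) / D = (z : E) - k * ((s + D * (z : E) - t) / ((D * k : ℕ) : E)) := by
      push_cast
      field_simp
      ring
    refine ⟨⟨t, Finset.mem_filter.2 ⟨ht, ?_⟩⟩, (mA1_mk_eq hk'' _ _).2 ?_⟩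
    · rw [h1]
      exact z.isIntegral_coe.sub ((mA1_int k).mul ht')
    · have h2 : ((t - s) / D - (z : E)) / k = -((s + D * (z : E) - t) / ((D * k : ℕ) : E)) := by
        rw [h1]
        field_simp
        ring
      have := ht'.neg
      rw [← h2] at this
      simpa using this

theorem mA1_congr {D : ℕ} {φ : E → ℂ} (h : PerD D φ) {t s : E} (hts : IsIntegral ℤ ((t - s) / D)) :
    φ t = φ s := by
  have hD' : (D : E) ≠ 0 := Nat.cast_ne_zero.2 h.1
  rw [← h.2.2 s _ hts]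
  congr 1
  field_simp
  ring

theorem mA1_sum_mul {D k : ℕ} {φ : E → ℂ} (h : PerD D φ) (hk : k ≠ 0) {T S : Finset E}
    (hT : mA1_Reps (D * k) T) (hS : mA1_Reps D S) :
    ∑ t ∈ T, φ t = (k : ℂ) ^ Module.finrank ℚ E * ∑ s ∈ S, φ s := by
  classical
  have h1 : ∀ t ∈ T, φ t = ∑ s ∈ S, if IsIntegral ℤ ((t - s) / D) then φ s else 0 := by
    intro t _
    by_cases h0 : φ t = 0
    · rw [h0]
      refine (Finset.sum_eq_zero fun s _ => ?_).symm
      split_ifs with hs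
      · rw [← mA1_congr h hs, h0]
      · rfl
    · obtain ⟨s, ⟨hs, hs'⟩, hu⟩ := hS t (h.2.1 t h0)
      rw [Finset.sum_eq_single_of_mem s hs, if_pos hs', mA1_congr h hs']
      intro u hu' hne
      rw [if_neg fun hi => hne (hu u ⟨hu', hi⟩)]
  rw [Finset.sum_congr rfl h1, Finset.sum_comm, Finset.mul_sum]
  refine Finset.sum_congr rfl fun s _ => ?_
  by_cases h0 : φ s = 0
  · simp [h0]
  · rw [← Finset.sum_filter, Finset.sum_const, mA1_count h.1 hk hT (h.2.1 s h0), nsmul_eq_mul,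
      Nat.cast_pow]

theorem mA1_out_inj {D : ℕ} (hD : D ≠ 0) : Function.Injective
    fun q : 𝓞 E ⧸ Ideal.span {(D : 𝓞 E) ^ 2} => ((Quotient.out q : 𝓞 E) : E) / D := by
  intro q r h
  have hD' : (D : E) ≠ 0 := Nat.cast_ne_zero.2 hD
  have h1 : ((Quotient.out q : 𝓞 E) : E) = ((Quotient.out r : 𝓞 E) : E) :=
    (div_left_inj' hD').1 h
  exact Quotient.out_injective (RingOfIntegers.ext h1)

/-- The representatives which occur in the definition of `MnL`. -/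
theorem mA1_std {D : ℕ} (hD : D ≠ 0) : ∃ T : Finset E,
    T.card = D ^ (2 * Module.finrank ℚ E) ∧ (∀ t ∈ T, IsIntegral ℤ ((D : E) * t)) ∧
    mA1_Reps D T ∧ ∀ φ : E → ℂ, ∑ᶠ q : 𝓞 E ⧸ Ideal.span {((D : 𝓞 E)) ^ 2},
      φ (((Quotient.out q : 𝓞 E) : E) / D) = ∑ t ∈ T, φ t := by
  have hD' : (D : E) ≠ 0 := Nat.cast_ne_zero.2 hD
  have hD2 : (D : 𝓞 E) ^ 2 ≠ 0 := pow_ne_zero _ (Nat.cast_ne_zero.2 hD)
  haveI := mA1_finite_sq (E := E) hD
  haveI := Fintype.ofFinite (𝓞 E ⧸ Ideal.span {(D : 𝓞 E) ^ 2})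
  refine ⟨Finset.univ.map ⟨_, mA1_out_inj hD⟩, ?_, ?_, ?_, ?_⟩
  · rw [Finset.card_map, Finset.card_univ, ← Nat.card_eq_fintype_card, mA1_card_sq]
  · intro t ht
    obtain ⟨q, -, rfl⟩ := Finset.mem_map.1 ht
    change IsIntegral ℤ ((D : E) * (((Quotient.out q : 𝓞 E) : E) / D))
    rw [mul_div_cancel₀ _ hD']
    exact RingOfIntegers.isIntegral_coe _
  · intro x hx
    have key : ∀ q : 𝓞 E ⧸ Ideal.span {(D : 𝓞 E) ^ 2},
        IsIntegral ℤ ((x - ((Quotient.out q : 𝓞 E) : E) / D) / D) ↔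
          Ideal.Quotient.mk (Ideal.span {(D : 𝓞 E) ^ 2}) ⟨D * x, hx⟩ = q := by
      intro q
      conv_rhs => rw [← Ideal.Quotient.mk_out q]
      rw [mA1_mk_eq hD2]
      have h1 : (x - ((Quotient.out q : 𝓞 E) : E) / D) / D =
          (D * x - ((Quotient.out q : 𝓞 E) : E)) / (D : E) ^ 2 := by
        field_simp
      rw [h1]
      simp
    refine ⟨_, ⟨Finset.mem_map_of_mem _ (Finset.mem_univ _), (key _).2 rfl⟩, ?_⟩
    rintro t ⟨ht, ht'⟩
    obtain ⟨q, -, rfl⟩ := Finset.mem_map.1 ht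
    rw [(key q).1 ht']
  · intro φ
    rw [finsum_eq_sum_of_fintype, Finset.sum_map]
    rfl

theorem mA1_MnL {D : ℕ} {φ : E → ℂ} (h : PerD D φ) {T : Finset E} (hT : mA1_Reps D T) :
    MnL D φ = (((Real.sqrt |(discr E : ℝ)| * (D : ℝ) ^ Module.finrank ℚ E)⁻¹ : ℝ) : ℂ) *
      ∑ t ∈ T, φ t := by
  obtain ⟨S, -, -, hS, hS'⟩ := mA1_std (E := E) h.1
  have h1 := mA1_sum_mul h one_ne_zero (T := S) (by rwa [mul_one]) hT
  rw [MnL, hS', h1]
  simp

theorem mA1_MnL_mul {D k : ℕ} {φ : E → ℂ} (h : PerD D φ) (hk : k ≠ 0) :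
    MnL (D * k) φ = MnL D φ := by
  obtain ⟨S, -, -, hS, hS'⟩ := mA1_std (E := E) h.1
  obtain ⟨T, -, -, hT, hT'⟩ := mA1_std (E := E) (mul_ne_zero h.1 hk)
  rw [MnL, MnL, hS', hT', mA1_sum_mul h hk hT hS, ← mul_assoc]
  congr 1
  have hk' : (k : ℂ) ≠ 0 := Nat.cast_ne_zero.2 hk
  push_cast
  rw [mul_pow, ← mul_assoc, mul_inv, mul_assoc, inv_mul_cancel₀ (pow_ne_zero _ hk'), mul_one]

theorem mA1_Mn_eq {D : ℕ} {φ : E → ℂ} (h : PerD D φ) : Mn φ = MnL D φ := by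
  refine Filter.Tendsto.limUnder_eq (tendsto_const_nhds.congr' ?_)
  filter_upwards [Filter.eventually_ge_atTop D] with k hk
  obtain ⟨l, hl⟩ := Nat.dvd_factorial (Nat.pos_of_ne_zero h.1) hk
  have hl0 : l ≠ 0 := by
    rintro rfl
    exact k.factorial_ne_zero (by rw [hl, mul_zero])
  rw [hl, mA1_MnL_mul h hl0]

end Crest.Agent.R312
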