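import Crest.Agent.R312.Char
import Crest.Agent.R312.Box
import Crest.Agent.R312.MeanAux1

/-!
# Row 312: mean values of periodic functions, `S`-adic integrals
-/

set_option autoImplicit false

noncomputable section

namespace Crest.Agent.R312

open NumberField
open scoped ComplexConjugate

/-! ## part A: the mean value `Mn` -/

section A
variable {E : Type} [Field E] [NumberField E]

/-- Periodic functions (no condition on the support). -/
def Prd (ψ : E → ℂ) : Prop :=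
  ∃ D : ℕ, D ≠ 0 ∧ ∀ x y, IsIntegral ℤ y → ψ (x + D * y) = ψ x

theorem PerD.mul_level {D k : ℕ} {φ : E → ℂ} (h : PerD D φ) (hk : k ≠ 0) : PerD (D * k) φ := by
  refine ⟨mul_ne_zero h.1 hk, fun x hx => ?_, fun x y hy => ?_⟩
  · rw [Nat.cast_mul, mul_comm (D : E), mul_assoc]
    exact (mA1_int k).mul (h.2.1 x hx)
  · rw [Nat.cast_mul, mul_assoc]
    exact h.2.2 x _ ((mA1_int k).mul hy)
/-- Write `q mod (Dk)²` as `k q₀ + D² k q₁`: the other classes do not meet the support. -/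
theorem MnL_mul {D k : ℕ} {φ : E → ℂ} (h : PerD D φ) (hk : k ≠ 0) : MnL (D * k) φ = MnL D φ :=
  mA1_MnL_mul h hk
theorem Mn_eq {D : ℕ} {φ : E → ℂ} (h : PerD D φ) : Mn φ = MnL D φ := mA1_Mn_eq h
/-- Any system of representatives of `D⁻¹ 𝓞 / D 𝓞` can be used. -/
theorem Mn_eq_sum {D : ℕ} {φ : E → ℂ} (h : PerD D φ) (T : Finset E)
    (hT : ∀ x, IsIntegral ℤ ((D : E) * x) → ∃! t, t ∈ T ∧ IsIntegral ℤ ((x - t) / D)) :
    Mn φ = (((Real.sqrt |(discr E : ℝ)| * (D : ℝ) ^ Module.finrank ℚ E)⁻¹ : ℝ) : ℂ) *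
      ∑ t ∈ T, φ t := by
  rw [Mn_eq h, mA1_MnL h hT]
theorem exists_reps {D : ℕ} (hD : D ≠ 0) : ∃ T : Finset E,
    T.card = D ^ (2 * Module.finrank ℚ E) ∧ (∀ t ∈ T, IsIntegral ℤ ((D : E) * t)) ∧
    ∀ x, IsIntegral ℤ ((D : E) * x) → ∃! t, t ∈ T ∧ IsIntegral ℤ ((x - t) / D) := by
  obtain ⟨T, h1, h2, h3, -⟩ := mA1_std (E := E) hD
  exact ⟨T, h1, h2, h3⟩
theorem Per.common {φ ψ : E → ℂ} (h : Per φ) (h' : Per ψ) : ∃ D, PerD D φ ∧ PerD D ψ := by
  obtain ⟨D, h⟩ := h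
  obtain ⟨D', h'⟩ := h'
  exact ⟨D * D', h.mul_level h'.1, mul_comm D' D ▸ h'.mul_level h.1⟩
theorem Per.prd {φ : E → ℂ} (h : Per φ) : Prd φ := by
  obtain ⟨D, h⟩ := h
  exact ⟨D, h.1, h.2.2⟩
theorem Per.bdd {φ : E → ℂ} (h : Per φ) : ∃ B : ℝ, ∀ x, ‖φ x‖ ≤ B := by
  obtain ⟨D, h⟩ := h
  obtain ⟨T, -, -, hT⟩ := exists_reps (E := E) h.1
  refine ⟨∑ t ∈ T, ‖φ t‖, fun x => ?_⟩
  by_cases h0 : φ x = 0
  · rw [h0, norm_zero]
    exact Finset.sum_nonneg fun _ _ => norm_nonneg _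
  · obtain ⟨t, ⟨ht, ht'⟩, -⟩ := hT x (h.2.1 x h0)
    rw [mA1_congr h ht']
    exact Finset.single_le_sum (f := fun t => ‖φ t‖) (fun _ _ => norm_nonneg _) ht
theorem per_zero : Per (fun _ : E => (0 : ℂ)) :=
  ⟨1, one_ne_zero, fun _ h => absurd rfl h, fun _ _ _ => rfl⟩
theorem Per.add {φ ψ : E → ℂ} (h : Per φ) (h' : Per ψ) : Per fun x => φ x + ψ x := by
  obtain ⟨D, h, h'⟩ := h.common h'
  refine ⟨D, h.1, fun x hx => ?_, fun x y hy => by simp only [h.2.2 x y hy, h'.2.2 x y hy]⟩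
  by_cases h0 : φ x = 0
  · refine h'.2.1 x fun h1 => hx ?_
    simp only [h0, h1, add_zero]
  · exact h.2.1 x h0
theorem Per.sum {α : Type} (s : Finset α) {φ : α → E → ℂ} (h : ∀ i ∈ s, Per (φ i)) :
    Per fun x => ∑ i ∈ s, φ i x := by
  classical
  induction s using Finset.induction_on with
  | empty => simpa using per_zero
  | insert a s ha ih =>
    simp only [Finset.sum_insert ha]
    exact (h a (Finset.mem_insert_self _ _)).add
      (ih fun i hi => h i (Finset.mem_insert_of_mem hi))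
private theorem mA1_prd_mul {D : ℕ} {ψ : E → ℂ} (h : ∀ x y, IsIntegral ℤ y → ψ (x + D * y) = ψ x)
    (k : ℕ) (x y : E) (hy : IsIntegral ℤ y) : ψ (x + (D * k : ℕ) * y) = ψ x := by
  rw [Nat.cast_mul, mul_assoc]
  exact h x _ ((mA1_int k).mul hy)
theorem Per.mul_prd {φ ψ : E → ℂ} (h : Per φ) (h' : Prd ψ) : Per fun x => φ x * ψ x := by
  obtain ⟨D, h⟩ := h
  obtain ⟨D', hD', h'⟩ := h'
  have h1 := h.mul_level hD'
  refine ⟨D * D', h1.1, fun x hx => h1.2.1 x (left_ne_zero_of_mul hx), fun x y hy => ?_⟩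
  have h2 := mA1_prd_mul h' D x y hy
  rw [mul_comm D' D] at h2
  simp only [h1.2.2 x y hy, h2]
theorem Per.const_mul {φ : E → ℂ} (h : Per φ) (c : ℂ) : Per fun x => c * φ x := by
  obtain ⟨D, h⟩ := h
  exact ⟨D, h.1, fun x hx => h.2.1 x (right_ne_zero_of_mul hx),
    fun x y hy => by simp only [h.2.2 x y hy]⟩
theorem Per.conj {φ : E → ℂ} (h : Per φ) : Per fun x => conj (φ x) := by
  obtain ⟨D, h⟩ := h
  exact ⟨D, h.1, fun x hx => h.2.1 x fun h0 => hx (by simp only [h0, map_zero]),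
    fun x y hy => by simp only [h.2.2 x y hy]⟩
private theorem mA1_prd_affine {D k : ℕ} {ψ : E → ℂ}
    (h : ∀ x y, IsIntegral ℤ y → ψ (x + D * y) = ψ x) {a : E} (hk : IsIntegral ℤ ((k : E) * a))
    (b x y : E) (hy : IsIntegral ℤ y) : ψ (a * (x + (D * k : ℕ) * y) + b) = ψ (a * x + b) := by
  rw [← h (a * x + b) _ (hk.mul hy)]
  congr 1
  push_cast
  ring
theorem Per.affine {φ : E → ℂ} (h : Per φ) {a : E} (ha : a ≠ 0) (b : E) :
    Per fun x => φ (a * x + b) := by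
  obtain ⟨D, h⟩ := h
  obtain ⟨k, hk0, hk⟩ := exists_nat_mul_isIntegral a
  obtain ⟨l, hl0, hl⟩ := exists_nat_mul_isIntegral b
  obtain ⟨i, hi0, hi⟩ := exists_nat_mul_isIntegral a⁻¹
  refine ⟨D * (k * (l * i)), mul_ne_zero h.1 (mul_ne_zero hk0 (mul_ne_zero hl0 hi0)),
    fun x hx => ?_, fun x y hy => mA1_prd_affine h.2.2 ?_ b x y hy⟩
  · have h1 : ((D * (k * (l * i)) : ℕ) : E) * x =
        k * (i * a⁻¹ * (l * (D * (a * x + b)) - D * (l * b))) := by
      push_cast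
      field_simp
      ring
    rw [h1]
    exact (mA1_int k).mul (hi.mul (((mA1_int l).mul (h.2.1 _ hx)).sub ((mA1_int D).mul hl)))
  · rw [mul_comm k, Nat.cast_mul, mul_assoc]
    exact (mA1_int _).mul hk
theorem prd_const (c : ℂ) : Prd fun _ : E => c := ⟨1, one_ne_zero, fun _ _ _ => rfl⟩
theorem Prd.mul {φ ψ : E → ℂ} (h : Prd φ) (h' : Prd ψ) : Prd fun x => φ x * ψ x := by
  obtain ⟨D, hD, h⟩ := h
  obtain ⟨D', hD', h'⟩ := h'
  refine ⟨D * D', mul_ne_zero hD hD', fun x y hy => ?_⟩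
  have h2 := mA1_prd_mul h' D x y hy
  rw [mul_comm D' D] at h2
  simp only [mA1_prd_mul h D' x y hy, h2]
theorem Prd.affine {φ : E → ℂ} (h : Prd φ) (a b : E) : Prd fun x => φ (a * x + b) := by
  obtain ⟨D, hD, h⟩ := h
  obtain ⟨k, hk0, hk⟩ := exists_nat_mul_isIntegral a
  exact ⟨D * k, mul_ne_zero hD hk0, fun x y hy => mA1_prd_affine h hk b x y hy⟩
theorem prd_eT (ν : E) : Prd fun x => eT (ν * x) := by
  obtain ⟨k, hk0, hk⟩ := exists_nat_mul_isIntegral ν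
  refine ⟨k, hk0, fun x y hy => ?_⟩
  have h1 : ν * (x + k * y) = ν * x + k * ν * y := by ring
  simp only [h1, eT_add, eT_of_isIntegral (hk.mul hy), mul_one]
theorem Per.mul_eT {φ : E → ℂ} (h : Per φ) (ν : E) : Per fun x => φ x * eT (ν * x) :=
  h.mul_prd (prd_eT ν)

omit [NumberField E] in
theorem MeanA2_nat (n : ℕ) : IsIntegral ℤ (n : E) := by
  exact_mod_cast isIntegral_algebraMap (x := (n : ℤ))
theorem MeanA2_three {φ ψ χ : E → ℂ} (h₁ : Per φ) (h₂ : Per ψ) (h₃ : Per χ) :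
    ∃ (c : ℝ) (T : Finset E), 0 ≤ c ∧ Mn φ = c * ∑ t ∈ T, φ t ∧ Mn ψ = c * ∑ t ∈ T, ψ t ∧
      Mn χ = c * ∑ t ∈ T, χ t := by
  obtain ⟨D, h1, h2⟩ := h₁.common h₂
  obtain ⟨D', h3⟩ := h₃
  obtain ⟨T, -, -, hT⟩ := exists_reps (E := E) (mul_ne_zero h1.1 h3.1)
  exact ⟨_, T, by positivity, Mn_eq_sum (h1.mul_level h3.1) T hT,
    Mn_eq_sum (h2.mul_level h3.1) T hT, Mn_eq_sum (mul_comm D' D ▸ h3.mul_level h1.1) T hT⟩
@[simp] theorem Mn_zero : Mn (fun _ : E => (0 : ℂ)) = 0 := by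
  obtain ⟨c, T, -, h, -⟩ := MeanA2_three (E := E) per_zero per_zero per_zero
  simp [h]
theorem Mn_add {φ ψ : E → ℂ} (h : Per φ) (h' : Per ψ) :
    Mn (fun x => φ x + ψ x) = Mn φ + Mn ψ := by
  obtain ⟨c, T, -, h1, h2, h3⟩ := MeanA2_three h h' (h.add h')
  rw [h1, h2, h3, Finset.sum_add_distrib, mul_add]
theorem Mn_sum {α : Type} (s : Finset α) {φ : α → E → ℂ} (h : ∀ i ∈ s, Per (φ i)) :
    Mn (fun x => ∑ i ∈ s, φ i x) = ∑ i ∈ s, Mn (φ i) := by
  induction s using Finset.cons_induction with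
  | empty => simp
  | cons a s ha ih =>
    have h' : ∀ i ∈ s, Per (φ i) := fun i hi => h i (Finset.mem_cons_of_mem hi)
    simp only [Finset.sum_cons]
    rw [Mn_add (h a (Finset.mem_cons_self a s)) (Per.sum s h'), ih h']
theorem Mn_const_mul {φ : E → ℂ} (h : Per φ) (c : ℂ) : Mn (fun x => c * φ x) = c * Mn φ := by
  obtain ⟨a, T, -, h1, h2, -⟩ := MeanA2_three h (h.const_mul c) h
  rw [h1, h2, ← Finset.mul_sum, mul_left_comm]
theorem Mn_conj {φ : E → ℂ} (h : Per φ) : Mn (fun x => conj (φ x)) = conj (Mn φ) := by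
  obtain ⟨a, T, -, h1, h2, -⟩ := MeanA2_three h h.conj h
  rw [h1, h2, map_mul, map_sum, Complex.conj_ofReal]
theorem Mn_add_const {φ : E → ℂ} (h : Per φ) (b : E) : Mn (fun x => φ (x + b)) = Mn φ := by
  classical
  obtain ⟨D, h1, h2⟩ := h.common (by simpa using h.affine one_ne_zero b : Per fun x => φ (x + b))
  obtain ⟨N, hN, hb⟩ := exists_nat_mul_isIntegral b
  obtain ⟨T, -, -, hT⟩ := exists_reps (E := E) (mul_ne_zero h1.1 hN)
  rw [Mn_eq_sum (h2.mul_level hN) T hT, Mn_eq_sum (h1.mul_level hN) (T.image (· + b)) ?_,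
    Finset.sum_image fun x _ y _ hxy => add_right_cancel hxy]
  intro x hx
  obtain ⟨t, ⟨ht, ht'⟩, hu⟩ := hT (x - b) (by
    have h3 := hx.sub ((MeanA2_nat D).mul hb)
    rwa [← mul_assoc, ← Nat.cast_mul, ← mul_sub] at h3)
  refine ⟨t + b, ⟨Finset.mem_image_of_mem _ ht, by rwa [add_comm t, ← sub_sub]⟩, ?_⟩
  rintro _ ⟨hs, hs'⟩
  obtain ⟨s, hs₁, rfl⟩ := Finset.mem_image.1 hs
  rw [hu s ⟨hs₁, by rwa [add_comm s, ← sub_sub] at hs'⟩]
theorem MeanA2_mono {φ : E → ℂ} {ψ : E → ℝ} (h : Per φ) (h' : Per fun x => (ψ x : ℂ))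
    (hle : ∀ x, ‖φ x‖ ≤ ψ x) : ‖Mn φ‖ ≤ (Mn fun x => (ψ x : ℂ)).re := by
  obtain ⟨c, T, hc, h1, h2, -⟩ := MeanA2_three h h' h
  rw [h1, h2, ← Complex.ofReal_sum, ← Complex.ofReal_mul, Complex.ofReal_re, norm_mul,
    Complex.norm_of_nonneg hc]
  exact mul_le_mul_of_nonneg_left (norm_sum_le_of_le _ fun t _ => hle t) hc
open Classical in
theorem MeanA2_ind {D : ℕ} (hD : D ≠ 0) (B : ℂ) :
    PerD D (fun x : E => if IsIntegral ℤ ((D : E) * x) then B else 0) ∧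
    Mn (fun x : E => if IsIntegral ℤ ((D : E) * x) then B else 0) =
      B * (((Real.sqrt |(discr E : ℝ)|)⁻¹ * (D : ℝ) ^ Module.finrank ℚ E : ℝ) : ℂ) := by
  have h : PerD D fun x : E => if IsIntegral ℤ ((D : E) * x) then B else 0 := by
    refine ⟨hD, fun x hx => by_contra fun h => hx (if_neg h), fun x y hy => if_congr ?_ rfl rfl⟩
    have h1 := (MeanA2_nat (E := E) D).mul ((MeanA2_nat D).mul hy)
    rw [mul_add]
    exact ⟨fun h => by simpa using h.sub h1, fun h => h.add h1⟩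
  obtain ⟨T, h1, h2, hT⟩ := exists_reps (E := E) hD
  refine ⟨h, ?_⟩
  rw [Mn_eq_sum h T hT, Finset.sum_congr rfl fun t ht => if_pos (h2 t ht), Finset.sum_const, h1,
    nsmul_eq_mul]
  have : (D : ℂ) ≠ 0 := Nat.cast_ne_zero.2 hD
  push_cast
  field_simp
  ring
theorem norm_Mn_le {D : ℕ} {φ : E → ℂ} (hφ : Per φ) (hD : D ≠ 0)
    (h : ∀ x, φ x ≠ 0 → IsIntegral ℤ ((D : E) * x)) {B : ℝ} (hB : ∀ x, ‖φ x‖ ≤ B) :
    ‖Mn φ‖ ≤ B * (D : ℝ) ^ Module.finrank ℚ E := by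
  classical
  have hB0 : 0 ≤ B := (norm_nonneg _).trans (hB 0)
  obtain ⟨h1, h2⟩ := MeanA2_ind (E := E) hD B
  have h3 : (fun x : E => ((if IsIntegral ℤ ((D : E) * x) then B else 0 : ℝ) : ℂ)) =
      fun x => if IsIntegral ℤ ((D : E) * x) then (B : ℂ) else 0 := by
    ext x
    split_ifs <;> simp
  refine (MeanA2_mono (ψ := fun x => if IsIntegral ℤ ((D : E) * x) then B else 0) hφ
    (h3 ▸ ⟨D, h1⟩) fun x => ?_).trans ?_
  · split_ifs with hx
    · exact hB x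
    · rw [of_not_not (mt (h x) hx), norm_zero]
  · rw [h3, h2, ← Complex.ofReal_mul, Complex.ofReal_re]
    refine mul_le_mul_of_nonneg_left (mul_le_of_le_one_left (by positivity)
      (inv_le_one_of_one_le₀ (Real.one_le_sqrt.2 ?_))) hB0
    exact_mod_cast Int.one_le_abs (discr_ne_zero E)
/-- Monotonicity. -/
theorem norm_Mn_le_Mn {φ : E → ℂ} {ψ : E → ℝ} (h : Per φ) (h' : Per fun x => (ψ x : ℂ))
    (hle : ∀ x, ‖φ x‖ ≤ ψ x) : ‖Mn φ‖ ≤ (Mn fun x => (ψ x : ℂ)).re := MeanA2_mono h h' hle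
/-- If `φ` is invariant under `t`, only the frequencies with `e(ν t) = 1` occur. -/
theorem Mn_mul_eT_eq_zero {φ : E → ℂ} (h : Per φ) {t ν : E} (ht : ∀ x, φ (x + t) = φ x)
    (hν : eT (ν * t) ≠ 1) : Mn (fun x => φ x * eT (ν * x)) = 0 := by
  have h1 := Mn_add_const (h.mul_eT ν) t
  have h2 : (fun x => φ (x + t) * eT (ν * (x + t))) = fun x => eT (ν * t) * (φ x * eT (ν * x)) := by
    ext x
    rw [ht, mul_add, eT_add]
    ring
  rw [h2, Mn_const_mul (h.mul_eT ν)] at h1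
  exact (mul_left_eq_self₀.1 h1).resolve_left hν
/-- The Fourier transform of a periodic function is periodic. -/
theorem per_Mn_eT {φ : E → ℂ} (h : Per φ) : Per fun ν => Mn fun x => φ x * eT (ν * x) := by
  obtain ⟨D, h1, h2, h3⟩ := id h
  refine ⟨(discr E).natAbs * D, mul_ne_zero (Int.natAbs_ne_zero.2 (discr_ne_zero E)) h1,
    fun ν hν => ?_, fun ν y hy => congrArg Mn (funext fun x => ?_)⟩
  · rw [Nat.cast_mul, mul_assoc]
    refine isIntegral_discr_mul fun y hy => by_contra fun h4 => hν ?_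
    exact Mn_mul_eT_eq_zero h (fun x => h3 x y hy) (by rwa [mul_left_comm, ← mul_assoc])
  · by_cases hx : φ x = 0
    · simp [hx]
    rw [add_mul, eT_add, eT_of_isIntegral (x := _ * y * x), mul_one]
    have h4 := ((MeanA2_nat (discr E).natAbs).mul hy).mul (h2 x hx)
    rwa [mul_mul_mul_comm, ← Nat.cast_mul, ← mul_assoc] at h4
open Classical in
theorem Mn_one_integral : Mn (fun x : E => if IsIntegral ℤ x then (1 : ℂ) else 0) =
    (((Real.sqrt |(discr E : ℝ)|)⁻¹ : ℝ) : ℂ) := by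
  simpa using (MeanA2_ind (E := E) one_ne_zero 1).2
theorem MeanA2_reps {a : 𝓞 E} (ha : a ≠ 0) : ∃ Q : Finset E,
    Q.card = Ideal.absNorm (Ideal.span {a}) ∧ (∀ q ∈ Q, IsIntegral ℤ q) ∧
      ∀ y, IsIntegral ℤ y → ∃! q, q ∈ Q ∧ IsIntegral ℤ ((y - q) / a) := by
  classical
  have ha' : (a : E) ≠ 0 := RingOfIntegers.coe_ne_zero_iff.2 ha
  have : Finite (𝓞 E ⧸ Ideal.span {a}) :=
    Ideal.finiteQuotientOfFreeOfNeBot _ (by simpa using ha)
  have := Fintype.ofFinite (𝓞 E ⧸ Ideal.span {a})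
  have h1 : ∀ y z : 𝓞 E, IsIntegral ℤ (((y : E) - z) / a) ↔
      Ideal.Quotient.mk (Ideal.span {a}) y = Ideal.Quotient.mk (Ideal.span {a}) z := by
    intro y z
    rw [Ideal.Quotient.eq, Ideal.mem_span_singleton']
    refine ⟨fun h => ⟨⟨_, h⟩, RingOfIntegers.ext ?_⟩, fun ⟨w, hw⟩ => ?_⟩
    · simp [ha']
    · have h2 : (w : E) * a = y - z := by simpa using congrArg (algebraMap (𝓞 E) E) hw
      rw [← h2, mul_div_cancel_right₀ _ ha']
      exact w.isIntegral_coe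
  refine ⟨Finset.univ.image fun q : 𝓞 E ⧸ Ideal.span {a} => ((q.out : 𝓞 E) : E), ?_, ?_,
    fun y hy => ⟨_, ⟨Finset.mem_image_of_mem _ (Finset.mem_univ (Ideal.Quotient.mk _ ⟨y, hy⟩)),
      (h1 ⟨y, hy⟩ _).2 (Ideal.Quotient.mk_out _).symm⟩, ?_⟩⟩
  · refine (Finset.card_image_of_injective _ fun q q' h =>
      Quotient.out_injective (RingOfIntegers.ext h)).trans ?_
    rw [Finset.card_univ, Ideal.absNorm_apply, Submodule.cardQuot_apply, Nat.card_eq_fintype_card]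
    rfl
  · simp only [Finset.mem_image]
    rintro _ ⟨q, -, rfl⟩
    exact q.out.isIntegral_coe
  · rintro _ ⟨hq, hq'⟩
    obtain ⟨q, -, rfl⟩ := Finset.mem_image.1 hq
    rw [(h1 ⟨y, hy⟩ _).1 hq', Ideal.Quotient.mk_out]
theorem MeanA2_mul {φ : E → ℂ} (h : Per φ) {a : 𝓞 E} (ha : a ≠ 0) :
    Mn (fun x => φ (a * x)) = Ideal.absNorm (Ideal.span {a}) * Mn φ := by
  classical
  have ha' : (a : E) ≠ 0 := RingOfIntegers.coe_ne_zero_iff.2 ha
  obtain ⟨D, h1, h2⟩ := h.common (by simpa using h.affine ha' 0 : Per fun x => φ (a * x))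
  have hD : (D : E) ≠ 0 := Nat.cast_ne_zero.2 h1.1
  obtain ⟨S, -, s1, s2⟩ := exists_reps (E := E) h1.1
  obtain ⟨Q, q0, q1, q2⟩ := MeanA2_reps ha
  have key : ∀ x, IsIntegral ℤ ((D : E) * (a * x)) → ∃! p : E × E, p ∈ S ×ˢ Q ∧
      IsIntegral ℤ ((x - (p.1 + D * p.2) / a) / D) := by
    intro x hx
    have e1 : ∀ s q : E, (x - (s + D * q) / a) / D = ((a * x - s) / D - q) / a := fun s q => by
      field_simp
      ring
    obtain ⟨s, ⟨hs, hs'⟩, hu⟩ := s2 _ hx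
    obtain ⟨q, ⟨hq, hq'⟩, hv⟩ := q2 _ hs'
    refine ⟨(s, q), ⟨Finset.mk_mem_product hs hq, by rwa [e1]⟩, ?_⟩
    rintro ⟨s', q'⟩ ⟨hp, hp'⟩
    rw [Finset.mem_product] at hp
    rw [e1] at hp'
    obtain rfl := hu s' ⟨hp.1, by
      have h3 := (a.isIntegral_coe.mul hp').add (q1 _ hp.2)
      rwa [show algebraMap (𝓞 E) E a = a from rfl, mul_div_cancel₀ _ ha', sub_add_cancel] at h3⟩
    rw [hv q' ⟨hp.2, hp'⟩]
  rw [Mn_eq_sum h1 S s2, Mn_eq_sum h2 ((S ×ˢ Q).image fun p => (p.1 + D * p.2) / a) ?_,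
    Finset.sum_image ?_, Finset.sum_product, mul_left_comm, Finset.mul_sum S φ]
  · congr 1
    refine Finset.sum_congr rfl fun s _ => ?_
    rw [← q0, ← nsmul_eq_mul, ← Finset.sum_const]
    exact Finset.sum_congr rfl fun q hq => by rw [mul_div_cancel₀ _ ha', h1.2.2 s q (q1 q hq)]
  · intro p hp p' hp' hpp
    have hp1 := Finset.mem_product.1 hp
    refine (key ((p.1 + D * p.2) / a) ?_).unique ⟨hp, ?_⟩ ⟨hp', ?_⟩
    · rw [mul_div_cancel₀ _ ha', mul_add]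
      exact (s1 _ hp1.1).add ((MeanA2_nat D).mul ((MeanA2_nat D).mul (q1 _ hp1.2)))
    · simpa using isIntegral_zero
    · rw [show (p.1 + D * p.2) / a = (p'.1 + D * p'.2) / a from hpp]
      simpa using isIntegral_zero
  · intro x hx
    obtain ⟨p, ⟨hp, hp'⟩, hu⟩ := key x (by
      rw [mul_left_comm]
      exact a.isIntegral_coe.mul hx)
    refine ⟨_, ⟨Finset.mem_image_of_mem _ hp, hp'⟩, ?_⟩
    rintro _ ⟨ht, ht'⟩
    obtain ⟨p', h3, rfl⟩ := Finset.mem_image.1 ht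
    rw [hu p' ⟨h3, ht'⟩]
end A

/-- Dilation (reduce to `a` integral; count `𝓞 / a D²` in two ways; `nr_eq_absNorm`). -/
theorem Mn_mul_left {E : Type} [Field E] [NumberField E] [Om E] {φ : E → ℂ} (h : Per φ) {a : E}
    (ha : a ≠ 0) : Mn (fun x => φ (a * x)) = nr a * Mn φ := by
  have h0 : ∀ {ψ : E → ℂ} {b : E}, Per ψ → b ≠ 0 → IsIntegral ℤ b →
      Mn (fun x => ψ (b * x)) = nr b * Mn ψ := fun {ψ b} h1 h2 h3 => by
    have h4 := MeanA2_mul h1 (a := ⟨b, h3⟩) (RingOfIntegers.coe_ne_zero_iff.1 h2)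
    rwa [← Complex.ofReal_natCast, ← nr_eq_absNorm] at h4
  obtain ⟨N, hN, hb⟩ := exists_nat_mul_isIntegral a
  have hN' : (N : E) ≠ 0 := Nat.cast_ne_zero.2 hN
  have h1 : Per fun x => φ ((N : E)⁻¹ * x) := by simpa using h.affine (inv_ne_zero hN') 0
  have h2 := h0 h1 (mul_ne_zero hN' ha) hb
  have h3 := h0 h1 hN' (MeanA2_nat N)
  simp only [mul_assoc, inv_mul_cancel_left₀ hN'] at h2 h3
  rw [h2, show Mn φ = _ from h3, nr_mul]
  push_cast
  ring

/-! ## part B: `S`-adic functions and integrals -/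

variable {E : Type} [Field E] [NumberField E] [Fr E]

/-- Locally constant at `S` (uniformly). -/
def PrdS (φ : E → ℂ) : Prop := ∃ N : ℕ, ∀ x y, y ∈ OS E → φ (x + (mm E : E) ^ N * y) = φ x

/-- Schwartz-Bruhat functions at `S`. -/
def PerS (φ : E → ℂ) : Prop := PrdS φ ∧ ∃ N : ℕ, ∀ x, φ x ≠ 0 → (mm E : E) ^ N * x ∈ OS E

open Classical in
/-- The `S`-adic integral, normalised by `vol OS = 1`. -/
def IS (φ : E → ℂ) : ℂ :=
  (Real.sqrt |(discr E : ℝ)| : ℂ) * Mn fun x => if x ∈ RR E then φ x else 0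

private theorem mB1_pow_mem (k : ℕ) : (mm E : E) ^ k ∈ OS E :=
  (OS E).pow_mem (natCast_mem (OS E) _) k

private theorem mB1_prd_mono {φ : E → ℂ} {N : ℕ}
    (h : ∀ x y, y ∈ OS E → φ (x + (mm E : E) ^ N * y) = φ x) (k : ℕ) (x y : E) (hy : y ∈ OS E) :
    φ (x + (mm E : E) ^ (N + k) * y) = φ x := by
  rw [pow_add, mul_assoc]
  exact h x _ ((OS E).mul_mem (mB1_pow_mem k) hy)

private theorem mB1_supp_mono {N : ℕ} {x : E} (h : (mm E : E) ^ N * x ∈ OS E) (k : ℕ) :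
    (mm E : E) ^ (N + k) * x ∈ OS E := by
  rw [add_comm, pow_add, mul_assoc]
  exact (OS E).mul_mem (mB1_pow_mem k) h

theorem perS_zero : PerS fun _ : E => (0 : ℂ) :=
  ⟨⟨0, fun _ _ _ => rfl⟩, 0, fun _ h => absurd rfl h⟩
theorem PerS.add {φ ψ : E → ℂ} (h : PerS φ) (h' : PerS ψ) : PerS fun x => φ x + ψ x := by
  obtain ⟨⟨N, hN⟩, M, hM⟩ := h
  obtain ⟨⟨N', hN'⟩, M', hM'⟩ := h'
  refine ⟨⟨N + N', fun x y hy => ?_⟩, M + M', fun x hx => ?_⟩
  · have h1 := mB1_prd_mono hN N' x y hy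
    have h2 := mB1_prd_mono hN' N x y hy
    rw [add_comm N' N] at h2
    simp only [h1, h2]
  · by_cases h0 : φ x = 0
    · rw [add_comm M M']
      refine mB1_supp_mono (hM' x fun h1 => hx ?_) M
      simp only [h0, h1, add_zero]
    · exact mB1_supp_mono (hM x h0) M'
theorem PerS.sum {α : Type} (s : Finset α) {φ : α → E → ℂ} (h : ∀ i ∈ s, PerS (φ i)) :
    PerS fun x => ∑ i ∈ s, φ i x := by
  classical
  induction s using Finset.induction_on with
  | empty => simpa using perS_zero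
  | insert a s ha ih =>
    simp only [Finset.sum_insert ha]
    exact (h a (Finset.mem_insert_self _ _)).add
      (ih fun i hi => h i (Finset.mem_insert_of_mem hi))
theorem PerS.mul_prd {φ ψ : E → ℂ} (h : PerS φ) (h' : PrdS ψ) : PerS fun x => φ x * ψ x := by
  obtain ⟨⟨N, hN⟩, M, hM⟩ := h
  obtain ⟨N', hN'⟩ := h'
  refine ⟨⟨N + N', fun x y hy => ?_⟩, M, fun x hx => hM x (left_ne_zero_of_mul hx)⟩
  have h1 := mB1_prd_mono hN N' x y hy
  have h2 := mB1_prd_mono hN' N x y hy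
  rw [add_comm N' N] at h2
  simp only [h1, h2]
theorem PerS.const_mul {φ : E → ℂ} (h : PerS φ) (c : ℂ) : PerS fun x => c * φ x := by
  obtain ⟨⟨N, hN⟩, M, hM⟩ := h
  exact ⟨⟨N, fun x y hy => by simp only [hN x y hy]⟩, M,
    fun x hx => hM x (right_ne_zero_of_mul hx)⟩
theorem PerS.affine {φ : E → ℂ} (h : PerS φ) {a : E} (ha : a ≠ 0) (b : E) :
    PerS fun x => φ (a * x + b) := by
  obtain ⟨⟨N, hN⟩, M, hM⟩ := h
  obtain ⟨k, hk⟩ := exists_pow_mul_mem_OS a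
  obtain ⟨l, hl⟩ := exists_pow_mul_mem_OS b
  obtain ⟨i, hi⟩ := exists_pow_mul_mem_OS a⁻¹
  refine ⟨⟨N + k, fun x y hy => ?_⟩, M + l + i, fun x hx => ?_⟩
  · have h1 : a * (x + (mm E : E) ^ (N + k) * y) + b =
        a * x + b + (mm E : E) ^ N * ((mm E : E) ^ k * a * y) := by ring
    simp only [h1]
    exact hN _ _ ((OS E).mul_mem hk hy)
  · have h1 : (mm E : E) ^ (M + l + i) * x = (mm E : E) ^ i * a⁻¹ *
        ((mm E : E) ^ l * ((mm E : E) ^ M * (a * x + b)) - (mm E : E) ^ M * ((mm E : E) ^ l * b)) := by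
      field_simp
      ring
    rw [h1]
    exact (OS E).mul_mem hi ((OS E).sub_mem ((OS E).mul_mem (mB1_pow_mem l) (hM _ hx))
      ((OS E).mul_mem (mB1_pow_mem M) hl))

open Classical in
private theorem mB1_per {φ : E → ℂ} (h : PerS φ) {c : R E} (hc : c ≠ 0) {f : R E → ℂ}
    (hf : ∀ x y, c ∣ x - y → f x = f y) :
    Per fun x => if hx : x ∈ RR E then φ x * f ⟨x, hx⟩ else 0 := by
  obtain ⟨⟨N, hN⟩, M, hM⟩ := h
  obtain ⟨b, hb, hcb⟩ := exists_dvd_nat hc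
  have hb0 : b ≠ 0 := by
    rintro rfl
    have h6 := six_le_mm (E := E)
    rw [Nat.coprime_zero_left] at hb
    omega
  have hn : ∀ n : ℕ, IsIntegral ℤ (n : E) := fun n => by
    exact_mod_cast isIntegral_algebraMap (x := (n : ℤ))
  refine ⟨mm E ^ (N + M) * b, mul_ne_zero (pow_ne_zero _ Fr.m_ne) hb0, fun x hx => ?_,
    fun x y hy => ?_⟩
  · by_cases hxR : x ∈ RR E
    · simp only [dif_pos hxR] at hx
      have h1 : IsIntegral ℤ ((mm E : E) ^ (M + N) * x) :=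
        isIntegral_iff.2 ⟨(RR E).mul_mem ((RR E).pow_mem (natCast_mem (RR E) _) _) hxR,
          mB1_supp_mono (hM x (left_ne_zero_of_mul hx)) N⟩
      have h2 : ((mm E ^ (N + M) * b : ℕ) : E) * x = (b : E) * ((mm E : E) ^ (M + N) * x) := by
        push_cast
        ring
      rw [h2]
      exact (hn b).mul h1
    · simp only [dif_neg hxR] at hx
      exact absurd rfl hx
  · have hyR : y ∈ RR E := mem_RR_of_isIntegral hy
    have hD : ((mm E ^ (N + M) * b : ℕ) : E) * y ∈ RR E :=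
      (RR E).mul_mem (natCast_mem (RR E) _) hyR
    by_cases hxR : x ∈ RR E
    · have hxR' : x + ((mm E ^ (N + M) * b : ℕ) : E) * y ∈ RR E := (RR E).add_mem hxR hD
      simp only [dif_pos hxR, dif_pos hxR']
      have h1 : φ (x + ((mm E ^ (N + M) * b : ℕ) : E) * y) = φ x := by
        rw [← mB1_prd_mono hN M x ((b : E) * y) (mem_OS_of_isIntegral ((hn b).mul hy))]
        congr 1
        push_cast
        ring
      rw [h1, hf ⟨_, hxR'⟩ ⟨x, hxR⟩]
      refine hcb.trans ⟨(mm E : R E) ^ (N + M) * ⟨y, hyR⟩, Subtype.ext ?_⟩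
      push_cast
      ring
    · have hxR' : x + ((mm E ^ (N + M) * b : ℕ) : E) * y ∉ RR E := fun h1 =>
        hxR (by simpa using (RR E).sub_mem h1 hD)
      simp only [dif_neg hxR, dif_neg hxR']

open Classical in
private theorem mB1_per_one {φ : E → ℂ} (h : PerS φ) :
    Per fun x => if x ∈ RR E then φ x else 0 := by
  have h1 := mB1_per h (c := 1) one_ne_zero (f := fun _ => 1) fun _ _ _ => rfl
  simpa using h1

theorem PerS.bdd {φ : E → ℂ} (h : PerS φ) : ∃ B : ℝ, ∀ x, ‖φ x‖ ≤ B := by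
  obtain ⟨B, hB⟩ := (mB1_per_one h).bdd
  obtain ⟨⟨N, hN⟩, -⟩ := h
  refine ⟨B, fun x => ?_⟩
  obtain ⟨z, -, hz⟩ := exists_approx (c := (1 : R E)) one_ne_zero 0 x N
  have h1 := hN x _ hz
  rw [mul_div_cancel₀ _ (pow_ne_zero _ mm_ne_zero), add_sub_cancel] at h1
  have h2 := hB z
  rwa [if_pos z.2, h1] at h2
theorem prdS_eS (ν : E) : PrdS fun x => eS (ν * x) := by
  obtain ⟨k, hk⟩ := exists_pow_mul_mem_OS ν
  refine ⟨k, fun x y hy => ?_⟩
  have h1 : ν * (x + (mm E : E) ^ k * y) = ν * x + (mm E : E) ^ k * ν * y := by ring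
  simp only [h1]
  rw [eS_add, eS_of_mem ((OS E).mul_mem hk hy), mul_one]
open Classical in
theorem perS_lat {t : E} (ht : t ≠ 0) : PerS fun x : E => if x / t ∈ OS E then (1 : ℂ) else 0 := by
  obtain ⟨k, hk⟩ := exists_pow_mul_mem_OS t⁻¹
  obtain ⟨l, hl⟩ := exists_pow_mul_mem_OS t
  refine ⟨⟨k, fun x y hy => ?_⟩, l, fun x hx => ?_⟩
  · have h1 : (x + (mm E : E) ^ k * y) / t = x / t + (mm E : E) ^ k * t⁻¹ * y := by ring
    simp only [h1]
    exact if_congr (add_mem_cancel_right ((OS E).mul_mem hk hy)) rfl rfl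
  · have h1 : x / t ∈ OS E := by
      by_contra h2
      exact hx (if_neg h2)
    have h2 : (mm E : E) ^ l * x = (mm E : E) ^ l * t * (x / t) := by field_simp
    rw [h2]
    exact (OS E).mul_mem hl h1
open Classical in
theorem perS_Ty {j : ℕ} (hj : 1 ≤ j) (t : E) :
    PerS fun x : E => if Ty j t x then (1 : ℂ) else 0 := by
  by_cases ht : t = 0
  · have h1 : (fun x : E => if Ty j t x then (1 : ℂ) else 0) = fun _ => 0 :=
      funext fun x => if_neg fun h => (h.ne_zero hj).1 ht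
    rw [h1]
    exact perS_zero
  · have hm : (mm E : E) ^ j ≠ 0 := pow_ne_zero _ mm_ne_zero
    have h1 := (perS_lat (mul_ne_zero ht hm)).affine one_ne_zero (-t)
    have h2 : (fun x : E => if Ty j t x then (1 : ℂ) else 0) =
        fun x : E => if (1 * x + -t) / (t * (mm E : E) ^ j) ∈ OS E then (1 : ℂ) else 0 := by
      funext x
      refine if_congr ?_ rfl rfl
      have h3 : (1 * x + -t) / (t * (mm E : E) ^ j) = (x / t - 1) / (mm E : E) ^ j := by
        field_simp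
        ring
      rw [h3]
      exact U_iff
    rw [h2]
    exact h1
open Classical in
/-- A product of an `S`-adic function and of a function modulo `c`. -/
theorem per_of_perS {φ : E → ℂ} (h : PerS φ) {c : R E} (hc : c ≠ 0) {f : R E → ℂ}
    (hf : ∀ x y, c ∣ x - y → f x = f y) :
    Per fun x => if hx : x ∈ RR E then φ x * f ⟨x, hx⟩ else 0 := mB1_per h hc hf
open Classical in
/-- **Chinese remainder theorem** (average over the translations by `z ∈ m^N 𝓞`, which cover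
`R / c` uniformly; `exists_approx`). -/
theorem Mn_crt {φ : E → ℂ} (h : PerS φ) {c : R E} (hc : c ≠ 0) {f : R E → ℂ}
    (hf : ∀ x y, c ∣ x - y → f x = f y) :
    Mn (fun x => if hx : x ∈ RR E then φ x * f ⟨x, hx⟩ else 0) =
      (((Real.sqrt |(discr E : ℝ)| * nf (c : E))⁻¹ : ℝ) : ℂ) * IS φ * ∑ x ∈ res c, f x := by
  have hF := mB1_per h hc hf
  have hG := mB1_per_one h
  obtain ⟨⟨N, hN⟩, -⟩ := h
  choose z hz hz' using fun r : R E => exists_approx hc r 0 N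
  set F : E → ℂ := fun x => if hx : x ∈ RR E then φ x * f ⟨x, hx⟩ else 0 with hFd
  have h1 : (fun x => ∑ r ∈ res c, F (x + z r)) =
      fun x => (∑ r ∈ res c, f r) * if x ∈ RR E then φ x else 0 := by
    funext x
    by_cases hx : x ∈ RR E
    · rw [if_pos hx, ← sum_res_affine hc f hf (a := 1) isCoprime_one_left ⟨x, hx⟩, Finset.sum_mul]
      refine Finset.sum_congr rfl fun r _ => ?_
      have hx' : x + z r ∈ RR E := (RR E).add_mem hx (z r).2
      have h2 := hN x _ (hz' r)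
      rw [mul_div_cancel₀ _ (pow_ne_zero _ mm_ne_zero), sub_zero] at h2
      simp only [hFd, dif_pos hx']
      rw [h2, mul_comm, hf ⟨_, hx'⟩ (1 * r + ⟨x, hx⟩)]
      have h3 : (⟨_, hx'⟩ : R E) - (1 * r + ⟨x, hx⟩) = z r - r := by
        refine Subtype.ext ?_
        push_cast
        ring
      rw [h3]
      exact hz r
    · rw [if_neg hx, mul_zero]
      refine Finset.sum_eq_zero fun r _ => ?_
      have hx' : x + z r ∉ RR E := fun h2 => hx (by simpa using (RR E).sub_mem h2 (z r).2)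
      simp only [hFd, dif_neg hx']
  have h2 : Mn (fun x => ∑ r ∈ res c, F (x + z r)) = (nf (c : E) : ℂ) * Mn F := by
    rw [Mn_sum (res c) (φ := fun r x => F (x + z r)) fun r _ => by
        simpa using hF.affine one_ne_zero (z r : E),
      Finset.sum_congr rfl fun r _ => Mn_add_const hF (z r : E), Finset.sum_const, card_res hc,
      nf_eq_nN hc, nsmul_eq_mul]
    push_cast
    rfl
  rw [h1, Mn_const_mul hG] at h2
  have hc' : (c : E) ≠ 0 := fun h0 => hc (Subtype.ext h0)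
  have hn : (nf (c : E) : ℂ) ≠ 0 := Complex.ofReal_ne_zero.2 (nf_pos hc').ne'
  have hd : (Real.sqrt |(discr E : ℝ)| : ℂ) ≠ 0 := by
    refine Complex.ofReal_ne_zero.2 (Real.sqrt_pos.2 (abs_pos.2 ?_)).ne'
    exact_mod_cast discr_ne_zero E
  unfold IS
  push_cast
  field_simp
  linear_combination -h2

open Classical in
theorem B2_per {φ : E → ℂ} (h : PerS φ) : Per fun x => if x ∈ RR E then φ x else 0 := by
  have := per_of_perS h (c := 1) one_ne_zero (f := fun _ => 1) fun _ _ _ => rfl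
  simpa only [mul_one, dite_eq_ite] using this
omit [Fr E] in
theorem B2_sqrt_ne : ((Real.sqrt |(discr E : ℝ)| : ℝ) : ℂ) ≠ 0 := by
  have : (discr E : ℝ) ≠ 0 := Int.cast_ne_zero.2 (discr_ne_zero E)
  exact Complex.ofReal_ne_zero.2 (Real.sqrt_pos.2 (abs_pos.2 this)).ne'
theorem B2_pow_ne (N : ℕ) : (mm E : E) ^ N ≠ 0 := pow_ne_zero _ mm_ne_zero
theorem B2_per_eq {φ : E → ℂ} {N : ℕ} (h : ∀ x y, y ∈ OS E → φ (x + (mm E : E) ^ N * y) = φ x)
    {x t : E} (ht : (x - t) / (mm E : E) ^ N ∈ OS E) : φ x = φ t := by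
  rw [← h t _ ht, mul_div_cancel₀ _ (B2_pow_ne N), add_sub_cancel]
@[simp] theorem IS_zero : IS (fun _ : E => (0 : ℂ)) = 0 := by simp [IS]
theorem IS_add {φ ψ : E → ℂ} (h : PerS φ) (h' : PerS ψ) :
    IS (fun x => φ x + ψ x) = IS φ + IS ψ := by
  unfold IS
  rw [← mul_add, ← Mn_add (B2_per h) (B2_per h')]
  congr 2
  funext x
  split_ifs <;> simp
theorem IS_sum {α : Type} (s : Finset α) {φ : α → E → ℂ} (h : ∀ i ∈ s, PerS (φ i)) :
    IS (fun x => ∑ i ∈ s, φ i x) = ∑ i ∈ s, IS (φ i) := by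
  unfold IS
  rw [← Finset.mul_sum, ← Mn_sum s fun i hi => B2_per (h i hi)]
  congr 2
  funext x
  split_ifs <;> simp
theorem IS_const_mul {φ : E → ℂ} (h : PerS φ) (c : ℂ) : IS (fun x => c * φ x) = c * IS φ := by
  unfold IS
  rw [mul_left_comm, ← Mn_const_mul (B2_per h)]
  congr 2
  funext x
  split_ifs <;> simp
theorem IS_add_const {φ : E → ℂ} (h : PerS φ) (b : E) : IS (fun x => φ (x + b)) = IS φ := by
  obtain ⟨N, hN⟩ := h.1
  obtain ⟨z, -, hz⟩ := exists_approx (c := (1 : R E)) one_ne_zero 0 b N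
  unfold IS
  rw [← Mn_add_const (B2_per h) (z : E)]
  congr 2
  funext x
  have h1 : x + (z : E) ∈ RR E ↔ x ∈ RR E :=
    ⟨fun h => by simpa using (RR E).sub_mem h z.2, fun h => (RR E).add_mem h z.2⟩
  have h2 : φ (x + z) = φ (x + b) := B2_per_eq hN (by rwa [add_sub_add_left_eq_sub])
  by_cases hx : x ∈ RR E
  · rw [if_pos hx, if_pos (h1.2 hx), h2]
  · rw [if_neg hx, if_neg fun h => hx (h1.1 h)]
theorem B2_mul_left {φ : E → ℂ} (h : PerS φ) {a : R E} (ha : a ≠ 0) :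
    IS (fun x => φ (a * x)) = ((absS (a : E))⁻¹ : ℝ) * IS φ := by
  classical
  have ha' : (a : E) ≠ 0 := fun h0 => ha (Subtype.ext h0)
  have hf : ∀ x y : R E, a ∣ x - y →
      (if a ∣ x then (1 : ℂ) else 0) = if a ∣ y then (1 : ℂ) else 0 := fun x y hxy => by
    simp only [dvd_iff_dvd_of_dvd_sub hxy]
  have h1 := Mn_crt h ha hf
  have h2 := Mn_mul_left (per_of_perS h ha hf) ha'
  obtain ⟨r, ⟨hr, hr'⟩, hu⟩ := exists_unique_res ha 0
  have h3 : ∑ x ∈ res a, (if a ∣ x then (1 : ℂ) else 0) = 1 := by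
    rw [Finset.sum_eq_single_of_mem r hr fun x hx hne => if_neg fun hd =>
      hne (hu x ⟨hx, by simpa using hd⟩), if_pos (by simpa using hr')]
  rw [h1, h3, mul_one] at h2
  have h4 : (fun x : E => if x ∈ RR E then φ (a * x) else 0) = fun x : E =>
      if hx : (a : E) * x ∈ RR E then φ (a * x) * (if a ∣ ⟨_, hx⟩ then (1 : ℂ) else 0) else 0 := by
    funext x
    by_cases hx : x ∈ RR E
    · rw [if_pos hx, dif_pos ((RR E).mul_mem a.2 hx), if_pos ⟨⟨x, hx⟩, rfl⟩, mul_one]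
    · rw [if_neg hx]
      split_ifs with h5 h6
      · rw [dvd_iff ha] at h6
        simp only [mul_div_cancel_left₀ x ha'] at h6
        exact absurd h6 hx
      · simp
      · rfl
  have h5 : ((nr (a : E) : ℝ) : ℂ) ≠ 0 := Complex.ofReal_ne_zero.2 (nr_pos ha').ne'
  have h6 := B2_sqrt_ne (E := E)
  conv_lhs => rw [IS]
  rw [h4, h2, nf]
  push_cast
  field_simp
/-- For `a ∈ R`: `Mn_mul_left` and `Mn_crt` with the indicator function of `a R`. -/
theorem IS_mul_left {φ : E → ℂ} (h : PerS φ) {a : E} (ha : a ≠ 0) :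
    IS (fun x => φ (a * x)) = ((absS a)⁻¹ : ℝ) * IS φ := by
  obtain ⟨b, hb, hba⟩ := exists_nat_mul_mem_RR a
  have hb0 : (b : E) ≠ 0 := by
    rw [Nat.cast_ne_zero]
    rintro rfl
    have h6 := six_le_mm (E := E)
    rw [Nat.coprime_zero_left] at hb
    omega
  have h1 := B2_mul_left h (a := ⟨_, hba⟩) fun h0 => mul_ne_zero hb0 ha (congrArg Subtype.val h0)
  have h2 := B2_mul_left (by simpa using h.affine ha 0 : PerS fun x => φ (a * x)) (a := (b : R E))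
    fun h0 => hb0 (by simpa using congrArg Subtype.val h0)
  have e : (fun x => φ (a * (((b : R E) : E) * x))) = fun x => φ ((b : E) * a * x) := by
    funext x
    congr 1
    push_cast
    ring
  rw [e, h1] at h2
  have h3 : ((absS (b : E) : ℝ) : ℂ) ≠ 0 := Complex.ofReal_ne_zero.2 (absS_pos _).ne'
  have h4 : ((b : R E) : E) = (b : E) := by simp
  simp only [h4, absS_mul hb0 ha] at h2
  push_cast at h2 ⊢
  rw [mul_inv, mul_assoc] at h2
  exact (mul_left_cancel₀ (inv_ne_zero h3) h2).symm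
open Classical in
theorem IS_lat {t : E} (ht : t ≠ 0) :
    IS (fun x : E => if x / t ∈ OS E then (1 : ℂ) else 0) = absS t := by
  have h1 := IS_mul_left (perS_lat (one_ne_zero : (1 : E) ≠ 0)) (inv_ne_zero ht)
  have h2 : IS (fun x : E => if x / 1 ∈ OS E then (1 : ℂ) else 0) = 1 := by
    have e : (fun x : E => if x ∈ RR E then (if x / 1 ∈ OS E then (1 : ℂ) else 0) else 0) =
        fun x : E => if IsIntegral ℤ x then (1 : ℂ) else 0 := by
      funext x
      simp only [div_one, isIntegral_iff, ite_and]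
    rw [IS, e, Mn_one_integral]
    push_cast
    exact mul_inv_cancel₀ B2_sqrt_ne
  rw [h2, absS_inv, inv_inv, mul_one] at h1
  simpa only [div_one, inv_mul_eq_div] using h1
open Classical in
theorem IS_lat_eS {t : E} (ht : t ≠ 0) (ν : E) :
    IS (fun x : E => (if x / t ∈ OS E then (1 : ℂ) else 0) * eS (ν * x)) =
      if dS E * t * ν ∈ OS E then (absS t : ℂ) else 0 := by
  rw [mul_assoc, ← dS_spec.2]
  split_ifs with h
  · rw [← IS_lat ht]
    congr 1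
    funext x
    split_ifs with hx
    · rw [one_mul, ← h _ hx]
      congr 1
      field_simp
    · rw [zero_mul]
  · push Not at h
    obtain ⟨w, hw, hne⟩ := h
    have hp := (perS_lat ht).mul_prd (prdS_eS ν)
    have h1 := IS_add_const hp (t * w)
    have h2 := IS_const_mul hp (eS (t * ν * w))
    have e : (fun x : E => (if (x + t * w) / t ∈ OS E then (1 : ℂ) else 0) * eS (ν * (x + t * w))) =
        fun x : E => eS (t * ν * w) * ((if x / t ∈ OS E then (1 : ℂ) else 0) * eS (ν * x)) := by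
      funext x
      have e1 : (x + t * w) / t = x / t + w := by field_simp
      have e2 : x / t + w ∈ OS E ↔ x / t ∈ OS E :=
        ⟨fun h => by simpa using (OS E).sub_mem h hw, fun h => (OS E).add_mem h hw⟩
      rw [e1, mul_add, eS_add, show ν * (t * w) = t * ν * w by ring]
      simp only [e2]
      ring
    rw [e, h2] at h1
    by_contra h0
    exact hne (mul_right_cancel₀ h0 (h1.trans (one_mul _).symm))
theorem norm_IS_le {φ : E → ℂ} (h : PerS φ) {t : E} (ht : t ≠ 0)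
    (hs : ∀ x, φ x ≠ 0 → x / t ∈ OS E) {B : ℝ} (hB : ∀ x, ‖φ x‖ ≤ B) : ‖IS φ‖ ≤ B * absS t := by
  classical
  have hB0 : 0 ≤ B := (norm_nonneg _).trans (hB 0)
  let ψ : E → ℝ := fun x => if x ∈ RR E then (if x / t ∈ OS E then B else 0) else 0
  have e : (fun x => (ψ x : ℂ)) = fun x => if x ∈ RR E then
      (B : ℂ) * (if x / t ∈ OS E then (1 : ℂ) else 0) else 0 := by
    funext x
    simp only [ψ]
    split_ifs <;> simp
  have hp := (perS_lat ht).const_mul (B : ℂ)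
  have h1 := norm_Mn_le_Mn (B2_per h) (ψ := ψ) (by rw [e]; exact B2_per hp) fun x => by
    simp only [ψ]
    split_ifs with h1 h2
    · exact hB x
    · rw [not_not.1 fun h0 => h2 (hs x h0), norm_zero]
    · rw [norm_zero]
  have h2 := IS_const_mul (perS_lat ht) (B : ℂ)
  rw [IS_lat ht, IS, ← e] at h2
  have h3 := congrArg Complex.re h2
  rw [Complex.re_ofReal_mul, ← Complex.ofReal_mul, Complex.ofReal_re] at h3
  rw [IS, norm_mul, Complex.norm_real, Real.norm_of_nonneg (Real.sqrt_nonneg _), ← h3]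
  exact mul_le_mul_of_nonneg_left h1 (Real.sqrt_nonneg _)
/-- The integral is a finite sum over any system of representatives. -/
theorem IS_eq_sum {φ : E → ℂ} {N : ℕ} (hφ : PerS φ)
    (h : ∀ x y, y ∈ OS E → φ (x + (mm E : E) ^ N * y) = φ x) (T : Finset E)
    (hT : ∀ x, φ x ≠ 0 → ∃! t, t ∈ T ∧ (x - t) / (mm E : E) ^ N ∈ OS E)
    (hT' : ∀ t ∈ T, ∀ t' ∈ T, (t - t') / (mm E : E) ^ N ∈ OS E → t = t') :
    IS φ = (absS ((mm E : E) ^ N) : ℂ) * ∑ t ∈ T, φ t := by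
  classical
  have hp : ∀ t : E, PerS fun x : E =>
      if (x - t) / (mm E : E) ^ N ∈ OS E then (1 : ℂ) else 0 := fun t => by
    simpa only [one_mul, ← sub_eq_add_neg] using
      (perS_lat (B2_pow_ne (E := E) N)).affine one_ne_zero (-t)
  have hI : ∀ t : E, IS (fun x : E => if (x - t) / (mm E : E) ^ N ∈ OS E then (1 : ℂ) else 0) =
      absS ((mm E : E) ^ N) := fun t => by
    have := IS_add_const (perS_lat (B2_pow_ne (E := E) N)) (-t)
    rw [IS_lat (B2_pow_ne N)] at this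
    simpa only [← sub_eq_add_neg] using this
  have e : φ = fun x => ∑ t ∈ T,
      φ t * (if (x - t) / (mm E : E) ^ N ∈ OS E then (1 : ℂ) else 0) := by
    funext x
    by_cases hx : φ x = 0
    · rw [hx]
      refine (Finset.sum_eq_zero fun t _ => ?_).symm
      split_ifs with ht
      · rw [← B2_per_eq h ht, hx, zero_mul]
      · rw [mul_zero]
    · obtain ⟨t, ⟨ht, ht'⟩, hu⟩ := hT x hx
      rw [Finset.sum_eq_single_of_mem t ht fun s hs hne => by
        rw [if_neg fun h' => hne (hu s ⟨hs, h'⟩), mul_zero], if_pos ht', mul_one, B2_per_eq h ht']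
  conv_lhs => rw [e]
  rw [IS_sum T fun t _ => (hp t).const_mul (φ t), Finset.mul_sum]
  exact Finset.sum_congr rfl fun t _ => by rw [IS_const_mul (hp t), hI, mul_comm]
/-- Functions of two variables. -/
def PerS2 (Φ : E → E → ℂ) : Prop := ∃ N : ℕ,
  (∀ x y, Φ x y ≠ 0 → (mm E : E) ^ N * x ∈ OS E ∧ (mm E : E) ^ N * y ∈ OS E) ∧
  ∀ x y a b, a ∈ OS E → b ∈ OS E → Φ (x + (mm E : E) ^ N * a) (y + (mm E : E) ^ N * b) = Φ x y
theorem PerS2.left {Φ : E → E → ℂ} (h : PerS2 Φ) (y : E) : PerS fun x => Φ x y := by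
  obtain ⟨N, h1, h2⟩ := h
  exact ⟨⟨N, fun x a ha => by simpa using h2 x y a 0 ha (OS E).zero_mem⟩,
    N, fun x hx => (h1 x y hx).1⟩
theorem PerS2.right {Φ : E → E → ℂ} (h : PerS2 Φ) (x : E) : PerS (Φ x) := by
  obtain ⟨N, h1, h2⟩ := h
  exact ⟨⟨N, fun y b hb => by simpa using h2 x y 0 b (OS E).zero_mem hb⟩,
    N, fun y hy => (h1 x y hy).2⟩
theorem B2_IS_right {Φ : E → E → ℂ} {N : ℕ}
    (h1 : ∀ x y, Φ x y ≠ 0 → (mm E : E) ^ N * x ∈ OS E ∧ (mm E : E) ^ N * y ∈ OS E)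
    (h2 : ∀ x y a b, a ∈ OS E → b ∈ OS E →
      Φ (x + (mm E : E) ^ N * a) (y + (mm E : E) ^ N * b) = Φ x y) :
    (∀ x a, a ∈ OS E → IS (Φ (x + (mm E : E) ^ N * a)) = IS (Φ x)) ∧
      ∀ x, IS (Φ x) ≠ 0 → (mm E : E) ^ N * x ∈ OS E := by
  refine ⟨fun x a ha => ?_, fun x hx => ?_⟩
  · congr 1
    funext y
    simpa using h2 x y a 0 ha (OS E).zero_mem
  · by_contra hc
    refine hx ?_
    rw [show Φ x = fun _ => 0 from funext fun y => not_not.1 fun h0 => hc (h1 x y h0).1, IS_zero]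
theorem PerS2.IS_right {Φ : E → E → ℂ} (h : PerS2 Φ) : PerS fun x => IS (Φ x) := by
  obtain ⟨N, h1, h2⟩ := h
  exact ⟨⟨N, (B2_IS_right h1 h2).1⟩, N, (B2_IS_right h1 h2).2⟩
/-- Representatives of `m^{-N} OS / m^N OS`. -/
theorem B2_reps (N : ℕ) : ∃ T : Finset E,
    (∀ x, (mm E : E) ^ N * x ∈ OS E → ∃! t, t ∈ T ∧ (x - t) / (mm E : E) ^ N ∈ OS E) ∧
    ∀ t ∈ T, ∀ t' ∈ T, (t - t') / (mm E : E) ^ N ∈ OS E → t = t' := by
  obtain ⟨T, -, h1, h2⟩ := exists_reps (E := E) (D := mm E ^ N) (pow_ne_zero _ Fr.m_ne)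
  simp only [Nat.cast_pow] at h1 h2
  have hN := B2_pow_ne (E := E) N
  have hi : ((mm E : E) ^ N)⁻¹ ∈ RR E := by
    rw [← inv_pow]
    exact (RR E).pow_mem mm_inv_mem N
  have hR : ∀ t ∈ T, t ∈ RR E := fun t ht => by
    have := (RR E).mul_mem hi (mem_RR_of_isIntegral (h1 t ht))
    rwa [inv_mul_cancel_left₀ hN] at this
  have hu : ∀ t ∈ T, ∀ t' ∈ T, (t - t') / (mm E : E) ^ N ∈ OS E → t = t' := fun t ht t' ht' h => by
    refine (h2 t (h1 t ht)).unique ⟨ht, by simpa using isIntegral_zero⟩ ⟨ht', isIntegral_iff.2 ⟨?_, h⟩⟩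
    rw [div_eq_mul_inv]
    exact (RR E).mul_mem ((RR E).sub_mem (hR t ht) (hR t' ht')) hi
  refine ⟨T, fun x hx => ?_, hu⟩
  obtain ⟨z, -, hz⟩ := exists_approx (c := (1 : R E)) one_ne_zero 0 x N
  have hm : (mm E : E) ^ N ∈ OS E := (OS E).pow_mem (natCast_mem _ _) N
  have hz' : IsIntegral ℤ ((mm E : E) ^ N * z) := by
    refine isIntegral_iff.2 ⟨(RR E).mul_mem ((RR E).pow_mem (natCast_mem _ _) N) z.2, ?_⟩
    have := (OS E).add_mem hx ((OS E).mul_mem hm ((OS E).mul_mem hm hz))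
    rwa [mul_div_cancel₀ _ hN, ← mul_add, add_sub_cancel] at this
  obtain ⟨t, ⟨ht, ht'⟩, -⟩ := h2 z hz'
  have h3 : (x - t) / (mm E : E) ^ N ∈ OS E := by
    have := (OS E).sub_mem (mem_OS_of_isIntegral ht') hz
    rwa [← sub_div, sub_sub_sub_cancel_left] at this
  refine ⟨t, ⟨ht, h3⟩, fun s hs => hu s hs.1 t ht ?_⟩
  have := (OS E).sub_mem h3 hs.2
  rwa [← sub_div, sub_sub_sub_cancel_left] at this
theorem B2_IS_IS {Φ : E → E → ℂ} {N : ℕ}
    (h1 : ∀ x y, Φ x y ≠ 0 → (mm E : E) ^ N * x ∈ OS E ∧ (mm E : E) ^ N * y ∈ OS E)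
    (h2 : ∀ x y a b, a ∈ OS E → b ∈ OS E →
      Φ (x + (mm E : E) ^ N * a) (y + (mm E : E) ^ N * b) = Φ x y) {T : Finset E}
    (hT : ∀ x, (mm E : E) ^ N * x ∈ OS E → ∃! t, t ∈ T ∧ (x - t) / (mm E : E) ^ N ∈ OS E)
    (hT' : ∀ t ∈ T, ∀ t' ∈ T, (t - t') / (mm E : E) ^ N ∈ OS E → t = t') :
    IS (fun x => IS (Φ x)) = (absS ((mm E : E) ^ N) : ℂ) *
      ((absS ((mm E : E) ^ N) : ℂ) * ∑ s ∈ T, ∑ t ∈ T, Φ s t) := by
  have h : PerS2 Φ := ⟨N, h1, h2⟩
  rw [IS_eq_sum h.IS_right (B2_IS_right h1 h2).1 T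
    (fun x hx => hT x ((B2_IS_right h1 h2).2 x hx)) hT', Finset.mul_sum T (fun s => ∑ t ∈ T, Φ s t)]
  congr 1
  exact Finset.sum_congr rfl fun s _ => IS_eq_sum (h.right s)
    (fun y b hb => by simpa using h2 s y 0 b (OS E).zero_mem hb) T
    (fun y hy => hT y (h1 s y hy).2) hT'
theorem IS_comm {Φ : E → E → ℂ} (h : PerS2 Φ) :
    IS (fun x => IS (Φ x)) = IS fun y => IS fun x => Φ x y := by
  obtain ⟨N, h1, h2⟩ := h
  obtain ⟨T, hT, hT'⟩ := B2_reps (E := E) N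
  rw [B2_IS_IS h1 h2 hT hT', B2_IS_IS (Φ := fun y x => Φ x y) (fun y x h => (h1 x y h).symm)
    (fun y x b a hb ha => h2 x y a b ha hb) hT hT', Finset.sum_comm]

end Crest.Agent.R312
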