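import Crest.Agent.R312.Gauss
import Crest.Agent.R312.Pois

/-!
# Row 312: quadratic Gauss sums only depend on the type
-/

set_option autoImplicit false

noncomputable section

namespace Crest.Agent.R312

open NumberField
open scoped ComplexConjugate

variable {E : Type} [Field E] [NumberField E] [Fr E]

theorem QR_pow_mem (k : ℕ) : (mm E : E) ^ k ∈ OS E := (OS E).pow_mem (natCast_mem _ _) k

theorem QR_mono {N : ℕ} {x : E} (h : (mm E : E) ^ N * x ∈ OS E) {M : ℕ} (hM : N ≤ M) :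
    (mm E : E) ^ M * x ∈ OS E := by
  obtain ⟨k, rfl⟩ := Nat.exists_eq_add_of_le hM
  have := (OS E).mul_mem (QR_pow_mem k) h
  rwa [← mul_assoc, ← pow_add, add_comm k] at this

theorem QR_finset (T : Finset E) : ∃ N : ℕ, ∀ x ∈ T, (mm E : E) ^ N * x ∈ OS E := by
  classical
  induction T using Finset.induction_on with
  | empty => exact ⟨0, by simp⟩
  | insert a T _ ih =>
    obtain ⟨N, hN⟩ := ih
    obtain ⟨M, hM⟩ := exists_pow_mul_mem_OS a
    refine ⟨max N M, fun x hx => ?_⟩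
    rcases Finset.mem_insert.1 hx with rfl | hx
    · exact QR_mono hM (le_max_right _ _)
    · exact QR_mono (hN x hx) (le_max_left _ _)

/-- Every element can be made bounded at `S` by the `k`-th power of an `S`-unit
(`exists_bdd_unit`, `exists_unit_pow_reps`). -/
theorem exists_bdd_pow {k : ℕ} (hk : k ≠ 0) : ∃ B : ℕ, ∀ x : E, x ≠ 0 → ∃ y : R E, IsUnit y ∧
    (mm E : E) ^ B * (x * (y : E) ^ k) ∈ OS E ∧ (mm E : E) ^ B / (x * (y : E) ^ k) ∈ OS E := by
  classical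
  obtain ⟨B0, hB0⟩ := exists_bdd_unit (E := E)
  obtain ⟨T, hT, hT'⟩ := exists_unit_pow_reps (E := E) hk
  obtain ⟨N, hN⟩ := QR_finset (T.image (fun s : R E => (s : E)) ∪ T.image fun s : R E => (s : E)⁻¹)
  refine ⟨N + B0, fun x hx => ?_⟩
  obtain ⟨u, hu, h1, h2⟩ := hB0 x hx
  obtain ⟨s, ⟨hs, v, hv, rfl⟩, -⟩ := hT' u hu
  have hs0 : (s : E) ≠ 0 := (isUnit_iff.1 (hT s hs)).1
  have hv0 : (v : E) ≠ 0 := (isUnit_iff.1 hv).1
  have h3 := hN (s : E) (Finset.mem_union_left _ (Finset.mem_image_of_mem _ hs))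
  have h4 := hN (s : E)⁻¹ (Finset.mem_union_right _
    (Finset.mem_image_of_mem (fun s : R E => (s : E)⁻¹) hs))
  push_cast at h1 h2
  refine ⟨v, hv, ?_, ?_⟩
  · have := QR_mono (x := x * (v : E) ^ k) (N := N) (by
      have := (OS E).mul_mem h4 h1
      rwa [show (mm E : E) ^ N * (s : E)⁻¹ * ((s : E) * (v : E) ^ k * x) =
        (mm E : E) ^ N * (x * (v : E) ^ k) by field_simp] at this) (Nat.le_add_right N B0)
    exact this
  · have := (OS E).mul_mem h3 h2
    rwa [show (mm E : E) ^ N * (s : E) * ((mm E : E) ^ B0 / ((s : E) * (v : E) ^ k * x)) =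
      (mm E : E) ^ (N + B0) / (x * (v : E) ^ k) by field_simp; ring] at this

open Classical in
theorem QR_perS {L : E} (hL : L ≠ 0) (a : E) :
    PerS fun ν : E => if L * ν ∈ OS E then eS (a * ν ^ 2) else 0 := by
  obtain ⟨N, hN⟩ := QR_finset ({L, L⁻¹, 2 * a * L⁻¹, a} : Finset E)
  have h1 := hN L (by simp)
  have h2 := hN L⁻¹ (by simp)
  have h3 := hN (2 * a * L⁻¹) (by simp)
  have h4 := hN a (by simp)
  refine ⟨⟨N, fun x y hy => ?_⟩, N, fun x hx => ?_⟩
  · have h5 : L * ((mm E : E) ^ N * y) ∈ OS E := by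
      have := (OS E).mul_mem h1 hy
      rwa [show (mm E : E) ^ N * L * y = L * ((mm E : E) ^ N * y) by ring] at this
    by_cases hx : L * x ∈ OS E
    · have h6 : L * (x + (mm E : E) ^ N * y) ∈ OS E := by
        rw [mul_add]
        exact (OS E).add_mem hx h5
      simp only [if_pos hx, if_pos h6]
      have h7 : (mm E : E) ^ N * (2 * a * L⁻¹) * (L * x) * y +
          (mm E : E) ^ N * a * (mm E : E) ^ N * y ^ 2 ∈ OS E :=
        (OS E).add_mem ((OS E).mul_mem ((OS E).mul_mem h3 hx) hy)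
          ((OS E).mul_mem ((OS E).mul_mem h4 (QR_pow_mem N)) ((OS E).pow_mem hy 2))
      rw [show a * (x + (mm E : E) ^ N * y) ^ 2 = a * x ^ 2 +
        ((mm E : E) ^ N * (2 * a * L⁻¹) * (L * x) * y +
          (mm E : E) ^ N * a * (mm E : E) ^ N * y ^ 2) by field_simp; ring, eS_add, eS_of_mem h7,
        mul_one]
    · have h6 : ¬ L * (x + (mm E : E) ^ N * y) ∈ OS E := fun h => hx (by
        have := (OS E).sub_mem h h5
        rwa [mul_add, add_sub_cancel_right] at this)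
      simp only [if_neg hx, if_neg h6]
  · have hx' : L * x ∈ OS E := by
      by_contra h
      exact hx (if_neg h)
    have := (OS E).mul_mem h2 hx'
    rwa [show (mm E : E) ^ N * L⁻¹ * (L * x) = (mm E : E) ^ N * x by field_simp] at this

open Classical in
/-- The Fourier transform of the indicator function of `R ∩ t OS`. -/
theorem QR_Mn_lat {t : E} (ht : t ≠ 0) (ν : E) :
    Mn (fun x : E => (if x ∈ RR E then (if x / t ∈ OS E then (1 : ℂ) else 0) else 0) *
      eT (ν * x)) = (((Real.sqrt |(discr E : ℝ)|)⁻¹ * absS t : ℝ) : ℂ) *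
        if ν ∈ RR E then (if dS E * t * ν ∈ OS E then 1 else 0) else 0 := by
  obtain ⟨b, hb, hbν⟩ := exists_nat_mul_mem_RR ν
  have hb0 : b ≠ 0 := by
    rintro rfl
    have h1 : mm E = 1 := by simpa using hb
    have := six_le_mm (E := E)
    omega
  have hbE : (b : E) ≠ 0 := Nat.cast_ne_zero.2 hb0
  have hbR : (b : R E) ≠ 0 := Nat.cast_ne_zero.2 hb0
  set k : R E := ⟨(b : E) * ν, hbν⟩ with hk
  have h1 := Mn_crt ((perS_lat ht).mul_prd (prdS_eS ν)) hbR (f := fun x => ef (k * x) b)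
    (fun x y hxy => ef_congr (by rw [← mul_sub]; exact hxy.mul_left k))
  have h2 : (fun x : E => (if x ∈ RR E then (if x / t ∈ OS E then (1 : ℂ) else 0) else 0) *
      eT (ν * x)) = fun x : E => if hx : x ∈ RR E then
        (if x / t ∈ OS E then (1 : ℂ) else 0) * eS (ν * x) * ef (k * ⟨x, hx⟩) b else 0 := by
    funext x
    by_cases hx : x ∈ RR E
    · rw [if_pos hx, dif_pos hx, eT_eq_mul, ef]
      have : ((k * ⟨x, hx⟩ : R E) : E) / ((b : R E) : E) = ν * x := by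
        simp only [hk, Subring.coe_mul, Subring.coe_natCast]
        field_simp
      rw [this]
      ring
    · rw [if_neg hx, dif_neg hx, zero_mul]
  rw [h2, h1, IS_lat_eS ht, sum_res_ef hbR]
  have h3 : (b : R E) ∣ k ↔ ν ∈ RR E := by
    rw [dvd_iff hbR]
    simp only [hk, Subring.coe_natCast]
    rw [mul_div_cancel_left₀ _ hbE]
  have h4 : (nN (b : R E) : ℂ) = (nf ((b : R E) : E) : ℝ) := by
    rw [nf_eq_nN hbR]
    simp
  have h5 : (nf ((b : R E) : E) : ℂ) ≠ 0 :=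
    Complex.ofReal_ne_zero.2 (nf_pos (by simpa using hb0)).ne'
  have h6 := B2_sqrt_ne (E := E)
  by_cases hν : ν ∈ RR E
  · rw [if_pos (h3.2 hν), if_pos hν, h4]
    split_ifs
    · generalize nf ((b : R E) : E) = w at h5 ⊢
      push_cast
      field_simp
    · simp
  · rw [if_neg (fun h => hν (h3.1 h)), if_neg hν]
    simp

open Classical in
/-- `Mn_quad` for `φ = 1_{R ∩ t OS}`, `b = 1 / c` (`Mn_crt`, `IS_lat`, `IS_lat_eS`,
`mem_RR_of_eF`/`sum_res_ef`; `eT = eF · eS`). -/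
theorem g2_eq_IS {c : R E} (hc : c ≠ 0) {t : E} (ht : t ≠ 0) (h : t ^ 2 / c ∈ OS E) :
    g2 c = (Real.sqrt (absS (c : E) * nr (2 : E) / |(discr E : ℝ)|) : ℂ) *
      IS fun ν : E => if dS E * t * ν ∈ OS E then eS (-(c * ν ^ 2 / 4)) else 0 := by
  have hcE : (c : E) ≠ 0 := fun h0 => hc (Subtype.ext h0)
  have hq := Mn_quad (B2_per (perS_lat ht)) (b := (c : E)⁻¹) (inv_ne_zero hcE)
  have h1 := Mn_crt (perS_lat ht) hc (f := fun x => ef (x ^ 2) c)
    (fun x y hxy => ef_congr (hxy.trans (sub_dvd_pow_sub_pow x y 2)))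
  have h2 : (fun x : E => (if x ∈ RR E then (if x / t ∈ OS E then (1 : ℂ) else 0) else 0) *
      eT ((c : E)⁻¹ * x ^ 2)) = fun x : E => if hx : x ∈ RR E then
        (if x / t ∈ OS E then (1 : ℂ) else 0) * ef ((⟨x, hx⟩ : R E) ^ 2) c else 0 := by
    funext x
    by_cases hx : x ∈ RR E
    · rw [if_pos hx, dif_pos hx]
      by_cases hx' : x / t ∈ OS E
      · have h3 : (c : E)⁻¹ * x ^ 2 ∈ OS E := by
          have := (OS E).mul_mem h ((OS E).pow_mem hx' 2)
          rwa [show t ^ 2 / (c : E) * (x / t) ^ 2 = (c : E)⁻¹ * x ^ 2 by field_simp] at this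
        rw [eT_of_mem_OS h3, ef]
        congr 2
        simp only [SubmonoidClass.mk_pow]
        rw [div_eq_inv_mul]
      · simp only [if_neg hx', zero_mul]
    · rw [if_neg hx, dif_neg hx, zero_mul]
  have hψ : PerS fun ν : E => if dS E * t * ν ∈ OS E then eS (-(c * ν ^ 2 / 4)) else 0 := by
    have := QR_perS (mul_ne_zero (dS_ne_zero (E := E)) ht) (-((c : E) / 4))
    convert this using 4
    ring
  have h3 : (fun ν : E => Mn (fun x : E =>
      (if x ∈ RR E then (if x / t ∈ OS E then (1 : ℂ) else 0) else 0) * eT (ν * x)) *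
        eT (-(ν ^ 2 / (4 * (c : E)⁻¹)))) = fun ν : E =>
      (((Real.sqrt |(discr E : ℝ)|)⁻¹ * absS t : ℝ) : ℂ) * if ν ∈ RR E then
        (if dS E * t * ν ∈ OS E then eS (-(c * ν ^ 2 / 4)) else 0) else 0 := by
    funext ν
    rw [QR_Mn_lat ht, mul_assoc]
    congr 1
    by_cases hν : ν ∈ RR E
    · rw [if_pos hν, if_pos hν]
      have h2R : (2 : E)⁻¹ ∈ RR E := (isUnit_iff.1 (isUnit_two (E := E))).2
      have h4 : -((c : E) * ν ^ 2 / 4) ∈ RR E := by
        have := (RR E).neg_mem ((RR E).mul_mem ((RR E).mul_mem c.2 ((RR E).pow_mem hν 2))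
          ((RR E).pow_mem h2R 2))
        rwa [show (c : E) * ν ^ 2 * (2 : E)⁻¹ ^ 2 = (c : E) * ν ^ 2 / 4 by ring] at this
      rw [show -(ν ^ 2 / (4 * (c : E)⁻¹)) = -((c : E) * ν ^ 2 / 4) by field_simp,
        eT_of_mem_RR h4]
      split_ifs <;> simp
    · rw [if_neg hν, if_neg hν, zero_mul]
  rw [h2, h1, h3, Mn_const_mul (B2_per hψ), IS_lat ht] at hq
  have hd : (0 : ℝ) < |(discr E : ℝ)| := abs_pos.2 (Int.cast_ne_zero.2 (discr_ne_zero E))
  have hnf := nf_pos hcE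
  have hnr := nr_pos hcE
  have hs : Real.sqrt (absS (c : E) * nr (2 : E) / |(discr E : ℝ)|) =
      Real.sqrt (nf (c : E)) * Real.sqrt (nr (2 * (c : E)⁻¹)) / Real.sqrt |(discr E : ℝ)| := by
    rw [← Real.sqrt_mul hnf.le, ← Real.sqrt_div' _ hd.le, nr_mul, nr_inv, nf]
    congr 2
    field_simp
  have h6 := B2_sqrt_ne (E := E)
  have h7 : (absS t : ℂ) ≠ 0 := Complex.ofReal_ne_zero.2 (absS_pos t).ne'
  have h8 : (Real.sqrt (nf (c : E)) : ℂ) ≠ 0 :=
    Complex.ofReal_ne_zero.2 (Real.sqrt_pos.2 hnf).ne'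
  have h9 : (nf (c : E) : ℂ) = (Real.sqrt (nf (c : E)) : ℂ) ^ 2 := by
    rw [← Complex.ofReal_pow, Real.sq_sqrt hnf.le]
  rw [g2, hs, IS]
  push_cast at hq ⊢
  rw [h9] at hq
  field_simp at hq ⊢
  linear_combination hq

/-- Reduce to bounded `c` (`exists_bdd_pow`, `g2_mul_sq`), take `t = m^B`, `j = 3 B + 4`. -/
theorem exists_g2_level : ∃ j : ℕ, 1 ≤ j ∧
    ∀ n n' : R E, n ≠ 0 → Ty j (n : E) (n' : E) → g2 n' = g2 n := by
  classical
  obtain ⟨B, hB⟩ := exists_bdd_pow (E := E) (k := 2) two_ne_zero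
  refine ⟨3 * B + 4, by omega, fun n n' hn hT => ?_⟩
  have hj : 1 ≤ 3 * B + 4 := by omega
  have hnE : (n : E) ≠ 0 := (hT.ne_zero hj).1
  have hnE' : (n' : E) ≠ 0 := (hT.ne_zero hj).2
  have hn' : n' ≠ 0 := fun h0 => hnE' (by rw [h0]; rfl)
  obtain ⟨y, hy, h1, h2⟩ := hB (n : E) hnE
  have hy0 : y ≠ 0 := hy.ne_zero
  have hyE : (y : E) ≠ 0 := (isUnit_iff.1 hy).1
  have hm := mm_ne_zero (E := E)
  have ht : (mm E : E) ^ B ≠ 0 := pow_ne_zero _ hm
  have hT' : Ty (3 * B + 4) ((n * y ^ 2 : R E) : E) ((n' * y ^ 2 : R E) : E) := by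
    push_cast
    exact hT.mul (Ty.refl _ (pow_ne_zero _ hyE))
  have h3 : ((mm E : E) ^ B) ^ 2 / ((n * y ^ 2 : R E) : E) ∈ OS E := by
    have := (OS E).mul_mem (QR_pow_mem B) h2
    push_cast
    rwa [← mul_div_assoc, ← sq] at this
  rw [← g2_mul_sq hn hy0, ← g2_mul_sq hn' hy0,
    g2_eq_IS (mul_ne_zero hn (pow_ne_zero _ hy0)) ht h3,
    g2_eq_IS (mul_ne_zero hn' (pow_ne_zero _ hy0)) ht ((hT'.div_mem_iff hj _).1 h3),
    hT'.absS_eq hj]
  congr 2
  funext ν
  split_ifs with hν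
  · obtain ⟨z, hz, hz'⟩ := hT
    have e : (n' : E) = n * (1 + (mm E : E) ^ (3 * B + 4) * z) := by
      rw [← hz']
      field_simp
    obtain ⟨l, hl⟩ := Fr.six_dvd (E := E)
    have hl' : (mm E : E) / 2 ∈ OS E := by
      have : (mm E : E) / 2 = ((3 * l : ℕ) : E) := by
        rw [show mm E = 6 * l from hl]
        push_cast
        ring
      rw [this]
      exact natCast_mem _ _
    have hd := dS_ne_zero (E := E)
    have h4 := (OS E).neg_mem ((OS E).mul_mem ((OS E).mul_mem ((OS E).mul_mem h1 hz)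
      ((OS E).pow_mem ((OS E).mul_mem mm_div_dS_mem hν) 2)) ((OS E).pow_mem hl' 2))
    push_cast
    rw [show -((n' : E) * (y : E) ^ 2 * ν ^ 2 / 4) = -((n : E) * (y : E) ^ 2 * ν ^ 2 / 4) +
      -((mm E : E) ^ B * ((n : E) * (y : E) ^ 2) * z *
        ((mm E : E) / dS E * (dS E * (mm E : E) ^ B * ν)) ^ 2 * ((mm E : E) / 2) ^ 2) by
      rw [e]; field_simp; ring, eS_add, eS_of_mem h4, mul_one]
  · rfl

end Crest.Agent.R312
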