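import Crest.Agent.R312.CubRec
import Crest.Agent.R312.QuadRec
import Crest.Agent.R312.GaussCube

/-!
# Row 312: the reciprocity laws at a level `j` with `Lev E j`
-/

set_option autoImplicit false

noncomputable section

namespace Crest.Agent.R312

open NumberField
open scoped ComplexConjugate

variable {E : Type} [Field E] [NumberField E] [Fr E]

theorem Lev.mono {i j : ℕ} (h : Lev E i) (hij : i ≤ j) : Lev E j := by
  exact ⟨h.1.trans hij, fun x u hx hu => h.2.1 x u hx (hu.mono hij),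
    fun n n' hn h' => h.2.2 n n' hn (h'.mono hij)⟩
theorem exists_lev : ∃ j : ℕ, Lev E j := by
  obtain ⟨i, hi, h1⟩ := exists_rho_level (E := E)
  obtain ⟨k, -, h2⟩ := exists_g2_level (E := E)
  exact ⟨max i k, hi.trans (le_max_left _ _),
    fun x u hx hu => h1 x u hx (hu.mono (le_max_left _ _)),
    fun n n' hn h' => h2 n n' hn (h'.mono (le_max_right _ _))⟩
theorem Lev.one_le {j : ℕ} (h : Lev E j) : 1 ≤ j := h.1
theorem Lev.rho_U_right {j : ℕ} (h : Lev E j) {x u : E} (hx : x ≠ 0) (hu : U j u) : rho x u = 0 :=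
  h.2.1 x u hx hu
theorem Lev.rho_U_left {j : ℕ} (h : Lev E j) {x u : E} (hx : x ≠ 0) (hu : U j u) : rho u x = 0 := by
  rw [rho_swap, h.rho_U_right hx hu, neg_zero]
theorem Lev.rho_congr {j : ℕ} (h : Lev E j) {x x' y y' : E} (hx : Ty j x x') (hy : Ty j y y') :
    rho x' y' = rho x y := by
  obtain ⟨x0, x1⟩ := hx.ne_zero h.1
  obtain ⟨y0, y1⟩ := hy.ne_zero h.1
  have e1 : rho x' y' = rho (x * (x' / x)) y' := by rw [mul_div_cancel₀ _ x0]
  have e2 : rho x y' = rho x (y * (y' / y)) := by rw [mul_div_cancel₀ _ y0]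
  rw [e1, rho_mul_left x0 (div_ne_zero x1 x0) y1, h.rho_U_left y1 hx, add_zero, e2,
    rho_mul_right x0 y0 (div_ne_zero y1 y0), h.rho_U_right x0 hy, add_zero]
theorem Rec_ne {n : R E} (h : (n : E) ≠ 0) : n ≠ 0 := fun h0 => h (by rw [h0]; rfl)
theorem Rec_coe_ne {n : R E} (h : n ≠ 0) : (n : E) ≠ 0 := fun h0 => h (Subtype.ext h0)
theorem Rec_mul_conj {z : ℂ} (h : ‖z‖ = 1) : z * conj z = 1 := by
  rw [mul_comm]; exact gB_conj_mul h

theorem Lev.g2_congr {j : ℕ} (h : Lev E j) {n n' : R E} (hn : Ty j (n : E) (n' : E)) :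
    g2 n' = g2 n := by
  exact h.2.2 n n' (Rec_ne (hn.ne_zero h.1).1) hn
/-- Elements whose type is a square. -/
theorem Lev.g2_sq {j : ℕ} (h : Lev E j) {y : E} {n : R E} (hn : Ty j (y ^ 2) (n : E)) : g2 n = 1 := by
  have hy : y ≠ 0 := fun h0 => (hn.ne_zero h.1).1 (by rw [h0]; ring)
  obtain ⟨y', h1, -⟩ := exists_Ty j hy (one_ne_zero (α := R E))
  have h2 : Ty j ((1 * y' ^ 2 : R E) : E) (n : E) := by
    have := ((h1.pow 2).symm h.1).trans h.1 hn
    simpa using this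
  rw [h.g2_congr h2, g2_mul_sq one_ne_zero (Rec_ne (h1.ne_zero h.1).2), g2_unit isUnit_one]

theorem Rs_comm (a b : R E) : Rs a b = Rs b a := by
  rw [Rs, Rs, mul_comm a b]
  ring
theorem norm_Rs {a b : R E} (ha : a ≠ 0) (hb : b ≠ 0) : ‖Rs a b‖ = 1 := by
  rw [Rs, norm_mul, norm_mul, Complex.norm_conj, Complex.norm_conj, norm_g2 (mul_ne_zero ha hb),
    norm_g2 ha, norm_g2 hb]
  norm_num
theorem norm_R6 {a b : R E} (ha : a ≠ 0) (hb : b ≠ 0) : ‖R6 a b‖ = 1 := by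
  rw [R6, norm_mul, norm_Rs ha hb, norm_chi, mul_one]
theorem Rec_Rs_eq {a b : R E} (ha : a ≠ 0) (hb : b ≠ 0) (h : IsCoprime a b) :
    Rs a b = quad a b * quad b a := by
  rw [Rs, g2_mul ha hb h]
  linear_combination quad a b * quad b a * (g2 b * conj (g2 b) * Rec_mul_conj (norm_g2 ha) +
    Rec_mul_conj (norm_g2 hb))
theorem Rec_Rs_congr {j : ℕ} (h : Lev E j) {a a' b b' : R E} (ha : Ty j (a : E) (a' : E))
    (hb : Ty j (b : E) (b' : E)) : Rs a' b' = Rs a b := by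
  rw [Rs, Rs, h.g2_congr ha, h.g2_congr hb, h.g2_congr (n := a * b) (n' := a' * b') (ha.mul hb)]

theorem R6_swap {j : ℕ} (h : Lev E j) {a b : R E} (ha : a ≠ 0) (hb : b ≠ 0) :
    R6 b a = conj (R6 a b) := by
  have h1 : conj (Rs a b) = Rs a b := by
    obtain ⟨b', h1, h2⟩ := exists_Ty j (Rec_coe_ne hb) ha
    have hb' := Rec_ne (h1.ne_zero h.1).2
    rw [← Rec_Rs_congr h (Ty.refl j (Rec_coe_ne ha)) h1, Rec_Rs_eq ha hb' h2.symm, map_mul,
      conj_quad, conj_quad]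
  rw [R6, R6, map_mul, h1, Rs_comm, rho_swap, chi_neg]
theorem quad_recip {a b : R E} (ha : a ≠ 0) (hb : b ≠ 0) : quad a b = Rs a b * quad b a := by
  by_cases h : IsCoprime a b
  · rw [Rec_Rs_eq ha hb h]
    linear_combination (-quad a b) * quad_sq h.symm
  · rw [(quad_eq_zero_iff ha).2 h, (quad_eq_zero_iff hb).2 fun h' => h h'.symm, mul_zero]
theorem sym_recip {a b : R E} (ha : a ≠ 0) (hb : b ≠ 0) : sym a b = R6 a b * sym b a := by
  rw [sym, sym, R6, quad_recip ha hb, cub_recip ha hb, map_mul]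
  linear_combination (-(Rs a b * quad b a * conj (cub a b))) *
    Rec_mul_conj (norm_chi (rho (a : E) (b : E)))
theorem Lev.Rs_congr {j : ℕ} (h : Lev E j) {a a' b b' : R E} (ha : Ty j (a : E) (a' : E))
    (hb : Ty j (b : E) (b' : E)) : Rs a' b' = Rs a b := by
  exact Rec_Rs_congr h ha hb
theorem Lev.R6_congr {j : ℕ} (h : Lev E j) {a a' b b' : R E} (ha : Ty j (a : E) (a' : E))
    (hb : Ty j (b : E) (b' : E)) : R6 a' b' = R6 a b := by
  rw [R6, R6, h.Rs_congr ha hb, h.rho_congr ha hb]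
/-- Move `b` inside its type to make it prime to `a`, `a'` (`exists_Ty`). -/
theorem Lev.Rs_sq {j : ℕ} (h : Lev E j) {a b : R E} (ha : a ≠ 0) (hb : b ≠ 0) : Rs a b ^ 2 = 1 := by
  obtain ⟨b', h1, h2⟩ := exists_Ty j (Rec_coe_ne hb) ha
  have hb' := Rec_ne (h1.ne_zero h.1).2
  rw [← h.Rs_congr (Ty.refl j (Rec_coe_ne ha)) h1, Rec_Rs_eq ha hb' h2.symm, mul_pow,
    quad_sq h2, quad_sq h2.symm, mul_one]
theorem Lev.Rs_mul_left {j : ℕ} (h : Lev E j) {a a' b : R E} (ha : a ≠ 0) (ha' : a' ≠ 0)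
    (hb : b ≠ 0) : Rs (a * a') b = Rs a b * Rs a' b := by
  have haa := mul_ne_zero ha ha'
  obtain ⟨b', h1, h2⟩ := exists_Ty j (Rec_coe_ne hb) haa
  have hb' := Rec_ne (h1.ne_zero h.1).2
  rw [← h.Rs_congr (Ty.refl j (Rec_coe_ne ha)) h1, ← h.Rs_congr (Ty.refl j (Rec_coe_ne ha')) h1,
    ← h.Rs_congr (Ty.refl j (Rec_coe_ne haa)) h1, Rec_Rs_eq haa hb' h2.symm,
    Rec_Rs_eq ha hb' h2.of_mul_right_left.symm, Rec_Rs_eq ha' hb' h2.of_mul_right_right.symm,
    quad_mul_left ha ha', quad_mul_right]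
  ring
theorem Lev.R6_mul_left {j : ℕ} (h : Lev E j) {a a' b : R E} (ha : a ≠ 0) (ha' : a' ≠ 0)
    (hb : b ≠ 0) : R6 (a * a') b = R6 a b * R6 a' b := by
  rw [R6, R6, R6, h.Rs_mul_left ha ha' hb, Subring.coe_mul,
    rho_mul_left (Rec_coe_ne ha) (Rec_coe_ne ha') (Rec_coe_ne hb), chi_add]
  ring
theorem Lev.R6_mul_right {j : ℕ} (h : Lev E j) {a b b' : R E} (ha : a ≠ 0) (hb : b ≠ 0)
    (hb' : b' ≠ 0) : R6 a (b * b') = R6 a b * R6 a b' := by
  rw [R6, R6, R6, Rs_comm, h.Rs_mul_left hb hb' ha, Subring.coe_mul,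
    rho_mul_right (Rec_coe_ne ha) (Rec_coe_ne hb) (Rec_coe_ne hb'), chi_add, Rs_comm a b,
    Rs_comm a b']
  ring
theorem sym_unit_right {u n : R E} (hu : IsUnit u) (hn : n ≠ 0) : sym n u = R6 n u := by
  rw [sym_recip hn hu.ne_zero, sym_unit_left hu, mul_one]
theorem quad_unit_right {u n : R E} (hu : IsUnit u) (hn : n ≠ 0) : quad n u = Rs n u := by
  rw [quad_recip hn hu.ne_zero, quad_unit_left hu, mul_one]
theorem Lev.sym_unit_congr {j : ℕ} (h : Lev E j) {u n n' : R E} (hu : IsUnit u)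
    (hn : Ty j (n : E) (n' : E)) : sym n' u = sym n u := by
  rw [sym_unit_right hu (Rec_ne (hn.ne_zero h.1).1), sym_unit_right hu (Rec_ne (hn.ne_zero h.1).2),
    h.R6_congr hn (Ty.refl j (Rec_coe_ne hu.ne_zero))]
theorem Lev.quad_unit_congr {j : ℕ} (h : Lev E j) {u n n' : R E} (hu : IsUnit u)
    (hn : Ty j (n : E) (n' : E)) : quad n' u = quad n u := by
  rw [← sym_pow_three, ← sym_pow_three, h.sym_unit_congr hu hn]
theorem Lev.cub_unit_congr {j : ℕ} (h : Lev E j) {u n n' : R E} (hu : IsUnit u)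
    (hn : Ty j (n : E) (n' : E)) : cub n' u = cub n u := by
  rw [← sym_sq, ← sym_sq, h.sym_unit_congr hu hn]
theorem Lev.sym_V {j : ℕ} (h : Lev E j) {u : R E} (hu : V j (u : E)) (n : R E) : sym n u = 1 := by
  by_cases hn : n = 0
  · rw [hn, sym_eq_prod, pf_zero, Finset.prod_empty]
  obtain ⟨h1, h2⟩ := (V_iff_isUnit h.1).1 hu
  rw [sym_unit_right h1 hn, h.R6_congr (b := 1) (Ty.refl j (Rec_coe_ne hn)) (Ty_one_iff.2 h2),
    ← sym_unit_right isUnit_one hn, sym_one_right]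
theorem Lev.quad_V {j : ℕ} (h : Lev E j) {u : R E} (hu : V j (u : E)) (n : R E) : quad n u = 1 := by
  rw [← sym_pow_three, h.sym_V hu, one_pow]
theorem Lev.cub_V {j : ℕ} (h : Lev E j) {u : R E} (hu : V j (u : E)) (n : R E) : cub n u = 1 := by
  rw [← sym_sq, h.sym_V hu, one_pow]
theorem Lev.invR_sym {j : ℕ} (h : Lev E j) (n : R E) : InvR j (sym n) := by
  intro u x hu
  rw [sym_mul_right, h.sym_V hu, one_mul]
theorem Lev.invR_quad {j : ℕ} (h : Lev E j) (n : R E) : InvR j (quad n) := by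
  intro u x hu
  rw [quad_mul_right, h.quad_V hu, one_mul]
theorem Lev.invR_gam {j : ℕ} (h : Lev E j) (i : ℕ) : InvR j (gam (E := E) i) := by
  intro u x hu
  by_cases hx : x = 0
  · rw [hx, mul_zero]
  rw [gam_unit_mul i ((V_iff_isUnit h.1).1 hu).1 hx, h.sym_V hu, one_pow, one_mul]
theorem Lev.invR_th {j : ℕ} (h : Lev E j) : InvR j (th (E := E)) := by
  intro u x hu
  rw [th_unit_mul ((V_iff_isUnit h.1).1 hu).1, h.cub_V hu, al_V h.1 hu, map_one, one_mul, one_mul]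
/-- On a ray class the symbol of a unit is a constant of modulus one. -/
theorem Lev.exists_sym_unit {j : ℕ} (h : Lev E j) (t : E) {u : R E} (hu : IsUnit u) :
    ∃ κ : ℂ, ‖κ‖ = 1 ∧ ∀ n : R E, Ty j t (n : E) → sym n u = κ := by
  by_cases h0 : ∃ n₀ : R E, Ty j t (n₀ : E)
  · obtain ⟨n₀, h0⟩ := h0
    exact ⟨sym n₀ u, norm_sym (gB_coprime_unit n₀ hu),
      fun n hn => h.sym_unit_congr hu ((h0.symm h.1).trans h.1 hn)⟩
  · exact ⟨1, norm_one, fun n hn => absurd ⟨n, hn⟩ h0⟩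
/-- **Conversion of Möbius coefficients into theta coefficients** (`gam_five`, `mu_gam_cube`). -/
theorem mu_gam5 {j : ℕ} (h : Lev E j) (t : E) : ∃ κ : ℂ, ‖κ‖ = 1 ∧
    ∀ n : R E, Squarefree n → Ty j t (n : E) → mu n * gam 5 n = κ * th n := by
  by_cases h0 : ∃ n₀ : R E, Squarefree n₀ ∧ Ty j t (n₀ : E)
  swap
  · exact ⟨1, norm_one, fun n hs hn => absurd ⟨n, hs, hn⟩ h0⟩
  obtain ⟨n₀, s0, h0⟩ := h0
  have h4 : IsUnit (4 : R E) := by
    rw [show (4 : R E) = 2 * 2 by norm_num]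
    exact isUnit_two.mul isUnit_two
  refine ⟨sym n₀ 4 * g2 n₀ * conj (mu n₀ * gam 2 n₀ ^ 3 * conj (al (n₀ : E))), ?_,
    fun n hs hn => ?_⟩
  · rw [norm_mul, norm_mul, Complex.norm_conj, norm_mul, norm_mul, Complex.norm_conj, norm_pow,
      norm_sym (gB_coprime_unit n₀ h4), norm_g2 s0.ne_zero, norm_gam (by norm_num) s0,
      norm_al (Rec_coe_ne s0.ne_zero), mu_of_squarefree s0]
    simp
  · have ht := (h0.symm h.1).trans h.1 hn
    rw [← mu_gam_cube h.1 s0 hs ht, ← h.sym_unit_congr h4 ht, ← h.g2_congr ht, gam_five hs,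
      g2_eq_gam hs, th_sqfree hs, map_mul, map_mul, conj_mu, Complex.conj_conj]
    linear_combination (-(mu n * sym n 4 * gam 3 n * gam 2 n * conj (gam 2 n ^ 3))) *
      Rec_mul_conj (norm_al (Rec_coe_ne hs.ne_zero))
theorem norm_Tc_unit_row {j : ℕ} (h : Lev E j) (t : E) {u : R E} (hu : IsUnit u) (k : R E) (X : ℝ)
    (s : ℂ) : ‖Tc j t (u * k) X s‖ = ‖Tc j t k X s‖ := by
  obtain ⟨κ, h1, h2⟩ := h.exists_sym_unit t hu
  have e : Tc j t (u * k) X s = κ * Tc j t k X s := by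
    rw [Tc, Tc, ← tsum_mul_left]
    refine tsum_congr fun c => ?_
    split_ifs with hc
    · rw [sym_mul_right, h2 c hc.2]; ring
    · rw [mul_zero]
  rw [e, norm_mul, h1, one_mul]
theorem norm_Tc_unit_type {j : ℕ} (h : Lev E j) (t : E) {u : R E} (hu : IsUnit u) (k : R E) (X : ℝ)
    (s : ℂ) : ‖Tc j ((u : E) * t) k X s‖ = ‖Tc j t k X s‖ := by
  classical
  obtain ⟨κ, h1, h2⟩ := h.exists_sym_unit t hu
  have hu0 := Rec_coe_ne hu.ne_zero
  have ha : ∀ {v : R E}, IsUnit v → ∀ c : R E, sym (v * c) k = sym c k ∧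
      nf ((v * c : R E) : E) = nf (c : E) := fun hv c =>
    ⟨sym_of_associated (associated_unit_mul_left c _ hv) k,
      nf_of_associated (associated_unit_mul_left c _ hv)⟩
  have e0 := tsum_Cls_dvd h.1 ((u : E) * t) hu.ne_zero
    (f := fun c => th c * sym c k * R17.Wc (nf (c : E) / X) s) fun v c hv => by
      have hv' := ((V_iff_isUnit h.1).1 hv).1
      simp only [h.invR_th v c hv, (ha hv' c).1, (ha hv' c).2]
  simp only [hu.dvd, and_true, mul_div_cancel_left₀ t hu0] at e0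
  have e : Tc j ((u : E) * t) k X s = κ ^ 2 * conj (al (u : E)) * Tc j t k X s := by
    rw [Tc, Tc, ← tsum_mul_left]
    refine (tsum_congr fun c => ?_).trans (e0.trans (tsum_congr fun c => ?_))
    · congr
    · split_ifs with hc
      · rw [th_unit_mul hu, (ha hu c).1, (ha hu c).2, ← sym_sq, h2 c hc.2]; ring
      · rw [mul_zero]
  rw [e, norm_mul, norm_mul, norm_pow, h1, Complex.norm_conj, norm_al hu0]
  simp
theorem Tc_congr_type {j : ℕ} (hj : 1 ≤ j) {t t' : E} (h : Ty j t t') : Tc j t' = Tc j t := by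
  have e : Cls j t' = Cls j t := funext fun c => propext (and_congr_right fun _ =>
    ⟨fun h' => h.trans hj h', fun h' => (h.symm hj).trans hj h'⟩)
  funext k X s
  rw [Tc, Tc, e]
theorem norm_Mob_unit_row {j : ℕ} (h : Lev E j) (t : E) {u : R E} (hu : IsUnit u) (a : R E) (X : ℝ)
    (s : ℂ) : ‖Mob j t (u * a) X s‖ = ‖Mob j t a X s‖ := by
  obtain ⟨κ, h1, h2⟩ := h.exists_sym_unit t hu
  have e : Mob j t (u * a) X s = conj κ * Mob j t a X s := by
    rw [Mob, Mob, ← tsum_mul_left]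
    refine tsum_congr fun c => ?_
    split_ifs with hc
    · rw [sym_mul_right, h2 c hc.2, map_mul]; ring
    · rw [mul_zero]
  rw [e, norm_mul, Complex.norm_conj, h1, one_mul]

end Crest.Agent.R312
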