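import Crest.Agent.R312.Recip

/-!
# Row 312: characters modulo `D` and the expansion of the sextic symbol in additive characters

Port of the parts `O1`, `O2` of `R17/ReflAux.lean` (`PO n` becomes `n ≠ 0` or `Nm n`, `pdiv` becomes
`dvs`, `nr` becomes `nf`, `eq` becomes `ef`).
-/

set_option autoImplicit false

noncomputable section

namespace Crest.Agent.R312

open NumberField
open scoped ComplexConjugate

variable {E : Type} [Field E] [NumberField E] [Fr E]

/-- Characters modulo `D` as functions on `R`. -/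
structure IsChr (D : R E) (ψ : R E → ℂ) : Prop where
  mul : ∀ x y, ψ (x * y) = ψ x * ψ y
  per : ∀ x y, D ∣ x - y → ψ x = ψ y
  zero : ∀ x, ¬ IsCoprime x D → ψ x = 0
  norm : ∀ x, IsCoprime x D → ‖ψ x‖ = 1

/-- The dual character. -/
def dualChr (D : R E) (ψ : R E → ℂ) (x : R E) : ℂ := conj (ψ x) * cub D x

/-- The character `∏_{p ∣ r} conj χ_p^{v_p(h)}` modulo `r`. -/
def psiH (h r x : R E) : ℂ := ∏ p ∈ pf r, sym p x ^ (5 * vp p h + 6)

theorem rA_cop {u : R E} (hu : IsUnit u) (n : R E) : IsCoprime u n := by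
  obtain ⟨v, hv⟩ := hu.exists_left_inv
  exact ⟨v, 0, by rw [hv, zero_mul, add_zero]⟩
theorem rA_conj_mul {z : ℂ} (h : ‖z‖ = 1) : conj z * z = 1 := by
  rw [Complex.conj_mul', h]; simp
theorem rA_sym_per (n : R E) (j : ℕ) (x y : R E) (h : n ∣ x - y) : sym n x ^ j = sym n y ^ j := by
  rw [sym_congr h]
theorem rA_sym_pow (n a : R E) {j : ℕ} (hj : j ≠ 0) (b : ℕ) :
    sym n a ^ (j + 6 * b) = sym n a ^ j := by
  induction b with
  | zero => rfl
  | succ b ih => rw [mul_add, mul_one, ← add_assoc, sym_pow_add_six n a (by omega), ih]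
theorem rA_norm_gs {j : ℕ} (hj : ¬ 6 ∣ j) {n : R E} (hs : Squarefree n) :
    ‖gs j n 1‖ = Real.sqrt (nf (n : E)) := by
  rw [gs_one_eq j hs.ne_zero, norm_mul, norm_gam hj hs, mul_one, Complex.norm_real,
    Real.norm_of_nonneg (Real.sqrt_nonneg _)]
theorem rA_pf {n : R E} : ∀ q ∈ pf n, Nm q ∧ Prime q :=
  fun _ hq => ⟨(of_mem_pf hq).1, (of_mem_pf hq).2.1⟩

theorem IsChr.norm_le {D : R E} {ψ : R E → ℂ} (h : IsChr D ψ) (x : R E) : ‖ψ x‖ ≤ 1 := by
  by_cases hx : IsCoprime x D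
  · exact (h.norm x hx).le
  · simp [h.zero x hx]
theorem IsChr.dual {D : R E} (hD : D ≠ 0) {ψ : R E → ℂ} (h : IsChr D ψ) :
    IsChr D (dualChr D ψ) := by
  have _ := hD
  refine ⟨fun x y => ?_, fun x y hxy => ?_, fun x hx => ?_, fun x hx => ?_⟩
  · unfold dualChr
    rw [h.mul, map_mul, cub_mul_right]
    ring
  · unfold dualChr
    rw [h.per x y hxy, cub_congr hxy]
  · unfold dualChr
    rw [h.zero x hx, map_zero, zero_mul]
  · unfold dualChr
    rw [norm_mul, Complex.norm_conj, h.norm x hx, norm_cub hx.symm, one_mul]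
theorem IsChr.mul_mul {D D' : R E} {ψ χ : R E → ℂ} (h : IsChr D ψ) (h' : IsChr D' χ) :
    IsChr (D * D') fun x => ψ x * χ x := by
  refine ⟨fun x y => ?_, fun x y hxy => ?_, fun x hx => ?_, fun x hx => ?_⟩
  · rw [h.mul, h'.mul]
    ring
  · rw [h.per x y ((dvd_mul_right D D').trans hxy), h'.per x y ((dvd_mul_left D' D).trans hxy)]
  · rw [IsCoprime.mul_right_iff, not_and_or] at hx
    rcases hx with hx | hx
    · rw [h.zero x hx, zero_mul]
    · rw [h'.zero x hx, mul_zero]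
  · rw [IsCoprime.mul_right_iff] at hx
    rw [norm_mul, h.norm x hx.1, h'.norm x hx.2, one_mul]
theorem IsChr.unit_mul {u D : R E} (hu : IsUnit u) {ψ : R E → ℂ} (h : IsChr D ψ) :
    IsChr (u * D) ψ :=
  ⟨h.mul, fun x y hxy => h.per x y ((dvd_mul_left D u).trans hxy),
    fun x hx => h.zero x fun hc => hx ((rA_cop hu x).symm.mul_right hc),
    fun x hx => h.norm x hx.of_mul_right_right⟩
theorem IsChr.ft_mul {D D' : R E} (hD : D ≠ 0) (hD' : D' ≠ 0) (hc : IsCoprime D D')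
    {ψ χ : R E → ℂ} (h : IsChr D ψ) (h' : IsChr D' χ) (k : R E) :
    ft (D * D') (fun x => ψ x * χ x) k = ψ D' * χ D * ft D ψ k * ft D' χ k :=
  ft_crt hD hD' hc h.per h'.per h.mul h'.mul k

theorem IsChr.rA_one {D : R E} {ψ : R E → ℂ} (h : IsChr D ψ) : ψ 1 = 1 := by
  have h1 := h.norm 1 isCoprime_one_left
  have h2 := h.mul 1 1
  rw [one_mul] at h2
  have h3 : ψ 1 ≠ 0 := fun h0 => by simp [h0] at h1
  exact mul_left_cancel₀ h3 (by rw [← h2, mul_one])

theorem IsChr.rA_conj {D : R E} {ψ : R E → ℂ} (h : IsChr D ψ) {x y : R E} (hxy : D ∣ y * x - 1) :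
    conj (ψ x) = ψ y := by
  have hx : IsCoprime x D := by
    obtain ⟨k, hk⟩ := hxy
    exact ⟨y, -k, by linear_combination hk⟩
  have h1 : ψ y * ψ x = 1 := by rw [← h.mul, h.per _ _ hxy, h.rA_one]
  have h2 : conj (ψ x) * ψ x = 1 := rA_conj_mul (h.norm x hx)
  have h3 : ψ x ≠ 0 := right_ne_zero_of_mul_eq_one h1
  exact mul_right_cancel₀ h3 (h2.trans h1.symm)

theorem IsChr.ft_unit_mul {u D : R E} (hu : IsUnit u) (hD : D ≠ 0) {ψ : R E → ℂ} (h : IsChr D ψ)
    (k : R E) : ft (u * D) ψ k = ψ u * ft D ψ k := by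
  obtain ⟨v, hv⟩ := hu.exists_right_inv
  have hv' : IsCoprime v D := rA_cop (IsUnit.of_mul_eq_one_right u hv) D
  have e : k = u * (k * v) := by linear_combination (-k) * hv
  conv_lhs => rw [e]
  rw [Crest.Agent.R312.ft_unit_mul hu, ft_mul_unit hD h.per h.mul hv' (h.norm v hv'),
    h.rA_conj (y := u) (by rw [hv, sub_self]; exact dvd_zero D)]
theorem IsChr.ft_mul_arg {y D : R E} (hD : D ≠ 0) (hy : IsCoprime y D) {ψ : R E → ℂ}
    (h : IsChr D ψ) (k : R E) : ft D ψ (y * k) = conj (ψ y) * ft D ψ k := by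
  rw [mul_comm y k, ft_mul_unit hD h.per h.mul hy (h.norm y hy)]
theorem dualChr_mul {D D' : R E} (hD : D ≠ 0) (hD' : D' ≠ 0) (ψ χ : R E → ℂ) :
    dualChr (D * D') (fun x => ψ x * χ x) = fun x => dualChr D ψ x * dualChr D' χ x := by
  funext x
  simp only [dualChr, map_mul, cub_mul_left hD hD']
  ring
theorem dualChr_unit_mul {u : R E} (hu : IsUnit u) (D : R E) (ψ : R E → ℂ) :
    dualChr (u * D) ψ = dualChr D ψ := by
  funext x
  rw [dualChr, dualChr, cub_of_associated (associated_unit_mul_left D u hu)]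

theorem rA_exists_inv {D : R E} (hD : D ≠ 0) :
    ∃ inv : R E → R E, ∀ a, IsCoprime a D → inv a ∈ res D ∧ D ∣ a * inv a - 1 := by
  have : ∀ a, ∃ a', IsCoprime a D → a' ∈ res D ∧ D ∣ a * a' - 1 := by
    intro a
    by_cases ha : IsCoprime a D
    · obtain ⟨u, v, huv⟩ := ha
      obtain ⟨r, ⟨hr, k, hk⟩, -⟩ := exists_unique_res hD u
      exact ⟨r, fun _ => ⟨hr, -v - k * a, by linear_combination huv - a * hk⟩⟩
    · exact ⟨0, fun h => absurd h ha⟩
  exact Classical.skolem.1 this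

/-- The substitution `x ↦ x⁻¹` modulo `D`. -/
theorem IsChr.sum_inv {D : R E} (hD : D ≠ 0) {ψ : R E → ℂ} (h : IsChr D ψ) {inv : R E → R E}
    (hinv : ∀ x, IsCoprime x D → D ∣ x * inv x - 1) {g : R E → ℂ}
    (hg : ∀ x y, D ∣ x - y → g x = g y) :
    ∑ x ∈ res D, ψ x * g (inv x) = ∑ y ∈ res D, conj (ψ y) * g y := by
  classical
  obtain ⟨iv, hiv⟩ := rA_exists_inv hD
  have hcop : ∀ a, IsCoprime a D → IsCoprime (iv a) D := fun a ha => by
    obtain ⟨k, hk⟩ := (hiv a ha).2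
    exact ⟨a, -k, by linear_combination hk⟩
  have hinv2 : ∀ a ∈ res D, IsCoprime a D → iv (iv a) = a := fun a ha hc => by
    obtain ⟨k, hk⟩ := (hiv a hc).2
    obtain ⟨h1, l, hl⟩ := hiv _ (hcop a hc)
    refine (exists_unique_res hD a).unique ⟨h1, ?_⟩ ⟨ha, by simp⟩
    exact ⟨iv (iv a) * k - a * l, by linear_combination iv (iv a) * hk - a * hl⟩
  rw [← Finset.sum_filter_of_ne (p := fun a => IsCoprime a D),
    ← Finset.sum_filter_of_ne (p := fun a => IsCoprime a D) (s := res D)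
      (f := fun x => conj (ψ x) * g x)]
  · refine Finset.sum_nbij' iv iv ?_ ?_ ?_ ?_ ?_
    · intro a ha
      rw [Finset.mem_filter] at ha ⊢
      exact ⟨(hiv a ha.2).1, hcop a ha.2⟩
    · intro a ha
      rw [Finset.mem_filter] at ha ⊢
      exact ⟨(hiv a ha.2).1, hcop a ha.2⟩
    · intro a ha
      rw [Finset.mem_filter] at ha
      exact hinv2 a ha.1 ha.2
    · intro a ha
      rw [Finset.mem_filter] at ha
      exact hinv2 a ha.1 ha.2
    · intro a ha
      rw [Finset.mem_filter] at ha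
      obtain ⟨k, hk⟩ := (hiv a ha.2).2
      obtain ⟨l, hl⟩ := hinv a ha.2
      rw [h.rA_conj (hiv a ha.2).2, hg (inv a) (iv a)
        ⟨iv a * l - inv a * k, by linear_combination iv a * hl - inv a * hk⟩]
  · intro x _ hx
    by_contra hn
    exact hx (by rw [h.zero x hn, map_zero, zero_mul])
  · intro x _ hx
    by_contra hn
    exact hx (by rw [h.zero x hn, zero_mul])
theorem isChr_sym_pow {n : R E} (hn : n ≠ 0) {j : ℕ} (hj : j ≠ 0) :
    IsChr n fun x => sym n x ^ j :=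
  ⟨fun x y => by rw [sym_mul_right, mul_pow], rA_sym_per n j,
    fun x hx => by rw [(sym_eq_zero_iff hn).2 fun h => hx h.symm, zero_pow hj],
    fun x hx => by rw [norm_pow, norm_sym hx.symm, one_pow]⟩
theorem isChr_psiH (h : R E) {r : R E} (hr : r ≠ 0) : IsChr r (psiH h r) := by
  refine ⟨fun x y => ?_, fun x y hxy => ?_, fun x hx => ?_, fun x hx => ?_⟩
  · rw [psiH, psiH, psiH, ← Finset.prod_mul_distrib]
    exact Finset.prod_congr rfl fun p _ => by rw [sym_mul_right, mul_pow]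
  · exact Finset.prod_congr rfl fun p hp =>
      rA_sym_per p _ x y ((of_mem_pf hp).2.2.trans hxy)
  · have h0 := (sym_eq_zero_iff hr).2 fun h' => hx h'.symm
    rw [sym_eq_prod] at h0
    obtain ⟨p, hp, h1⟩ := Finset.prod_eq_zero_iff.1 h0
    exact Finset.prod_eq_zero hp (by rw [eq_zero_of_pow_eq_zero h1, zero_pow (by omega)])
  · rw [psiH, norm_prod]
    exact Finset.prod_eq_one fun p hp => by
      rw [norm_pow, norm_sym (hx.symm.of_isCoprime_of_dvd_left (of_mem_pf hp).2.2), one_pow]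
theorem Lev.psiH_V {j : ℕ} (hj : Lev E j) (h r : R E) {u : R E} (hu : V j (u : E)) :
    psiH h r u = 1 :=
  Finset.prod_eq_one fun p _ => by rw [hj.sym_V hu, one_pow]

theorem rA_ft_gs {n : R E} {f : R E → ℂ} {j : ℕ} (hf : ∀ x, f x = sym n x ^ (j + 6)) (k : R E) :
    ft n f k = gs j n k := Finset.sum_congr rfl fun x _ => by rw [hf]

theorem sym_eq_ft {n : R E} (hs : Squarefree n) (x : R E) :
    sym n x * gs 5 n 1 = ft n (fun a => sym n a ^ 5) x := by
  rw [ft_pow_eq_gs n (by omega), gs_sqfree (by omega) hs x, map_pow, conj_sym, ← pow_mul,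
    rA_sym_pow n x one_ne_zero 4, pow_one]
theorem ft_dual_five {n : R E} (hs : Squarefree n) (ν : R E) :
    ft n (dualChr n fun a => sym n a ^ 5) (-ν) = quad n (-1) * gs 3 n 1 * quad n ν := by
  rw [rA_ft_gs (j := 3) fun a => ?_, gs_sqfree (by omega) hs, sym_pow_three, conj_quad,
    ← neg_one_mul ν, quad_mul_right]
  · ring
  · rw [dualChr, map_pow, conj_sym, ← sym_sq, ← pow_mul, ← pow_add]
    exact rA_sym_pow n a (j := 3 + 6) (by omega) 3

theorem rA_coprime {S : Finset (R E)} (hS : ∀ p ∈ S, Nm p ∧ Prime p) {q : R E} (hq : Prime q)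
    (hq' : Nm q) (h : q ∉ S) : IsCoprime q (∏ p ∈ S, p) :=
  IsCoprime.prod_right fun p hp => hq.coprime_iff_not_dvd.2 fun hd =>
    h (eq_of_prime_dvd hq (hS p hp).2 hq' (hS p hp).1 hd ▸ hp)

/-- Gauss sums of a product of local characters factor up to a unimodular constant. -/
theorem rA_ft_prod (e : R E → ℕ) (S : Finset (R E)) : ∃ u : ℂ, (∀ p ∈ S, Nm p ∧ Prime p) →
    ‖u‖ = 1 ∧ ∀ k, ft (∏ p ∈ S, p) (fun x => ∏ p ∈ S, sym p x ^ (e p + 6)) k =
      u * ∏ p ∈ S, gs (e p) p k := by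
  classical
  induction S using Finset.induction_on with
  | empty =>
    refine ⟨1, fun _ => ⟨norm_one, fun k => ?_⟩⟩
    simp only [Finset.prod_empty, mul_one]
    rw [rA_ft_gs (j := 0) fun x => by simp, gs_unit 0 isUnit_one]
  | insert q S hq ih =>
    obtain ⟨u, hu⟩ := ih
    refine ⟨sym q (∏ p ∈ S, p) ^ (e q + 6) * (∏ p ∈ S, sym p q ^ (e p + 6)) * u, fun hS => ?_⟩
    have hS' : ∀ p ∈ S, Nm p ∧ Prime p := fun p hp => hS p (Finset.mem_insert_of_mem hp)
    obtain ⟨h2, h1⟩ := hS q (Finset.mem_insert_self _ _)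
    obtain ⟨hu1, hu2⟩ := hu hS'
    have hc := rA_coprime hS' h1 h2 hq
    refine ⟨?_, fun k => ?_⟩
    · rw [norm_mul, norm_mul, norm_pow, norm_sym hc, hu1, norm_prod,
        Finset.prod_eq_one fun p hp => ?_]
      · simp
      · rw [norm_pow, norm_sym
          (hc.symm.of_isCoprime_of_dvd_left (Finset.dvd_prod_of_mem _ hp)), one_pow]
    · simp only [Finset.prod_insert hq]
      have h3 := ft_crt (f := fun x => sym q x ^ (e q + 6))
        (g := fun x => ∏ p ∈ S, sym p x ^ (e p + 6)) h1.ne_zero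
        (squarefree_prod_primes hS').2.1.ne_zero hc (rA_sym_per q _)
        (fun x y hxy => Finset.prod_congr rfl fun p hp =>
          rA_sym_per p _ x y ((Finset.dvd_prod_of_mem _ hp).trans hxy))
        (fun x y => by rw [sym_mul_right, mul_pow])
        (fun x y => by
          rw [← Finset.prod_mul_distrib]
          exact Finset.prod_congr rfl fun p _ => by rw [sym_mul_right, mul_pow]) k
      refine h3.trans ?_
      rw [hu2 k, show ft q (fun x => sym q x ^ (e q + 6)) k = gs (e q) q k from rfl]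
      ring

/-- The local expansion at one prime. -/
theorem rA_local (p : R E) (v : ℕ) : ∃ c0 c1 : ℂ, Prime p → v ≠ 0 →
    ‖c0‖ ≤ 1 ∧ ‖c1‖ ≤ (Real.sqrt (nf (p : E)))⁻¹ ∧
      ∀ x, sym p x ^ v = c1 * gs (5 * v) p x + c0 := by
  classical
  by_cases h6 : 6 ∣ v
  · refine ⟨((1 - (nf (p : E))⁻¹ : ℝ) : ℂ), ((-(nf (p : E))⁻¹ : ℝ) : ℂ), fun hp hv => ?_⟩
    have h1 := one_le_nf hp.ne_zero
    have h2 : (nf (p : E))⁻¹ ≤ 1 := inv_le_one_of_one_le₀ h1
    have h3 : 0 < (nf (p : E))⁻¹ := by positivity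
    refine ⟨?_, ?_, fun x => ?_⟩
    · rw [Complex.norm_real, Real.norm_of_nonneg (by linarith)]; linarith
    · rw [Complex.norm_real, norm_neg, Real.norm_of_nonneg h3.le]
      exact inv_anti₀ (by positivity) (Real.sqrt_le_iff.2 ⟨by linarith, by nlinarith⟩)
    · have h4 : (nN p : ℂ) = ((nf (p : E) : ℝ) : ℂ) := by simp [nf_eq_nN hp.ne_zero]
      have h5 : ((nf (p : E) : ℝ) : ℂ) ≠ 0 := by exact_mod_cast (by linarith : nf (p : E) ≠ 0)
      rw [gs_prime_zero (h6.mul_left 5) hp, h4]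
      generalize nf (p : E) = N at h5
      push_cast
      split_ifs with hx
      · rw [(sym_eq_zero_iff hp.ne_zero).2 fun hc =>
          hp.not_isUnit (hc.isUnit_of_dvd' dvd_rfl hx), zero_pow hv]
        field_simp
        ring
      · obtain ⟨v, rfl⟩ := h6
        rw [pow_mul, sym_pow_six (hp.coprime_iff_not_dvd.2 hx), one_pow]
        ring
  · refine ⟨0, (gs (5 * v) p 1)⁻¹, fun hp hv => ?_⟩
    have h1 := rA_norm_gs (j := 5 * v) (by omega) hp.squarefree
    have h2 : gs (5 * v) p 1 ≠ 0 := by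
      rw [← norm_ne_zero_iff, h1]
      exact (Real.sqrt_pos.2 (one_pos.trans_le (one_le_nf hp.ne_zero))).ne'
    refine ⟨by simp, by rw [norm_inv, h1], fun x => ?_⟩
    rw [gs_sqfree (by omega) hp.squarefree x, map_pow, conj_sym, ← pow_mul,
      show 5 * (5 * v) = v + 6 * (4 * v) by ring, rA_sym_pow p x hv]
    field_simp
    ring

open Classical in
theorem rA_local_bound {p : R E} (hp : Prime p) (v : ℕ) (ν : R E) :
    (Real.sqrt (nf (p : E)))⁻¹ * ‖gs (v + 2) p (-ν)‖ ≤ if v % 6 = 4 then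
      (Real.sqrt (nf (p : E)))⁻¹ + if p ∣ ν then Real.sqrt (nf (p : E)) else 0 else 1 := by
  have h0 : 0 < nf (p : E) := one_pos.trans_le (one_le_nf hp.ne_zero)
  have h1 : 0 < Real.sqrt (nf (p : E)) := Real.sqrt_pos.2 h0
  by_cases h4 : v % 6 = 4
  · rw [if_pos h4, gs_prime_zero (by omega) hp]
    simp only [dvd_neg]
    split_ifs with hx
    · have h2 : ‖(nN p : ℂ) - 1‖ ≤ 1 + nf (p : E) := by
        refine (norm_sub_le _ _).trans ?_
        simp [nf_eq_nN hp.ne_zero, add_comm]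
      have h3 : (Real.sqrt (nf (p : E)))⁻¹ * nf (p : E) = Real.sqrt (nf (p : E)) := by
        rw [inv_mul_eq_iff_eq_mul₀ h1.ne', Real.mul_self_sqrt h0.le]
      calc _ ≤ (Real.sqrt (nf (p : E)))⁻¹ * (1 + nf (p : E)) := by gcongr
        _ = _ := by rw [mul_add, mul_one, h3]
    · simp
  · rw [if_neg h4, gs_sqfree (by omega) hp.squarefree, norm_mul,
      rA_norm_gs (by omega) hp.squarefree, Complex.norm_conj, norm_pow,
      mul_left_comm, inv_mul_cancel₀ h1.ne', mul_one]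
    exact pow_le_one₀ (norm_nonneg _) (norm_sym_le _ _)

open Classical in
theorem sym_eq_sum {h : R E} (hh : h ≠ 0) : ∃ coef : R E → ℂ,
    (∀ x, sym h x = ∑ r ∈ dvs (rad h), coef r * ft r (psiH h r) x) ∧
    ∀ r ∈ dvs (rad h), ∀ ν : R E, ‖coef r * ft r (dualChr r (psiH h r)) (-ν)‖ ≤
      ∏ p ∈ (pf r).filter (fun p => vp p h % 6 = 4),
        ((Real.sqrt (nf (p : E)))⁻¹ + if p ∣ ν then Real.sqrt (nf (p : E)) else 0) := by
  choose c0 c1 hc using fun p => rA_local p (vp p h)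
  choose u hu using rA_ft_prod fun p => 5 * vp p h
  have hP : ∀ p ∈ pf h, Nm p ∧ Prime p := rA_pf
  have hv : ∀ {n p : R E}, p ∈ pf n → vp p n ≠ 0 := fun hp h0 =>
    multiplicity_eq_zero.1 h0 (of_mem_pf hp).2.2
  have hc' := fun p hp => hc p (hP p hp).2 (hv hp)
  refine ⟨fun r => (u (pf r))⁻¹ * (∏ p ∈ pf r, c1 p) * ∏ p ∈ pf h \ pf r, c0 p, fun x => ?_,
    fun r hr ν => ?_⟩
  · rw [sum_dvs_sqfree (squarefree_rad h), pf_rad, sym_eq_prod,
      Finset.prod_congr rfl fun p hp => (hc' p hp).2.2 x, Finset.prod_add]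
    refine Finset.sum_congr rfl fun S hS => ?_
    have hS' : ∀ p ∈ S, Nm p ∧ Prime p := fun p hp => hP p (Finset.mem_powerset.1 hS hp)
    have h1 := (squarefree_prod_primes hS').2.2
    obtain ⟨h2, h3⟩ := hu S hS'
    have h4 : u S ≠ 0 := by rw [← norm_ne_zero_iff, h2]; exact one_ne_zero
    have h5 : psiH h (∏ q ∈ S, q) = fun x => ∏ p ∈ S, sym p x ^ (5 * vp p h + 6) := by
      funext y; rw [psiH, h1]
    simp only [h5, h3, h1, Finset.prod_mul_distrib]
    field_simp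
  · obtain ⟨hr1, hr2⟩ := of_mem_dvs hr
    have hsq := (squarefree_rad h).squarefree_of_dvd hr2
    have hsub : pf r ⊆ pf h := pf_subset_of_dvd (hr2.trans (rad_dvd h)) hh
    have hS' : ∀ p ∈ pf r, Nm p ∧ Prime p := rA_pf
    have hrr : ∏ p ∈ pf r, p = r := (rad_eq_nrm hsq).trans hr1.nrm_eq
    obtain ⟨w, hw⟩ := rA_ft_prod (fun p => vp p h + 2) (pf r)
    obtain ⟨hw1, hw2⟩ := hw hS'
    have h5 : dualChr r (psiH h r) = fun x => ∏ p ∈ pf r, sym p x ^ (vp p h + 2 + 6) := by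
      funext y
      rw [dualChr, psiH, map_prod, ← sym_sq, sym_eq_prod, ← Finset.prod_pow,
        ← Finset.prod_mul_distrib]
      refine Finset.prod_congr rfl fun p hp => ?_
      have h6 : vp p r = 1 := (squarefree_iff_vp hr1.ne_zero).1 hsq p hp
      rw [h6, pow_one, map_pow, conj_sym, ← pow_mul, ← pow_add,
        ← rA_sym_pow p y (j := vp p h + 2 + 6) (by omega) (4 * vp p h + 4)]
      congr 1
      ring
    rw [hrr] at hw2
    rw [h5, hw2, Finset.prod_filter]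
    simp only [norm_mul, norm_inv, (hu _ hS').1, hw1, norm_prod, inv_one, one_mul]
    have h7 : ∏ p ∈ pf h \ pf r, ‖c0 p‖ ≤ 1 :=
      Finset.prod_le_one (fun _ _ => norm_nonneg _) fun p hp => (hc' p (Finset.mem_sdiff.1 hp).1).1
    calc _ ≤ (∏ p ∈ pf r, ‖c1 p‖) * 1 * ∏ p ∈ pf r, ‖gs (vp p h + 2) p (-ν)‖ := by gcongr
      _ = ∏ p ∈ pf r, ‖c1 p‖ * ‖gs (vp p h + 2) p (-ν)‖ := by
        rw [mul_one, Finset.prod_mul_distrib]
      _ ≤ _ := Finset.prod_le_prod (fun _ _ => by positivity) fun p hp =>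
        (mul_le_mul_of_nonneg_right (hc' p (hsub hp)).2.1 (norm_nonneg _)).trans
          (rA_local_bound (hS' p hp).2 _ ν)

end Crest.Agent.R312
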