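import Crest.Agent.R312.Hecke
import Crest.Agent.R312.PP

/-!
# Row 312: the coefficients `th` are the coefficients of a theta function
-/

set_option autoImplicit false

noncomputable section

namespace Crest.Agent.R312

open NumberField
open scoped ComplexConjugate

open Filter Topology

variable {E : Type} [Field E] [NumberField E] [Fr E]

/-! ## part A -/

/-- `SD.patterson`, `th_eq`, `gs_two`, `nr ν = nf n * nf d ^ 3 / absS ν`; both sides vanish if `ν` is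
not of the form `n d³` (`SD.tF_ne_zero`, `th_ne_zero`). -/
theorem SD.tN_eq {j : ℕ} (hj : Lev E j) {F : E → E → ℂ} (h : SD F) {ν : R E} (hν : ν ≠ 0) :
    tN F ν * conj (al (ν : E)) =
      th ν * ((absS (ν : E) ^ (-(1 / 6 : ℝ)) : ℝ) : ℂ) * tF (Cop (ν : E) F) 1 := by
  by_cases hd : ∃ n d : R E, Squarefree n ∧ Nm d ∧ ν = n * d ^ 3
  · obtain ⟨n, d, hn, hd, rfl⟩ := hd
    have hn0 : (n : E) ≠ 0 := fun h0 => hn.ne_zero (Subtype.ext h0)
    have hd0 : (d : E) ≠ 0 := fun h0 => hd.ne_zero (Subtype.ext h0)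
    have ha := nf_pos hn0
    have hb := nf_pos hd0
    have hs := absS_pos ((n * d ^ 3 : R E) : E)
    have e1 : nr ((n * d ^ 3 : R E) : E) =
        nf (n : E) * nf (d : E) ^ 3 * (absS ((n * d ^ 3 : R E) : E))⁻¹ := by
      rw [← nf_pow, ← nf_mul, eq_mul_inv_iff_mul_eq₀ hs.ne']
      rfl
    have e2 : nf (n : E) ^ (-(2 / 3 : ℝ)) * Real.sqrt (nf (n : E)) *
        nr ((n * d ^ 3 : R E) : E) ^ (1 / 6 : ℝ) =
        Real.sqrt (nf (d : E)) * absS ((n * d ^ 3 : R E) : E) ^ (-(1 / 6 : ℝ)) := by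
      rw [e1, Real.mul_rpow (by positivity) (by positivity),
        Real.mul_rpow (by positivity) (by positivity), Real.inv_rpow hs.le, ← Real.rpow_neg hs.le,
        Real.sqrt_eq_rpow, Real.sqrt_eq_rpow, ← Real.rpow_natCast, ← Real.rpow_mul hb.le,
        ← Real.rpow_add ha, ← mul_assoc, ← mul_assoc, ← Real.rpow_add ha]
      norm_num
    have e3 := congrArg (fun x : ℝ => (x : ℂ)) e2
    simp only [Complex.ofReal_mul] at e3
    rw [tN, h.patterson hj hn hd.ne_zero, th_eq hn hd.ne_zero, ← gs_two, gs_one_eq 2 hn.ne_zero]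
    linear_combination (gam 2 n * conj (al ((n * d ^ 3 : R E) : E)) *
      tF (Cop ((n * d ^ 3 : R E) : E) F) 1) * e3
  · have h1 : tF F ν = 0 := by
      by_contra h0
      exact hd (h.tF_ne_zero hj hν h0)
    have h2 : th ν = 0 := by
      by_contra h0
      exact hd (th_ne_zero h0)
    rw [tN, h1, h2]
    simp
/-- `Cop ν₀ (F0 j)` with `ν₀` from `exists_tF_ne` (`SD.tF_ne_zero`, `SD.patterson`). -/
theorem exists_tF_one_ne {j : ℕ} (hj : Lev E j) : ∃ F : E → E → ℂ, SD F ∧ tF F 1 ≠ 0 := by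
  obtain ⟨ν, hν, h0⟩ := exists_tF_ne hj
  refine ⟨Cop (ν : E) (F0 j), (sd_F0 hj).cop hj fun h => hν (Subtype.ext h), fun h1 => h0 ?_⟩
  obtain ⟨n, d, hn, hd, rfl⟩ := (sd_F0 hj).tF_ne_zero hj hν h0
  rw [(sd_F0 hj).patterson hj hn hd.ne_zero, h1, mul_zero]
open Classical in
/-- Let `F₁` be as in `exists_tF_one_ne`, `N` as in `SD.cop_U` for `F₁`.  For `Ty N τ ν`:
`Cop ν (Cop τ⁻¹ F₁) = chi (rho τ⁻¹ ν) Cop (τ⁻¹ ν) F₁ = F₁` (`Cop_Cop`, `Lev.rho_congr`, `rho_self`,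
`Cop_one`), so that `SD.tN_eq` gives `th ν` times the constant `absS τ^{-1/6} tF F₁ 1 ≠ 0`.  Divide by
it and cut (`SD.exists_cut`, `perS_Ty`).  For `ν = 0`, `al 0 = 0`. -/
theorem exists_SD_fine {j : ℕ} (hj : Lev E j) : ∃ N : ℕ, j ≤ N ∧ ∀ τ : E, τ ≠ 0 →
    ∃ F : E → E → ℂ, SD F ∧ ∀ ν : R E,
      tN F ν * conj (al (ν : E)) = if Ty N τ (ν : E) then th ν else 0 := by
  obtain ⟨F₁, h1, h0⟩ := exists_tF_one_ne hj
  obtain ⟨N, hN, hC⟩ := h1.cop_U hj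
  have hN1 : 1 ≤ N := hj.1.trans hN
  refine ⟨N, hN, fun τ hτ => ?_⟩
  have hG := h1.cop hj (inv_ne_zero hτ)
  obtain ⟨c, hc⟩ : ∃ c : ℂ, c = ((absS τ ^ (-(1 / 6 : ℝ)) : ℝ) : ℂ) * tF F₁ 1 := ⟨_, rfl⟩
  have hc0 : c ≠ 0 := by
    rw [hc]
    exact mul_ne_zero (Complex.ofReal_ne_zero.2 (Real.rpow_pos_of_pos (absS_pos τ) _).ne') h0
  obtain ⟨F, hF, hF'⟩ := hG.exists_cut hj ((perS_Ty hN1 τ).const_mul c⁻¹).1
  refine ⟨F, hF, fun ν => ?_⟩
  have e : tN F ν = c⁻¹ * (if Ty N τ (ν : E) then 1 else 0) * tN (Cop τ⁻¹ F₁) ν := by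
    rw [tN, tN, hF']; ring
  rw [e]
  split_ifs with hν
  · have hν0 : (ν : E) ≠ 0 := (hν.ne_zero hN1).2
    have e1 : rho τ⁻¹ (ν : E) = 0 := by
      rw [hj.rho_congr (Ty.refl j (inv_ne_zero hτ)) (hν.mono hN), rho_inv_left hτ hτ, rho_self,
        neg_zero]
    have e2 : Cop (τ⁻¹ * ν) F₁ = F₁ := by
      rw [hC 1 (τ⁻¹ * ν) (by rw [Ty_one_iff, mul_comm, ← div_eq_mul_inv]; exact hν),
        Cop_one h1.zero_zero]
    have e3 : Cop (ν : E) (Cop τ⁻¹ F₁) = F₁ := by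
      rw [Cop_Cop h1.zero_zero (inv_ne_zero hτ) hν0, e1, e2]
      simp
    rw [mul_assoc, hG.tN_eq hj (fun h => hν0 (by rw [h]; rfl)), e3, hν.absS_eq hN1, mul_assoc (th ν),
      ← hc]
    field_simp
  · simp
/-- `U j / U N` is finite (`exists_types` with `B = 0` for `x / t`, `FrameA3_reps`). -/
theorem exists_refine {j N : ℕ} (hj : 1 ≤ j) (hN : j ≤ N) {t : E} (ht : t ≠ 0) :
    ∃ T : Finset E, (∀ τ ∈ T, Ty j t τ) ∧ ∀ x, Ty j t x → ∃! τ, τ ∈ T ∧ Ty N τ x := by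
  classical
  have hN1 : 1 ≤ N := hj.trans hN
  obtain ⟨T₀, -, h0⟩ := exists_types (E := E) 0 N
  obtain ⟨T, hT, h⟩ := FrameA3_reps (Ty (E := E) N)
    (fun a b x y h1 h2 h3 => (h1.trans hN1 (h2.symm hN1)).trans hN1 h3) (Ty j t)
    ((T₀.image (· * t)).filter (Ty j t)) fun x hx => by
      obtain ⟨τ, h1, h2⟩ := h0 (x / t) (U.ne_zero hj hx)
        (by rw [pow_zero, one_mul]; exact U.mem_OS hx)
        (by rw [pow_zero, one_div]; exact (U.inv hj hx).mem_OS)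
      have h3 : Ty N (τ * t) x := by
        have := h2.mul (Ty.refl N ht)
        rwa [div_mul_cancel₀ _ ht] at this
      exact ⟨τ * t, Finset.mem_filter.2 ⟨Finset.mem_image_of_mem _ h1,
        hx.trans hj ((h3.mono hN).symm hj)⟩, h3⟩
  exact ⟨T, fun τ hτ => (Finset.mem_filter.1 (hT hτ)).2, h⟩
open Classical in
theorem exists_SD_th {j : ℕ} (hj : Lev E j) {t : E} (ht : t ≠ 0) :
    ∃ F : E → E → ℂ, SD F ∧ ∀ ν : R E,
      tN F ν * conj (al (ν : E)) = if Ty j t (ν : E) then th ν else 0 := by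
  obtain ⟨N, hN, h⟩ := exists_SD_fine hj
  obtain ⟨T, hT, hT'⟩ := exists_refine hj.1 hN ht
  choose! F hF hF' using h
  have h0 : ∀ τ ∈ T, τ ≠ 0 := fun τ hτ => ((hT τ hτ).ne_zero hj.1).2
  refine ⟨fun c d => ∑ τ ∈ T, F τ c d, SD.sum T fun τ hτ => hF τ (h0 τ hτ), fun ν => ?_⟩
  have e : tN (fun c d => ∑ τ ∈ T, F τ c d) ν * conj (al (ν : E)) =
      ∑ τ ∈ T, if Ty N τ (ν : E) then th ν else 0 := by
    rw [tN, tF_sum hj T fun τ hτ => hF τ (h0 τ hτ), Finset.sum_mul, Finset.sum_mul]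
    exact Finset.sum_congr rfl fun τ hτ => hF' τ (h0 τ hτ) ν
  rw [e]
  split_ifs with hν
  · obtain ⟨τ, ⟨h1, h2⟩, h3⟩ := hT' _ hν
    rw [Finset.sum_eq_single_of_mem τ h1, if_pos h2]
    exact fun b hb hne => if_neg fun h4 => hne (h3 b ⟨hb, h4⟩)
  · exact Finset.sum_eq_zero fun τ hτ => if_neg fun h4 => hν ((hT τ hτ).trans hj.1 (h4.mono hN))

/-! ## part B -/

/-- Take `N` from `SD.cop_U`, `T` from `exists_classes` at the level `N`, `Ty N τ (u x)`, `v = u⁻¹`.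
Then `Cop v (Cop τ G) = Cop v (Cop (u x) G) = chi _ * Cop x G`, hence
`‖tF (Cop x G) 1‖ = ‖tF (Cop τ G) v‖ ≤ C_τ nr v^{1/3}` (`SD.tF_unit`, `SD.norm_tF_le`), and
`nr v = absS v⁻¹ = absS τ / absS x`. -/
theorem SD.norm_tF_Cop_le {j : ℕ} (hj : Lev E j) {G : E → E → ℂ} (h : SD G) :
    ∃ C : ℝ, 0 < C ∧ ∀ x : E, x ≠ 0 → ‖tF (Cop x G) 1‖ ≤ C * absS x ^ (-(1 / 3 : ℝ)) := by
  obtain ⟨N, hN, hcop⟩ := h.cop_U hj
  have hN1 : 1 ≤ N := hj.1.trans hN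
  obtain ⟨T, hT0, hT⟩ := exists_classes (E := E) hN1
  have H : ∀ τ : E, ∃ C : ℝ, 0 < C ∧ (τ ≠ 0 →
      ∀ ν : E, ν ≠ 0 → ‖tF (Cop τ G) ν‖ ≤ C * nr ν ^ (1 / 3 : ℝ)) := fun τ => by
    by_cases h0 : τ = 0
    · exact ⟨1, one_pos, fun h' => absurd h0 h'⟩
    · obtain ⟨C, hC, H⟩ := (h.cop hj h0).norm_tF_le hj
      exact ⟨C, hC, fun _ => H⟩
  choose C hC H using H
  have hpos : ∀ τ ∈ T, 0 ≤ C τ * absS τ ^ (1 / 3 : ℝ) := fun τ _ =>
    mul_nonneg (hC τ).le (Real.rpow_nonneg (absS_pos τ).le _)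
  refine ⟨1 + ∑ τ ∈ T, C τ * absS τ ^ (1 / 3 : ℝ),
    add_pos_of_pos_of_nonneg one_pos (Finset.sum_nonneg hpos), fun x hx => ?_⟩
  obtain ⟨τ, ⟨hτ, u, hu, hty⟩, -⟩ := hT x hx
  obtain ⟨v, huv⟩ := hu.exists_right_inv
  have hv : IsUnit v := IsUnit.of_mul_eq_one_right u huv
  have huv' : (u : E) * v = 1 := by exact_mod_cast congrArg Subtype.val huv
  have hu0 : (u : E) ≠ 0 := Rec_coe_ne hu.ne_zero
  have hv0 : (v : E) ≠ 0 := Rec_coe_ne hv.ne_zero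
  have e1 := (h.cop hj (hT0 τ hτ)).tF_unit hj hv 1
  rw [mul_one] at e1
  have e2 : Cop (v : E) (Cop τ G) = fun c d => chi (rho ((u : E) * x) v) * Cop x G c d := by
    rw [← hcop _ _ hty, Cop_Cop h.zero_zero (mul_ne_zero hu0 hx) hv0, mul_right_comm, huv', one_mul]
  rw [e2, (h.cop hj hx).tF_const_mul hj] at e1
  have e3 : ‖tF (Cop x G) 1‖ = ‖tF (Cop τ G) v‖ := by rw [e1, norm_mul, norm_chi, one_mul]
  have e4 : nr (v : E) = absS τ / absS x := by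
    have a1 := nr_mul_absS_unit hv
    have a2 := hty.absS_eq hN1
    rw [absS_mul hu0 hx] at a2
    have a3 : absS (u : E) = (absS (v : E))⁻¹ := by
      rw [← absS_inv, eq_inv_of_mul_eq_one_left huv']
    rw [← a2, mul_div_cancel_right₀ _ (absS_pos x).ne', a3]
    exact eq_inv_of_mul_eq_one_left a1
  rw [e3]
  refine (H τ (hT0 τ hτ) _ hv0).trans ?_
  rw [e4, Real.div_rpow (absS_pos τ).le (absS_pos x).le, Real.rpow_neg (absS_pos x).le,
    div_eq_mul_inv, ← mul_assoc]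
  refine mul_le_mul_of_nonneg_right ?_ (inv_nonneg.2 (Real.rpow_nonneg (absS_pos x).le _))
  exact (Finset.single_le_sum hpos hτ).trans (le_add_of_nonneg_left zero_le_one)
/-- Support and size of the normalised coefficients. -/
theorem SD.tN_bound {j : ℕ} (hj : Lev E j) {G : E → E → ℂ} (h : SD G) :
    ∃ (N : ℕ) (C : ℝ), 0 < C ∧ ∀ ν : R E, ν ≠ 0 → tN G ν ≠ 0 →
      (mm E : E) ^ N * ν ∈ OS E ∧ ∃ n d : R E, Squarefree n ∧ Nm d ∧ ν = n * d ^ 3 ∧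
        ‖tN G ν‖ ≤ C * (Real.sqrt (absS (ν : E)))⁻¹ * Real.sqrt (nf (d : E)) := by
  obtain ⟨N, hN⟩ := h.tF_support
  obtain ⟨C, hC, H⟩ := h.norm_tF_Cop_le hj
  refine ⟨N, C, hC, fun ν hν h0 => ?_⟩
  have h1 : tF G ν ≠ 0 := left_ne_zero_of_mul h0
  obtain ⟨n, d, hn, hd, rfl⟩ := h.tF_ne_zero hj hν h1
  refine ⟨(hN _ h1).2, n, d, hn, hd, rfl, ?_⟩
  have ha : 0 < nf (n : E) := nf_pos (Rec_coe_ne hn.ne_zero)
  have hb : 0 < nf (d : E) := nf_pos (Rec_coe_ne hd.1)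
  have hs := absS_pos ((n * d ^ 3 : R E) : E)
  have h2 := H _ (Rec_coe_ne hν)
  have e : nr ((n * d ^ 3 : R E) : E) = nf (n : E) * nf (d : E) ^ 3 / absS ((n * d ^ 3 : R E) : E) := by
    rw [eq_div_iff hs.ne', ← nf_pow, ← nf_mul]
    push_cast
    rfl
  rw [tN, h.patterson hj hn hd.1, norm_mul, norm_mul, norm_mul, norm_gc hn, Complex.norm_real,
    Complex.norm_real, Real.norm_of_nonneg (Real.rpow_nonneg ha.le _),
    Real.norm_of_nonneg (Real.rpow_nonneg (nr_nonneg _) _), e]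
  generalize absS ((n * d ^ 3 : R E) : E) = s at hs h2 ⊢
  generalize nf (n : E) = a at ha ⊢
  generalize nf (d : E) = b at hb ⊢
  refine (mul_le_mul_of_nonneg_right (mul_le_mul_of_nonneg_left h2 (by positivity))
    (by positivity)).trans (le_of_eq ?_)
  have e1 : a ^ (-(2 / 3 : ℝ)) * a ^ (1 / 2 : ℝ) * a ^ (1 / 6 : ℝ) = 1 := by
    rw [← Real.rpow_add ha, ← Real.rpow_add ha]; norm_num
  have e2 : s ^ (1 / 2 : ℝ) = s ^ (1 / 3 : ℝ) * s ^ (1 / 6 : ℝ) := by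
    rw [← Real.rpow_add hs]; norm_num
  have e3 : (b ^ 3) ^ (1 / 6 : ℝ) = b ^ (1 / 2 : ℝ) := by
    rw [← Real.rpow_natCast, ← Real.rpow_mul hb.le]; norm_num
  rw [Real.div_rpow (by positivity) hs.le, Real.mul_rpow ha.le (by positivity), Real.sqrt_eq_rpow,
    Real.sqrt_eq_rpow, Real.sqrt_eq_rpow, e2, e3, Real.rpow_neg hs.le, mul_inv,
    div_eq_mul_inv _ (s ^ (1 / 6 : ℝ))]
  linear_combination (C * (s ^ (1 / 3 : ℝ))⁻¹ * (s ^ (1 / 6 : ℝ))⁻¹ * b ^ (1 / 2 : ℝ)) * e1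
/-- As `norm_Tc_unit_type`, but the constant does not depend on `k, X, s` (`tsum_Cls_dvd` with
`g = u`, `th_unit_mul`, `cub_unit_right`, `Lev.rho_congr`). -/
theorem exists_Tc_unit_type {j : ℕ} (hj : Lev E j) (t : E) {u : R E} (hu : IsUnit u) :
    ∃ κ : ℂ, ‖κ‖ = 1 ∧ ∀ (k : R E) (X : ℝ) (s : ℂ),
      Tc j t k X s = κ * Tc j ((u : E) * t) k X s := by
  classical
  obtain ⟨κ, h1, h2⟩ := hj.exists_sym_unit t hu
  have hu0 := Rec_coe_ne hu.ne_zero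
  have hn : ‖κ ^ 2 * conj (al (u : E))‖ = 1 := by
    rw [norm_mul, norm_pow, h1, Complex.norm_conj, norm_al hu0]; simp
  refine ⟨conj (κ ^ 2 * conj (al (u : E))), by rw [Complex.norm_conj, hn], fun k X s => ?_⟩
  have ha : ∀ {v : R E}, IsUnit v → ∀ c : R E, sym (v * c) k = sym c k ∧
      nf ((v * c : R E) : E) = nf (c : E) := fun hv c =>
    ⟨sym_of_associated (associated_unit_mul_left c _ hv) k,
      nf_of_associated (associated_unit_mul_left c _ hv)⟩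
  have e0 := tsum_Cls_dvd hj.1 ((u : E) * t) hu.ne_zero
    (f := fun c => th c * sym c k * R17.Wc (nf (c : E) / X) s) fun v c hv => by
      have hv' := ((V_iff_isUnit hj.1).1 hv).1
      simp only [hj.invR_th v c hv, (ha hv' c).1, (ha hv' c).2]
  simp only [hu.dvd, and_true, mul_div_cancel_left₀ t hu0] at e0
  have e : Tc j ((u : E) * t) k X s = κ ^ 2 * conj (al (u : E)) * Tc j t k X s := by
    rw [Tc, Tc, ← tsum_mul_left]
    refine (tsum_congr fun c => ?_).trans (e0.trans (tsum_congr fun c => ?_))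
    · congr
    · split_ifs with hc
      · rw [th_unit_mul hu, (ha hu c).1, (ha hu c).2, ← sym_sq, h2 c hc.2]; ring
      · rw [mul_zero]
  rw [e, ← mul_assoc, mul_comm (conj _), Rec_mul_conj hn, one_mul]

end Crest.Agent.R312
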