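import Crest.Agent.R312.Recip
import Crest.Agent.R312.PP

/-!
# Row 312: reciprocity and change of level in `Tc` (auxiliary file of `ReflV.lean`)
-/

set_option autoImplicit false

noncomputable section

namespace Crest.Agent.R312.ReflC2

open NumberField
open scoped ComplexConjugate
open Crest.Agent.R17 (Wc)

variable {E : Type} [Field E] [NumberField E] [Fr E]

open Classical in
theorem level {i j : ℕ} (hi : 1 ≤ i) (hij : i ≤ j) : ∃ k : ℕ, 0 < k ∧
    ∀ f : R E → ℂ, InvR i f → (Summable fun x : R E => if Fd i (x : E) then f x else 0) →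
      (Summable fun x : R E => if Fd j (x : E) then f x else 0) ∧
      (∑' x : R E, if Fd j (x : E) then f x else 0) =
        k * ∑' x : R E, if Fd i (x : E) then f x else 0 := by
  obtain ⟨k, hk, H⟩ := tsum_Fd_level (E := E) hi hij
  refine ⟨k, hk, fun f hf hs => ?_⟩
  set g : E → ℂ := fun x => if h : x ∈ RR E then f ⟨x, h⟩ else 0 with hg
  have e1 : ∀ l : ℕ, (fun x : R E => if Fd l (x : E) then f x else 0) =
      (fun x : E => if Fd l x then g x else 0) ∘ Subtype.val := fun l => by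
    funext x
    simp only [hg, Function.comp_apply, dif_pos x.2]
  have e2 : ∀ l : ℕ, ∀ x ∉ Set.range (Subtype.val : R E → E), (if Fd l x then g x else 0) = 0 :=
    fun l x hx => by
      have : x ∉ RR E := fun h => hx ⟨⟨x, h⟩, rfl⟩
      simp only [hg, dif_neg this, ite_self]
  have e3 : ∀ l : ℕ, (∑' x : R E, if Fd l (x : E) then f x else 0) =
      ∑' x : E, if Fd l x then g x else 0 := fun l => by
    rw [e1]
    exact Subtype.val_injective.tsum_eq (f := fun x : E => if Fd l x then g x else 0)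
      fun x hx => by_contra fun h => hx (e2 l x h)
  have hI : Inv i g := fun u x hu => by
    by_cases hx : x ∈ RR E
    · simp only [hg, dif_pos hx, dif_pos (mul_mem hu.2.1 hx)]
      exact hf ⟨u, hu.2.1⟩ ⟨x, hx⟩ hu
    · have : u * x ∉ RR E := fun h => hx (by
        simpa only [inv_mul_cancel_left₀ (hu.ne_zero hi)] using mul_mem hu.2.2 h)
      simp only [hg, dif_neg hx, dif_neg this]
  rw [e1, Subtype.val_injective.summable_iff (e2 i)] at hs
  rw [e3, e3, e1, Subtype.val_injective.summable_iff (e2 j)]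
  exact H g hI hs

open Classical in
theorem expand {j j' : ℕ} (hj : Lev E j) (hj' : j ≤ j') : ∃ k : ℕ, 0 < k ∧
    ∀ (t : E) (h r₁ : R E) (S : Finset (R E)) (coef : R E → ℂ) (ψ : R E → R E → ℂ), t ≠ 0 → h ≠ 0 →
      r₁ ≠ 0 → (∀ x, sym h x = ∑ r ∈ S, coef r * ft r (ψ r) x) →
      ∃ ω : ℂ, ‖ω‖ ≤ 1 ∧ ∀ X : ℝ, 0 < X → ∀ s : ℂ,
        (k : ℂ) * Tc j t (r₁ * h) X s = ω * ∑ r ∈ S, coef r *
          ∑' ν : R E, if Fd j' (ν : E) then (if Ty j t (ν : E) then th ν else 0) *
            (sym r₁ ν * ft r (ψ r) ν) * Wc (nr (ν : E) / (X / absS t)) s else 0 := by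
  obtain ⟨k, hk, H⟩ := level (E := E) hj.1 hj'
  obtain ⟨C, -, hC⟩ := cnt_Cls (E := E) hj.1
  refine ⟨k, hk, fun t h r₁ S coef ψ ht hh hr hs => ?_⟩
  obtain ⟨n₀, hn₀, -⟩ := exists_Ty j ht (one_ne_zero (α := R E))
  have hne : ∀ {n : R E}, Ty j t (n : E) → n ≠ 0 := fun hn e =>
    (hn.ne_zero hj.1).2 (by rw [e]; rfl)
  have hk0 := mul_ne_zero hr hh
  refine ⟨R6 n₀ (r₁ * h), (norm_R6 (hne hn₀) hk0).le, fun X hX s => ?_⟩
  set f : R E → ℂ := fun ν => (if Ty j t (ν : E) then th ν else 0) *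
    Wc (nr (ν : E) / (X / absS t)) s with hf
  have hI : InvR j f := fun u x hu => by
    have e : Ty j t ((u * x : R E) : E) ↔ Ty j t (x : E) := by
      have e1 : ((u * x : R E) : E) / t = (u : E) * ((x : E) / t) := by
        push_cast; ring
      rw [Ty, Ty, e1]
      refine ⟨fun h1 => ?_, fun h1 => hu.1.mul h1⟩
      simpa only [inv_mul_cancel_left₀ (hu.ne_zero hj.1)] using (hu.1.inv hj.1).mul h1
    have e2 : nr ((u * x : R E) : E) = nr (x : E) := by
      rw [Subring.coe_mul, nr_mul, hu.nr_eq hj.1, one_mul]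
    simp only [hf, e, e2, hj.invR_th u x hu]
  have e0 : ∀ ν : R E, (if Fd j (ν : E) then f ν else 0) =
      (if Cls j t ν then th ν else 0) * Wc (nf (ν : E) / X) s := fun ν => by
    by_cases h1 : Fd j (ν : E) <;> by_cases h2 : Ty j t (ν : E) <;> simp only [hf, Cls, h1, h2,
      if_true, if_false, and_self, and_false, false_and, zero_mul]
    rw [nf, h2.absS_eq hj.1, div_div_eq_mul_div]
  have s0 : Summable fun ν : R E => if Fd j (ν : E) then f ν else 0 := by
    simp only [e0]
    refine (summable_Sm (hC t) (H := 1) (B := 1 / 6) ⟨zero_le_one, fun i hi => if_neg hi,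
      fun i hi => ?_⟩ hX s).of_norm
    rw [if_pos hi, one_mul]
    exact norm_th_le i
  have bd : ∀ {l : ℕ} (φ : R E → ℂ) (B : ℝ), (∀ ν, ‖φ ν‖ ≤ B) →
      (Summable fun ν : R E => if Fd l (ν : E) then f ν else 0) →
      Summable fun ν : R E => if Fd l (ν : E) then f ν * φ ν else 0 := fun φ B hB h1 => by
    refine Summable.of_norm_bounded (h1.norm.mul_right B) fun ν => ?_
    split_ifs
    · rw [norm_mul]
      exact mul_le_mul_of_nonneg_left (hB ν) (norm_nonneg _)
    · simp
  have s1 := (H f hI s0).1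
  have e1 := (H (fun ν => f ν * sym ν (r₁ * h)) (fun u x hu => by
    have : Associated (u * x) x := associated_unit_mul_left _ _ ((V_iff_isUnit hj.1).1 hu).1
    simp only [hI u x hu, sym_of_associated this]) (bd _ 1 (fun ν => norm_sym_le _ _) s0)).2
  have e2 : Tc j t (r₁ * h) X s = ∑' ν : R E,
      if Fd j (ν : E) then f ν * sym ν (r₁ * h) else 0 := tsum_congr fun ν => by
    have := e0 ν
    by_cases h1 : Fd j (ν : E)
    · rw [if_pos h1] at this ⊢
      rw [this]
      split_ifs <;> ring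
    · rw [if_neg h1, if_neg fun h2 => h1 h2.1]
  have s2 : ∀ r ∈ S, Summable fun ν : R E => coef r *
      if Fd j' (ν : E) then f ν * (sym r₁ ν * ft r (ψ r) ν) else 0 := fun r _ => by
    refine (bd _ (1 * ∑ x ∈ res r, ‖ψ r x‖) (fun ν => ?_) s1).mul_left _
    rw [norm_mul]
    refine mul_le_mul (norm_sym_le _ _) (norm_sum_le_of_le _ fun x _ => ?_) (norm_nonneg _)
      zero_le_one
    rw [norm_mul, norm_ef, mul_one]
  have e3 : ∀ r ∈ S, coef r * (∑' ν : R E, if Fd j' (ν : E) then
      (if Ty j t (ν : E) then th ν else 0) * (sym r₁ ν * ft r (ψ r) ν) *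
        Wc (nr (ν : E) / (X / absS t)) s else 0) = ∑' ν : R E, coef r *
      if Fd j' (ν : E) then f ν * (sym r₁ ν * ft r (ψ r) ν) else 0 := fun r _ => by
    rw [tsum_mul_left]
    simp only [hf, mul_right_comm]
  rw [e2, ← e1, Finset.sum_congr rfl e3, ← Summable.tsum_finsetSum s2, ← tsum_mul_left]
  refine tsum_congr fun ν => ?_
  split_ifs
  · by_cases h2 : Ty j t (ν : E)
    · rw [sym_recip (hne h2) hk0, hj.R6_congr ((hn₀.symm hj.1).trans hj.1 h2)
        (Ty.refl j fun e => hk0 (Subtype.ext e)), sym_mul_left hr hh, hs]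
      simp only [Finset.mul_sum]
      exact Finset.sum_congr rfl fun r _ => by ring
    · simp [hf, h2]
  · simp

end Crest.Agent.R312.ReflC2
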