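import Crest.Agent.R312.ReflP
import Crest.Agent.R312.ReflA
import Crest.Agent.R312.ReflVAuxC2

/-!
# Row 312: the twisted Voronoi formula
-/

set_option autoImplicit false

noncomputable section

namespace Crest.Agent.R312

open NumberField
open scoped ComplexConjugate

open Filter Topology
open Crest.Agent.R17 (Wc U1)

variable {E : Type} [Field E] [NumberField E] [Fr E]

/-- The twist of `xi F` by the additive characters modulo `D`. -/
def xiD (D : R E) (ψ : R E → ℂ) (F : E → E → ℂ) (a : R E → R E) : E → E → ℂ := fun c d =>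
  ∑ x ∈ res D, ψ x * sl (xi F) (nM ((a x : E) / D)) c d

/-- Good lifts. -/
def LiftD (D : R E) (F : E → E → ℂ) (a : R E → R E) : Prop :=
  ∀ x, D ∣ a x - x ∧ ac F (nM ((a x : E) / D)) = F ∧
    ∀ ν, tF F ν ≠ 0 → eS (ν * ((a x : E) / D)) = 1

open Classical in
/-- A function on `R` extended by zero. -/
def ext0 (f : R E → ℂ) (x : E) : ℂ := if h : x ∈ RR E then f ⟨x, h⟩ else 0

/-! ## part A: the coefficients at `∞` and at `0` -/

theorem SD.exists_liftD {F : E → E → ℂ} (h : SD F) {D : R E} (hD : D ≠ 0) :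
    ∃ a, LiftD D F a := by
  obtain ⟨N, hN⟩ := h.small
  obtain ⟨N', hN'⟩ := exists_sml_mul (D : E)⁻¹ N
  choose a ha ha' using fun x : R E => exists_approx_sml hD x 0 N'
  exact ⟨a, fun x => ⟨ha x, hN _ (by simpa only [sub_zero, div_eq_mul_inv] using hN' _ (ha' x))⟩⟩
theorem reflVA_adm {j : ℕ} (hj : Lev E j) {F : E → E → ℂ} (h : SD F) {g : Mt E} (hg : g.det ≠ 0) :
    Adm (sl (xi F) g) ∧ CT (sl (xi F) g) := ⟨h.adm.sl hg, (h.ct hj).sl h.adm hg⟩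
theorem SD.adm_xiD {j : ℕ} (hj : Lev E j) {F : E → E → ℂ} (h : SD F) (D : R E) (ψ : R E → ℂ)
    (a : R E → R E) : Adm (xiD D ψ F a) ∧ CT (xiD D ψ F a) := by
  have h1 := fun x : R E =>
    reflVA_adm hj h (g := nM ((a x : E) / D)) (by rw [det_nM]; exact one_ne_zero)
  exact ⟨Adm.sum _ fun x _ => (h1 x).1.const_mul _,
    CT.sum _ (fun x _ => (h1 x).1.const_mul _) fun x _ => (h1 x).2.const_mul (h1 x).1 _⟩
theorem reflVA_tt_sum (s : Finset (R E)) (ψ : R E → ℂ) {ξ : R E → E → E → ℂ}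
    (h : ∀ x, Adm (ξ x) ∧ CT (ξ x)) (ν : E) :
    tt (fun c d => ∑ x ∈ s, ψ x * ξ x c d) ν = ∑ x ∈ s, ψ x * tt (ξ x) ν := by
  rw [tt_sum s (ξ := fun x c d => ψ x * ξ x c d) (fun x _ => (h x).1.const_mul _)
    fun x _ => (h x).2.const_mul (h x).1 _]
  exact Finset.sum_congr rfl fun x _ => tt_const_mul (h x).1 (h x).2 _ _
/-- `tt_sum`, `SD.tt_up`, `eT_eq_mul`, `SD.tF_of_not_mem`, `ef_congr`. -/
theorem SD.tt_xiD {j : ℕ} (hj : Lev E j) {F : E → E → ℂ} (h : SD F) {D : R E} (hD : D ≠ 0)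
    (ψ : R E → ℂ) {a : R E → R E} (ha : LiftD D F a) (ν : E) :
    tt (xiD D ψ F a) ν = ext0 (ft D ψ) ν * tF F ν := by
  have h1 : ∀ b : E, tt (sl (xi F) (nM b)) ν = eT (ν * b) * tF F ν := fun b => by
    simpa [nM] using h.tt_up hj one_ne_zero one_ne_zero b ν
  refine (reflVA_tt_sum _ ψ (fun x => reflVA_adm hj h (g := nM ((a x : E) / D))
    (by rw [det_nM]; exact one_ne_zero)) ν).trans ?_
  simp only [h1]
  by_cases h0 : tF F ν = 0
  · simp [h0]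
  have hν : ν ∈ RR E := by_contra fun h' => h0 (h.tF_of_not_mem h')
  rw [ext0, dif_pos hν, ft, Finset.sum_mul]
  refine Finset.sum_congr rfl fun x _ => ?_
  rw [eT_eq_mul, (ha x).2.2 ν h0, mul_one, mul_assoc,
    ← ef_congr (x := ⟨ν, hν⟩ * a x) (by rw [← mul_sub]; exact (ha x).1.mul_left _), ef,
    ← mul_div_assoc]
  rfl
/-- With `a δ - y D = 1`, `σ = mR a y D δ`: `nM (a / D) * wM = σ * (D⁻¹, -δ; 0, D)`; `sl_mul`, `sl_xi`,
`ac_voronoi`, `SD.tt_up` (`nr D^{1/3} / nr D`, `eT (-ν δ / D)`), `SD.tF_transl` (`eS (ν δ / D)`),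
`eT_eq_mul`. -/
theorem SD.tt_inversion {j : ℕ} (hj : Lev E j) {F : E → E → ℂ} (h : SD F) {D a δ : R E}
    (hD : D ≠ 0) (hδ : D ∣ a * δ - 1) (ha : ac F (nM ((a : E) / D)) = F) (ν : E) :
    tt (sl (sl (xi F) (nM ((a : E) / D))) (wM E)) (ν / (D : E) ^ 2) =
      ((nr (D : E) ^ (-(2 / 3 : ℝ)) : ℝ) : ℂ) * cub D δ * eF (-(ν * δ / D)) *
        tF (dualF F (D : E)) ν := by
  obtain ⟨y, hy⟩ := hδ
  have hD' : (D : E) ≠ 0 := fun h' => hD (Subtype.ext h')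
  have hdet : a * δ - y * D = 1 := by linear_combination hy
  have hdet' : (a : E) * δ - y * D = 1 := by exact_mod_cast congrArg Subtype.val hdet
  have hu : (!![(D : E)⁻¹, -δ; 0, D] : Mt E).det ≠ 0 := by simp [Matrix.det_fin_two, hD']
  have hm : nM ((a : E) / D) * wM E = mR a y D δ * !![(D : E)⁻¹, -δ; 0, D] := by
    ext i k
    fin_cases i <;> fin_cases k <;>
      simp [nM, wM, mR, Matrix.mul_apply, Fin.sum_univ_two, div_eq_mul_inv, hD']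
    · linear_combination hdet'
    · ring
  have hG : ac F (mR a y D δ) = ac (dualF F D) (nM ((δ : E) / D)) := by
    rw [mR, ac_voronoi h.zero_zero hD' hdet', ha]
  have hd := h.dual hj hD'
  have hS := hd.act hj (g := nM ((δ : E) / D)) (by rw [det_nM]; exact one_ne_zero)
  have h1 := reflVA_adm hj hS hu
  rw [← sl_mul _ (by rw [det_nM]; exact one_ne_zero) (by rw [det_wM]; exact one_ne_zero), hm,
    sl_mul _ (by rw [det_mR, hdet]; exact one_ne_zero) hu, sl_xi F hdet, hG, sl_const_mul,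
    tt_const_mul h1.1 h1.2, show ν / (D : E) ^ 2 = ν * (D : E)⁻¹ / D by field_simp,
    hS.tt_up hj (inv_ne_zero hD') hD', hd.tF_transl hj, eT_eq_mul]
  have e1 : eS (ν * -(δ : E) / D) * eS (ν * ((δ : E) / D)) = 1 := by
    rw [← eS_add, show ν * -(δ : E) / D + ν * ((δ : E) / D) = 0 by ring, eS_zero]
  have e2 : nr (D : E)⁻¹ ^ (-(1 / 3 : ℝ)) / nr (D : E) = nr (D : E) ^ (-(2 / 3 : ℝ)) := by
    have := nr_pos hD'
    rw [nr_inv, Real.inv_rpow this.le, ← Real.rpow_neg this.le, neg_neg,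
      ← Real.rpow_sub_one this.ne']
    norm_num
  rw [e2, show ν * -(δ : E) / D = -(ν * δ / D) by ring] at *
  linear_combination (cub D δ * ((nr (D : E) ^ (-(2 / 3 : ℝ)) : ℝ) : ℂ) * eF (-(ν * δ / D)) *
    tF (dualF F (D : E)) ν) * e1
/-- Sum `SD.tt_inversion` over the classes prime to `D` (`IsChr.sum_inv`). -/
theorem SD.tt_xiD_inversion {j : ℕ} (hj : Lev E j) {F : E → E → ℂ} (h : SD F) {D : R E}
    (hD : D ≠ 0) {ψ : R E → ℂ} (hψ : IsChr D ψ) {a : R E → R E} (ha : LiftD D F a) (ν : E) :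
    tt (sl (xiD D ψ F a) (wM E)) (ν / (D : E) ^ 2) =
      ((nr (D : E) ^ (-(2 / 3 : ℝ)) : ℝ) : ℂ) * ext0 (fun k => ft D (dualChr D ψ) (-k)) ν *
        tF (dualF F (D : E)) ν := by
  have hD' : (D : E) ≠ 0 := fun h' => hD (Subtype.ext h')
  have hw : (wM E).det ≠ 0 := by rw [det_wM]; exact one_ne_zero
  obtain ⟨inv, hinv⟩ : ∃ inv : R E → R E, ∀ x, IsCoprime x D → D ∣ x * inv x - 1 := by
    have : ∀ x : R E, ∃ y, IsCoprime x D → D ∣ x * y - 1 := fun x => by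
      by_cases hx : IsCoprime x D
      · obtain ⟨u, v, huv⟩ := hx
        exact ⟨u, fun _ => ⟨-v, by linear_combination huv⟩⟩
      · exact ⟨0, fun h' => absurd h' hx⟩
    exact ⟨fun x => (this x).choose, fun x => (this x).choose_spec⟩
  refine (reflVA_tt_sum _ ψ (ξ := fun x => sl (sl (xi F) (nM ((a x : E) / D))) (wM E)) (fun x => by
    have := reflVA_adm hj h (g := nM ((a x : E) / D)) (by rw [det_nM]; exact one_ne_zero)
    exact ⟨this.1.sl hw, this.2.sl this.1 hw⟩) _).trans ?_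
  have h1 : ∀ x, ψ x * tt (sl (sl (xi F) (nM ((a x : E) / D))) (wM E)) (ν / (D : E) ^ 2) =
      ((nr (D : E) ^ (-(2 / 3 : ℝ)) : ℝ) : ℂ) * (ψ x * (cub D (inv x) * eF (-(ν * inv x / D)))) *
        tF (dualF F (D : E)) ν := fun x => by
    by_cases hx : IsCoprime x D
    · rw [h.tt_inversion hj hD (δ := inv x) (by
        have := ((ha x).1.mul_right (inv x)).add (hinv x hx)
        rwa [show (a x - x) * inv x + (x * inv x - 1) = a x * inv x - 1 by ring] at this)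
        (ha x).2.1]
      ring
    · simp [hψ.zero x hx]
  simp only [h1]
  rw [← Finset.sum_mul, ← Finset.mul_sum]
  by_cases hν : ν ∈ RR E
  · have h2 : ∀ y : R E, eF (-(ν * y / D)) = ef (-(⟨ν, hν⟩ : R E) * y) D := fun y => by
      rw [ef, ← neg_div, ← neg_mul]
      rfl
    simp only [h2]
    rw [hψ.sum_inv hD hinv (g := fun y => cub D y * ef (-(⟨ν, hν⟩ : R E) * y) D) fun x y hxy => by
      rw [cub_congr hxy, ef_congr (x := -(⟨ν, hν⟩ : R E) * x) (y := -(⟨ν, hν⟩ : R E) * y)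
        (by rw [← mul_sub]; exact hxy.mul_left _)], ext0, dif_pos hν, ft]
    simp only [dualChr, mul_assoc]
  · rw [(h.dual hj hD').tF_of_not_mem hν, mul_zero, mul_zero]

/-! ## part B: the summation formula -/

/-- `T8` for `xiD D ψ F a` at `-η`; reindex the dual sum by `ν ↦ ν / D²`
(`al_mul`, `al_inv`, `nr_div`, `lg_div`; the term `ν = 0` vanishes because `al 0 = 0`). -/
theorem SD.voronoi_U1 {j : ℕ} (hj : Lev E j) {F : E → E → ℂ} (h : SD F) {D : R E} (hD : D ≠ 0)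
    {ψ : R E → ℂ} (hψ : IsChr D ψ) (η : Pl E → ℝ) :
    ∑' ν : E, tN F ν * conj (al ν) * ext0 (ft D ψ) ν *
        ((∏ σ, U1 (4 * Real.pi ^ 2 * Real.exp (lg ν σ + η σ)) : ℝ) : ℂ) =
      ((-1) ^ rk E * conj (al (D : E)) ^ 2 / (nr (D : E) : ℂ)) * (Real.exp (-∑ σ, η σ) : ℂ) *
        ∑' ν : E, tN (dualF F (D : E)) ν * al ν * ext0 (fun k => ft D (dualChr D ψ) (-k)) ν *
          ((∏ σ, U1 (4 * Real.pi ^ 2 *
            Real.exp (lg ν σ - η σ + -(2 * lg (D : E) σ))) : ℝ) : ℂ) := by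
  obtain ⟨a, ha⟩ := h.exists_liftD hD
  obtain ⟨h1, h2⟩ := h.adm_xiD hj D ψ a
  have hD' : (D : E) ≠ 0 := fun h0 => hD (Subtype.ext h0)
  have hN := nr_pos hD'
  have H := T8 h1 h2 (-η)
  rw [← (Equiv.divRight₀ _ (pow_ne_zero 2 hD')).tsum_eq] at H
  have e1 : ∀ ν : E, tt (sl (xiD D ψ F a) !![0, -1; 1, 0]) (ν / (D : E) ^ 2) *
      al (ν / (D : E) ^ 2) * ((nr (ν / (D : E) ^ 2) ^ (1 / 6 : ℝ) : ℝ) : ℂ) *
      ((∏ σ, U1 (4 * Real.pi ^ 2 * Real.exp (lg (ν / (D : E) ^ 2) σ + (-η) σ)) : ℝ) : ℂ) =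
      conj (al (D : E)) ^ 2 / (nr (D : E) : ℂ) *
        (tN (dualF F (D : E)) ν * al ν * ext0 (fun k => ft D (dualChr D ψ) (-k)) ν *
          ((∏ σ, U1 (4 * Real.pi ^ 2 *
            Real.exp (lg ν σ - η σ + -(2 * lg (D : E) σ))) : ℝ) : ℂ)) := by
    intro ν
    rcases eq_or_ne ν 0 with rfl | hν
    · simp
    have a1 := h.tt_xiD_inversion hj hD hψ ha ν
    have a2 : al (ν / (D : E) ^ 2) = al ν * conj (al (D : E)) ^ 2 := by
      rw [div_eq_mul_inv, al_mul, al_inv, al_pow, map_pow]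
    have a3 : nr (D : E) ^ (-(2 / 3 : ℝ)) * nr (ν / (D : E) ^ 2) ^ (1 / 6 : ℝ) =
        nr ν ^ (1 / 6 : ℝ) / nr (D : E) := by
      rw [nr_div, nr_pow, Real.div_rpow (nr_nonneg _) (by positivity), ← Real.rpow_natCast,
        ← Real.rpow_mul hN.le, mul_div_left_comm, ← Real.rpow_sub hN, div_eq_mul_inv (_ ^ _),
        ← Real.rpow_neg_one]
      norm_num
    have a4 : ∀ σ, lg (ν / (D : E) ^ 2) σ + (-η) σ = lg ν σ - η σ + -(2 * lg (D : E) σ) := by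
      intro σ
      rw [lg_div hν (pow_ne_zero 2 hD'), lg_pow]
      simp only [Pi.sub_apply, Pi.smul_apply, Pi.neg_apply, smul_eq_mul, Nat.cast_ofNat]
      ring
    have a5 := congrArg (fun x : ℝ => (x : ℂ)) a3
    simp only [Complex.ofReal_mul, Complex.ofReal_div] at a5
    rw [wM] at a1
    simp only [a4]
    rw [a1, a2, tN]
    generalize ((∏ σ, U1 (4 * Real.pi ^ 2 *
      Real.exp (lg ν σ - η σ + -(2 * lg (D : E) σ))) : ℝ) : ℂ) = P
    linear_combination (ext0 (fun k => ft D (dualChr D ψ) (-k)) ν * tF (dualF F (D : E)) ν *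
      al ν * conj (al (D : E)) ^ 2 * P) * a5
  have e2 : ∀ ν : E, tt (xiD D ψ F a) ν * conj (al ν) * ((nr ν ^ (1 / 6 : ℝ) : ℝ) : ℂ) *
      ((∏ σ, U1 (4 * Real.pi ^ 2 * Real.exp (lg ν σ - (-η) σ)) : ℝ) : ℂ) =
      tN F ν * conj (al ν) * ext0 (ft D ψ) ν *
        ((∏ σ, U1 (4 * Real.pi ^ 2 * Real.exp (lg ν σ + η σ)) : ℝ) : ℂ) := by
    intro ν
    simp only [Pi.neg_apply, sub_neg_eq_add]
    rw [h.tt_xiD hj hD ψ ha, tN]
    ring
  simp only [Equiv.divRight₀_apply, e1, e2] at H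
  rw [tsum_mul_left] at H
  have e3 : ((-1 : ℂ) ^ rk E) ^ 2 = 1 := by rw [← pow_mul, mul_comm, pow_mul]; simp
  have e4 : (Real.exp (-∑ σ, η σ) : ℂ) * (Real.exp (-∑ σ, (-η) σ) : ℂ) = 1 := by
    rw [← Complex.ofReal_mul, ← Real.exp_add]
    simp
  generalize (∑' ν : E, tN F ν * conj (al ν) * ext0 (ft D ψ) ν *
    ((∏ σ, U1 (4 * Real.pi ^ 2 * Real.exp (lg ν σ + η σ)) : ℝ) : ℂ)) = A at H ⊢
  linear_combination (-(-1 : ℂ) ^ rk E * (Real.exp (-∑ σ, η σ) : ℂ)) * H -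
    A * ((Real.exp (-∑ σ, η σ) : ℂ) * (Real.exp (-∑ σ, (-η) σ) : ℂ)) * e3 - A * e4
/-- `SD.norm_tF_le`, `SD.tF_support` (or `tt_support`), `one_le_nr`. -/
theorem SD.latB1 {j : ℕ} (hj : Lev E j) {F : E → E → ℂ} (h : SD F) {f : E → ℂ} (h0 : f 0 = 0) {B : ℝ}
    (hf : ∀ ν, ‖f ν‖ ≤ B) : LatB1 fun ν => tN F ν * f ν := by
  obtain ⟨D, hD, h₁⟩ := tt_support h.adm
  obtain ⟨C, hC, h₂⟩ := h.norm_tF_le hj
  have hB : 0 ≤ B := (norm_nonneg _).trans (hf 0)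
  refine ⟨D, C * B * nr (D : E) ^ (1 / 2 : ℝ), hD, fun ν hν => ?_⟩
  have hν0 : ν ≠ 0 := by
    rintro rfl
    exact hν (by simp [h0])
  have hI := h₁ ν (left_ne_zero_of_mul (left_ne_zero_of_mul hν))
  refine ⟨hν0, hI, ?_⟩
  have hn := nr_pos hν0
  have h3 := one_le_nr (mul_ne_zero (Nat.cast_ne_zero.2 hD) hν0) hI
  rw [nr_mul] at h3
  have h4 : 1 ≤ nr (D : E) ^ (1 / 2 : ℝ) * nr ν ^ (1 / 2 : ℝ) := by
    rw [← Real.mul_rpow (nr_nonneg _) hn.le]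
    exact Real.one_le_rpow h3 (by norm_num)
  have h5 : nr ν ^ (1 / 3 : ℝ) * nr ν ^ (1 / 6 : ℝ) * nr ν ^ (1 / 2 : ℝ) = nr ν := by
    rw [← Real.rpow_add hn, ← Real.rpow_add hn]
    norm_num
  beta_reduce
  rw [tN, norm_mul, norm_mul, Complex.norm_real, Real.norm_of_nonneg (by positivity)]
  calc _ ≤ C * nr ν ^ (1 / 3 : ℝ) * nr ν ^ (1 / 6 : ℝ) * B * 1 := by
        rw [mul_one]
        exact mul_le_mul (mul_le_mul_of_nonneg_right (h₂ ν hν0) (by positivity)) (hf ν)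
          (norm_nonneg _) (by positivity)
    _ ≤ C * nr ν ^ (1 / 3 : ℝ) * nr ν ^ (1 / 6 : ℝ) * B *
          (nr (D : E) ^ (1 / 2 : ℝ) * nr ν ^ (1 / 2 : ℝ)) :=
        mul_le_mul_of_nonneg_left h4 (by positivity)
    _ = C * B * nr (D : E) ^ (1 / 2 : ℝ) *
          (nr ν ^ (1 / 3 : ℝ) * nr ν ^ (1 / 6 : ℝ) * nr ν ^ (1 / 2 : ℝ)) := by ring
    _ = _ := by rw [h5]

theorem ReflVB_coe (f : R E → ℂ) (x : R E) : ext0 f x = f x := dif_pos x.2

theorem ReflVB_not {f : R E → ℂ} {x : E} (hx : x ∉ RR E) : ext0 f x = 0 := dif_neg hx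

theorem ReflVB_norm {f : R E → ℂ} {B : ℝ} (hf : ∀ x, ‖f x‖ ≤ B) (x : E) : ‖ext0 f x‖ ≤ B := by
  by_cases hx : x ∈ RR E
  · exact (congrArg norm (ReflVB_coe f ⟨x, hx⟩)).trans_le (hf _)
  · rw [ReflVB_not hx, norm_zero]
    exact (norm_nonneg _).trans (hf 0)

theorem ReflVB_inv {j : ℕ} (hj : 1 ≤ j) {f : R E → ℂ} (hf : InvR j f) : Inv j (ext0 f) := by
  intro u x hu
  by_cases hx : x ∈ RR E
  · exact (ReflVB_coe f (⟨u, hu.2.1⟩ * ⟨x, hx⟩)).trans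
      ((hf ⟨u, hu.2.1⟩ ⟨x, hx⟩ hu).trans (ReflVB_coe f ⟨x, hx⟩).symm)
  · rw [ReflVB_not hx, ReflVB_not fun h => hx ?_]
    have := (RR E).mul_mem hu.2.2 h
    rwa [inv_mul_cancel_left₀ (hu.ne_zero hj)] at this

theorem ReflVB_ft {j : ℕ} (hj : 1 ≤ j) {D : R E} (hD : D ≠ 0) {ψ : R E → ℂ} (hψ : IsChr D ψ)
    (h : ∀ u : R E, V j (u : E) → ψ u = 1) : InvR j (ft D ψ) := fun u x hu => by
  obtain ⟨v, hv⟩ := ((V_iff_isUnit hj).1 hu).1.exists_left_inv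
  rw [hψ.ft_mul_arg hD ⟨v, 0, by rw [hv, zero_mul, add_zero]⟩, h u hu, map_one, one_mul]

open Classical in
theorem ReflVB_tsum (P : E → Prop) (A K : E → ℂ) (f : R E → ℂ) :
    ∑' ν : R E, (if P ν then A ν * f ν * K ν else 0) =
      ∑' ν : E, if P ν then A ν * ext0 f ν * K ν else 0 := by
  rw [tsum_R_eq]
  refine tsum_congr fun x => ?_
  by_cases hx : x ∈ RR E
  · rw [dif_pos hx, ← ReflVB_coe f ⟨x, hx⟩]
  · rw [dif_neg hx, ReflVB_not hx]
    simp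

open Classical in
/-- **Twisted Voronoi formula**: `VT` applied to `SD.voronoi_U1`, `tsum_R_eq`.  Invariance under
`V j'`: `SD.inv_tF`, `SD.inv_tF_dual`, `al_V`, `V.nr_eq`, `IsChr.ft_mul_arg`, `Lev.cub_V`. -/
theorem SD.voronoi {j : ℕ} (hj : Lev E j) {F : E → E → ℂ} (h : SD F) : ∃ J : ℕ, j ≤ J ∧
    ∀ j', J ≤ j' → ∀ (D : R E) (ψ : R E → ℂ), D ≠ 0 → IsChr D ψ →
      (∀ u : R E, V j (u : E) → ψ u = 1) → ∀ Y : ℝ, 0 < Y → ∀ s : ℂ,
      ∑' ν : R E, (if Fd j' (ν : E) then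
          tN F ν * conj (al (ν : E)) * ft D ψ ν * Wc (nr (ν : E) / Y) s else 0) =
        ((-1) ^ rk E * conj (al (D : E)) ^ 2 / (nr (D : E) : ℂ)) *
          (((4 * Real.pi ^ 2) ^ rk E * Y : ℝ) : ℂ) * ∑' ν : R E, if Fd j' (ν : E) then
            tN (dualF F (D : E)) ν * al (ν : E) * ft D (dualChr D ψ) (-ν) *
              VrR (rk E) ((4 * Real.pi ^ 2) ^ (2 * rk E) * Y * nr (ν : E) / nr (D : E) ^ 2) s
            else 0 := by
  obtain ⟨N₁, hN₁, h₁⟩ := h.inv_tF hj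
  obtain ⟨N₂, hN₂, h₂⟩ := h.inv_tF_dual hj
  refine ⟨max N₁ N₂, hN₁.trans (le_max_left _ _), fun j' hj' D ψ hD hψ hV Y hY s => ?_⟩
  obtain ⟨g1, g2⟩ := max_le_iff.1 hj'
  have hjj := hN₁.trans g1
  have h1 : 1 ≤ j' := hj.1.trans hjj
  have hD' : (D : E) ≠ 0 := fun h0 => hD (Subtype.ext h0)
  have hψ' := hψ.dual hD
  have i1 := ReflVB_inv h1 (ReflVB_ft h1 hD hψ fun u hu => hV u (hu.mono hjj))
  have i2 : Inv j' (ext0 fun k => ft D (dualChr D ψ) (-k)) := ReflVB_inv h1 fun u x hu => by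
    have := ReflVB_ft h1 hD hψ' (fun u hu => by
      rw [dualChr, hV u (hu.mono hjj), hj.cub_V (hu.mono hjj), map_one, one_mul]) u (-x) hu
    rwa [mul_neg] at this
  have b1 := h.latB1 hj (f := fun ν => conj (al ν) * ext0 (ft D ψ) ν) (by simp)
    (B := 1 * (1 * nf (D : E))) fun ν => by
      rw [norm_mul, Complex.norm_conj]
      exact mul_le_mul (norm_al_le ν) (ReflVB_norm (norm_ft_le hD hψ.norm_le) ν) (norm_nonneg _)
        zero_le_one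
  have b2 := (h.dual hj hD').latB1 hj
    (f := fun ν => al ν * ext0 (fun k => ft D (dualChr D ψ) (-k)) ν) (by simp)
    (B := 1 * (1 * nf (D : E))) fun ν => by
      rw [norm_mul]
      exact mul_le_mul (norm_al_le ν) (ReflVB_norm (fun k => norm_ft_le hD hψ'.norm_le (-k)) ν)
        (norm_nonneg _) zero_le_one
  simp only [← mul_assoc] at b1 b2
  have H := VT h1 b1 b2 (fun u x hu => by
      simp only [tN]
      rw [h₁ u x (hu.mono g1), nr_mul, hu.nr_eq h1, al_mul, al_V h1 hu, i1 u x hu, one_mul,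
        one_mul])
    (fun u x hu => by
      simp only [tN]
      rw [h₂ _ hD' u x (hu.mono g2), nr_mul, hu.nr_eq h1, al_mul, al_V h1 hu, i2 u x hu, one_mul,
        one_mul])
    (h.voronoi_U1 hj hD hψ) hY s
  have e : Real.exp (∑ σ, -(2 * lg (D : E) σ)) = (nr (D : E) ^ 2)⁻¹ := by
    rw [Finset.sum_neg_distrib, ← Finset.mul_sum, Real.exp_neg, two_mul, Real.exp_add,
      exp_sum_lg hD', sq]
  have e' : ∀ x : ℝ, (4 * Real.pi ^ 2) ^ (2 * rk E) * (nr (D : E) ^ 2)⁻¹ * Y * x =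
      (4 * Real.pi ^ 2) ^ (2 * rk E) * Y * x / nr (D : E) ^ 2 := fun x => by ring
  simp only [e, e'] at H
  rw [ReflVB_tsum (Fd j') (fun ν => tN F ν * conj (al ν)) (fun ν => Wc (nr ν / Y) s) (ft D ψ),
    ReflVB_tsum (Fd j') (fun ν => tN (dualF F (D : E)) ν * al ν)
      (fun ν => VrR (rk E) ((4 * Real.pi ^ 2) ^ (2 * rk E) * Y * nr ν / nr (D : E) ^ 2) s)
      fun k => ft D (dualChr D ψ) (-k)]
  exact H

/-! ## part C: the two steps of the reflection -/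

open Classical in
/-- `SD.voronoi` with `D = u (r₁ r)` and the character `sym r₁ ^ 5 * ψ`; `SD.dual_Ty`
(`dualF F D = dualF F τ`), `nr D = nf r₁ nf r / absS τ`; `IsChr.ft_unit_mul`, `IsChr.ft_mul`,
`dualChr_unit_mul`, `dualChr_mul`, `sym_eq_ft`, `ft_dual_five`, `‖gs 3 r₁ 1‖ = ‖gs 5 r₁ 1‖ ≠ 0`
(`norm_gam`).  Compare `R17.refl_core`. -/
theorem SD.voronoi_split {j : ℕ} (hj : Lev E j) {F : E → E → ℂ} (h : SD F) : ∃ J : ℕ, j ≤ J ∧
    ∀ j', J ≤ j' → ∀ (τ : E) (u r₁ r : R E) (ψ : R E → ℂ), IsUnit u → Squarefree r₁ → r ≠ 0 →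
      IsCoprime r₁ r → Ty j' τ ((u * (r₁ * r) : R E) : E) → IsChr r ψ →
      (∀ v : R E, V j (v : E) → ψ v = 1) → ∃ ω : ℂ, ‖ω‖ ≤ 1 ∧ ∀ Y : ℝ, 0 < Y → ∀ s : ℂ,
      ∑' ν : R E, (if Fd j' (ν : E) then
          tN F ν * conj (al (ν : E)) * (sym r₁ ν * ft r ψ ν) * Wc (nr (ν : E) / Y) s else 0) =
        ω * (((4 * Real.pi ^ 2) ^ rk E * absS τ * Y / (nf (r₁ : E) * nf (r : E)) : ℝ) : ℂ) *
          ∑' ν : R E, if Fd j' (ν : E) then
            tN (dualF F τ) ν * al (ν : E) * ft r (dualChr r ψ) (-ν) * quad r₁ ν *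
              VrR (rk E) ((4 * Real.pi ^ 2) ^ (2 * rk E) * absS τ ^ 2 * Y * nr (ν : E) /
                (nf (r₁ : E) * nf (r : E)) ^ 2) s
            else 0 := by
  obtain ⟨J, hJ, hv⟩ := h.voronoi hj
  obtain ⟨N, hN, hd⟩ := h.dual_Ty hj
  refine ⟨max J N, hJ.trans (le_max_left _ _), fun j' hj' τ u r₁ r ψ hu hs hr hc hT hψ hV => ?_⟩
  have h0 := hs.ne_zero
  have hrr := mul_ne_zero h0 hr
  have hD := mul_ne_zero hu.ne_zero hrr
  have h1 := isChr_sym_pow h0 (j := 5) (by norm_num)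
  have d1 := h1.dual h0
  have d2 := hψ.dual hr
  have sp : 0 < Real.sqrt (nf (r₁ : E)) := Real.sqrt_pos.2 (one_pos.trans_le (one_le_nf h0))
  have hg : ∀ i : ℕ, ¬ 6 ∣ i → ‖gs i r₁ 1‖ = Real.sqrt (nf (r₁ : E)) := fun i hi => by
    have := norm_gam hi hs
    rwa [gam_eq, norm_div, Complex.norm_real, Real.norm_of_nonneg sp.le,
      div_eq_one_iff_eq sp.ne'] at this
  have cu : ∀ x : R E, IsCoprime u x := fun x => (isCoprime_one_left (x := x)).of_isCoprime_of_dvd_left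
    (isUnit_iff_dvd_one.1 hu)
  obtain ⟨α, hα, eα⟩ : ∃ α : ℂ, ‖α‖ = Real.sqrt (nf (r₁ : E)) ∧ ∀ ν : R E,
      ft (u * (r₁ * r)) (fun x => sym r₁ x ^ 5 * ψ x) ν = α * (sym r₁ ν * ft r ψ ν) := by
    refine ⟨sym r₁ u ^ 5 * ψ u * (sym r₁ r ^ 5 * ψ r₁) * gs 5 r₁ 1, ?_, fun ν => ?_⟩
    · rw [norm_mul, norm_mul, norm_mul, norm_mul, h1.norm u (cu _), hψ.norm u (cu _),
        h1.norm r hc.symm, hψ.norm r₁ hc, hg 5 (by norm_num)]
      ring
    · rw [(h1.mul_mul hψ).ft_unit_mul hu hrr, h1.ft_mul h0 hr hc hψ, ← sym_eq_ft hs]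
      ring
  obtain ⟨β, hβ, eβ⟩ : ∃ β : ℂ, ‖β‖ ≤ Real.sqrt (nf (r₁ : E)) ∧ ∀ ν : R E,
      ft (u * (r₁ * r)) (dualChr (u * (r₁ * r)) fun x => sym r₁ x ^ 5 * ψ x) (-ν) =
        β * (ft r (dualChr r ψ) (-ν) * quad r₁ ν) := by
    refine ⟨dualChr r₁ (fun x => sym r₁ x ^ 5) u * dualChr r ψ u *
      (dualChr r₁ (fun x => sym r₁ x ^ 5) r * dualChr r ψ r₁) * quad r₁ (-1) * gs 3 r₁ 1, ?_,
      fun ν => ?_⟩
    · rw [norm_mul, norm_mul, norm_mul, norm_mul, norm_mul, d1.norm u (cu _), d2.norm u (cu _),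
        d1.norm r hc.symm, d2.norm r₁ hc, hg 3 (by norm_num)]
      simp only [one_mul]
      exact mul_le_of_le_one_left sp.le (norm_quad_le _ _)
    · rw [dualChr_unit_mul hu, dualChr_mul h0 hr, (d1.mul_mul d2).ft_unit_mul hu hrr,
        d1.ft_mul h0 hr hc d2, ft_dual_five hs]
      ring
  have hα0 : α ≠ 0 := norm_ne_zero_iff.1 (hα ▸ sp.ne')
  have hτ := absS_pos τ
  have n1 := one_le_nf h0
  have n2 := one_le_nf hr
  have hnr : nr ((u * (r₁ * r) : R E) : E) = nf (r₁ : E) * nf (r : E) / absS τ := by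
    rw [eq_div_iff hτ.ne', ← hT.absS_eq (hj.one_le.trans (hN.trans ((le_max_right _ _).trans hj')))]
    change nf _ = _
    push_cast
    rw [nf_mul, nf_mul, nf_eq_one_iff.2 hu, one_mul]
  refine ⟨(-1) ^ rk E * conj (al ((u * (r₁ * r) : R E) : E)) ^ 2 * β / α, ?_, fun Y hY s => ?_⟩
  · rw [norm_div, norm_mul, norm_mul, norm_pow, norm_pow, norm_neg, norm_one, one_pow, one_mul,
      Complex.norm_conj, hα, div_le_one sp]
    exact (mul_le_of_le_one_left (norm_nonneg _)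
      (pow_le_one₀ (norm_nonneg _) (norm_al_le _))).trans hβ
  have key := hv j' ((le_max_left _ _).trans hj') _ _ hD ((h1.mul_mul hψ).unit_mul hu)
    (fun v hv => by rw [hj.sym_V hv, hV v hv, one_pow, one_mul]) Y hY s
  rw [hd τ _ (hT.mono ((le_max_right _ _).trans hj')), hnr] at key
  have e1 : ∀ ν : R E, (if Fd j' (ν : E) then tN F ν * conj (al (ν : E)) *
      ft (u * (r₁ * r)) (fun x => sym r₁ x ^ 5 * ψ x) ν * Wc (nr (ν : E) / Y) s else 0) =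
      α * if Fd j' (ν : E) then
        tN F ν * conj (al (ν : E)) * (sym r₁ ν * ft r ψ ν) * Wc (nr (ν : E) / Y) s else 0 := by
    intro ν
    rw [eα]
    split_ifs <;> ring
  have e2 : ∀ ν : R E, (if Fd j' (ν : E) then tN (dualF F τ) ν * al (ν : E) *
      ft (u * (r₁ * r)) (dualChr (u * (r₁ * r)) fun x => sym r₁ x ^ 5 * ψ x) (-ν) *
        VrR (rk E) ((4 * Real.pi ^ 2) ^ (2 * rk E) * Y * nr (ν : E) /
          (nf (r₁ : E) * nf (r : E) / absS τ) ^ 2) s else 0) =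
      β * if Fd j' (ν : E) then tN (dualF F τ) ν * al (ν : E) * ft r (dualChr r ψ) (-ν) *
        quad r₁ ν * VrR (rk E) ((4 * Real.pi ^ 2) ^ (2 * rk E) * absS τ ^ 2 * Y * nr (ν : E) /
          (nf (r₁ : E) * nf (r : E)) ^ 2) s else 0 := by
    intro ν
    rw [eβ, div_pow, div_div_eq_mul_div, show (4 * Real.pi ^ 2) ^ (2 * rk E) * Y * nr (ν : E) *
      absS τ ^ 2 = (4 * Real.pi ^ 2) ^ (2 * rk E) * absS τ ^ 2 * Y * nr (ν : E) by ring]
    split_ifs <;> ring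
  rw [tsum_congr e1, tsum_congr e2, tsum_mul_left, tsum_mul_left] at key
  refine mul_left_cancel₀ hα0 (key.trans ?_)
  have c1 : ((nf (r₁ : E) : ℝ) : ℂ) ≠ 0 := Complex.ofReal_ne_zero.2 (by linarith)
  have c2 : ((nf (r : E) : ℝ) : ℂ) ≠ 0 := Complex.ofReal_ne_zero.2 (by linarith)
  have c3 : ((absS τ : ℝ) : ℂ) ≠ 0 := Complex.ofReal_ne_zero.2 hτ.ne'
  generalize (4 * Real.pi ^ 2) ^ rk E = c
  simp only [Complex.ofReal_div, Complex.ofReal_mul]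
  field_simp
open Classical in
/-- Reciprocity and change of level.  Take `n₀ ∈ R` of type `t` (`exists_Ty`); for `Ty j t c`,
`sym c (r₁ h) = R6 n₀ (r₁ h) * (sym r₁ c * sym h c)` (`sym_recip`, `Lev.R6_congr`, `sym_mul_left`) and
`nf c = nr c * absS t`.  `tsum_Fd_level` (through `tsum_R_eq`; `Lev.invR_th`, `sym_of_associated`;
summability from `cnt_Cls`, `summable_Sm`, `norm_th_le`, also applied to the norms in order to
exchange the finite sum over `r` with the series). -/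
theorem Tc_expand {j j' : ℕ} (hj : Lev E j) (hj' : j ≤ j') : ∃ k : ℕ, 0 < k ∧
    ∀ (t : E) (h r₁ : R E) (coef : R E → ℂ), t ≠ 0 → h ≠ 0 → r₁ ≠ 0 →
      (∀ x, sym h x = ∑ r ∈ dvs (rad h), coef r * ft r (psiH h r) x) →
      ∃ ω : ℂ, ‖ω‖ ≤ 1 ∧ ∀ X : ℝ, 0 < X → ∀ s : ℂ,
        (k : ℂ) * Tc j t (r₁ * h) X s = ω * ∑ r ∈ dvs (rad h), coef r *
          ∑' ν : R E, if Fd j' (ν : E) then (if Ty j t (ν : E) then th ν else 0) *
            (sym r₁ ν * ft r (psiH h r) ν) * Wc (nr (ν : E) / (X / absS t)) s else 0 := by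
  obtain ⟨k, hk, H⟩ := ReflC2.expand hj hj'
  exact ⟨k, hk, fun t h r₁ coef => H t h r₁ _ coef (psiH h)⟩

end Crest.Agent.R312
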