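import Crest.Agent.R312.Recip
import Crest.Agent.R312.PP
import Crest.Agent.R312.ThLim
import Crest.Agent.R312.ReflV

/-!
# Row 312: the reflection formula (target statement of the modules `Kub*`, `Hecke*`, `Refl*`)
-/

set_option autoImplicit false

noncomputable section

namespace Crest.Agent.R312

open NumberField
open scoped ComplexConjugate

variable {E : Type} [Field E] [NumberField E] [Fr E]

open Classical in
/-- Size and support of the dual coefficients: `b` is supported on the elements `n d³`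
(`n` squarefree) of the lattice `R ∩ τ OS` modulo `V j`; `szl τ ν / nf ν` is the size of the
`S`-part of `ν`; the product is the Ramanujan factor at the primes `p ∣ r` with
`v_p(h) ≡ 4 (mod 6)`. -/
def DualB (j : ℕ) (τ : E) (C : ℝ) (h r : R E) (b : R E → ℂ) : Prop :=
  ∀ ν, b ν ≠ 0 → Lat j τ ν ∧ ∃ n d : R E, Squarefree n ∧ Nm d ∧ ν = n * d ^ 3 ∧
    ‖b ν‖ ≤ C * Real.sqrt (szl τ ν / nf (ν : E)) * Real.sqrt (nf (d : E)) *
      ∏ p ∈ (pf r).filter (fun p => vp p h % 6 = 4),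
        ((Real.sqrt (nf (p : E)))⁻¹ + if p ∣ ν then Real.sqrt (nf (p : E)) else 0)

open Classical in
/-- The reflection for one type `t₀` and one dual type `τ'`. -/
theorem refl_one {j j' : ℕ} (hj : Lev E j) (hj' : j ≤ j') {t₀ : E} (ht₀ : t₀ ≠ 0) {F : E → E → ℂ}
    (hF' : ∀ ν : R E, tN F ν * conj (al (ν : E)) = if Ty j t₀ (ν : E) then th ν else 0)
    (hV : ∀ (τ : E) (u r₁ r : R E) (ψ : R E → ℂ), IsUnit u → Squarefree r₁ → r ≠ 0 →
      IsCoprime r₁ r → Ty j' τ ((u * (r₁ * r) : R E) : E) → IsChr r ψ →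
      (∀ v : R E, V j (v : E) → ψ v = 1) → ∃ ω : ℂ, ‖ω‖ ≤ 1 ∧ ∀ Y : ℝ, 0 < Y → ∀ s : ℂ,
      ∑' ν : R E, (if Fd j' (ν : E) then
          tN F ν * conj (al (ν : E)) * (sym r₁ ν * ft r ψ ν) * R17.Wc (nr (ν : E) / Y) s else 0) =
        ω * (((4 * Real.pi ^ 2) ^ rk E * absS τ * Y / (nf (r₁ : E) * nf (r : E)) : ℝ) : ℂ) *
          ∑' ν : R E, if Fd j' (ν : E) then
            tN (dualF F τ) ν * al (ν : E) * ft r (dualChr r ψ) (-ν) * quad r₁ ν *
              VrR (rk E) ((4 * Real.pi ^ 2) ^ (2 * rk E) * absS τ ^ 2 * Y * nr (ν : E) /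
                (nf (r₁ : E) * nf (r : E)) ^ 2) s
            else 0)
    (τ τ' : E) (h r₁ r u : R E) (c : ℂ) {k : ℝ} (hk : k ≠ 0) (hu : IsUnit u) (hr₁ : Squarefree r₁)
    (hr : r ≠ 0) (hc : IsCoprime r₁ r) (hτ' : Ty j' τ' ((u * (r₁ * r) : R E) : E)) :
    ∃ ω : ℂ, ‖ω‖ ≤ 1 ∧ ∀ X : ℝ, 0 < X → ∀ s : ℂ,
      c * (∑' ν : R E, if Fd j' (ν : E) then (if Ty j t₀ (ν : E) then th ν else 0) *
        (sym r₁ ν * ft r (psiH h r) ν) * R17.Wc (nr (ν : E) / (X / absS t₀)) s else 0) =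
      k * (ω * ((X / (nf (r₁ : E) * nf (r : E)) : ℝ) : ℂ) *
        ∑' ν : R E, (if Fd j' (ν : E) then
          (((4 * Real.pi ^ 2) ^ rk E * absS τ' / (absS t₀ * k) : ℝ) : ℂ) * tN (dualF F τ') ν *
            al (ν : E) * (c * ft r (dualChr r (psiH h r)) (-ν)) else 0) * quad r₁ ν *
          VrR (rk E) (szl τ ν * X / (absS τ * absS t₀ /
            ((4 * Real.pi ^ 2) ^ (2 * rk E) * absS τ' ^ 2) * (nf (r₁ : E) * nf (r : E)) ^ 2)) s) := by
  obtain ⟨ω, hω, H⟩ := hV τ' u r₁ r (psiH h r) hu hr₁ hr hc hτ' (isChr_psiH h hr)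
    fun v hv => hj.psiH_V h r hv
  refine ⟨ω, hω, fun X hX s => ?_⟩
  have h0 := absS_pos t₀
  have h1 := absS_pos τ
  have h2 := absS_pos τ'
  have h3 : 0 < nf (r₁ : E) := nf_pos (Rec_coe_ne hr₁.ne_zero)
  have h4 : 0 < nf (r : E) := nf_pos (Rec_coe_ne hr)
  have h5 := Real.pi_pos
  have H' := H (X / absS t₀) (div_pos hX h0) s
  simp only [hF'] at H'
  rw [H']
  have e1 : ∀ ν : R E, szl τ ν * X / (absS τ * absS t₀ /
      ((4 * Real.pi ^ 2) ^ (2 * rk E) * absS τ' ^ 2) * (nf (r₁ : E) * nf (r : E)) ^ 2) =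
      (4 * Real.pi ^ 2) ^ (2 * rk E) * absS τ' ^ 2 * (X / absS t₀) * nr (ν : E) /
        (nf (r₁ : E) * nf (r : E)) ^ 2 := fun ν => by
    rw [szl]
    field_simp
  simp only [e1]
  rw [← mul_assoc c, ← mul_assoc (k : ℂ), ← tsum_mul_left, ← tsum_mul_left]
  refine tsum_congr fun ν => ?_
  have k0 : (k : ℂ) ≠ 0 := Complex.ofReal_ne_zero.2 hk
  have k1 : (absS t₀ : ℂ) ≠ 0 := Complex.ofReal_ne_zero.2 h0.ne'
  have k3 : (nf (r₁ : E) : ℂ) ≠ 0 := Complex.ofReal_ne_zero.2 h3.ne'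
  have k4 : (nf (r : E) : ℂ) ≠ 0 := Complex.ofReal_ne_zero.2 h4.ne'
  split_ifs
  · push_cast
    field_simp
  · simp

theorem refl_lat {N M : ℕ} (h : M ≤ N) {x : E} (hx : (mm E : E) ^ M * x ∈ OS E) :
    x / ((mm E : E) ^ N)⁻¹ ∈ OS E := by
  obtain ⟨a, rfl⟩ := Nat.exists_eq_add_of_le h
  have hm : (mm E : E) ∈ OS E := mem_OS_of_isIntegral (MeanA2_nat _)
  have := (OS E).mul_mem ((OS E).pow_mem hm a) hx
  rwa [div_inv_eq_mul, pow_add, show x * ((mm E : E) ^ M * (mm E : E) ^ a) =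
    (mm E : E) ^ a * ((mm E : E) ^ M * x) by ring]

/-- **Reflection.**  `r₁` is the generic (squarefree) part of the dual row, `h` the frozen part,
`r ∣ rad h` the active part.  The index `i` contains the ray class of `r₁ r`. -/
theorem reflection {j : ℕ} (hj : Lev E j) :
    ∃ (I : Type) (_ : Fintype I) (j' : ℕ) (τ : E) (C : ℝ) (cI : I → ℝ),
      1 ≤ j' ∧ τ ≠ 0 ∧ 0 < C ∧ (∀ i, 0 < cI i) ∧
      ∀ (t : E) (h : R E), h ≠ 0 → ∃ ρ b : I → R E → R E → ℂ,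
        (∀ i r x, ‖ρ i r x‖ ≤ 1) ∧ (∀ i r, DualB j' τ C h r (b i r)) ∧
        ∀ r₁ : R E, Squarefree r₁ → IsCoprime r₁ h → ∀ X : ℝ, 0 < X → ∀ s : ℂ,
          Tc j t (r₁ * h) X s = ∑ i, ∑ r ∈ dvs (rad h),
            ρ i r r₁ * ((X / (nf (r₁ : E) * nf (r : E)) : ℝ) : ℂ) *
              ∑' ν : R E, b i r ν * quad r₁ ν *
                VrR (rk E) (szl τ ν * X / (cI i * (nf (r₁ : E) * nf (r : E)) ^ 2)) s := by
  classical
  have hj1 := hj.one_le
  obtain ⟨T, hT0, hT⟩ := exists_classes (E := E) hj1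
  choose F hF hF' using fun t : T => exists_SD_th hj (hT0 t.1 t.2)
  choose J hJ hV using fun t : T => (hF t).voronoi_split hj
  obtain ⟨j', hj', hJ'⟩ : ∃ j', j ≤ j' ∧ ∀ t, J t ≤ j' :=
    ⟨j + Finset.univ.sup J, Nat.le_add_right _ _, fun t =>
      (Finset.le_sup (f := J) (Finset.mem_univ t)).trans (Nat.le_add_left _ _)⟩
  have hj1' : 1 ≤ j' := hj1.trans hj'
  obtain ⟨T', hT0', hT'⟩ := exists_classes (E := E) hj1'
  obtain ⟨k, hk, hE⟩ := Tc_expand hj hj'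
  have hk' : (0 : ℝ) < k := Nat.cast_pos.2 hk
  choose N C hC hB using fun i : T × T' => ((hF i.1).dual hj (hT0' i.2.1 i.2.2)).tN_bound hj
  set τ : E := ((mm E : E) ^ Finset.univ.sup N)⁻¹ with hτ
  have hτ0 : τ ≠ 0 := inv_ne_zero (pow_ne_zero _ mm_ne_zero)
  set K : T × T' → ℝ := fun i => (4 * Real.pi ^ 2) ^ rk E * absS i.2.1 / (absS i.1.1 * k) with hK
  have h5 := Real.pi_pos
  have hK0 : ∀ i, 0 < K i := fun i => by
    have := absS_pos i.1.1
    have := absS_pos i.2.1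
    simp only [hK]
    positivity
  have hs := Real.sqrt_pos.2 (absS_pos τ)
  have hterm : ∀ i, 0 ≤ K i * C i / Real.sqrt (absS τ) := fun i =>
    (div_pos (mul_pos (hK0 i) (hC i)) hs).le
  refine ⟨T × T', inferInstance, j', τ, 1 + ∑ i, K i * C i / Real.sqrt (absS τ),
    fun i => absS τ * absS i.1.1 / ((4 * Real.pi ^ 2) ^ (2 * rk E) * absS i.2.1 ^ 2), hj1', hτ0,
    add_pos_of_pos_of_nonneg one_pos (Finset.sum_nonneg fun i _ => hterm i), fun i => ?_,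
    fun t h hh => ?_⟩
  · have := absS_pos i.1.1
    have := absS_pos i.2.1
    have := absS_pos τ
    positivity
  obtain ⟨coef, hc1, hc2⟩ := sym_eq_sum hh
  set b : T × T' → R E → R E → ℂ := fun i r ν => if r ∈ dvs (rad h) then
    (if Fd j' (ν : E) then (K i : ℂ) * tN (dualF (F i.1) i.2.1) ν * al (ν : E) *
      (coef r * ft r (dualChr r (psiH h r)) (-ν)) else 0) else 0 with hb
  have hbB : ∀ i r, DualB j' τ (1 + ∑ i, K i * C i / Real.sqrt (absS τ)) h r (b i r) := by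
    intro i r ν hν
    simp only [hb] at hν ⊢
    have hr : r ∈ dvs (rad h) := by
      by_contra hr
      exact hν (if_neg hr)
    rw [if_pos hr] at hν ⊢
    have hf : Fd j' (ν : E) := by
      by_contra hf
      exact hν (if_neg hf)
    rw [if_pos hf] at hν ⊢
    have hν0 : ν ≠ 0 := Rec_ne hf.1
    have ht : tN (dualF (F i.1) i.2.1) ν ≠ 0 := fun h0 => hν (by rw [h0]; simp)
    obtain ⟨h1, n, d, hn, hd, e, h2⟩ := hB i ν hν0 ht
    refine ⟨⟨hf, refl_lat (Finset.le_sup (f := N) (Finset.mem_univ i)) h1⟩, n, d, hn, hd, e, ?_⟩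
    have h3 := hc2 r hr ν
    have h4 : Real.sqrt (szl τ ν / nf (ν : E)) =
        Real.sqrt (absS τ) * (Real.sqrt (absS (ν : E)))⁻¹ := by
      have := nr_pos hf.1
      rw [szl, nf, mul_div_mul_left _ _ this.ne', Real.sqrt_div (absS_pos τ).le, div_eq_mul_inv]
    have h6 : K i * C i / Real.sqrt (absS τ) ≤ 1 + ∑ i, K i * C i / Real.sqrt (absS τ) :=
      (Finset.single_le_sum (fun i _ => hterm i) (Finset.mem_univ i)).trans
        (le_add_of_nonneg_left zero_le_one)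
    rw [norm_mul, norm_mul, norm_mul, norm_al hf.1, mul_one, Complex.norm_real,
      Real.norm_of_nonneg (hK0 i).le, h4]
    refine mul_le_mul ?_ h3 (norm_nonneg _) ?_
    · calc K i * ‖tN (dualF (F i.1) i.2.1) ν‖
          ≤ K i * (C i * (Real.sqrt (absS (ν : E)))⁻¹ * Real.sqrt (nf (d : E))) :=
            mul_le_mul_of_nonneg_left h2 (hK0 i).le
        _ = K i * C i / Real.sqrt (absS τ) *
            (Real.sqrt (absS τ) * (Real.sqrt (absS (ν : E)))⁻¹) * Real.sqrt (nf (d : E)) := by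
            field_simp
        _ ≤ _ := by gcongr
    · have := (hterm i).trans h6
      positivity
  by_cases ht : t = 0
  · refine ⟨fun _ _ _ => 0, b, fun _ _ _ => by simp, hbB, fun r₁ _ _ X _ s => ?_⟩
    have : ∀ c : R E, ¬ Cls j t c := fun c hc => (hc.2.ne_zero hj1).1 ht
    simp [Tc, this]
  obtain ⟨t₀, ⟨ht₀, u₀, hu₀, hty⟩, -⟩ := hT t ht
  obtain ⟨κ, hκ, hκ'⟩ := exists_Tc_unit_type hj t hu₀
  rw [Tc_congr_type hj1 hty] at hκ'
  have key : ∀ r₁ : R E, ∃ ρ : T × T' → R E → ℂ, (∀ i r, ‖ρ i r‖ ≤ 1) ∧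
      (Squarefree r₁ → IsCoprime r₁ h → ∀ X : ℝ, 0 < X → ∀ s : ℂ,
        Tc j t (r₁ * h) X s = ∑ i, ∑ r ∈ dvs (rad h),
          ρ i r * ((X / (nf (r₁ : E) * nf (r : E)) : ℝ) : ℂ) *
            ∑' ν : R E, b i r ν * quad r₁ ν *
              VrR (rk E) (szl τ ν * X / (absS τ * absS i.1.1 /
                ((4 * Real.pi ^ 2) ^ (2 * rk E) * absS i.2.1 ^ 2) *
                  (nf (r₁ : E) * nf (r : E)) ^ 2)) s) := by
    intro r₁
    by_cases hr₁ : Squarefree r₁ ∧ IsCoprime r₁ h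
    swap
    · exact ⟨fun _ _ => 0, fun _ _ => by simp, fun h1 h2 => absurd ⟨h1, h2⟩ hr₁⟩
    obtain ⟨hs₁, hc₁⟩ := hr₁
    obtain ⟨ω₀, hω₀, H₀⟩ := hE t₀ h r₁ coef (hT0 t₀ ht₀) hh hs₁.ne_zero hc1
    have one : ∀ r : R E, ∃ (τ' : T') (ω : ℂ), ‖ω‖ ≤ 1 ∧ (r ∈ dvs (rad h) →
        ∀ X : ℝ, 0 < X → ∀ s : ℂ,
        coef r * (∑' ν : R E, if Fd j' (ν : E) then (if Ty j t₀ (ν : E) then th ν else 0) *
          (sym r₁ ν * ft r (psiH h r) ν) * R17.Wc (nr (ν : E) / (X / absS t₀)) s else 0) =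
        k * (ω * ((X / (nf (r₁ : E) * nf (r : E)) : ℝ) : ℂ) *
          ∑' ν : R E, b (⟨t₀, ht₀⟩, τ') r ν * quad r₁ ν *
            VrR (rk E) (szl τ ν * X / (absS τ * absS t₀ /
              ((4 * Real.pi ^ 2) ^ (2 * rk E) * absS τ'.1 ^ 2) *
                (nf (r₁ : E) * nf (r : E)) ^ 2)) s)) := by
      intro r
      by_cases hr : r ∈ dvs (rad h)
      swap
      · obtain ⟨τ', ⟨hτ', -⟩, -⟩ := hT' 1 one_ne_zero
        exact ⟨⟨τ', hτ'⟩, 0, by simp, fun h1 => absurd h1 hr⟩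
      have hr0 : r ≠ 0 := (of_mem_dvs hr).1.ne_zero
      obtain ⟨τ', ⟨hτ', u, hu, hty'⟩, -⟩ :=
        hT' ((r₁ * r : R E) : E) (Rec_coe_ne (mul_ne_zero hs₁.ne_zero hr0))
      obtain ⟨ω, hω, H⟩ := refl_one hj hj' (hT0 t₀ ht₀) (hF' ⟨t₀, ht₀⟩)
        (hV ⟨t₀, ht₀⟩ j' (hJ' _)) τ τ' h r₁ r u (coef r) hk'.ne' hu hs₁ hr0
        (hc₁.of_isCoprime_of_dvd_right ((of_mem_dvs hr).2.trans (rad_dvd h))) hty'
      refine ⟨⟨τ', hτ'⟩, ω, hω, fun _ X hX s => ?_⟩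
      simp only [hb, hK, if_pos hr]
      exact H X hX s
    choose τ' ω hω H using one
    refine ⟨fun i r => if i = (⟨t₀, ht₀⟩, τ' r) then κ * ω₀ * ω r else 0, fun i r => ?_,
      fun _ _ X hX s => ?_⟩
    · dsimp only
      split_ifs
      · rw [norm_mul, norm_mul, hκ, one_mul]
        exact mul_le_one₀ hω₀ (norm_nonneg _) (hω r)
      · simp
    · have k0 : (k : ℂ) ≠ 0 := Nat.cast_ne_zero.2 hk.ne'
      rw [Finset.sum_comm, hκ']
      apply mul_left_cancel₀ k0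
      rw [mul_left_comm, H₀ X hX s, Finset.mul_sum, Finset.mul_sum, Finset.mul_sum]
      refine Finset.sum_congr rfl fun r hr => ?_
      rw [H r hr X hX s, Finset.sum_eq_single (⟨t₀, ht₀⟩, τ' r) (fun i _ hi => by simp [hi])
        (fun h => absurd (Finset.mem_univ _) h)]
      dsimp only
      rw [if_pos rfl]
      ring
  choose ρ hρ Hρ using key
  exact ⟨fun i r x => ρ x i r, b, fun i r x => hρ x i r, hbB, Hρ⟩

end Crest.Agent.R312
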