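import Crest.Agent.R312.T1Sup

/-!
# Row 312, module T1: auxiliary lemmas for `back_diag` and `back_child`
-/

set_option autoImplicit false

noncomputable section

namespace Crest.Agent.R312

open NumberField
open scoped ComplexConjugate
open Crest.Agent.R17 (Wc Wm)

variable {E : Type} [Field E] [NumberField E] [Fr E]

theorem bkA_nf_pos {n : R E} (h : Nm n) : 0 < nf (n : E) :=
  lt_of_lt_of_le one_pos (one_le_nf h.ne_zero)

/-- The sum over the triples. -/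
theorem bkA_sum_Tri : ∃ C : ℝ, 0 < C ∧ ∀ X : ℝ,
    ∑ i ∈ (Tri X : Finset (R E × R E × R E)), (nf (i.1 : E) ^ 2)⁻¹ * (nf (i.2.2 : E))⁻¹ ≤
      C * (∑ n ∈ (nms X : Finset (R E)), (nf (n : E))⁻¹) ^ 2 := by
  classical
  obtain ⟨C, hC, hd⟩ := card_dvs_le_nf (E := E)
  refine ⟨C, hC, fun X => ?_⟩
  set S := ∑ n ∈ (nms X : Finset (R E)), (nf (n : E))⁻¹ with hS
  have hnn : ∀ n : R E, 0 ≤ (nf (n : E))⁻¹ := fun n => inv_nonneg.2 (nf_nonneg _)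
  have hS0 : 0 ≤ S := Finset.sum_nonneg fun n _ => hnn n
  rw [sum_Tri]
  calc _ ≤ ∑ g ∈ (sqs X : Finset (R E)), C * (nf (g : E))⁻¹ * S := by
        refine Finset.sum_le_sum fun g hg => ?_
        have hg0 := bkA_nf_pos (mem_sqs.1 hg).1
        have h1 : ∑ h ∈ (sqs X : Finset (R E)).filter (IsCoprime · g),
            (nf (g : E) ^ 2)⁻¹ * (nf (h : E))⁻¹ ≤ (nf (g : E) ^ 2)⁻¹ * S := by
          rw [← Finset.mul_sum]
          refine mul_le_mul_of_nonneg_left ?_ (by positivity)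
          exact Finset.sum_le_sum_of_subset_of_nonneg
            ((Finset.filter_subset _ _).trans (sqs_subset X)) fun n _ _ => hnn n
        calc _ ≤ ∑ _e ∈ dvs g, (nf (g : E) ^ 2)⁻¹ * S := Finset.sum_le_sum fun e _ => h1
          _ = ((dvs g).card : ℝ) * ((nf (g : E) ^ 2)⁻¹ * S) := by
              rw [Finset.sum_const, nsmul_eq_mul]
          _ ≤ C * nf (g : E) * ((nf (g : E) ^ 2)⁻¹ * S) :=
              mul_le_mul_of_nonneg_right (hd g (mem_sqs.1 hg).1.ne_zero) (by positivity)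
          _ = C * (nf (g : E))⁻¹ * S := by field_simp
    _ = C * (∑ g ∈ (sqs X : Finset (R E)), (nf (g : E))⁻¹) * S := by
        rw [← Finset.sum_mul, ← Finset.mul_sum]
    _ ≤ C * S * S := by
        gcongr
        exact Finset.sum_le_sum_of_subset_of_nonneg (sqs_subset X) fun n _ _ => hnn n
    _ = C * S ^ 2 := by ring

theorem bkA_diag {ε : ℝ} (hε : 0 < ε) : ∃ C : ℝ, 0 < C ∧
    ∀ (Q A D Y Λ κ : ℝ), 1 ≤ Q → 0 < A → 0 < D → 0 ≤ Λ → 0 ≤ κ → κ ≤ 1 →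
      ∑ i ∈ Fam E Q Y, wF A D i * (Kd Λ A D i.1 * DF κ D i) ≤ C * Q ^ ε * Λ * D ^ 2 := by
  classical
  obtain ⟨C₀, hC₀, hT⟩ := bkA_sum_Tri (E := E)
  obtain ⟨C, hC, hs⟩ := sum_inv_nf_le (E := E) (ε := ε / 5) (by positivity)
  refine ⟨C₀ * C ^ 3, by positivity, fun Q A D Y Λ κ hQ hA hD hΛ hκ hκ1 => ?_⟩
  have hQ0 : 0 < Q := by linarith
  have hnn : ∀ n : R E, 0 ≤ (nf (n : E))⁻¹ := fun n => inv_nonneg.2 (nf_nonneg _)
  have hterm : ∀ i ∈ Fam E Q Y, wF A D i * (Kd Λ A D i.1 * DF κ D i) ≤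
      Λ * D ^ 2 * (((nf (i.1.1 : E) ^ 2)⁻¹ * (nf (i.1.2.2 : E))⁻¹) * (nf (i.2 : E))⁻¹) := by
    intro i hi
    obtain ⟨⟨h1, h2⟩, -⟩ := mem_Fam.1 hi
    obtain ⟨⟨hg, he, hh⟩, -⟩ := mem_Tri.1 h1
    have hg0 := bkA_nf_pos (mem_sqs.1 hg).1
    have he0 := bkA_nf_pos (mem_sqs.1 he).1
    have hh0 := bkA_nf_pos (mem_sqs.1 hh).1
    have hd0 := bkA_nf_pos (mem_nms.1 h2).1
    have : wF A D i * (Kd Λ A D i.1 * DF κ D i) = κ * (Λ * D ^ 2 *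
        (((nf (i.1.1 : E) ^ 2)⁻¹ * (nf (i.1.2.2 : E))⁻¹) * (nf (i.2 : E))⁻¹)) := by
      simp only [wF, Kd, DF]
      field_simp
    rw [this]
    exact mul_le_of_le_one_left (by positivity) hκ1
  have hS2 := hs (Q ^ 2) (one_le_pow₀ hQ)
  have hS1 := hs Q hQ
  have hS0 : 0 ≤ ∑ n ∈ (nms (Q ^ 2) : Finset (R E)), (nf (n : E))⁻¹ :=
    Finset.sum_nonneg fun n _ => hnn n
  have hS0' : 0 ≤ ∑ n ∈ (nms Q : Finset (R E)), (nf (n : E))⁻¹ :=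
    Finset.sum_nonneg fun n _ => hnn n
  have hpow : ((Q ^ 2) ^ (ε / 5)) ^ 2 * Q ^ (ε / 5) = Q ^ ε := by
    rw [← Real.rpow_natCast, ← Real.rpow_natCast, ← Real.rpow_mul hQ0.le,
      ← Real.rpow_mul hQ0.le, ← Real.rpow_add hQ0]
    congr 1
    push_cast
    ring
  calc _ ≤ ∑ i ∈ Fam E Q Y, Λ * D ^ 2 *
        (((nf (i.1.1 : E) ^ 2)⁻¹ * (nf (i.1.2.2 : E))⁻¹) * (nf (i.2 : E))⁻¹) :=
        Finset.sum_le_sum hterm
    _ ≤ ∑ i ∈ (Tri (Q ^ 2) ×ˢ nms Q : Finset ((R E × R E × R E) × R E)), Λ * D ^ 2 *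
        (((nf (i.1.1 : E) ^ 2)⁻¹ * (nf (i.1.2.2 : E))⁻¹) * (nf (i.2 : E))⁻¹) := by
        refine Finset.sum_le_sum_of_subset_of_nonneg
          (fun i hi => Finset.mem_product.2 (mem_Fam.1 hi).1) fun i _ _ => ?_
        have := hnn i.1.2.2
        have := hnn i.2
        positivity
    _ = Λ * D ^ 2 * ((∑ i ∈ (Tri (Q ^ 2) : Finset (R E × R E × R E)),
          (nf (i.1 : E) ^ 2)⁻¹ * (nf (i.2.2 : E))⁻¹) *
          ∑ n ∈ (nms Q : Finset (R E)), (nf (n : E))⁻¹) := by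
        rw [← Finset.mul_sum, Finset.sum_mul_sum, Finset.sum_product]
    _ ≤ Λ * D ^ 2 * ((C₀ * (C * (Q ^ 2) ^ (ε / 5)) ^ 2) * (C * Q ^ (ε / 5))) := by
        refine mul_le_mul_of_nonneg_left ?_ (by positivity)
        refine mul_le_mul ((hT _).trans ?_) hS1 hS0' (by positivity)
        gcongr
    _ = C₀ * C ^ 3 * (((Q ^ 2) ^ (ε / 5)) ^ 2 * Q ^ (ε / 5)) * Λ * D ^ 2 := by ring
    _ = _ := by rw [hpow]

theorem bkA_child {j : ℕ} (hj : Lev E j) (τ : E) {Q D Y κ κ' : ℝ} (hD : 0 < D) (hY : 0 < Y)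
    (hκ : 0 < κ) (hκ1 : κ ≤ 1) (hκ' : 0 < κ') (hκ1' : κ' ≤ 1) (y : ℝ) {e g' h d e₂ g₂ h₂ : R E}
    (hi : ((e * g', e, h), d) ∈ Fam E Q Y) (hi₂ : (e₂ * g₂, e₂, h₂) ∈ Tri (E := E) (Q ^ 2))
    (k : R E) :
    ‖Sc j (tFm τ ((e * g', e, h), d) / (e₂ * g₂ * h₂ : R E))
        (dc (fun n => mu n * conj (gam 5 n) * conj (sym n (tw (e * g', e, h)))) (e₂ * g₂) e₂ h₂) k
        (κ' * DF κ D ((e * g', e, h), d) / (nf ((e₂ * g₂ : R E) : E) * nf (h₂ : E)))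
        (y * Complex.I)‖ ^ 2 ≤
      4 ^ (pf (g' * h₂)).card *
        msup j (k * e * h ^ 2 * e₂ * g₂ ^ 2) (min (D / nf (d : E) ^ 3) (D / Y)) y *
        (DF κ D ((e * g', e, h), d) / (nf ((e₂ * g₂ : R E) : E) * nf (h₂ : E))) := by
  obtain ⟨⟨h1, hd⟩, hlt⟩ := mem_Fam.1 hi
  obtain ⟨⟨hg, -, hh⟩, -⟩ := mem_Tri.1 h1
  obtain ⟨⟨hg2, -, hh2⟩, -, hcop⟩ := mem_Tri.1 hi₂
  dsimp only at hg hh hd hg2 hh2 hcop hlt
  have hsq : Squarefree (e₂ * g₂ * h₂) :=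
    squarefree_mul_iff.2 ⟨hcop.symm.isRelPrime, (mem_sqs.1 hg2).2.1, (mem_sqs.1 hh2).2.1⟩
  have hg1 := one_le_nf (mem_sqs.1 hg).1.ne_zero
  have hh1 := one_le_nf (mem_sqs.1 hh).1.ne_zero
  have hd1 := one_le_nf (mem_nms.1 hd).1.ne_zero
  have hg21 := one_le_nf (mem_sqs.1 hg2).1.ne_zero
  have hh21 := one_le_nf (mem_sqs.1 hh2).1.ne_zero
  have hu : g' * h₂ ≠ 0 :=
    mul_ne_zero (right_ne_zero_of_mul (mem_sqs.1 hg).1.ne_zero) (mem_sqs.1 hh2).1.ne_zero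
  have hDF : DF κ D ((e * g', e, h), d) =
      κ * (D / (nf ((e * g' : R E) : E) * nf (h : E) * nf (d : E) ^ 3)) := by
    simp only [DF]
    field_simp
  set G := nf ((e * g' : R E) : E)
  set G₂ := nf ((e₂ * g₂ : R E) : E)
  set F := DF κ D ((e * g', e, h), d)
  have hF0 : 0 < F := by rw [hDF]; positivity
  have hF1 : F ≤ D / (G * nf (h : E) * nf (d : E) ^ 3) := by
    rw [hDF]; exact mul_le_of_le_one_left (by positivity) hκ1
  have hFm : F ≤ min (D / nf (d : E) ^ 3) (D / Y) := by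
    refine le_min (hF1.trans ?_) (hF1.trans ?_)
    · exact div_le_div_of_nonneg_left hD.le (by positivity)
        (le_mul_of_one_le_left (by positivity) (one_le_mul_of_one_le_of_one_le hg1 hh1))
    · exact div_le_div_of_nonneg_left hD.le hY hlt.le
  have hX1 : κ' * F / (G₂ * nf (h₂ : E)) ≤ F / (G₂ * nf (h₂ : E)) :=
    div_le_div_of_nonneg_right (mul_le_of_le_one_left hF0.le hκ1') (by positivity)
  have hX2 : F / (G₂ * nf (h₂ : E)) ≤ F :=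
    div_le_self hF0.le (one_le_mul_of_one_le_of_one_le hg21 hh21)
  have hX0 : 0 < κ' * F / (G₂ * nf (h₂ : E)) := by positivity
  refine (pow_le_pow_left₀ (norm_nonneg _) (dc_gam hj _ _ hsq k _ _) 2).trans ?_
  rw [Mob_eq_Sc, Sc_congr_row j _ mu (fun n _ => sym_row n k e g' h e₂ g₂ h₂), ← Mob_eq_Sc]
  refine (sq_Mob_le_msup hj.one_le _ _ hX0 ((hX1.trans hX2).trans hFm) y).trans ?_
  exact mul_le_mul (msup_punct hj.one_le _ hu _ y) hX1 hX0.le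
    (mul_nonneg (by positivity) (msup_nonneg _ _ _ _))

end Crest.Agent.R312
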