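import Crest.Agent.R312.DPDefs

/-!
# Row 312, module T1: punctures and the maximal function (compare `R17/T2Sup.lean`)
-/

set_option autoImplicit false

noncomputable section

namespace Crest.Agent.R312

open NumberField
open scoped ComplexConjugate
open Crest.Agent.R17 (Wc Wm)

variable {E : Type} [Field E] [NumberField E] [Fr E]

/-! ## part A: punctures -/

theorem norm_Mob_le {j : ℕ} (hj : 1 ≤ j) : ∃ C : ℝ, 0 < C ∧
    ∀ (τ : E) (a : R E) (X : ℝ) (s : ℂ), 0 < X → |s.re| ≤ 3 → ‖Mob j τ a X s‖ ≤ C * X := by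
  obtain ⟨C, hC, h⟩ := norm_Sc_le (E := E) hj
  exact ⟨C, hC, fun τ a X s hX hs =>
    Mob_eq_Sc j τ a X s ▸ h τ mu a X s (fun n _ => norm_mu_le n) hX hs⟩
theorem Mob_congr_type {j : ℕ} (hj : 1 ≤ j) {τ τ' : E} (h : Ty j τ τ') : Mob j τ' = Mob j τ := by
  funext a X s
  refine tsum_congr fun n => ?_
  have : Cls j τ' n ↔ Cls j τ n :=
    ⟨fun h' => ⟨h'.1, h.trans hj h'.2⟩, fun h' => ⟨h'.1, (h.symm hj).trans hj h'.2⟩⟩
  rw [this]
theorem T1SA_term {m m' : R E} (h : Associated m m') (a : R E) (X : ℝ) (s : ℂ) :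
    mu m * conj (sym m a) * Wc (nf (m : E) / X) s =
      mu m' * conj (sym m' a) * Wc (nf (m' : E) / X) s := by
  rw [mu_of_associated h, sym_of_associated h, nf_of_associated h]
/-- `tsum_Cls_dvd` with `g = u`; the summand only depends on the ideal. -/
theorem Mob_unit_type {j : ℕ} (hj : 1 ≤ j) (τ : E) {u : R E} (hu : IsUnit u) :
    Mob j ((u : E) * τ) = Mob j τ := by
  funext a X s
  have hu0 : (u : E) ≠ 0 := (isUnit_iff.1 hu).1
  have h := tsum_Cls_dvd hj ((u : E) * τ) hu.ne_zero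
    (f := fun m => mu m * conj (sym m a) * Wc (nf (m : E) / X) s) fun v x hv =>
      T1SA_term (associated_unit_mul_left x v ((V_iff_isUnit hj).1 hv).1) a X s
  rw [mul_div_cancel_left₀ _ hu0] at h
  refine Eq.trans (tsum_congr fun n => ?_) (h.trans (tsum_congr fun n => ?_))
  · by_cases hn : Cls j ((u : E) * τ) n
    · rw [if_pos hn, if_pos ⟨hn, hu.dvd⟩]
    · rw [if_neg hn, if_neg fun h => hn h.1]
  · rw [T1SA_term (associated_unit_mul_left n u hu) a X s]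
/-- Finitely many classes (`exists_classes`; `Mob j 0 = 0`). -/
theorem exists_Mob_classes {j : ℕ} (hj : 1 ≤ j) : ∃ T : Finset E, ∀ τ : E, ∃ τ' ∈ T,
    ∀ (a : R E) (X : ℝ) (s : ℂ), ‖Mob j τ a X s‖ ≤ ‖Mob j τ' a X s‖ := by
  classical
  obtain ⟨T, -, hT⟩ := exists_classes (E := E) hj
  refine ⟨insert 0 T, fun τ => ?_⟩
  rcases eq_or_ne τ 0 with rfl | h0
  · exact ⟨0, Finset.mem_insert_self _ _, fun _ _ _ => le_rfl⟩
  · obtain ⟨τ', ⟨h1, u, hu, h2⟩, -⟩ := hT τ h0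
    refine ⟨τ', Finset.mem_insert_of_mem h1, fun a X s => ?_⟩
    rw [← Mob_congr_type hj h2, Mob_unit_type hj τ hu]
theorem T1SA_ngcd {v : R E} (hv : IsUnit v) (x n : R E) : ngcd (v * x) n = ngcd x n := by
  rcases eq_or_ne x 0 with rfl | hx
  · rw [mul_zero]
  · have hvx : v * x ≠ 0 := mul_ne_zero hv.ne_zero hx
    refine (nm_ngcd hvx n).eq_of_associated (nm_ngcd hx n) (associated_of_dvd_dvd ?_ ?_)
    · have := (dvd_ngcd_iff hvx n _).1 dvd_rfl
      exact (dvd_ngcd_iff hx n _).2 ⟨(hv.dvd_mul_left).1 this.1, this.2⟩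
    · have := (dvd_ngcd_iff hx n _).1 dvd_rfl
      exact (dvd_ngcd_iff hvx n _).2 ⟨this.1.mul_left _, this.2⟩
open Classical in
theorem T1SA_split (a : R E) {e n' m : R E} (he : Nm e) (hm : m ≠ 0) (X : ℝ) (s : ℂ) :
    (if ngcd (e * m) (e * n') = e then
      mu (e * m) * conj (sym (e * m) a) * Wc (nf ((e * m : R E) : E) / X) s else 0) =
      mu e * conj (sym e a) *
        (mu m * conj (sym m (a * (e * n') ^ 6)) * Wc (nf (m : E) / (X / nf (e : E))) s) := by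
  have e1 : nf (m : E) / (X / nf (e : E)) = nf ((e * m : R E) : E) / X := by
    push_cast
    rw [nf_mul, div_div_eq_mul_div, mul_comm]
  have e2 : ngcd (e * m) (e * n') = e ↔ IsCoprime m n' := by
    rw [ngcd_mul_left he hm, ← ngcd_eq_one_iff hm, mul_right_eq_self₀, or_iff_left he.ne_zero]
  rw [e1, sym_mul_right, sym_pow_right, sym_pow_six_eq hm]
  by_cases h : IsCoprime m (e * n')
  · rw [if_pos (e2.2 h.of_mul_right_right), if_pos h, mu_mul h.of_mul_right_left.symm,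
      sym_mul_left he.ne_zero hm, map_mul, mul_one]
    ring
  · rw [if_neg h]
    split_ifs with h1
    · rw [mu_mul_of_not_coprime fun h2 => h (h2.symm.mul_right (e2.1 h1))]
      simp
    · simp
/-- Split the squarefree `m` according to `e = ngcd m n` (`tsum_Cls_dvd`, `sym_pow_six_eq`). -/
theorem Mob_eq_sum_dvs {j : ℕ} (hj : 1 ≤ j) (τ : E) (a : R E) {n : R E} (hn : n ≠ 0) {X : ℝ}
    (hX : 0 < X) (s : ℂ) : Mob j τ a X s =
      ∑ e ∈ dvs n, mu e * conj (sym e a) * Mob j (τ / e) (a * n ^ 6) (X / nf (e : E)) s := by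
  classical
  obtain ⟨C, -, hC⟩ := cnt_Cls (E := E) hj
  obtain ⟨f, hf⟩ : ∃ f : R E → ℂ, f = fun m => mu m * conj (sym m a) * Wc (nf (m : E) / X) s :=
    ⟨_, rfl⟩
  have hne : ∀ {t : E} {m : R E}, Cls j t m → m ≠ 0 := fun h h0 => h.1.1 (by rw [h0]; rfl)
  have hs : Summable fun m : R E => ‖if Cls j τ m then f m else 0‖ := by
    refine (summable_Sm (hC τ) (b := fun m => if Cls j τ m then mu m * conj (sym m a) else 0)
      (H := 1) (B := 0) ⟨zero_le_one, fun m hm => if_neg hm, fun m hm => ?_⟩ hX s).congr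
      fun m => ?_
    · simp only [if_pos hm, Real.rpow_zero, mul_one, norm_mul, Complex.norm_conj]
      exact mul_le_one₀ (norm_mu_le _) (norm_nonneg _) (norm_sym_le _ _)
    · rw [hf]
      split_ifs <;> simp
  have h1 : ∀ e ∈ dvs n, mu e * conj (sym e a) * Mob j (τ / e) (a * n ^ 6) (X / nf (e : E)) s =
      ∑' m : R E, if Cls j τ m ∧ e ∣ m then (if ngcd m n = e then f m else 0) else 0 := by
    intro e he
    obtain ⟨he1, n', rfl⟩ := of_mem_dvs he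
    have h := tsum_Cls_dvd hj τ he1.ne_zero
      (f := fun m => if ngcd m (e * n') = e then f m else 0) fun v x hv => by
        have hv' := ((V_iff_isUnit hj).1 hv).1
        simp only [T1SA_ngcd hv', hf, T1SA_term (associated_unit_mul_left x v hv') a X s]
    refine Eq.trans ?_ (Eq.trans h.symm (tsum_congr fun m => if_congr Iff.rfl rfl rfl))
    rw [Mob, ← tsum_mul_left]
    refine tsum_congr fun m => ?_
    by_cases hm : Cls j (τ / e) m
    · rw [if_pos hm, if_pos hm, hf]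
      exact (T1SA_split a he1 (hne hm) X s).symm
    · rw [if_neg hm, if_neg hm, mul_zero]
  rw [Finset.sum_congr rfl h1, ← Summable.tsum_finsetSum]
  · refine tsum_congr fun m => ?_
    by_cases hm : Cls j τ m
    · have h2 := (dvd_ngcd_iff (hne hm) n _).1 dvd_rfl
      rw [if_pos hm, Finset.sum_eq_single_of_mem (ngcd m n)
        ((mem_dvs hn).2 ⟨nm_ngcd (hne hm) n, h2.2⟩), if_pos ⟨hm, h2.1⟩, if_pos rfl, hf]
      intro e _ he
      rw [if_neg he.symm, ite_self]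
    · rw [if_neg hm]
      exact (Finset.sum_eq_zero fun e _ => if_neg fun h => hm h.1).symm
  · intro e _
    refine Summable.of_norm_bounded hs fun m => ?_
    by_cases hm : Cls j τ m
    · rw [if_pos hm]
      split_ifs <;> simp
    · rw [if_neg fun h => hm h.1, if_neg hm]
theorem msup_nonneg (j : ℕ) (a : R E) (Dm y : ℝ) : 0 ≤ msup j a Dm y := by
  refine Real.sSup_nonneg ?_
  rintro x ⟨τ, D, hD, -, rfl⟩
  positivity
theorem sq_Mob_le_msup {j : ℕ} (hj : 1 ≤ j) (τ : E) (a : R E) {D Dm : ℝ} (hD : 0 < D) (h : D ≤ Dm)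
    (y : ℝ) : ‖Mob j τ a D (y * Complex.I)‖ ^ 2 ≤ msup j a Dm y * D := by
  obtain ⟨C, hC, h1⟩ := norm_Mob_le (E := E) hj
  rw [← div_le_iff₀ hD]
  refine le_csSup ⟨C ^ 2 * Dm, ?_⟩ ⟨τ, D, hD, h, rfl⟩
  rintro x ⟨τ', D', hD', h', rfl⟩
  have h2 := h1 τ' a D' (y * Complex.I) hD' (by simp)
  rw [div_le_iff₀ hD']
  calc _ ≤ (C * D') ^ 2 := pow_le_pow_left₀ (norm_nonneg _) h2 2
    _ = C ^ 2 * D' * D' := by ring
    _ ≤ _ := by gcongr
theorem msup_le {j : ℕ} {a : R E} {Dm y B : ℝ} (hB : 0 ≤ B)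
    (h : ∀ (τ : E) (D : ℝ), 0 < D → D ≤ Dm → ‖Mob j τ a D (y * Complex.I)‖ ^ 2 ≤ B * D) :
    msup j a Dm y ≤ B := by
  refine Real.sSup_le ?_ hB
  rintro x ⟨τ, D, hD, h', rfl⟩
  exact (div_le_iff₀ hD).2 (h τ D hD h')
theorem T1SA_row (j : ℕ) {a a' : R E} (h : ∀ n : R E, n ≠ 0 → sym n a = sym n a') (Dm y : ℝ) :
    msup j a Dm y = msup j a' Dm y := by
  simp only [msup, Mob_eq_Sc, Sc_congr_row j _ mu h]
theorem T1SA_prime {j : ℕ} (hj : 1 ≤ j) (b : R E) {p : R E} (hp : Prime p) (hp' : Nm p)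
    (Dm y : ℝ) : msup j (b * p ^ 6) Dm y ≤ 4 * msup j b Dm y := by
  classical
  have hd : dvs p = {1, p} := by
    ext d
    rw [mem_dvs hp.ne_zero, Finset.mem_insert, Finset.mem_singleton]
    constructor
    · rintro ⟨h1, h2⟩
      rcases hp.irreducible.dvd_iff.1 h2 with h | h
      · exact Or.inl (h1.eq_one_of_isUnit h)
      · exact Or.inr (hp'.eq_of_associated h1 h).symm
    · rintro (rfl | rfl)
      · exact ⟨nm_one, one_dvd _⟩
      · exact ⟨hp', dvd_rfl⟩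
  have h4 : 4 ≤ nf (p : E) := by
    rw [nf_eq_nN hp.ne_zero]
    exact_mod_cast le_trans (by norm_num) (nN_prime_mod hp).2
  obtain ⟨m, hm⟩ : ∃ m, m = msup j b Dm y := ⟨_, rfl⟩
  obtain ⟨m', hm'⟩ : ∃ m', m' = msup j (b * p ^ 6) Dm y := ⟨_, rfl⟩
  have hm0 : 0 ≤ m := hm ▸ msup_nonneg _ _ _ _
  have hm0' : 0 ≤ m' := hm' ▸ msup_nonneg _ _ _ _
  have key : m' ≤ (√m + √m' / 2) ^ 2 := by
    refine hm'.trans_le (msup_le (sq_nonneg _) fun τ D hD hDm => ?_)
    have hD' : 0 < D / nf (p : E) := by positivity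
    have hD4 : D / nf (p : E) ≤ D / 4 := div_le_div_of_nonneg_left hD.le (by norm_num) h4
    have e := Mob_eq_sum_dvs hj τ b hp.ne_zero hD (y * Complex.I)
    rw [hd, Finset.sum_pair hp.ne_one.symm] at e
    simp only [mu_one, sym_one_left, map_one, one_mul, OneMemClass.coe_one, div_one, nf_one] at e
    have a1 := sq_Mob_le_msup hj τ b hD hDm y
    have a2 := sq_Mob_le_msup hj (τ / p) (b * p ^ 6) hD'
      (show D / nf (p : E) ≤ Dm by linarith) y
    rw [← hm] at a1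
    rw [← hm'] at a2
    have b1 : ‖Mob j τ b D (y * Complex.I)‖ ≤ √m * √D := by
      rw [← Real.sqrt_mul hm0]; exact Real.le_sqrt_of_sq_le a1
    have b2 : ‖Mob j (τ / p) (b * p ^ 6) (D / nf (p : E)) (y * Complex.I)‖ ≤ √m' / 2 * √D := by
      refine (pow_le_pow_iff_left₀ (norm_nonneg _) (by positivity) two_ne_zero).1 (a2.trans ?_)
      rw [mul_pow, div_pow, Real.sq_sqrt hm0', Real.sq_sqrt hD.le]
      calc m' * (D / nf (p : E)) ≤ m' * (D / 4) := mul_le_mul_of_nonneg_left hD4 hm0'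
        _ = _ := by ring
    have b3 : ‖Mob j τ (b * p ^ 6) D (y * Complex.I)‖ ≤ (√m + √m' / 2) * √D := by
      rw [← sub_eq_iff_eq_add.2 e, add_mul]
      refine (norm_sub_le _ _).trans (add_le_add b1 (le_trans ?_ b2))
      rw [norm_mul, norm_mul, Complex.norm_conj]
      exact mul_le_of_le_one_left (norm_nonneg _)
        (mul_le_one₀ (norm_mu_le _) (norm_nonneg _) (norm_sym_le _ _))
    refine (pow_le_pow_left₀ (norm_nonneg _) b3 2).trans_eq ?_
    rw [mul_pow, Real.sq_sqrt hD.le]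
  have k1 : √m' ≤ √m + √m' / 2 := Real.sqrt_le_iff.2 ⟨by positivity, key⟩
  have k2 := pow_le_pow_left₀ (Real.sqrt_nonneg m') (show √m' ≤ 2 * √m by linarith) 2
  rw [mul_pow, Real.sq_sqrt hm0, Real.sq_sqrt hm0'] at k2
  rw [← hm, ← hm']
  linarith
/-- For a prime `p`: `‖Mob τ (b p⁶) D‖ ≤ ‖Mob τ b D‖ + ‖Mob (τ/p) (b p⁶) (D / N p)‖`, `N p ≥ 4`, so
`√m' ≤ √m + √m' / 2`; induction on the primes of `u` (a prime which already divides `u` changes
nothing). -/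
theorem msup_punct {j : ℕ} (hj : 1 ≤ j) (a : R E) {u : R E} (hu : u ≠ 0) (Dm y : ℝ) :
    msup j (a * u ^ 6) Dm y ≤ 4 ^ (pf u).card * msup j a Dm y := by
  classical
  refine ne_zero_induction
    (P := fun u => msup j (a * u ^ 6) Dm y ≤ 4 ^ (pf u).card * msup j a Dm y) ?_ ?_ hu
  · intro u hu
    rw [pf_unit hu, Finset.card_empty, pow_zero, one_mul]
    refine (T1SA_row j (fun n _ => ?_) Dm y).le
    rw [sym_mul_right, sym_pow_right,
      sym_pow_six (isCoprime_one_right.of_isCoprime_of_dvd_right hu.dvd), mul_one]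
  · intro p u hp hp' hu ih
    have epf : pf (p * u) = insert p (pf u) := by
      rw [pf_mul hp.ne_zero hu, pf_prime hp, hp'.nrm_eq, Finset.insert_eq]
    rw [epf]
    by_cases h : p ∈ pf u
    · rw [Finset.insert_eq_of_mem h]
      refine (T1SA_row j (fun n hn => ?_) Dm y).trans_le ih
      have : IsCoprime n (p * u) ↔ IsCoprime n u :=
        ⟨fun h1 => h1.of_mul_right_right,
          fun h1 => (h1.of_isCoprime_of_dvd_right (of_mem_pf h).2.2).mul_right h1⟩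
      rw [sym_mul_right, sym_mul_right, sym_pow_right, sym_pow_right, sym_pow_six_eq hn,
        sym_pow_six_eq hn]
      simp only [this]
    · rw [Finset.card_insert_of_notMem h, pow_succ (4 : ℝ),
        show a * (p * u) ^ 6 = a * u ^ 6 * p ^ 6 by ring]
      refine (T1SA_prime hj _ hp hp' Dm y).trans ?_
      linarith

/-! ## part B: the mean value of the maximal function -/

theorem T1SupB.near {j : ℕ} {C : ℝ} {T : Finset E}
    (h₂ : ∀ (τ : E) (a : R E) (X : ℝ) (s : ℂ), 0 < X → |s.re| ≤ 3 → ‖Mob j τ a X s‖ ≤ C * X)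
    (hT : ∀ τ : E, ∃ τ' ∈ T, ∀ (a : R E) (X : ℝ) (s : ℂ), ‖Mob j τ a X s‖ ≤ ‖Mob j τ' a X s‖)
    (a : R E) (Dm y : ℝ) : ∃ D : ℝ, 2 * C ^ 2 < msup j a Dm y → 1 ≤ D ∧ D ≤ Dm ∧
      msup j a Dm y ≤ 2 * ∑ τ ∈ T, ‖Mob j τ a D (y * Complex.I)‖ ^ 2 / D := by
  by_cases h : 2 * C ^ 2 < msup j a Dm y
  swap
  · exact ⟨0, fun h' => absurd h' h⟩
  have h0 : 0 < msup j a Dm y := lt_of_le_of_lt (by positivity) h
  obtain ⟨x, ⟨τ, D, hD, hDD, rfl⟩, hx⟩ := exists_lt_of_lt_csSup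
    (s := {x | ∃ (τ : E) (D : ℝ), 0 < D ∧ D ≤ Dm ∧ x = ‖Mob j τ a D (y * Complex.I)‖ ^ 2 / D})
    (b := msup j a Dm y / 2) (Set.nonempty_iff_ne_empty.2 fun e => by
      rw [msup, e, Real.sSup_empty] at h0
      exact lt_irrefl _ h0) (half_lt_self h0)
  obtain ⟨τ', hτ', h1⟩ := hT τ
  refine ⟨D, fun _ => ⟨le_of_not_gt fun hD1 => ?_, hDD, ?_⟩⟩
  · have h3 : ‖Mob j τ a D (y * Complex.I)‖ ^ 2 / D ≤ C ^ 2 := by
      rw [div_le_iff₀ hD]
      calc _ ≤ (C * D) ^ 2 := by gcongr; exact h₂ τ a D _ hD (by simp)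
        _ = C ^ 2 * D * D := by ring
        _ ≤ _ := mul_le_of_le_one_right (by positivity) hD1.le
    linarith
  · have h3 : ‖Mob j τ a D (y * Complex.I)‖ ^ 2 / D ≤ ‖Mob j τ' a D (y * Complex.I)‖ ^ 2 / D := by
      gcongr; exact h1 _ _ _
    have h4 := Finset.single_le_sum (f := fun τ => ‖Mob j τ a D (y * Complex.I)‖ ^ 2 / D)
      (fun _ _ => by positivity) hτ'
    linarith

/-- Choose for every row a class and a scale `D_a` with `msup ≤ 2 ‖Mob‖² / D_a` (if `msup > 0`);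
`D_a ≤ 1` is trivial (`norm_Mob_le`, `card_nms_le`); else `exists_Mob_classes`, `dyadic` in `D_a`,
`sup_moment` (`Mob_eq_Sc`, `Sc_eq_Sm`, `PB_Sc`, `cnt_Cls`). -/
theorem sum_msup {j : ℕ} (hj : 1 ≤ j) {ε : ℝ} (hε : 0 < ε) : ∃ C : ℝ, 0 < C ∧
    ∀ (Q A Dm F y : ℝ), 0 ≤ A → 1 ≤ Q → Dm ≤ Q → 0 ≤ F →
      (∀ (τ : E) (D y' : ℝ), 0 < D → D ≤ 8 * Dm → |y'| ≤ |y| + 3 →
        ∑ a ∈ nms A, ‖Mob j τ a D (y' * Complex.I)‖ ^ 2 ≤ F * D) →
      ∑ a ∈ (nms A : Finset (R E)), msup j a Dm y ≤ C * (A + Q ^ ε * (1 + |y|) ^ 5 * F) := by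
  classical
  obtain ⟨K, hK, hd⟩ := dyadic hε
  obtain ⟨C, hC, hs⟩ := sup_moment 2
  obtain ⟨C₁, hC₁, h₁⟩ := card_nms_le (E := E)
  obtain ⟨C₂, hC₂, h₂⟩ := norm_Mob_le (E := E) hj
  obtain ⟨C₃, -, h₃⟩ := cnt_Cls (E := E) hj
  obtain ⟨T, hT⟩ := exists_Mob_classes (E := E) hj
  refine ⟨2 * C₂ ^ 2 * C₁ + 2 * T.card * (K * (8 * C)), by positivity,
    fun Q A Dm F y hA hQ hDQ hF h => ?_⟩
  choose D hD using fun a => T1SupB.near h₂ hT a Dm y
  rw [← Finset.sum_filter_add_sum_filter_not _ fun a => 2 * C₂ ^ 2 < msup j a Dm y]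
  set S := (nms A : Finset (R E)).filter fun a => 2 * C₂ ^ 2 < msup j a Dm y with hS
  have hDS := fun a (ha : a ∈ S) => hD a (Finset.mem_filter.1 ha).2
  have e1 : ∑ a ∈ (nms A : Finset (R E)).filter (fun a => ¬ 2 * C₂ ^ 2 < msup j a Dm y),
      msup j a Dm y ≤ C₁ * A * (2 * C₂ ^ 2) := by
    refine (Finset.sum_le_card_nsmul _ _ _ fun a ha =>
      not_lt.1 (Finset.mem_filter.1 ha).2).trans ?_
    rw [nsmul_eq_mul]
    exact mul_le_mul_of_nonneg_right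
      (le_trans (by exact_mod_cast Finset.card_filter_le _ _) (h₁ A hA)) (by positivity)
  have e2 : ∀ τ : E, ∑ a ∈ S, ‖Mob j τ a (D a) (y * Complex.I)‖ ^ 2 / D a ≤
      K * Q ^ ε * (8 * C * (1 + |y|) ^ 5 * F) := fun τ => by
    rcases S.eq_empty_or_nonempty with h0 | ⟨a₀, ha₀⟩
    · rw [h0, Finset.sum_empty]
      positivity
    have e3 : ∑ a ∈ S, ‖Mob j τ a (D a) (y * Complex.I)‖ ^ 2 / D a =
        ∑ a ∈ S, ‖Mob j τ a (D a) (y * Complex.I)‖ ^ 2 / |D a| :=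
      Finset.sum_congr rfl fun a ha => by rw [abs_of_nonneg (zero_le_one.trans (hDS a ha).1)]
    rw [e3]
    refine hd D Q Dm _ S _ ((hDS a₀ ha₀).1.trans (hDS a₀ ha₀).2.1) hDQ
      (fun a ha => ⟨(hDS a ha).1, (hDS a ha).2.1⟩) (fun a => by positivity) fun X hX hXD => ?_
    have hX0 : 0 < X := by linarith
    set S' := S.filter fun a => X ≤ D a ∧ D a ≤ 2 * X with hS'
    have hsub : S' ⊆ nms A := (Finset.filter_subset _ _).trans (Finset.filter_subset _ _)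
    have hy' : ∀ a ∈ S', D a ∈ Set.Icc X (2 * X) := fun a ha => (Finset.mem_filter.1 ha).2
    have key := hs S' (fun _ => 1) (fun _ => Cls j τ) (fun n : R E => nf (n : E))
      (fun a n => if Cls j τ n ∧ Squarefree n then mu n * conj (sym n a) else 0) C₃ 1 0 X |y|
      (F * (8 * X)) D (fun _ => y) (fun _ => zero_le_one)
      (fun a _ => ⟨h₃ τ, PB_Sc j τ (fun n _ => norm_mu_le n) a⟩) hX0 (abs_nonneg _) hy'
      (fun _ _ => le_rfl) (fun Y' hY' t' ht' => by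
        have h1 : 0 < Y' := by linarith [hY'.1]
        simp only [one_mul, ← Sc_eq_Sm, ← Mob_eq_Sc]
        refine le_trans (Finset.sum_le_sum_of_subset_of_nonneg hsub fun a _ _ => by positivity)
          ((h τ Y' t' h1 (by linarith [hY'.2]) ht').trans ?_)
        gcongr
        exact hY'.2)
    simp only [one_mul, ← Sc_eq_Sm, ← Mob_eq_Sc] at key
    calc _ ≤ ∑ a ∈ S', ‖Mob j τ a (D a) (y * Complex.I)‖ ^ 2 / X := by
          refine Finset.sum_le_sum fun a ha => ?_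
          gcongr
          exact (hy' a ha).1.trans (le_abs_self _)
      _ ≤ C * (1 + |y|) ^ (2 * 2 + 1) * (F * (8 * X)) / X := by
          rw [← Finset.sum_div]
          gcongr
      _ = 8 * C * (1 + |y|) ^ 5 * F := by field_simp
  have e3 : ∑ a ∈ S, msup j a Dm y ≤ 2 * (T.card * (K * Q ^ ε * (8 * C * (1 + |y|) ^ 5 * F))) := by
    refine (Finset.sum_le_sum fun a ha => (hDS a ha).2.2).trans ?_
    rw [← Finset.mul_sum, Finset.sum_comm, ← nsmul_eq_mul]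
    exact mul_le_mul_of_nonneg_left (Finset.sum_le_card_nsmul _ _ _ fun τ _ => e2 τ) zero_le_two
  have e4 : 0 ≤ 2 * C₂ ^ 2 * C₁ * (Q ^ ε * (1 + |y|) ^ 5 * F) := by positivity
  have e5 : 0 ≤ 2 * T.card * (K * (8 * C)) * A := by positivity
  nlinarith

/-- The trivial bound. -/
theorem IH_triv {j : ℕ} (hj : 1 ≤ j) : ∃ C : ℝ, 0 < C ∧ ∀ Q D₀ : ℝ, IH E j Q D₀ (C * D₀) 0 := by
  obtain ⟨C₁, hC₁, h₁⟩ := card_nms_le (E := E)
  obtain ⟨C₂, hC₂, h₂⟩ := norm_Mob_le (E := E) hj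
  refine ⟨C₁ * C₂ ^ 2, by positivity, fun Q D₀ τ A D y hA _ hD hD₀ => ?_⟩
  refine (Finset.sum_le_card_nsmul _ _ ((C₂ * D) ^ 2) fun a _ => by
    gcongr; exact h₂ τ a D _ hD (by simp)).trans ?_
  rw [nsmul_eq_mul, pow_zero, mul_one]
  have : 0 < D₀ := hD.trans_le hD₀
  calc _ ≤ C₁ * A * (C₂ * D) ^ 2 := by gcongr; exact h₁ A hA
    _ = C₁ * C₂ ^ 2 * D * (A * D) := by ring
    _ ≤ _ := by gcongr; linarith
theorem IH.mono {j : ℕ} {Q D₀ D₁ B B' : ℝ} {J J' : ℕ} (h : IH E j Q D₀ B J) (hD : D₁ ≤ D₀)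
    (hB : B ≤ B') (hB' : 0 ≤ B') (hJ : J ≤ J') : IH E j Q D₁ B' J' := by
  intro τ A D y hA hQ hD0 hD1
  refine (h τ A D y hA hQ hD0 (hD1.trans hD)).trans ?_
  have h1 : 1 ≤ 1 + |y| := le_add_of_nonneg_right (abs_nonneg y)
  calc _ ≤ B' * (1 + |y|) ^ J * ((A + D) * D) := by gcongr
    _ ≤ _ := by gcongr

end Crest.Agent.R312
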