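import Crest.Agent.R312.DPSm
import Crest.Agent.R312.T1Sup
import Crest.Agent.R312.T1BackAuxA

/-!
# Row 312, module T1: the second Poisson step
-/

set_option autoImplicit false

noncomputable section

namespace Crest.Agent.R312

open NumberField
open scoped ComplexConjugate
open Crest.Agent.R17 (Wc Wm)

variable {E : Type} [Field E] [NumberField E] [Fr E]

/-- The diagonal: the general term is `Λ κ D² / (N g² N h N d)`. -/
theorem back_diag {ε : ℝ} (hε : 0 < ε) : ∃ C : ℝ, 0 < C ∧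
    ∀ (Q A D Y Λ κ : ℝ), 1 ≤ Q → 0 < A → 0 < D → 0 ≤ Λ → 0 ≤ κ → κ ≤ 1 →
      ∑ i ∈ Fam E Q Y, wF A D i * (Kd Λ A D i.1 * DF κ D i) ≤ C * Q ^ ε * Λ * D ^ 2 :=
  bkA_diag hε

/-- One child: `g = e g'`, `g₂ = e₂ g₂'`; `dc_gam`, `sym_row`, `Sc_congr_row`, `sq_Mob_le_msup`,
`msup_punct`.  The scale is at most `D / N d³` and at most `D / Y`. -/
theorem back_child {j : ℕ} (hj : Lev E j) (τ : E) {Q D Y κ κ' : ℝ} (hD : 0 < D) (hY : 0 < Y)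
    (hκ : 0 < κ) (hκ1 : κ ≤ 1) (hκ' : 0 < κ') (hκ1' : κ' ≤ 1) (y : ℝ) {e g' h d e₂ g₂ h₂ : R E}
    (hi : ((e * g', e, h), d) ∈ Fam E Q Y) (hi₂ : (e₂ * g₂, e₂, h₂) ∈ Tri (E := E) (Q ^ 2))
    (k : R E) :
    ‖Sc j (tFm τ ((e * g', e, h), d) / (e₂ * g₂ * h₂ : R E))
        (dc (fun n => mu n * conj (gam 5 n) * conj (sym n (tw (e * g', e, h)))) (e₂ * g₂) e₂ h₂) k
        (κ' * DF κ D ((e * g', e, h), d) / (nf ((e₂ * g₂ : R E) : E) * nf (h₂ : E)))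
        (y * Complex.I)‖ ^ 2 ≤
      4 ^ (pf (g' * h₂)).card *
        msup j (k * e * h ^ 2 * e₂ * g₂ ^ 2) (min (D / nf (d : E) ^ 3) (D / Y)) y *
        (DF κ D ((e * g', e, h), d) / (nf ((e₂ * g₂ : R E) : E) * nf (h₂ : E))) :=
  bkA_child hj τ hD hY hκ hκ1 hκ' hκ1' y hi hi₂ k

theorem backB_mult {σ τ υ : Type} (S : Finset σ) (T : Finset τ) (f : σ → ℝ) (F : τ → ℝ)
    (φ : σ → τ) (ψ : σ → υ) (U : τ → Finset υ) {D : ℝ} (hF : ∀ j ∈ T, 0 ≤ F j)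
    (hU : ∀ j ∈ T, ((U j).card : ℝ) ≤ D)
    (h : ∀ i ∈ S, φ i ∈ T ∧ ψ i ∈ U (φ i) ∧ f i ≤ F (φ i))
    (inj : ∀ i ∈ S, ∀ i' ∈ S, φ i = φ i' → ψ i = ψ i' → i = i') :
    ∑ i ∈ S, f i ≤ D * ∑ j ∈ T, F j := by
  classical
  calc ∑ i ∈ S, f i ≤ ∑ i ∈ S, F (φ i) := Finset.sum_le_sum fun i hi => (h i hi).2.2
    _ = ∑ j ∈ T, ∑ i ∈ S with φ i = j, F j :=
        (Finset.sum_fiberwise_of_maps_to' (fun i hi => (h i hi).1) _).symm
    _ ≤ _ := by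
        rw [Finset.mul_sum]
        refine Finset.sum_le_sum fun j hj => ?_
        rw [Finset.sum_const, nsmul_eq_mul]
        refine mul_le_mul_of_nonneg_right (le_trans (Nat.cast_le.2 (Finset.card_le_card_of_injOn ψ
          (fun i hi => ?_) fun i hi i' hi' e => ?_)) (hU j hj)) (hF j hj)
        · obtain ⟨h1, h2⟩ := Finset.mem_filter.1 (Finset.mem_coe.1 hi)
          exact h2 ▸ (h i h1).2.1
        · obtain ⟨h1, h2⟩ := Finset.mem_filter.1 (Finset.mem_coe.1 hi)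
          obtain ⟨h3, h4⟩ := Finset.mem_filter.1 (Finset.mem_coe.1 hi')
          exact inj i h1 i' h3 (h2.trans h4.symm) e

open Classical in
/-- the quotient `g / e` -/
def backB_qt (g e : R E) : R E := if h : e ∣ g then h.choose else 0

theorem backB_qt_mul {e : R E} (he : e ≠ 0) (g : R E) : backB_qt (e * g) e = g := by
  have h : e ∣ e * g := dvd_mul_right _ _
  rw [backB_qt, dif_pos h]
  exact (mul_left_cancel₀ he h.choose_spec).symm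

theorem backB_tri {Q : ℝ} {g e h : R E} (hi : (g, e, h) ∈ Tri (E := E) Q) :
    (Nm g ∧ nf (g : E) ≤ Q) ∧ Nm e ∧ (Nm h ∧ nf (h : E) ≤ Q) ∧ e ∣ g := by
  obtain ⟨⟨a1, a2, a3⟩, a4, -⟩ := mem_Tri.1 hi
  exact ⟨⟨(mem_sqs.1 a1).1, (mem_sqs.1 a1).2.2⟩, (mem_sqs.1 a2).1,
    ⟨(mem_sqs.1 a3).1, (mem_sqs.1 a3).2.2⟩, a4⟩

/-- The off-diagonal terms.  By `back_child` the term `(g, e, h, d; g₂, e₂, h₂; k)` is at most
`Λ D N d² 4^{ω(g' h₂)} msup(a) / (N g' N h₂)`, `a = k e h² e₂ g₂'²`, `N a ≤ A / N d⁶`.  For fixed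
`(d, g', h₂, a)` the data `(e, h, e₂, g₂')` lie in `(dvs a)⁴` and determine `k`
(`card_dvs_le`, `pow_card_pf_le`, `sum_inv_nf_le`; compare `R17.DP3_mult`). -/
theorem back_off {j : ℕ} (hj : Lev E j) {ε : ℝ} (hε : 0 < ε) : ∃ C : ℝ, 0 < C ∧
    ∀ (τ : E) (Q A D Y Λ κ κ' y : ℝ), 1 ≤ Q → 0 < A → A ≤ Q → 0 < D → 0 < Y → 0 < Λ → 0 < κ →
      κ ≤ 1 → 0 < κ' → κ' ≤ 1 →
      ∑ i ∈ Fam E Q Y, wF A D i *
        OD j (tFm τ i) (fun n => mu n * conj (gam 5 n) * conj (sym n (tw i.1))) (Kd Λ A D i.1)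
          (DF κ D i) (Q ^ 2) Λ κ' y ≤
        C * Q ^ ε * Λ * D * ∑ d ∈ (nms Q : Finset (R E)), nf (d : E) ^ 2 *
          ∑ a ∈ (nms (A / nf (d : E) ^ 6) : Finset (R E)),
            msup j a (min (D / nf (d : E) ^ 3) (D / Y)) y := by
  have hε' : 0 < ε / 12 := by positivity
  obtain ⟨C₁, hC₁, h₁⟩ := card_dvs_le (E := E) hε'
  obtain ⟨C₂, hC₂, h₂⟩ := pow_card_pf_le (E := E) hε' 4
  obtain ⟨C₃, hC₃, h₃⟩ := sum_inv_nf_le (E := E) hε'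
  refine ⟨C₁ ^ 4 * C₂ * C₃ ^ 2, by positivity,
    fun τ Q A D Y Λ κ κ' y hQ hA hAQ hD hY hΛ hκ hκ1 hκ' hκ1' => ?_⟩
  have hQ0 : 0 < Q := by linarith
  set q : ℝ := Q ^ (ε / 12) with hq
  have hq0 : 0 < q := Real.rpow_pos_of_pos hQ0 _
  have hqp : ∀ n : ℕ, (Q ^ n) ^ (ε / 12) = q ^ n := fun n => by
    rw [hq, ← Real.rpow_natCast, ← Real.rpow_natCast, ← Real.rpow_mul hQ0.le,
      ← Real.rpow_mul hQ0.le, mul_comm]
  have hq12 : Q ^ ε = q ^ 12 := by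
    rw [hq, ← Real.rpow_natCast, ← Real.rpow_mul hQ0.le]
    congr 1
    push_cast
    ring
  unfold OD
  simp only [Finset.mul_sum _ _ (wF A D _), Finset.mul_sum _ _ (_ / _ : ℝ), Finset.sum_sigma']
  refine (backB_mult _ (((nms Q : Finset (R E)).sigma fun d =>
      (nms (A / nf (d : E) ^ 6) : Finset (R E))) ×ˢ
      ((nms (Q ^ 2) : Finset (R E)) ×ˢ (nms (Q ^ 2) : Finset (R E)))) _
    (fun z => (C₂ * q ^ 4 * Λ * D) * ((nf (z.1.1 : E) ^ 2 *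
      msup j z.1.2 (min (D / nf (z.1.1 : E) ^ 3) (D / Y)) y) *
        ((nf (z.2.1 : E))⁻¹ * (nf (z.2.2 : E))⁻¹)))
    (fun z => (⟨z.1.2, z.2.2 * z.1.1.2.1 * z.1.1.2.2 ^ 2 * z.2.1.2.1 *
      backB_qt z.2.1.1 z.2.1.2.1 ^ 2⟩, backB_qt z.1.1.1 z.1.1.2.1, z.2.1.2.2))
    (fun z => (z.1.1.2.1, z.1.1.2.2, z.2.1.2.1, backB_qt z.2.1.1 z.2.1.2.1))
    (fun z => dvs z.1.2 ×ˢ dvs z.1.2 ×ˢ dvs z.1.2 ×ˢ dvs z.1.2) (D := (C₁ * q) ^ 4)
    (fun z _ => ?_) (fun z hz => ?_) ?_ ?_).trans ?_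
  · have := msup_nonneg j z.1.2 (min (D / nf (z.1.1 : E) ^ 3) (D / Y)) y
    have := nf_nonneg (z.2.1 : E)
    have := nf_nonneg (z.2.2 : E)
    positivity
  · obtain ⟨hd, ha⟩ := Finset.mem_sigma.1 (Finset.mem_product.1 hz).1
    obtain ⟨ha, haA⟩ := mem_nms.1 ha
    have h1 : nf (z.1.2 : E) ≤ Q := haA.trans ((div_le_self hA.le
      (one_le_pow₀ (one_le_nf (mem_nms.1 hd).1.1))).trans hAQ)
    have h2 : ((dvs z.1.2).card : ℝ) ≤ C₁ * q := (h₁ _ ha.1).trans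
      (mul_le_mul_of_nonneg_left (Real.rpow_le_rpow (nf_nonneg _) h1 hε'.le) hC₁.le)
    refine le_trans (le_of_eq ?_) (pow_le_pow_left₀ (Nat.cast_nonneg _) h2 4)
    simp only [Finset.card_product]
    push_cast
    ring
  · rintro ⟨⟨⟨g, e, h⟩, d⟩, ⟨g₂, e₂, h₂'⟩, k⟩ hz
    obtain ⟨hi, hz⟩ := Finset.mem_sigma.1 hz
    obtain ⟨hi₂, hk⟩ := Finset.mem_sigma.1 hz
    dsimp only at hi hi₂ hk ⊢
    obtain ⟨⟨hT, hd⟩, -⟩ := mem_Fam.1 hi
    obtain ⟨⟨a1, a1'⟩, a2, ⟨a3, -⟩, g', rfl⟩ := backB_tri hT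
    obtain ⟨⟨b1, -⟩, b2, ⟨b3, b3'⟩, g₂', rfl⟩ := backB_tri hi₂
    dsimp only at hd
    obtain ⟨k1, k2⟩ := mem_nms.1 hk
    have a4 := a2.of_mul a1
    have b4 := b2.of_mul b1
    rw [backB_qt_mul a2.1, backB_qt_mul b2.1]
    have ha : Nm (k * e * h ^ 2 * e₂ * g₂' ^ 2) :=
      (((k1.mul a2).mul (a3.pow 2)).mul b2).mul (b4.pow 2)
    have n1 := one_le_nf a2.1
    have n2 := one_le_nf a3.1
    have n3 := one_le_nf a4.1
    have n4 := one_le_nf b2.1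
    have n5 := one_le_nf b3.1
    have n6 := one_le_nf b4.1
    have n7 := one_le_nf (mem_nms.1 hd).1.1
    have hg' : nf (g' : E) ≤ Q ^ 2 := (nf_le_of_dvd (dvd_mul_left _ _) a1.1).trans a1'
    refine ⟨?_, ?_, ?_⟩
    · refine Finset.mem_product.2 ⟨Finset.mem_sigma.2 ⟨hd, mem_nms.2 ⟨ha, ?_⟩⟩,
        Finset.mem_product.2 ⟨mem_nms.2 ⟨a4, hg'⟩, mem_nms.2 ⟨b3, b3'⟩⟩⟩
      simp only [Kd, DF, Subring.coe_mul, SubmonoidClass.coe_pow, nf_mul, nf_pow] at k2 ⊢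
      rw [mul_assoc, mul_assoc, mul_assoc]
      refine (mul_le_mul_of_nonneg_right k2 (by positivity)).trans ?_
      calc _ = κ ^ 2 * (A / nf (d : E) ^ 6) := by field_simp
        _ ≤ _ := mul_le_of_le_one_left (by positivity) (pow_le_one₀ hκ.le hκ1)
    · simp only [Finset.mem_product, mem_dvs ha.1]
      exact ⟨⟨a2, ⟨k * h ^ 2 * e₂ * g₂' ^ 2, by ring⟩⟩, ⟨a3, ⟨k * e * h * e₂ * g₂' ^ 2, by ring⟩⟩,
        ⟨b2, ⟨k * e * h ^ 2 * g₂' ^ 2, by ring⟩⟩, b4, ⟨k * e * h ^ 2 * e₂ * g₂', by ring⟩⟩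
    · have c1 := back_child hj τ hD hY hκ hκ1 hκ' hκ1' y hi hi₂ k
      have c2 : (4 : ℝ) ^ (pf (g' * h₂')).card ≤ C₂ * q ^ 4 := by
        refine (h₂ _ (mul_ne_zero a4.1 b3.1)).trans (mul_le_mul_of_nonneg_left ?_ hC₂.le)
        rw [← hqp]
        refine Real.rpow_le_rpow (nf_nonneg _) ?_ hε'.le
        rw [Subring.coe_mul, nf_mul, show Q ^ 4 = Q ^ 2 * Q ^ 2 by ring]
        exact mul_le_mul hg' b3' (by linarith) (by positivity)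
      have c3 := msup_nonneg j (k * e * h ^ 2 * e₂ * g₂' ^ 2) (min (D / nf (d : E) ^ 3) (D / Y)) y
      generalize msup j (k * e * h ^ 2 * e₂ * g₂' ^ 2) (min (D / nf (d : E) ^ 3) (D / Y)) y = m
        at c1 c3 ⊢
      generalize ‖Sc j _ _ k _ _‖ ^ 2 = s at c1 ⊢
      simp only [wF, Kd, DF, Subring.coe_mul, nf_mul] at c1 ⊢
      have c4 := c1.trans (mul_le_mul_of_nonneg_right (mul_le_mul_of_nonneg_right c2 c3)
        (by positivity))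
      refine (mul_le_mul_of_nonneg_left (mul_le_mul_of_nonneg_left c4 (by positivity))
        (by positivity)).trans ?_
      calc _ = C₂ * q ^ 4 * Λ * D * (nf (d : E) ^ 2 * m * ((nf (g' : E))⁻¹ * (nf (h₂' : E))⁻¹)) /
            (nf (e : E) * nf (e₂ : E)) := by field_simp
        _ ≤ _ := div_le_self (by positivity) (one_le_mul_of_one_le_of_one_le n1 n4)
  · rintro ⟨⟨⟨g, e, h⟩, d⟩, ⟨g₂, e₂, h₂'⟩, k⟩ hz ⟨⟨⟨G, e', h'⟩, d'⟩, ⟨G₂, e₂', H₂⟩, k'⟩ hz' e1 e2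
    obtain ⟨hi, hz⟩ := Finset.mem_sigma.1 hz
    obtain ⟨hi₂, -⟩ := Finset.mem_sigma.1 hz
    obtain ⟨hi', hz'⟩ := Finset.mem_sigma.1 hz'
    obtain ⟨hi₂', -⟩ := Finset.mem_sigma.1 hz'
    obtain ⟨-, ⟨a2, -⟩, ⟨⟨a3, -⟩, -⟩, g', rfl⟩ := backB_tri (mem_Fam.1 hi).1.1
    obtain ⟨⟨⟨b1, -⟩, -⟩, ⟨b2, -⟩, -, g₂', rfl⟩ := backB_tri hi₂
    obtain ⟨-, -, -, G', rfl⟩ := backB_tri (mem_Fam.1 hi').1.1
    obtain ⟨-, -, -, G₂', rfl⟩ := backB_tri hi₂'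
    dsimp only at e1 e2
    simp only [Prod.mk.injEq] at e2
    obtain ⟨rfl, rfl, rfl, e3⟩ := e2
    simp only [backB_qt_mul a2, backB_qt_mul b2, Prod.mk.injEq, Sigma.mk.injEq, heq_eq_eq] at e1 e3
    subst e3
    obtain ⟨⟨rfl, e4⟩, rfl, rfl⟩ := e1
    obtain rfl : k = k' := mul_right_cancel₀ a2 (mul_right_cancel₀ (pow_ne_zero 2 a3)
      (mul_right_cancel₀ b2 (mul_right_cancel₀ (pow_ne_zero 2 (right_ne_zero_of_mul b1)) e4)))
    rfl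
  · rw [← Finset.mul_sum, Finset.sum_product, Finset.sum_sigma]
    have c1 : ∑ z ∈ (nms (Q ^ 2) : Finset (R E)) ×ˢ (nms (Q ^ 2) : Finset (R E)),
        (nf (z.1 : E))⁻¹ * (nf (z.2 : E))⁻¹ ≤ (C₃ * q ^ 2) ^ 2 := by
      rw [Finset.sum_product]
      dsimp only
      rw [← Finset.sum_mul_sum, ← sq, ← hqp]
      exact pow_le_pow_left₀ (Finset.sum_nonneg fun _ _ => inv_nonneg.2 (nf_nonneg _))
        (h₃ _ (one_le_pow₀ hQ)) 2
    simp only [← Finset.mul_sum, ← Finset.sum_mul]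
    have c2 : 0 ≤ ∑ d ∈ (nms Q : Finset (R E)), nf (d : E) ^ 2 *
        ∑ a ∈ (nms (A / nf (d : E) ^ 6) : Finset (R E)),
          msup j a (min (D / nf (d : E) ^ 3) (D / Y)) y :=
      Finset.sum_nonneg fun d _ => mul_nonneg (sq_nonneg _)
        (Finset.sum_nonneg fun a _ => msup_nonneg _ _ _ _)
    refine (mul_le_mul_of_nonneg_left (mul_le_mul_of_nonneg_left
      (mul_le_mul_of_nonneg_left c1 c2) (by positivity)) (by positivity)).trans (le_of_eq ?_)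
    rw [hq12]
    ring

theorem T1Bc_term {C A B q u v N : ℝ} (hC : 0 ≤ C) (hA : 0 ≤ A) (hB : 0 ≤ B) (hq : 1 ≤ q)
    (hu : 1 ≤ u) (hv : 1 ≤ v) (hN : 1 ≤ N) :
    N ^ 2 * (C * (A / N ^ 6 + q * u * (B * v * (9 * A / N ^ 3)))) ≤
      C * 9 * q * (1 + B) * A * (v * u) * N⁻¹ := by
  have h1 : N ^ 2 * (A / N ^ 6) ≤ 9 * q * A * (v * u) * N⁻¹ := by
    have h2 : 1 ≤ q * (v * u) * N ^ 3 := one_le_mul_of_one_le_of_one_le
      (one_le_mul_of_one_le_of_one_le hq (one_le_mul_of_one_le_of_one_le hv hu)) (one_le_pow₀ hN)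
    field_simp
    nlinarith [mul_le_mul_of_nonneg_left h2 hA]
  calc _ = C * (N ^ 2 * (A / N ^ 6) + 9 * q * B * A * (v * u) * N⁻¹) := by field_simp
    _ ≤ C * (9 * q * A * (v * u) * N⁻¹ + 9 * q * B * A * (v * u) * N⁻¹) := by gcongr
    _ = _ := by ring

theorem T1Bc_sum {j : ℕ} (hj : 1 ≤ j) {ε : ℝ} (hε : 0 < ε) (J : ℕ) : ∃ C : ℝ, 0 < C ∧
    ∀ (Q A D Y B y : ℝ), 1 ≤ D → D ≤ A → A ≤ Q → 0 ≤ B → IH E j Q (8 * D / Y) B J →
      ∑ d ∈ (nms Q : Finset (R E)), nf (d : E) ^ 2 *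
        ∑ a ∈ (nms (A / nf (d : E) ^ 6) : Finset (R E)),
          msup j a (min (D / nf (d : E) ^ 3) (D / Y)) y ≤
        C * (Q ^ ε * Q ^ ε) * (1 + B) * A * (1 + |y|) ^ (J + 5) := by
  obtain ⟨C₁, hC₁, c1⟩ := sum_msup (E := E) hj hε
  obtain ⟨C₂, hC₂, c2⟩ := sum_inv_nf_le (E := E) hε
  refine ⟨C₁ * 9 * 4 ^ J * C₂, by positivity, fun Q A D Y B y hD hA hQ hB h => ?_⟩
  have hQ1 : 1 ≤ Q := by linarith
  have hA0 : 0 ≤ A := by linarith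
  have hy : 1 ≤ 1 + |y| := le_add_of_nonneg_right (abs_nonneg y)
  calc _ ≤ ∑ d ∈ (nms Q : Finset (R E)), C₁ * 9 * Q ^ ε * (1 + B) * A *
          ((4 * (1 + |y|)) ^ J * (1 + |y|) ^ 5) * (nf (d : E))⁻¹ := by
        refine Finset.sum_le_sum fun d hd => ?_
        have h1 := one_le_nf (mem_nms.1 hd).1.1
        have h2 : 1 ≤ nf (d : E) ^ 3 := one_le_pow₀ h1
        refine le_trans (mul_le_mul_of_nonneg_left (c1 Q _ _ (B * (4 * (1 + |y|)) ^ J *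
          (9 * A / nf (d : E) ^ 3)) y (by positivity) hQ1 ((min_le_left _ _).trans
            ((div_le_self (by linarith) h2).trans (hA.trans hQ))) (by positivity)
          fun τ D' y' h3 h4 h5 => ?_) (by positivity)) (T1Bc_term hC₁.le hA0 hB
            (Real.one_le_rpow hQ1 hε.le) (one_le_pow₀ hy) (one_le_pow₀ (by linarith)) h1)
        have h6 : A / nf (d : E) ^ 6 ≤ A / nf (d : E) ^ 3 :=
          div_le_div_of_nonneg_left hA0 (by positivity) (pow_le_pow_right₀ h1 (by norm_num))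
        have h7 : D / nf (d : E) ^ 3 ≤ A / nf (d : E) ^ 3 := by gcongr
        refine (h τ _ D' y' (by positivity) (h6.trans ((div_le_self hA0 h2).trans hQ)) h3
          (by rw [mul_div_assoc]; linarith [min_le_right (D / nf (d : E) ^ 3) (D / Y)])).trans ?_
        rw [← mul_assoc]
        gcongr
        · linarith [abs_nonneg y]
        · rw [mul_div_assoc]
          linarith [min_le_left (D / nf (d : E) ^ 3) (D / Y)]
    _ ≤ C₁ * 9 * Q ^ ε * (1 + B) * A * ((4 * (1 + |y|)) ^ J * (1 + |y|) ^ 5) * (C₂ * Q ^ ε) := by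
        rw [← Finset.mul_sum]
        exact mul_le_mul_of_nonneg_left (c2 Q hQ1) (by positivity)
    _ = _ := by
        rw [mul_pow]
        ring

/-- `P1W` for the family `Fam` (`Sc_twist`, `Lev.invR_muGam`), `back_diag`, `back_off`, `sum_msup` with
`F = 4^J B (1 + |y|)^J · 9 A / N d³`, `sum_inv_nf_le`. -/
theorem back_le {j : ℕ} (hj : Lev E j) {ε : ℝ} (hε : 0 < ε) (hε1 : ε ≤ 1) (J : ℕ) :
    ∃ C : ℝ, 0 < C ∧ ∀ (τ : E) (Q A D Y B κ y : ℝ), 1 ≤ D → D ≤ A → A ≤ Q → 1 ≤ Y → 0 ≤ B →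
      1 / 2 ≤ κ → κ ≤ 1 → IH E j Q (8 * D / Y) B J →
      BK j τ Q A D Y (Q ^ ε) κ y ≤ C * Q ^ (3 * ε) * (1 + B) * (1 + |y|) ^ (J + 5) * (A * D) := by
  obtain ⟨C₁, hC₁, c1⟩ := P1W hj hε hε1 (J + 5)
  obtain ⟨C₂, hC₂, c2⟩ := back_diag (E := E) (ε := ε / 3) (by positivity)
  obtain ⟨C₃, hC₃, c3⟩ := back_off hj (ε := ε / 3) (by positivity)
  obtain ⟨C₄, hC₄, c4⟩ := T1Bc_sum (E := E) hj.1 (ε := ε / 3) (by positivity) J
  refine ⟨C₁ * (C₂ + C₃ * C₄), by positivity, fun τ Q A D Y B κ y hD hA hQ hY hB hκ hκ1 h => ?_⟩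
  have hQ1 : 1 ≤ Q := by linarith
  have hA0 : 0 < A := by linarith
  have hD0 : 0 < D := by linarith
  have hκ0 : 0 < κ := by linarith
  obtain ⟨q, hq⟩ : ∃ q, Q ^ (ε / 3) = q := ⟨_, rfl⟩
  have hq1 : 1 ≤ q := hq ▸ Real.one_le_rpow hQ1 (by positivity)
  have hq3 : Q ^ ε = q ^ 3 := by
    rw [← hq, ← Real.rpow_natCast, ← Real.rpow_mul (by positivity)]
    norm_num
  have hq9 : Q ^ (3 * ε) = q ^ 9 := by
    rw [mul_comm, Real.rpow_mul (by positivity), hq3, Real.rpow_ofNat, ← pow_mul]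
  have h1 := c1 (Fam E Q Y) (wF A D) (tFm τ)
    (fun i n => mu n * conj (gam 5 n) * conj (sym n (tw i.1))) (fun i => Kd (Q ^ ε) A D i.1)
    (DF κ D) Q (C₃ * q * Q ^ ε * D * (C₄ * (q * q) * (1 + B) * A)) y hQ1 (by positivity)
    (fun i hi => ?_) fun κ' y' h1 h2 => ?_
  · simp only [Sc_twist] at h1
    refine h1.trans ?_
    have h2 := c2 Q A D Y (Q ^ ε) κ hQ1 hA0 hD0 (by positivity) hκ0.le hκ1
    rw [hq, hq3] at h2
    rw [hq3, hq9]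
    have h3 : 1 ≤ (1 + |y|) ^ (J + 5) := one_le_pow₀ (le_add_of_nonneg_right (abs_nonneg y))
    generalize (1 + |y|) ^ (J + 5) = u at h3
    have h4 : C₂ * q * q ^ 3 * D ^ 2 ≤ C₂ * q ^ 6 * (1 + B) * u * (A * D) := by
      calc _ = C₂ * q ^ 4 * 1 * 1 * (D * D) := by ring
        _ ≤ _ := by
          gcongr
          · norm_num
          · linarith
    calc _ ≤ C₁ * q ^ 3 * (C₂ * q ^ 6 * (1 + B) * u * (A * D) +
          C₃ * q * q ^ 3 * D * (C₄ * (q * q) * (1 + B) * A) * u) := by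
          gcongr
          exact h2.trans h4
      _ = _ := by ring
  · obtain ⟨⟨h1, h2⟩, -⟩ := mem_Fam.1 hi
    obtain ⟨⟨h3, h4, h5⟩, -⟩ := mem_Tri.1 h1
    have g1 := one_le_nf (mem_sqs.1 h3).1.1
    have g2 := one_le_nf (mem_sqs.1 h4).1.1
    have g3 := one_le_nf (mem_sqs.1 h5).1.1
    have g4 := one_le_nf (mem_nms.1 h2).1.1
    refine ⟨by rw [wF]; positivity, hj.invR_muGam _, fun n hn => ?_, by rw [Kd]; positivity,
      by rw [DF]; positivity, ?_⟩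
    · rw [norm_mul, norm_mul, Complex.norm_conj, Complex.norm_conj, norm_gam (by norm_num) hn,
        mul_one]
      exact mul_le_one₀ (norm_mu_le n) (norm_nonneg _) (norm_sym_le _ _)
    · refine (div_le_self (by positivity) (one_le_pow₀ g4)).trans ((div_le_self (by positivity)
        (one_le_mul_of_one_le_of_one_le g1 g3)).trans ?_)
      nlinarith
  · refine (c3 τ Q A D Y (Q ^ ε) κ κ' y' hQ1 hA0 hQ hD0 (by linarith) (by positivity) hκ0 hκ1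
      (by linarith) h2).trans ?_
    rw [hq, mul_assoc _ (C₄ * _ * _ * _), ← hq]
    exact mul_le_mul_of_nonneg_left (c4 Q A D Y B y' hD hA hQ hB h) (by positivity)

end Crest.Agent.R312
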