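import Crest.Agent.R312.T1Cube
import Crest.Agent.R312.T1Back

/-!
# Row 312, module T1: the second moment of the Möbius sums
-/

set_option autoImplicit false

noncomputable section

namespace Crest.Agent.R312

open NumberField
open scoped ComplexConjugate
open Crest.Agent.R17 (Wc Wm)

variable {E : Type} [Field E] [NumberField E] [Fr E]

/-- One level of the induction.  Replace `A` by `max A D`; `D ≤ 1` is trivial (`IH_triv`);
`P1W` (one index, `c = mu`, `Mob_eq_Sc`), `OD_mu_le`, `back_le`. -/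
theorem T1_step {j : ℕ} (hj : Lev E j) {ε₀ : ℝ} (hε₀ : 0 < ε₀) : ∃ J₀ : ℕ, ∀ ε : ℝ, 0 < ε → ε ≤ 1 →
    ∀ J : ℕ, J₀ ≤ J → ∃ C : ℝ, 0 < C ∧ ∀ Q Y D₀ B : ℝ, 1 ≤ Y → Y ≤ Q → D₀ ≤ Q → 0 ≤ B →
      IH E j Q (8 * D₀ / Y) B J →
      IH E j Q D₀ (C * Q ^ (5 * ε) * (Q ^ ε₀ * Y ^ J₀ + B)) (J + 5) := by
  obtain ⟨J₀, h₀⟩ := OD_mu_le hj hε₀
  refine ⟨J₀, fun ε hε hε1 J hJ => ?_⟩
  obtain ⟨C₁, hC₁, h₁⟩ := h₀ ε hε
  obtain ⟨C₂, hC₂, h₂⟩ := back_le hj hε hε1 J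
  obtain ⟨C₃, hC₃, h₃⟩ := P1W hj hε hε1 (J + 5)
  obtain ⟨C₄, hC₄, h₄⟩ := IH_triv (E := E) hj.one_le
  refine ⟨C₄ + C₃ * (1 + C₁ * (1 + 2 * C₂)), by positivity,
    fun Q Y D₀ B hY hYQ hD₀ hB ih τ A D y hA hAQ hD hDD => ?_⟩
  have hQ : 1 ≤ Q := hY.trans hYQ
  obtain ⟨x, hx⟩ : ∃ x, x = Q ^ ε := ⟨_, rfl⟩
  have hx1 : 1 ≤ x := hx ▸ Real.one_le_rpow hQ hε.le
  have hp : ∀ n : ℕ, Q ^ ((n : ℝ) * ε) = x ^ n := fun n => by
    rw [hx, mul_comm, Real.rpow_mul_natCast (by linarith)]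
  have e5 : Q ^ (5 * ε) = x ^ 5 := by exact_mod_cast hp 5
  have e3 : Q ^ (3 * ε) = x ^ 3 := by exact_mod_cast hp 3
  have hxQ : x ≤ Q := hx ▸ (Real.rpow_le_rpow_of_exponent_le hQ hε1).trans_eq (Real.rpow_one Q)
  obtain ⟨W, hW⟩ : ∃ W, W = Q ^ ε₀ * Y ^ J₀ := ⟨_, rfl⟩
  have hW1 : 1 ≤ W := hW ▸ one_le_mul_of_one_le_of_one_le (Real.one_le_rpow hQ hε₀.le)
    (one_le_pow₀ hY)
  have hy : ∀ y : ℝ, 1 ≤ 1 + |y| := fun y => le_add_of_nonneg_right (abs_nonneg y)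
  have hy5 : 1 ≤ (1 + |y|) ^ (J + 5) := one_le_pow₀ (hy y)
  have hx5 : 1 ≤ x ^ 5 := one_le_pow₀ hx1
  have hWB : 1 ≤ W + B := by linarith
  rw [e5, ← hW]
  rcases le_total D 1 with hD1 | hD1
  · refine (h₄ Q 1 τ A D y hA hAQ hD hD1).trans ?_
    rw [pow_zero]
    refine mul_le_mul_of_nonneg_right (mul_le_mul ?_ hy5 zero_le_one (by positivity))
      (by positivity)
    rw [mul_assoc]
    exact mul_le_mul (le_add_of_nonneg_right (by positivity))
      (one_le_mul_of_one_le_of_one_le hx5 hWB) zero_le_one (by positivity)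
  set A' := max A D with hA'
  have a1 : D ≤ A' := le_max_right _ _
  have a2 : A' ≤ Q := max_le hAQ (hDD.trans hD₀)
  have a3 : A' ≤ A + D := max_le (by linarith) (by linarith)
  have a0 : 0 < A' := hD.trans_le a1
  have ih' : IH E j Q (8 * D / Y) B J := ih.mono (by gcongr) le_rfl hB le_rfl
  have key := h₃ (Finset.univ : Finset Unit) (fun _ => 1) (fun _ => τ) (fun _ => mu) (fun _ => A')
    (fun _ => D) Q (C₁ * (1 + 2 * C₂) * x ^ 4 * (W + B) * (A' * D)) y hQ (by positivity)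
    (fun _ _ => ⟨zero_le_one, invR_mu j hj.one_le, fun n _ => norm_mu_le n, a0, hD,
      hDD.trans hD₀⟩) fun κ y' hκ hκ1 => by
      have b1 := h₁ τ Q A' D Y (Q ^ ε) κ y' hD1 a1 a2 hY hYQ (hx ▸ hx1) (hx ▸ hxQ) hκ hκ1
      have b2 := h₂ τ Q A' D Y B κ y' hD1 a1 a2 hY hB hκ hκ1 ih'
      have b3 : (1 + |y'|) ^ J₀ ≤ (1 + |y'|) ^ (J + 5) := pow_le_pow_right₀ (hy y') (by omega)
      have b4 : x ^ 2 ≤ x ^ 4 := pow_le_pow_right₀ hx1 (by norm_num)
      have b5 := hy y'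
      rw [Finset.univ_unique, Finset.sum_singleton, one_mul]
      refine b1.trans ?_
      rw [e3] at b2
      rw [← hx] at b2 ⊢
      calc _ = C₁ * (x ^ 2 * W * (1 + |y'|) ^ J₀ * (A' * D) + x * BK j τ Q A' D Y x κ y') := by
            rw [hW]; ring
        _ ≤ C₁ * (x ^ 4 * (W + B) * (1 + |y'|) ^ (J + 5) * (A' * D) +
              x * (C₂ * x ^ 3 * (2 * (W + B)) * (1 + |y'|) ^ (J + 5) * (A' * D))) := by
            gcongr
            · linarith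
            · exact b2.trans (by gcongr; linarith)
        _ = _ := by ring
  simp only [Finset.univ_unique, Finset.sum_singleton, one_mul, ← Mob_eq_Sc, ← hx] at key
  refine (Finset.sum_le_sum_of_subset_of_nonneg (nms_mono (le_max_left A D))
    fun _ _ _ => sq_nonneg _).trans (key.trans ?_)
  have c1 : 1 ≤ x ^ 4 * (W + B) * (1 + |y|) ^ (J + 5) :=
    one_le_mul_of_one_le_of_one_le (one_le_mul_of_one_le_of_one_le (one_le_pow₀ hx1) hWB) hy5
  calc _ ≤ C₃ * x * (x ^ 4 * (W + B) * (1 + |y|) ^ (J + 5) * (A' * D) +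
        C₁ * (1 + 2 * C₂) * x ^ 4 * (W + B) * (A' * D) * (1 + |y|) ^ (J + 5)) := by
        exact mul_le_mul_of_nonneg_left
          (add_le_add_left (le_mul_of_one_le_left (by positivity) c1) _) (by positivity)
    _ = C₃ * (1 + C₁ * (1 + 2 * C₂)) * x ^ 5 * (W + B) * (1 + |y|) ^ (J + 5) * (A' * D) := by ring
    _ ≤ _ := by gcongr; linarith

/-- **Second moment.**  `ε₀ = θ / 3`, `N ≥ 2` with `J₀ / N ≤ θ / 3`, `5 ε N ≤ θ / 3`,
`Y = 8 Q^{1/N}` (`≤ Q` for `Q ≥ 64`; `IH_triv` for `Q < 64`); induction on `n ≤ N` with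
`D₀ = Q^{n/N}`, bound `C_n Q^{5 ε n + 2 θ / 3}`, exponent `J₀ + 5 n`. -/
theorem T1 {j : ℕ} (hj : Lev E j) {θ : ℝ} (hθ : 0 < θ) : ∃ (C : ℝ) (J : ℕ), 0 < C ∧
    ∀ Q : ℝ, 1 ≤ Q → IH E j Q Q (C * Q ^ θ) J := by
  obtain ⟨J₀, h₀⟩ := T1_step hj (ε₀ := θ / 3) (by positivity)
  obtain ⟨C₄, hC₄, h₄⟩ := IH_triv (E := E) hj.one_le
  obtain ⟨N, hN⟩ := exists_nat_ge (max 2 (3 * J₀ / θ))
  have hN2 : (2 : ℝ) ≤ N := (le_max_left _ _).trans hN
  have hN3 : (J₀ : ℝ) / N ≤ θ / 3 := by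
    have := (le_max_right _ _).trans hN
    rw [div_le_iff₀ hθ] at this
    rw [div_le_iff₀ (by linarith)]
    linarith
  set ε := min 1 (θ / (15 * N)) with hε
  have hε0 : 0 < ε := lt_min one_pos (by positivity)
  have hε2 : 5 * ε * N ≤ θ / 3 := by
    have : ε ≤ θ / (15 * N) := min_le_right _ _
    rw [le_div_iff₀ (by positivity)] at this
    linarith
  have key : ∀ n : ℕ, n ≤ N → ∃ C : ℝ, 0 < C ∧ ∀ Q : ℝ, 64 ≤ Q →
      IH E j Q (Q ^ ((n : ℝ) / N)) (C * Q ^ (5 * ε * n + 2 * θ / 3)) (J₀ + 5 * n) := by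
    intro n
    induction n with
    | zero =>
      refine fun _ => ⟨C₄, hC₄, fun Q hQ => (h₄ Q 1).mono (by simp) ?_ (by positivity) (by omega)⟩
      gcongr
      exact Real.one_le_rpow (by linarith) (by positivity)
    | succ n ih =>
      intro hn
      obtain ⟨C, hC, ih⟩ := ih (by omega)
      obtain ⟨C', hC', h₁⟩ := h₀ ε hε0 (min_le_left _ _) (J₀ + 5 * n) (by omega)
      refine ⟨C' * (8 ^ J₀ + C), by positivity, fun Q hQ => ?_⟩
      have hQ1 : 1 ≤ Q := by linarith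
      have hQ0 : 0 < Q := by linarith
      have a1 : 1 ≤ Q ^ ((1 : ℝ) / N) := Real.one_le_rpow hQ1 (by positivity)
      have a2 : 8 * Q ^ ((1 : ℝ) / N) ≤ Q := by
        have b1 : Q ^ ((1 : ℝ) / N) ≤ Real.sqrt Q := by
          rw [Real.sqrt_eq_rpow]
          exact Real.rpow_le_rpow_of_exponent_le hQ1 (by gcongr)
        have b2 : 8 ≤ Real.sqrt Q := Real.le_sqrt_of_sq_le (by linarith)
        nlinarith [Real.mul_self_sqrt hQ0.le]
      have a3 : Q ^ (((n + 1 : ℕ) : ℝ) / N) ≤ Q := by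
        refine (Real.rpow_le_rpow_of_exponent_le hQ1 ?_).trans_eq (Real.rpow_one Q)
        rw [div_le_one (by linarith)]
        exact_mod_cast hn
      have a4 : 8 * Q ^ (((n + 1 : ℕ) : ℝ) / N) / (8 * Q ^ ((1 : ℝ) / N)) = Q ^ ((n : ℝ) / N) := by
        rw [mul_div_mul_left _ _ (by norm_num), ← Real.rpow_sub hQ0]
        congr 1
        push_cast
        ring
      refine (h₁ Q _ _ _ (by linarith) a2 a3 (by positivity) (a4 ▸ ih Q hQ)).mono le_rfl ?_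
        (by positivity) (by omega)
      have a5 : Q ^ (θ / 3) * (8 * Q ^ ((1 : ℝ) / N)) ^ J₀ ≤
          8 ^ J₀ * Q ^ (5 * ε * n + 2 * θ / 3) := by
        rw [mul_pow, mul_left_comm, ← Real.rpow_mul_natCast hQ0.le, ← Real.rpow_add hQ0]
        refine mul_le_mul_of_nonneg_left (Real.rpow_le_rpow_of_exponent_le hQ1 ?_) (by positivity)
        have : 0 ≤ 5 * ε * n := by positivity
        rw [one_div_mul_eq_div]
        linarith
      calc _ ≤ C' * Q ^ (5 * ε) * (8 ^ J₀ * Q ^ (5 * ε * n + 2 * θ / 3) +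
            C * Q ^ (5 * ε * n + 2 * θ / 3)) := by gcongr
        _ = C' * (8 ^ J₀ + C) * (Q ^ (5 * ε) * Q ^ (5 * ε * n + 2 * θ / 3)) := by ring
        _ = _ := by
            rw [← Real.rpow_add hQ0]
            congr 2
            push_cast
            ring
  obtain ⟨C, hC, h⟩ := key N le_rfl
  refine ⟨C + C₄ * 64, J₀ + 5 * N, by positivity, fun Q hQ => ?_⟩
  have hq : 1 ≤ Q ^ θ := Real.one_le_rpow hQ hθ.le
  rcases le_total 64 Q with h1 | h1
  · refine (h Q h1).mono (by rw [div_self (by linarith), Real.rpow_one]) ?_ (by positivity) le_rfl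
    refine mul_le_mul (le_add_of_nonneg_right (by positivity))
      (Real.rpow_le_rpow_of_exponent_le hQ (by linarith)) (by positivity) (by positivity)
  · refine (h₄ Q Q).mono le_rfl ?_ (by positivity) (by omega)
    calc C₄ * Q ≤ (C + C₄ * 64) * 1 := by nlinarith
      _ ≤ _ := by gcongr

end Crest.Agent.R312
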