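import Crest.Agent.R312.DPDefs
import Crest.Agent.R312.Energy

/-!
# Row 312, module T1: auxiliary lemmas for `small_le`
-/

set_option autoImplicit false

noncomputable section

namespace Crest.Agent.R312

open NumberField
open scoped ComplexConjugate

variable {E : Type} [Field E] [NumberField E] [Fr E]

theorem T1B1_card_sqs : ∃ c : ℝ, 0 < c ∧ ∀ Y : ℝ, 0 ≤ Y →
    ((sqs Y : Finset (R E)).card : ℝ) ≤ c * Y := by
  obtain ⟨c, hc, h⟩ := card_nms_le (E := E)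
  exact ⟨c, hc, fun Y hY => (Nat.cast_le.2 (Finset.card_le_card (sqs_subset Y))).trans (h Y hY)⟩

theorem T1B1_nf_tw (i : R E × R E × R E) :
    nf (tw i : E) = (nf (i.2.1 : E) * nf (i.2.2 : E) ^ 2) ^ 5 * nf (i.1 : E) ^ 6 := by
  unfold tw
  push_cast
  simp only [nf_mul, nf_pow]

/-- Cauchy's inequality for the sum over `e`. -/
theorem T1B1_cauchy {α β : Type} (S : Finset α) (T : Finset β) (N : β → ℝ) (f : α → β → ℝ)
    {Y B M : ℝ} (hN : ∀ e ∈ T, 0 ≤ N e ∧ N e ≤ Y) (hY : 0 ≤ Y) (hB : 0 ≤ B) (hM : (T.card : ℝ) ≤ M)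
    (h : ∀ e ∈ T, ∑ k ∈ S, f k e ^ 2 ≤ B) :
    ∑ k ∈ S, (∑ e ∈ T, Real.sqrt (N e) * f k e) ^ 2 ≤ M ^ 2 * Y * B := by
  have h0 : (0 : ℝ) ≤ T.card := Nat.cast_nonneg _
  calc ∑ k ∈ S, (∑ e ∈ T, Real.sqrt (N e) * f k e) ^ 2
      ≤ ∑ k ∈ S, T.card * ∑ e ∈ T, Y * f k e ^ 2 := by
        refine Finset.sum_le_sum fun k _ => sq_sum_le_card_mul_sum_sq.trans ?_
        refine mul_le_mul_of_nonneg_left (Finset.sum_le_sum fun e he => ?_) h0
        rw [mul_pow, Real.sq_sqrt (hN e he).1]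
        exact mul_le_mul_of_nonneg_right (hN e he).2 (sq_nonneg _)
    _ = T.card * ∑ e ∈ T, Y * ∑ k ∈ S, f k e ^ 2 := by
        rw [← Finset.mul_sum, Finset.sum_comm]
        simp only [Finset.mul_sum]
    _ ≤ T.card * ∑ _e ∈ T, Y * B :=
        mul_le_mul_of_nonneg_left
          (Finset.sum_le_sum fun e he => mul_le_mul_of_nonneg_left (h e he) hY) h0
    _ = (T.card : ℝ) ^ 2 * Y * B := by rw [Finset.sum_const, nsmul_eq_mul]; ring
    _ ≤ M ^ 2 * Y * B := by gcongr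

/-- One triple. -/
theorem T1B1_one {j : ℕ} (hj : Lev E j) {ε : ℝ} (hε : 0 < ε) : ∃ (C : ℝ) (J : ℕ), 0 < C ∧
    ∀ (τ : R E → E) (Q A D Y Λ κ y : ℝ) (i : R E × R E × R E), 1 ≤ D → D ≤ A → A ≤ Q → 1 ≤ Y →
      Y ≤ Q → 1 ≤ Λ → Λ ≤ Q → 1 / 2 ≤ κ → κ ≤ 1 → i.1 ≠ 0 → i.2.2 ≠ 0 → i.2.1 ∣ i.1 →
      nf (i.1 : E) * nf (i.2.2 : E) ≤ Y →
      A * nf (i.1 : E) / (nf (i.2.1 : E) * D) * ∑ k ∈ nms (Kd Λ A D i),
          (∑ e ∈ (sqs Y : Finset (R E)), Real.sqrt (nf (e : E)) *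
            ‖Tc j (τ e) (k * tw i)
              (κ * D / (nf (i.1 : E) * nf (i.2.2 : E)) / nf (e : E) ^ 3) (y * Complex.I)‖) ^ 2 ≤
        C * Q ^ ε * Λ ^ 2 * Y ^ (21 * J + 3) * (1 + |y|) ^ J * (A * D) := by
  obtain ⟨C, J, hC, hen⟩ := energy hj (ε := ε / 21) (by positivity)
  obtain ⟨c, hc, hcard⟩ := T1B1_card_sqs (E := E)
  refine ⟨2 * c ^ 2 * C * 2 ^ (ε / 21), J, by positivity, ?_⟩
  intro τ Q A D Y Λ κ y i hD hDA hAQ hY hYQ hΛ hΛQ hκ hκ' hg hh he hgh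
  have he0 : i.2.1 ≠ 0 := ne_zero_of_dvd_ne_zero hg he
  have hG := one_le_nf hg
  have hH := one_le_nf hh
  have hE := one_le_nf he0
  have hEG := nf_le_of_dvd he hg
  have htw := T1B1_nf_tw i
  have htw0 : tw i ≠ 0 := mul_ne_zero (pow_ne_zero _ (mul_ne_zero he0 (pow_ne_zero _ hh)))
    (pow_ne_zero _ hg)
  have hKd : Kd Λ A D i = Λ * nf (i.2.1 : E) * (D / nf (i.1 : E)) ^ 2 / A := rfl
  generalize Kd Λ A D i = K at hKd ⊢
  generalize nf (i.1 : E) = G at *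
  generalize nf (i.2.1 : E) = E₁ at *
  generalize nf (i.2.2 : E) = H at *
  have hQ : 1 ≤ Q := hY.trans hYQ
  have hA : 1 ≤ A := hD.trans hDA
  have hGY : G ≤ Y := by nlinarith
  have hHY : H ≤ Y := by nlinarith
  have hy : 0 ≤ 1 + |y| := by positivity
  by_cases hK : K < 1
  · rw [nms_eq_empty hK, Finset.sum_empty, mul_zero]
    positivity
  have hK1 : 1 ≤ K := not_lt.1 hK
  have hw : A * G / (E₁ * D) * K = Λ * D / G := by rw [hKd]; field_simp
  have hKle : K ≤ Λ * D := by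
    have e : K = Λ * D * ((E₁ / G) * (1 / G) * (D / A)) := by rw [hKd]; field_simp
    rw [e]
    refine mul_le_of_le_one_right (by positivity) ?_
    have h1 : E₁ / G ≤ 1 := div_le_one_of_le₀ hEG (by positivity)
    have h2 : 1 / G ≤ 1 := div_le_one_of_le₀ hG (by positivity)
    have h3 : D / A ≤ 1 := div_le_one_of_le₀ hDA (by positivity)
    exact mul_le_one₀ (mul_le_one₀ h1 (by positivity) h2) (by positivity) h3
  have htwY : nf (tw i : E) ≤ Y ^ 21 := by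
    rw [htw]
    calc (E₁ * H ^ 2) ^ 5 * G ^ 6 ≤ (Y * Y ^ 2) ^ 5 * Y ^ 6 := by
          gcongr
          exact hEG.trans hGY
      _ = Y ^ 21 := by ring
  have hpow : ∀ n ≤ 21, Q ^ n ≤ Q ^ 21 := fun n hn => pow_le_pow_right₀ hQ hn
  have hQ21 : 0 ≤ Q ^ 21 := by positivity
  have hQε : (2 * Q ^ 21) ^ (ε / 21) = 2 ^ (ε / 21) * Q ^ ε := by
    rw [Real.mul_rpow (by norm_num) hQ21, ← Real.rpow_natCast, ← Real.rpow_mul (by positivity)]
    congr 2
    push_cast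
    ring
  have key := T1B1_cauchy (nms K) (sqs Y) (fun e : R E => nf (e : E))
    (fun k e => ‖Tc j (τ e) (k * tw i) (κ * D / (G * H) / nf (e : E) ^ 3) (y * Complex.I)‖)
    (Y := Y) (B := C * (2 ^ (ε / 21) * Q ^ ε) * (Y ^ 21) ^ J * (1 + |y|) ^ J * (K * (2 * Λ * D)))
    (M := c * Y) (fun e he => ⟨nf_nonneg _, (mem_sqs.1 he).2.2⟩) (by positivity) (by positivity)
    (hcard Y (by positivity)) fun e he => by
      have h1 := one_le_nf (mem_sqs.1 he).1.ne_zero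
      have h2 := (mem_sqs.1 he).2.2
      generalize nf (e : E) = N at h1 h2 ⊢
      have hX0 : 0 < κ * D / (G * H) / N ^ 3 := by positivity
      have hXD : κ * D / (G * H) / N ^ 3 ≤ D := by
        refine (div_le_self (by positivity) (one_le_pow₀ h1)).trans
          ((div_le_self (by positivity) (by nlinarith)).trans ?_)
        nlinarith
      have hXi : (κ * D / (G * H) / N ^ 3)⁻¹ ≤ 2 * Q ^ 21 := by
        rw [inv_div, div_div_eq_mul_div, div_le_iff₀ (by positivity)]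
        calc N ^ 3 * (G * H) ≤ Q ^ 3 * Q := by
              gcongr
              exacts [h2.trans hYQ, hgh.trans hYQ]
          _ = Q ^ 4 * 1 := by ring
          _ ≤ Q ^ 21 * (2 * (κ * D)) := by
              gcongr ?_ * ?_
              · exact hpow 4 (by norm_num)
              · nlinarith
          _ = _ := by ring
      have hKQ : K ≤ 2 * Q ^ 21 := by
        have h3 : Λ * D ≤ Q ^ 2 := by
          rw [sq]; gcongr; exact hDA.trans hAQ
        linarith [hpow 2 (by norm_num)]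
      have hXQ : κ * D / (G * H) / N ^ 3 ≤ 2 * Q ^ 21 := by
        have := hpow 1 (by norm_num)
        rw [pow_one] at this
        linarith
      have h4 := hen (2 * Q ^ 21) K _ (τ e) (tw i) (y * Complex.I) hK1 hKQ hX0 hXQ hXi htw0
        (htwY.trans ((pow_le_pow_left₀ (by positivity) hYQ 21).trans (by linarith))) (by simp)
      rw [hQε] at h4
      refine h4.trans ?_
      generalize κ * D / (G * H) / N ^ 3 = X at hX0 hXD ⊢
      have h5 : X * (K + K ^ 2 / X) ≤ K * (2 * Λ * D) := by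
        have e : X * (K + K ^ 2 / X) = K * (X + K) := by field_simp
        rw [e]
        gcongr
        nlinarith
      have h6 : (y * Complex.I : ℂ).im = y := by simp
      rw [h6]
      have := nf_nonneg (tw i : E)
      gcongr
  refine (mul_le_mul_of_nonneg_left key (by positivity)).trans ?_
  have h7 : Λ * D / G ≤ Λ * A := (div_le_self (by positivity) hG).trans (by gcongr)
  calc _ = (c * Y) ^ 2 * Y * (C * (2 ^ (ε / 21) * Q ^ ε) * (Y ^ 21) ^ J * (1 + |y|) ^ J) *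
          (2 * Λ * D) * (A * G / (E₁ * D) * K) := by ring
    _ ≤ (c * Y) ^ 2 * Y * (C * (2 ^ (ε / 21) * Q ^ ε) * (Y ^ 21) ^ J * (1 + |y|) ^ J) *
          (2 * Λ * D) * (Λ * A) := by rw [hw]; gcongr
    _ = _ := by rw [pow_add, pow_mul]; ring

open Classical in
theorem T1B1_card_tri : ∃ c : ℝ, 0 < c ∧ ∀ Q Y : ℝ, 0 ≤ Y →
    ((((Tri Q).filter
      (fun i : R E × R E × R E => nf (i.1 : E) * nf (i.2.2 : E) ≤ Y)).card : ℕ) : ℝ) ≤ c * Y ^ 3 := by
  obtain ⟨c, hc, hcard⟩ := T1B1_card_sqs (E := E)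
  refine ⟨c ^ 3, by positivity, fun Q Y hY => ?_⟩
  have hsub : (Tri Q).filter (fun i : R E × R E × R E => nf (i.1 : E) * nf (i.2.2 : E) ≤ Y) ⊆
      sqs Y ×ˢ sqs Y ×ˢ sqs Y := fun i hi => by
    obtain ⟨h1, h2⟩ := Finset.mem_filter.1 hi
    obtain ⟨⟨a1, a2, a3⟩, a4, -⟩ := mem_Tri.1 h1
    rw [mem_sqs] at a1 a2 a3
    have hG := one_le_nf a1.1.ne_zero
    have hH := one_le_nf a3.1.ne_zero
    have hEG := nf_le_of_dvd a4 a1.1.ne_zero
    have hGY : nf (i.1 : E) ≤ Y := by nlinarith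
    have hHY : nf (i.2.2 : E) ≤ Y := by nlinarith
    simp only [Finset.mem_product, mem_sqs]
    exact ⟨⟨a1.1, a1.2.1, hGY⟩, ⟨a2.1, a2.2.1, hEG.trans hGY⟩, a3.1, a3.2.1, hHY⟩
  refine (Nat.cast_le.2 (Finset.card_le_card hsub)).trans ?_
  rw [Finset.card_product, Finset.card_product]
  push_cast
  have := hcard Y hY
  calc _ ≤ c * Y * (c * Y * (c * Y)) := by gcongr
    _ = _ := by ring

end Crest.Agent.R312
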