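import Crest.Agent.R312.DPDefs
import Crest.Agent.R312.Energy
import Crest.Agent.R312.T1CubeAuxB1

/-!
# Row 312, module T1: completion of the cubes and the terms which are estimated by `energy`
-/

set_option autoImplicit false

noncomputable section

namespace Crest.Agent.R312

open NumberField
open scoped ComplexConjugate
open Crest.Agent.R17 (Wc Wm)

variable {E : Type} [Field E] [NumberField E] [Fr E]

open Classical in
/-- The theta sum over the squarefree elements. -/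
def Tsf (j : ℕ) (τ : E) (k : R E) (X : ℝ) (s : ℂ) : ℂ :=
  ∑' n : R E, if Cls j τ n ∧ Squarefree n then th n * sym n k * Wc (nf (n : E) / X) s else 0

open Classical in
/-- Truncated Möbius sum over the divisors. -/
def lamY (Y : ℝ) (d : R E) : ℂ := ∑ e ∈ (dvs d).filter (fun e : R E => nf (e : E) ≤ Y), mu e

/-- For `c = n d³` (`n` squarefree, `d` normalised): the part `d`. -/
def cu (c : R E) : R E := ∏ p ∈ pf c, p ^ (vp p c / 3)

/-! ## part A: the cube completion -/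

/-- `mu_gam5`, `conj_Wc`. -/
theorem norm_Gs_eq {j : ℕ} (hj : Lev E j) (τ : E) (k : R E) (X y : ℝ) :
    ‖Gs j τ k X (y * Complex.I)‖ = ‖Tsf j τ k X ((-y : ℝ) * Complex.I)‖ := by
  obtain ⟨κ, h1, h2⟩ := mu_gam5 hj τ
  rw [← Complex.norm_conj, ← one_mul ‖Tsf _ _ _ _ _‖, ← h1, ← norm_mul, Gs, Sc, Tsf,
    Complex.conj_tsum, ← tsum_mul_left]
  congr 2
  funext n
  split_ifs with h
  · simp only [map_mul, conj_mu, Complex.conj_conj, R17.conj_Wc, Complex.conj_ofReal,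
      Complex.conj_I, Complex.ofReal_neg, mul_neg, neg_mul]
    rw [h2 n h.2 h.1.2]
    ring
  · rw [map_zero, mul_zero]
theorem nm_cu (c : R E) : Nm (cu c) := Nm.prod fun _ hp => (of_mem_pf hp).1.pow _
theorem T1C_vp {c p : R E} (hc : c ≠ 0) (hp : Prime p) (hp' : Nm p) :
    vp p (cu c) = vp p c / 3 := by
  rw [cu, vp_prod_pow (fun q hq => ⟨(of_mem_pf hq).1, (of_mem_pf hq).2.1⟩) _ hp hp']
  split_ifs with h
  · rfl
  · rw [(vp_eq_zero_iff hp hc).2 fun h' => h ((mem_pf hc).2 ⟨hp', hp, h'⟩)]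
theorem cu_eq {n d : R E} (hn : Squarefree n) (hd : Nm d) : cu (n * d ^ 3) = d := by
  have h3 := pow_ne_zero 3 hd.ne_zero
  refine (nm_cu _).eq_of_associated hd
    (associated_of_vp (nm_cu _).ne_zero hd.ne_zero fun p hp hp' => ?_)
  have h1 : ¬ 2 ≤ vp p n := fun h =>
    hp.not_isUnit (hn p (by rw [← sq]; exact (pow_dvd_iff_le_vp hp hn.ne_zero).2 h))
  rw [T1C_vp (mul_ne_zero hn.ne_zero h3) hp hp', vp_mul hp hn.ne_zero h3, vp_pow hp hd.ne_zero]
  omega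
theorem dvd_cu_iff {c d : R E} (hc : c ≠ 0) (hd : d ≠ 0) : d ∣ cu c ↔ d ^ 3 ∣ c := by
  rw [dvd_iff_vp hd (nm_cu c).ne_zero, dvd_iff_vp (pow_ne_zero 3 hd) hc, pf_pow three_ne_zero]
  refine forall₂_congr fun p hp => ?_
  rw [T1C_vp hc (of_mem_pf hp).2.1 (of_mem_pf hp).1, vp_pow (of_mem_pf hp).2.1 hd]
  omega
theorem cu_of_associated {a b : R E} (h : Associated a b) : cu a = cu b := by
  simp only [cu, pf_of_associated h, vp_of_associated _ h]
open Classical in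
theorem lamY_eq {Y : ℝ} (hY : 1 ≤ Y) {d : R E} (hd : Nm d) :
    (if d = 1 then 1 else 0 : ℂ) = lamY Y d - if Y < nf (d : E) then lamY Y d else 0 := by
  by_cases h : Y < nf (d : E)
  · rw [if_pos h, sub_self, if_neg]
    rintro rfl
    simp only [OneMemClass.coe_one, nf_one] at h
    linarith
  · rw [if_neg h, sub_zero, lamY, Finset.filter_true_of_mem fun e he =>
      (nf_le_of_dvd (of_mem_dvs he).2 hd.ne_zero).trans (not_lt.1 h), sum_mu_dvs hd.ne_zero]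
    exact if_congr ⟨fun h => h ▸ isUnit_one, hd.eq_one_of_isUnit⟩ rfl rfl
open Classical in
theorem T1C_gen {j : ℕ} (hj : Lev E j) (τ : E) (k : R E) {e : R E} (he : e ≠ 0) (X : ℝ) (s : ℂ)
    (P : R E → Prop) (hP : ∀ a b, Associated a b → (P a ↔ P b)) :
    (∑' c : R E, if Cls j τ c ∧ e ^ 3 ∣ c then
      (if P c then th c * sym c k * Wc (nf (c : E) / X) s else 0) else 0) =
      (Real.sqrt (nf (e : E)) : ℂ) * conj (al (e : E)) ^ 3 * sym e k ^ 3 *
        ∑' c : R E, if Cls j (τ / (e : E) ^ 3) c then (if P (c * e ^ 3) then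
          th c * sym c k * Wc (nf (c : E) / (X / nf (e : E) ^ 3)) s else 0) else 0 := by
  rw [tsum_Cls_dvd hj.1 τ (pow_ne_zero 3 he) fun v c hv => by
    have h1 := associated_unit_mul_left c v ((V_iff_isUnit hj.1).1 hv).1
    simp only [hj.invR_th v c hv, hP _ _ h1, sym_of_associated h1, nf_of_associated h1],
    ← tsum_mul_left, SubmonoidClass.coe_pow]
  refine tsum_congr fun c => ?_
  rw [mul_comm (e ^ 3)]
  split_ifs with h1 h2
  · rw [th_mul_cube he, sym_mul_left (Rec_ne h1.1.1) (pow_ne_zero 3 he), sym_pow_left,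
      Subring.coe_mul, SubmonoidClass.coe_pow, nf_mul, nf_pow, div_div_eq_mul_div]
    ring
  · exact (mul_zero _).symm
  · exact (mul_zero _).symm
open Classical in
/-- `tsum_Cls_dvd` with `g = e³`, `th_mul_cube`, `Lev.invR_th`. -/
theorem Tc_cube {j : ℕ} (hj : Lev E j) (τ : E) (k : R E) {e : R E} (he : e ≠ 0) (X : ℝ) (s : ℂ) :
    (∑' c : R E, if Cls j τ c ∧ e ^ 3 ∣ c then th c * sym c k * Wc (nf (c : E) / X) s else 0) =
      (Real.sqrt (nf (e : E)) : ℂ) * conj (al (e : E)) ^ 3 * sym e k ^ 3 *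
        Tc j (τ / (e : E) ^ 3) k (X / nf (e : E) ^ 3) s := by
  simpa only [if_true, Tc] using T1C_gen hj τ k he X s (fun _ => True) fun _ _ _ => Iff.rfl
open Classical in
/-- The same with the extra condition; for `c = n d³` with `th c ≠ 0`: `cu c = d ↔ n` squarefree. -/
theorem Tsf_cube {j : ℕ} (hj : Lev E j) (τ : E) (k : R E) {d : R E} (hd : Nm d) (X : ℝ) (s : ℂ) :
    (∑' c : R E, if Cls j τ c ∧ cu c = d then th c * sym c k * Wc (nf (c : E) / X) s else 0) =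
      (Real.sqrt (nf (d : E)) : ℂ) * conj (al (d : E)) ^ 3 * sym d k ^ 3 *
        Tsf j (τ / (d : E) ^ 3) k (X / nf (d : E) ^ 3) s := by
  have h := T1C_gen hj τ k hd.ne_zero X s (fun c => cu c = d) fun a b h => by
    rw [cu_of_associated h]
  refine (tsum_congr fun c => ?_).trans (h.trans (congrArg _ (tsum_congr fun c => ?_)))
  · by_cases h1 : Cls j τ c ∧ cu c = d
    · rw [if_pos h1, if_pos h1.2, if_pos ⟨h1.1, (dvd_cu_iff (Rec_ne h1.1.1.1) hd.ne_zero).1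
        (h1.2 ▸ dvd_rfl)⟩]
    · rw [if_neg h1]
      split_ifs with h2 h3
      exacts [absurd ⟨h2.1, h3⟩ h1, rfl, rfl]
  · by_cases h0 : th c = 0
    · simp only [h0, zero_mul, ite_self]
    · have a : cu (c * d ^ 3) = d ↔ Squarefree c := ⟨fun h1 => by
        obtain ⟨n, d', hn, hd', rfl⟩ := th_ne_zero h0
        rw [mul_assoc, ← mul_pow, cu_eq hn (hd'.mul hd), mul_left_eq_self₀] at h1
        rwa [h1.resolve_right hd.ne_zero, one_pow, mul_one], fun h1 => cu_eq h1 hd⟩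
      simp only [a, ite_and]
open Classical in
theorem T1C_lam {c : R E} (hc : c ≠ 0) (Y : ℝ) :
    lamY Y (cu c) = ∑ e ∈ sqs Y, if e ^ 3 ∣ c then mu e else 0 := by
  rw [← Finset.sum_filter]
  refine (Finset.sum_subset (fun e he => ?_) fun e he he' => mu_of_not fun h => he' ?_).symm
  · obtain ⟨h1, h2⟩ := Finset.mem_filter.1 he
    obtain ⟨h3, -, h4⟩ := mem_sqs.1 h1
    exact Finset.mem_filter.2 ⟨(mem_dvs (nm_cu c).ne_zero).2
      ⟨h3, (dvd_cu_iff hc h3.ne_zero).2 h2⟩, h4⟩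
  · obtain ⟨h1, h2⟩ := Finset.mem_filter.1 he
    obtain ⟨h3, h4⟩ := of_mem_dvs h1
    exact Finset.mem_filter.2 ⟨mem_sqs.2 ⟨h3, h, h2⟩, (dvd_cu_iff hc h3.ne_zero).1 h4⟩
theorem T1C_norm_lam (Y : ℝ) (d : R E) : ‖lamY Y d‖ ≤ (dvs d).card := by
  refine (norm_sum_le _ _).trans ((Finset.sum_le_card_nsmul _ _ 1 fun e _ => norm_mu_le e).trans ?_)
  rw [nsmul_eq_mul, mul_one, Nat.cast_le]
  exact Finset.card_filter_le _ _
theorem T1C_norm (e k : R E) (z : ℂ) :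
    ‖(Real.sqrt (nf (e : E)) : ℂ) * conj (al (e : E)) ^ 3 * sym e k ^ 3 * z‖ ≤
      Real.sqrt (nf (e : E)) * ‖z‖ := by
  simp only [norm_mul, norm_pow, Complex.norm_conj, Complex.norm_real,
    Real.norm_of_nonneg (Real.sqrt_nonneg _), mul_assoc]
  refine mul_le_mul_of_nonneg_left ?_ (Real.sqrt_nonneg _)
  rw [← mul_assoc]
  exact mul_le_of_le_one_left (norm_nonneg _) (mul_le_one₀ (pow_le_one₀ (norm_nonneg _)
    (norm_al_le _)) (by positivity) (pow_le_one₀ (norm_nonneg _) (norm_sym_le _ _)))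
open Classical in
theorem T1C_summable {j : ℕ} (hj : 1 ≤ j) (τ : E) (k : R E) {X : ℝ} (hX : 0 < X) (s : ℂ)
    (P : R E → Prop) [∀ c, Decidable (Cls j τ c ∧ P c)] : Summable fun c : R E =>
      if Cls j τ c ∧ P c then th c * sym c k * Wc (nf (c : E) / X) s else 0 := by
  obtain ⟨C, -, h⟩ := cnt_Cls (E := E) hj
  have h1 := summable_Sm (h τ) (b := fun c => if Cls j τ c ∧ P c then th c * sym c k else 0)
    (H := 1) (B := 1 / 6) ⟨zero_le_one, fun c hc => if_neg fun h => hc h.1, fun c _ => by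
      dsimp only
      split_ifs
      · rw [norm_mul, one_mul]
        exact (mul_le_of_le_one_right (norm_nonneg _) (norm_sym_le _ _)).trans (norm_th_le c)
      · rw [norm_zero, one_mul]
        exact Real.rpow_nonneg (nf_nonneg _) _⟩ hX s
  simpa only [ite_mul, zero_mul] using h1.of_norm
open Classical in
/-- Insert `lamY_eq` for `d = cu c` in `Tsf = ∑ th c ⋯ 1_{cu c = 1}`; the `c` with `N (cu c) > Q` have
`N c ≥ Q³ ≥ X Q²` (`tsum_norm_Sm_tail_le` with `L = Q²`, coefficients `≤ C N c` by `norm_th_le`,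
`card_dvs_le_nf`). -/
theorem cube_le {j : ℕ} (hj : Lev E j) : ∃ C : ℝ, 0 < C ∧
    ∀ (τ : E) (k : R E) (Q X Y y : ℝ), 1 ≤ Q → 0 < X → X ≤ Q → 1 ≤ Y →
      ‖Gs j τ k X (y * Complex.I)‖ ≤
        ∑ e ∈ (sqs Y : Finset (R E)), Real.sqrt (nf (e : E)) *
          ‖Tc j (τ / (e : E) ^ 3) k (X / nf (e : E) ^ 3) ((-y : ℝ) * Complex.I)‖ +
        ∑ d ∈ (nms Q : Finset (R E)).filter (fun d : R E => Y < nf (d : E)),
          (dvs d).card * Real.sqrt (nf (d : E)) *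
            ‖Gs j (τ / (d : E) ^ 3) k (X / nf (d : E) ^ 3) (y * Complex.I)‖ + C / Q ^ 5 := by
  obtain ⟨C₀, -, h0⟩ := cnt_Cls (E := E) hj.1
  obtain ⟨C₁, hC₁, h1⟩ := card_dvs_le_nf (E := E)
  obtain ⟨C₂, hC₂, h2⟩ := tsum_norm_Sm_tail_le C₀ 4 2 0 zero_le_two
  refine ⟨C₂ * C₁, by positivity, fun τ k Q X Y y hQ hX hXQ hY => ?_⟩
  set s : ℂ := (-y : ℝ) * Complex.I with hs
  set D := (nms Q : Finset (R E)).filter fun d : R E => Y < nf (d : E) with hD
  set b : R E → ℂ := fun c => if Cls j τ c ∧ Y < nf (cu c : E) ∧ Q < nf (cu c : E) then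
    lamY Y (cu c) * (th c * sym c k) else 0 with hb
  have hcu : ∀ c : R E, c ≠ 0 → nf (cu c : E) ^ 3 ≤ nf (c : E) := fun c hc => by
    have := nf_le_of_dvd ((dvd_cu_iff hc (nm_cu c).ne_zero).1 dvd_rfl) hc
    rwa [SubmonoidClass.coe_pow, nf_pow] at this
  have hPB : PB (Cls j τ) (fun c : R E => nf (c : E)) b C₁ 2 :=
    ⟨hC₁.le, fun c hc => if_neg fun h => hc h.1, fun c hc => by
      have a1 := one_le_nf (Rec_ne hc.1.1)
      simp only [hb]
      split_ifs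
      · have a2 := one_le_nf (nm_cu c).ne_zero
        have a3 : nf (cu c : E) ≤ nf (c : E) :=
          (le_self_pow₀ a2 three_ne_zero).trans (hcu c (Rec_ne hc.1.1))
        rw [norm_mul, norm_mul, Real.rpow_two, sq, ← mul_assoc C₁]
        refine mul_le_mul ((T1C_norm_lam _ _).trans ((h1 _ (nm_cu c).ne_zero).trans
          (mul_le_mul_of_nonneg_left a3 hC₁.le)))
          ((mul_le_of_le_one_right (norm_nonneg _) (norm_sym_le _ _)).trans ((norm_th_le c).trans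
            (Real.rpow_le_self_of_one_le a1 (by norm_num)))) (by positivity) (by positivity)
      · rw [norm_zero]
        positivity⟩
  have e1 := ((hasSum_sum (s := sqs Y) fun e _ =>
    (T1C_summable hj.1 τ k hX s fun c => e ^ 3 ∣ c).hasSum.mul_left (mu e)).sub
      (hasSum_sum (s := D) fun d _ =>
        (T1C_summable hj.1 τ k hX s fun c => cu c = d).hasSum.mul_left (lamY Y d))).sub
    (T1C_summable hj.1 τ k hX s fun c => cu c = 1).hasSum
  have e2 : ∀ c : R E, ∑ e ∈ sqs Y, mu e * (if Cls j τ c ∧ e ^ 3 ∣ c then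
        th c * sym c k * Wc (nf (c : E) / X) s else 0) -
      ∑ d ∈ D, lamY Y d * (if Cls j τ c ∧ cu c = d then
        th c * sym c k * Wc (nf (c : E) / X) s else 0) -
      (if Cls j τ c ∧ cu c = 1 then th c * sym c k * Wc (nf (c : E) / X) s else 0) =
      b c * Wc (nf (c : E) / X) s := fun c => by
    by_cases hc : Cls j τ c
    · have a1 := congrArg (· * (th c * sym c k * Wc (nf (c : E) / X) s)) (lamY_eq hY (nm_cu c))
      have a2 := congrArg (· * (th c * sym c k * Wc (nf (c : E) / X) s))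
        (T1C_lam (Rec_ne hc.1.1) Y)
      simp only [Finset.sum_mul, ite_mul, zero_mul, one_mul] at a1 a2
      simp only [hb, hc, true_and, mul_ite, mul_zero, Finset.sum_ite_eq, hD, Finset.mem_filter,
        mem_nms, nm_cu, ← a2, a1, ← not_lt]
      by_cases a3 : Y < nf (cu c : E) <;> by_cases a4 : Q < nf (cu c : E) <;>
        simp only [a3, a4, and_self, and_true, and_false, not_true, not_false_eq_true,
          if_true, if_false] <;> ring
    · simp [hb, hc]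
  simp only [e2] at e1
  have e3 : ‖∑' c, b c * Wc (nf (c : E) / X) s‖ ≤ C₂ * C₁ / Q ^ 5 := by
    refine (norm_tsum_le_tsum_norm (summable_Sm (h0 τ) hPB hX s)).trans
      ((tsum_congr fun c => ?_).trans_le ((h2 _ _ b C₁ X (Q ^ 2) s (h0 τ) hPB hX
        (one_le_pow₀ hQ) (by simp [hs])).trans ?_))
    · split_ifs with h
      · rw [hb]
        simp only
        rw [if_neg, zero_mul, norm_zero]
        rintro ⟨a1, -, a2⟩
        have a3 : Q ^ 3 < nf (cu c : E) ^ 3 := by gcongr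
        have a4 : X * Q ^ 2 ≤ Q * Q ^ 2 := by gcongr
        linarith [hcu c (Rec_ne a1.1.1), h.2]
      · rfl
    · rw [show (2 + 1 : ℝ) = (3 : ℕ) by norm_num, show (4 : ℝ) = (4 : ℕ) by norm_num,
        Real.rpow_neg (by positivity), Real.rpow_natCast, Real.rpow_natCast]
      calc _ ≤ C₂ * C₁ * Q ^ 3 * ((Q ^ 2) ^ 4)⁻¹ := by gcongr
        _ = _ := by field_simp
  rw [e1.tsum_eq, Tsf_cube hj τ k nm_one] at e3
  simp only [OneMemClass.coe_one, nf_one, Real.sqrt_one, al_one, sym_one_left, map_one, one_pow,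
    div_one, Complex.ofReal_one, one_mul] at e3
  rw [norm_Gs_eq hj]
  refine (norm_le_norm_sub_add _ _).trans ((add_comm _ _).trans_le
    (add_le_add ((norm_sub_le _ _).trans (add_le_add ?_ ?_)) ((norm_sub_rev _ _).trans_le e3)))
  · refine (norm_sum_le _ _).trans (Finset.sum_le_sum fun e he => ?_)
    rw [norm_mul, Tc_cube hj τ k (mem_sqs.1 he).1.ne_zero]
    exact (mul_le_of_le_one_left (norm_nonneg _) (norm_mu_le e)).trans (T1C_norm _ _ _)
  · refine (norm_sum_le _ _).trans (Finset.sum_le_sum fun d hd => ?_)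
    rw [norm_mul, Tsf_cube hj τ k (mem_nms.1 (Finset.mem_filter.1 hd).1).1, norm_Gs_eq hj,
      mul_assoc ((dvs d).card : ℝ)]
    exact mul_le_mul (T1C_norm_lam _ _) (T1C_norm _ _ _) (norm_nonneg _) (Nat.cast_nonneg _)

/-! ## part B: the leaves -/

open Classical in
/-- Cauchy, `energy` with `2 Q²¹` (`N (tw i) ≤ Y²¹`, `Kd ≤ Λ D`; no rows if `Kd < 1`), at most `C Y³`
triples; `J = 21 J_energy + 6`. -/
theorem small_le {j : ℕ} (hj : Lev E j) {ε : ℝ} (hε : 0 < ε) : ∃ (C : ℝ) (J : ℕ), 0 < C ∧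
    ∀ (τ : E) (Q A D Y Λ κ y : ℝ), 1 ≤ D → D ≤ A → A ≤ Q → 1 ≤ Y → Y ≤ Q → 1 ≤ Λ → Λ ≤ Q →
      1 / 2 ≤ κ → κ ≤ 1 →
      ∑ i ∈ (Tri (Q ^ 2)).filter (fun i : R E × R E × R E => nf (i.1 : E) * nf (i.2.2 : E) ≤ Y),
        A * nf (i.1 : E) / (nf (i.2.1 : E) * D) * ∑ k ∈ nms (Kd Λ A D i),
          (∑ e ∈ (sqs Y : Finset (R E)), Real.sqrt (nf (e : E)) *
            ‖Tc j (τ / (i.1 * i.2.2 : R E) / (e : E) ^ 3) (k * tw i)
              (κ * D / (nf (i.1 : E) * nf (i.2.2 : E)) / nf (e : E) ^ 3) (y * Complex.I)‖) ^ 2 ≤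
        C * Q ^ ε * Λ ^ 2 * Y ^ J * (1 + |y|) ^ J * (A * D) := by
  obtain ⟨C, J, hC, h⟩ := T1B1_one hj hε
  obtain ⟨c, hc, hcard⟩ := T1B1_card_tri (E := E)
  refine ⟨c * C, 21 * J + 6, by positivity, ?_⟩
  intro τ Q A D Y Λ κ y hD hDA hAQ hY hYQ hΛ hΛQ hκ hκ'
  have hy : 1 ≤ 1 + |y| := le_add_of_nonneg_right (abs_nonneg y)
  have hQ : 0 < Q := by linarith
  have hA : 0 < A := by linarith
  refine (Finset.sum_le_card_nsmul _ _
    (C * Q ^ ε * Λ ^ 2 * Y ^ (21 * J + 3) * (1 + |y|) ^ J * (A * D)) fun i hi => ?_).trans ?_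
  · obtain ⟨h1, h2⟩ := Finset.mem_filter.1 hi
    obtain ⟨⟨a1, -, a3⟩, a4, -⟩ := mem_Tri.1 h1
    exact h (fun e => τ / (i.1 * i.2.2 : R E) / (e : E) ^ 3) Q A D Y Λ κ y i hD hDA hAQ hY hYQ hΛ
      hΛQ hκ hκ' (mem_sqs.1 a1).1.ne_zero (mem_sqs.1 a3).1.ne_zero a4 h2
  · rw [nsmul_eq_mul]
    calc _ ≤ c * Y ^ 3 *
          (C * Q ^ ε * Λ ^ 2 * Y ^ (21 * J + 3) * (1 + |y|) ^ (21 * J + 6) * (A * D)) := by
          gcongr
          · exact hcard _ Y (by positivity)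
          · omega
      _ = _ := by ring

private theorem odB_nf {Q : ℝ} {i : R E × R E × R E} (hi : i ∈ Tri Q) :
    1 ≤ nf (i.1 : E) ∧ 1 ≤ nf (i.2.1 : E) ∧ 1 ≤ nf (i.2.2 : E) := by
  obtain ⟨⟨h1, h2, h3⟩, -, -⟩ := mem_Tri.1 hi
  exact ⟨one_le_nf (mem_sqs.1 h1).1.1, one_le_nf (mem_sqs.1 h2).1.1, one_le_nf (mem_sqs.1 h3).1.1⟩
private theorem odB_sq {Q : ℝ} {i : R E × R E × R E} (hi : i ∈ Tri Q) :
    Squarefree (i.1 * i.2.2) := by
  obtain ⟨⟨h1, -, h3⟩, -, h5⟩ := mem_Tri.1 hi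
  exact squarefree_mul_iff.2 ⟨h5.symm.isRelPrime, (mem_sqs.1 h1).2.1, (mem_sqs.1 h3).2.1⟩
private theorem odB_w {A D : ℝ} (hA : 0 ≤ A) (hD : 0 ≤ D) (i : R E × R E × R E) :
    0 ≤ A * nf (i.1 : E) / (nf (i.2.1 : E) * D) :=
  div_nonneg (mul_nonneg hA (nf_nonneg _)) (mul_nonneg (nf_nonneg _) hD)
private theorem odB_sub (j : ℕ) (τ : E) (Q : ℝ) {A D : ℝ} (hA : 0 ≤ A) (hD : 0 ≤ D) (Y Λ κ y : ℝ)
    {S : Finset (R E × R E × R E)} {T : Finset (R E)} (hST : S ×ˢ T ⊆ Fam E Q Y) :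
    ∑ i ∈ S, A * nf (i.1 : E) / (nf (i.2.1 : E) * D) * ∑ k ∈ nms (Kd Λ A D i), ∑ d ∈ T,
      (nf (d : E) * ‖Gs j (τ / (i.1 * i.2.2 : R E) / (d : E) ^ 3) (k * tw i)
        (κ * D / (nf (i.1 : E) * nf (i.2.2 : E)) / nf (d : E) ^ 3) (y * Complex.I)‖) ^ 2 ≤
      BK j τ Q A D Y Λ κ y := by
  refine le_trans (le_of_eq ?_) (Finset.sum_le_sum_of_subset_of_nonneg hST fun i _ _ =>
    mul_nonneg (mul_nonneg (odB_w hA hD _) (sq_nonneg _)) (by positivity))
  rw [Finset.sum_product]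
  refine Finset.sum_congr rfl fun i _ => ?_
  rw [Finset.sum_comm, Finset.mul_sum]
  refine Finset.sum_congr rfl fun d _ => ?_
  simp only [wF, tFm, DF, mul_pow]
  rw [← Finset.mul_sum, mul_assoc]
open Classical in
private theorem odB_tau {ε : ℝ} (hε : 0 < ε) : ∃ C : ℝ, 0 < C ∧ ∀ (Q : ℝ) (T : Finset (R E))
    (f : R E → ℝ), 1 ≤ Q → T ⊆ nms Q →
      (∑ d ∈ T, (dvs d).card * Real.sqrt (nf (d : E)) * f d) ^ 2 ≤
        C * Q ^ ε * ∑ d ∈ T, (nf (d : E) * f d) ^ 2 := by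
  obtain ⟨C₁, hC₁, h₁⟩ := card_dvs_le (E := E) (show 0 < ε / 4 by positivity)
  obtain ⟨C₂, hC₂, h₂⟩ := sum_inv_nf_le (E := E) (half_pos hε)
  refine ⟨C₁ ^ 2 * C₂, by positivity, fun Q T f hQ hT => ?_⟩
  have hQ0 : 0 < Q := by linarith
  have e1 : ∑ d ∈ T, (dvs d).card * Real.sqrt (nf (d : E)) * f d =
      ∑ d ∈ T, ((dvs d).card / Real.sqrt (nf (d : E))) * (nf (d : E) * f d) := by
    refine Finset.sum_congr rfl fun d hd => ?_
    have h3 := one_le_nf (mem_nms.1 (hT hd)).1.1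
    have h4 : 0 < Real.sqrt (nf (d : E)) := Real.sqrt_pos.2 (by linarith)
    have h5 := Real.mul_self_sqrt (nf_nonneg (d : E))
    field_simp
    rw [pow_two, h5]
    ring
  rw [e1]
  refine (Finset.sum_mul_sq_le_sq_mul_sq _ _ _).trans
    (mul_le_mul_of_nonneg_right ?_ (by positivity))
  calc ∑ d ∈ T, (((dvs d).card : ℝ) / Real.sqrt (nf (d : E))) ^ 2
      ≤ ∑ d ∈ T, C₁ ^ 2 * Q ^ (ε / 2) * (nf (d : E))⁻¹ := by
        refine Finset.sum_le_sum fun d hd => ?_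
        obtain ⟨h3, h4⟩ := mem_nms.1 (hT hd)
        rw [div_pow, Real.sq_sqrt (nf_nonneg _), div_eq_mul_inv]
        refine mul_le_mul_of_nonneg_right ?_ (inv_nonneg.2 (nf_nonneg _))
        have h5 : ((dvs d).card : ℝ) ≤ C₁ * Q ^ (ε / 4) := (h₁ d h3.1).trans
          (mul_le_mul_of_nonneg_left (Real.rpow_le_rpow (nf_nonneg _) h4 (by positivity)) hC₁.le)
        refine (pow_le_pow_left₀ (by positivity) h5 2).trans_eq ?_
        rw [mul_pow, ← Real.rpow_mul_natCast hQ0.le]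
        congr 2
        push_cast
        ring
    _ ≤ C₁ ^ 2 * Q ^ (ε / 2) * (C₂ * Q ^ (ε / 2)) := by
        rw [← Finset.mul_sum]
        exact mul_le_mul_of_nonneg_left ((Finset.sum_le_sum_of_subset_of_nonneg hT
          fun d _ _ => inv_nonneg.2 (nf_nonneg _)).trans (h₂ Q hQ)) (by positivity)
    _ = C₁ ^ 2 * C₂ * Q ^ ε := by
        rw [mul_mul_mul_comm, ← Real.rpow_add hQ0, add_halves]
private theorem odB_err : ∃ C : ℝ, 0 < C ∧ ∀ (Q A D Λ : ℝ) (S : Finset (R E × R E × R E)),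
    1 ≤ D → 1 ≤ A → 1 ≤ Q → 1 ≤ Λ → S ⊆ Tri (Q ^ 2) →
      ∑ i ∈ S, A * nf (i.1 : E) / (nf (i.2.1 : E) * D) *
        ∑ _k ∈ (nms (Kd Λ A D i) : Finset (R E)), (1 / Q ^ 5) ^ 2 ≤ C * (Λ * D) := by
  classical
  obtain ⟨C, hC, h⟩ := card_nms_le (E := E)
  refine ⟨C ^ 4, by positivity, fun Q A D Λ S hD hA hQ hΛ hS => ?_⟩
  have hQ0 : 0 < Q := by linarith
  have h1 : ((sqs (Q ^ 2) : Finset (R E)).card : ℝ) ≤ C * Q ^ 2 :=
    le_trans (Nat.cast_le.2 (Finset.card_le_card fun d hd =>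
      mem_nms.2 ⟨(mem_sqs.1 hd).1, (mem_sqs.1 hd).2.2⟩)) (h _ (by positivity))
  have h2 : (S.card : ℝ) ≤ (C * Q ^ 2) ^ 3 := by
    refine le_trans (Nat.cast_le.2 ((Finset.card_le_card hS).trans (Finset.card_filter_le _ _))) ?_
    rw [Finset.card_product, Finset.card_product]
    push_cast
    refine le_trans (le_of_eq (by ring)) (pow_le_pow_left₀ (by positivity) h1 3)
  calc _ ≤ ∑ _i ∈ S, C * (Λ * D) * (1 / Q ^ 5) ^ 2 := by
        refine Finset.sum_le_sum fun i hi => ?_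
        obtain ⟨a1, a2, a3⟩ := odB_nf (hS hi)
        rw [Finset.sum_const, nsmul_eq_mul, ← mul_assoc]
        refine mul_le_mul_of_nonneg_right ?_ (by positivity)
        have h3 := h (Kd Λ A D i) (by unfold Kd; positivity)
        refine (mul_le_mul_of_nonneg_left h3 (odB_w (by linarith) (by linarith) i)).trans ?_
        have h4 : A * nf (i.1 : E) / (nf (i.2.1 : E) * D) * (C * Kd Λ A D i) =
            C * (Λ * D) / nf (i.1 : E) := by
          unfold Kd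
          field_simp
        rw [h4]
        exact div_le_self (by positivity) a1
    _ ≤ (C * Q ^ 2) ^ 3 * (C * (Λ * D) * (1 / Q ^ 5) ^ 2) := by
        rw [Finset.sum_const, nsmul_eq_mul]
        exact mul_le_mul_of_nonneg_right h2 (by positivity)
    _ = C ^ 4 * (Λ * D) / Q ^ 4 := by field_simp
    _ ≤ _ := div_le_self (by positivity) (one_le_pow₀ hQ)

/-- The first dual sum: `dc_mu`; the triples with `N(g h) > Y` are the terms `d = 1` of `BK`; for the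
others `cube_le`, `small_le`, Cauchy with `∑ τ(d)² / N d ≤ C Q^ε` (`card_dvs_le`,
`sum_inv_nf_le`), and the error `C / Q⁵` is summed trivially. -/
theorem OD_mu_le {j : ℕ} (hj : Lev E j) {ε₀ : ℝ} (hε₀ : 0 < ε₀) : ∃ J₀ : ℕ, ∀ ε : ℝ, 0 < ε →
    ∃ C : ℝ, 0 < C ∧ ∀ (τ : E) (Q A D Y Λ κ y : ℝ), 1 ≤ D → D ≤ A → A ≤ Q → 1 ≤ Y → Y ≤ Q →
      1 ≤ Λ → Λ ≤ Q → 1 / 2 ≤ κ → κ ≤ 1 →
      OD j τ mu A D (Q ^ 2) Λ κ y ≤
        C * (Q ^ ε₀ * Λ ^ 2 * Y ^ J₀ * (1 + |y|) ^ J₀ * (A * D) + Q ^ ε * BK j τ Q A D Y Λ κ y) := by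
  classical
  obtain ⟨C₁, J, hC₁, h₁⟩ := small_le hj hε₀
  obtain ⟨C₂, hC₂, h₂⟩ := cube_le hj
  obtain ⟨C₄, hC₄, h₄⟩ := odB_err (E := E)
  refine ⟨J, fun ε hε => ?_⟩
  obtain ⟨C₃, hC₃, h₃⟩ := odB_tau (E := E) hε
  refine ⟨3 * C₁ + 3 * C₂ ^ 2 * C₄ + 3 * C₃ + 1, by positivity,
    fun τ Q A D Y Λ κ y hD hDA hAQ hY hYQ hΛ hΛQ hκ hκ1 => ?_⟩
  have hA : 1 ≤ A := hD.trans hDA
  have hQ : 1 ≤ Q := hA.trans hAQ
  have hA0 : 0 ≤ A := by linarith
  have hD0 : 0 ≤ D := by linarith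
  set M := Q ^ ε₀ * Λ ^ 2 * Y ^ J * (1 + |y|) ^ J * (A * D) with hM
  set B := BK j τ Q A D Y Λ κ y with hB
  have hB0 : 0 ≤ B := BK_nonneg j τ Q hA0 hD0 Y Λ κ y
  have hQε : 1 ≤ Q ^ ε := Real.one_le_rpow hQ hε.le
  have hM1 : Λ * D ≤ M := by
    have a1 : 1 ≤ Q ^ ε₀ := Real.one_le_rpow hQ hε₀.le
    have a2 : 1 ≤ Y ^ J := one_le_pow₀ hY
    have a3 : 1 ≤ (1 + |y|) ^ J := one_le_pow₀ (by linarith [abs_nonneg y])
    have a4 : 1 ≤ Q ^ ε₀ * Λ * Y ^ J * (1 + |y|) ^ J * A :=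
      one_le_mul_of_one_le_of_one_le (one_le_mul_of_one_le_of_one_le
        (one_le_mul_of_one_le_of_one_le (one_le_mul_of_one_le_of_one_le a1 hΛ) a2) a3) hA
    refine (le_mul_of_one_le_left (by positivity) a4).trans_eq ?_
    rw [hM]
    ring
  have hM0 : 0 ≤ M := le_trans (by positivity) hM1
  set S := (Tri (Q ^ 2)).filter (fun i : R E × R E × R E => nf (i.1 : E) * nf (i.2.2 : E) ≤ Y)
    with hS
  set T := (nms Q : Finset (R E)).filter (fun d : R E => Y < nf (d : E)) with hT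
  set w : R E × R E × R E → ℝ := fun i => A * nf (i.1 : E) / (nf (i.2.1 : E) * D) with hw
  have hw0 : ∀ i, 0 ≤ w i := odB_w hA0 hD0
  set G : R E × R E × R E → R E → ℝ := fun i k => ‖Gs j (τ / (i.1 * i.2.2 : R E)) (k * tw i)
    (κ * D / (nf (i.1 : E) * nf (i.2.2 : E))) (y * Complex.I)‖ with hG
  have b1 : OD j τ mu A D (Q ^ 2) Λ κ y ≤
      ∑ i ∈ Tri (Q ^ 2), w i * ∑ k ∈ nms (Kd Λ A D i), G i k ^ 2 :=
    Finset.sum_le_sum fun i hi => mul_le_mul_of_nonneg_left (Finset.sum_le_sum fun k _ =>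
      pow_le_pow_left₀ (norm_nonneg _) (dc_mu hj _ (odB_sq hi) k _ _) 2) (hw0 i)
  have b2 : ∑ i ∈ (Tri (Q ^ 2)).filter
      (fun i : R E × R E × R E => ¬ nf (i.1 : E) * nf (i.2.2 : E) ≤ Y),
      w i * ∑ k ∈ nms (Kd Λ A D i), G i k ^ 2 ≤ B := by
    refine le_trans (le_of_eq ?_) (odB_sub j τ Q hA0 hD0 Y Λ κ y (T := {1})
      (S := (Tri (Q ^ 2)).filter
        (fun i : R E × R E × R E => ¬ nf (i.1 : E) * nf (i.2.2 : E) ≤ Y)) fun i hi => ?_)
    · simp [hw, hG]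
    · obtain ⟨a1, a2⟩ := Finset.mem_product.1 hi
      obtain ⟨a3, a4⟩ := Finset.mem_filter.1 a1
      rw [Finset.mem_singleton] at a2
      refine mem_Fam.2 ⟨⟨a3, a2 ▸ mem_nms.2 ⟨nm_one, by simpa using hQ⟩⟩, ?_⟩
      simpa [a2] using a4
  have b3 := h₁ τ Q A D Y Λ κ (-y) hD hDA hAQ hY hYQ hΛ hΛQ hκ hκ1
  rw [abs_neg, ← hS] at b3
  have b4 := odB_sub j τ Q hA0 hD0 Y Λ κ y (S := S) (T := T) fun i hi => by
    obtain ⟨a1, a2⟩ := Finset.mem_product.1 hi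
    obtain ⟨a3, -⟩ := Finset.mem_filter.1 a1
    obtain ⟨a5, a6⟩ := Finset.mem_filter.1 a2
    obtain ⟨a7, -, a8⟩ := odB_nf a3
    refine mem_Fam.2 ⟨⟨a3, a5⟩, a6.trans_le ?_⟩
    exact (le_self_pow₀ (hY.trans a6.le) three_ne_zero).trans
      (le_mul_of_one_le_left (pow_nonneg (nf_nonneg _) _) (one_le_mul_of_one_le_of_one_le a7 a8))
  have b5 := h₄ Q A D Λ S hD hA hQ hΛ (Finset.filter_subset _ _)
  have b6 : ∑ i ∈ S, w i * ∑ k ∈ nms (Kd Λ A D i), G i k ^ 2 ≤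
      3 * (C₁ * M) + 3 * (C₃ * Q ^ ε) * B + 3 * C₂ ^ 2 * (C₄ * (Λ * D)) := by
    refine le_trans ?_ (add_le_add (add_le_add
      (mul_le_mul_of_nonneg_left (b3.trans_eq (by rw [hM]; ring)) (by norm_num))
      (mul_le_mul_of_nonneg_left b4 (by positivity)))
      (mul_le_mul_of_nonneg_left b5 (by positivity)))
    simp only [Finset.mul_sum (s := S)]
    rw [← Finset.sum_add_distrib, ← Finset.sum_add_distrib]
    refine Finset.sum_le_sum fun i hi => ?_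
    obtain ⟨a1, -, a2⟩ := odB_nf (Finset.mem_filter.1 hi).1
    have a3 := one_le_mul_of_one_le_of_one_le a1 a2
    rw [mul_left_comm (3 : ℝ), mul_left_comm (3 * (C₃ * Q ^ ε)), mul_left_comm (3 * C₂ ^ 2),
      ← mul_add, ← mul_add]
    refine mul_le_mul_of_nonneg_left ?_ (hw0 i)
    simp only [Finset.mul_sum (s := nms (Kd Λ A D i))]
    rw [← Finset.sum_add_distrib, ← Finset.sum_add_distrib]
    refine Finset.sum_le_sum fun k _ => ?_
    have a4 := h₂ (τ / (i.1 * i.2.2 : R E)) (k * tw i) Q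
      (κ * D / (nf (i.1 : E) * nf (i.2.2 : E))) Y y hQ (by positivity)
      ((div_le_self (by positivity) a3).trans (by nlinarith)) hY
    have a5 := h₃ Q T (fun d => ‖Gs j (τ / (i.1 * i.2.2 : R E) / (d : E) ^ 3) (k * tw i)
        (κ * D / (nf (i.1 : E) * nf (i.2.2 : E)) / nf (d : E) ^ 3) (y * Complex.I)‖) hQ
      (Finset.filter_subset _ _)
    refine (pow_le_pow_left₀ (norm_nonneg _) a4 2).trans ?_
    rw [← hT]
    generalize (∑ e ∈ (sqs Y : Finset (R E)), _ : ℝ) = a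
    generalize (∑ d ∈ T, (dvs d).card * Real.sqrt (nf (d : E)) * _ : ℝ) = b at a5 ⊢
    have a6 : (C₂ / Q ^ 5) ^ 2 = C₂ ^ 2 * (1 / Q ^ 5) ^ 2 := by ring
    nlinarith [sq_nonneg (a - b), sq_nonneg (a - C₂ / Q ^ 5), sq_nonneg (b - C₂ / Q ^ 5)]
  rw [← Finset.sum_filter_add_sum_filter_not (Tri (Q ^ 2))
    (fun i : R E × R E × R E => nf (i.1 : E) * nf (i.2.2 : E) ≤ Y)] at b1
  have b7 : B ≤ Q ^ ε * B := le_mul_of_one_le_left hB0 hQε
  have b8 : 0 ≤ Q ^ ε * B := by positivity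
  have b9 : C₂ ^ 2 * C₄ * (Λ * D) ≤ C₂ ^ 2 * C₄ * M := mul_le_mul_of_nonneg_left hM1 (by positivity)
  have c1 : 0 ≤ C₁ * (Q ^ ε * B) := by positivity
  have c2 : 0 ≤ C₂ ^ 2 * C₄ * (Q ^ ε * B) := by positivity
  have c3 : 0 ≤ C₃ * M := by positivity
  nlinarith

end Crest.Agent.R312
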