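import Crest.Agent.R312.Box

/-!
# Row 312: auxiliary lemmas for the averaged kernels (part A of `Tav.lean`)
-/

set_option autoImplicit false

noncomputable section

namespace Crest.Agent.R312.TavA

open MeasureTheory

/-- The unfolded form of `KerOK`. -/
def OK (F : ℝ → ℝ) : Prop :=
  Continuous F ∧ ∀ a : ℝ, 1 / 2 ≤ a → ∃ C : ℝ, ∀ v, |F v| ≤ C * Real.exp (-a * v - |v| / 2)

theorem ok_of_rpow {G : ℝ → ℝ} (hG : ContinuousOn G (Set.Ioi 0))
    (h : ∀ A : ℝ, 0 ≤ A → ∃ C : ℝ, 0 < C ∧ ∀ y, 0 < y → |G y| ≤ C * y ^ (-A)) {c : ℝ}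
    (hc : 0 < c) : OK fun v => G (c * Real.exp v) := by
  refine ⟨hG.comp_continuous (by fun_prop) fun v => mul_pos hc (Real.exp_pos v), fun a ha => ?_⟩
  obtain ⟨C₁, h₁, H₁⟩ := h (a + 1 / 2) (by linarith)
  obtain ⟨C₂, h₂, H₂⟩ := h (a - 1 / 2) (by linarith)
  refine ⟨C₁ * c ^ (-(a + 1 / 2)) + C₂ * c ^ (-(a - 1 / 2)), fun v => ?_⟩
  have p₁ : 0 < C₁ * c ^ (-(a + 1 / 2)) := by positivity
  have p₂ : 0 < C₂ * c ^ (-(a - 1 / 2)) := by positivity
  have hy := mul_pos hc (Real.exp_pos v)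
  rcases le_total 0 v with hv | hv
  · refine (H₁ _ hy).trans ?_
    rw [Real.mul_rpow hc.le (Real.exp_pos v).le, ← Real.exp_mul, ← mul_assoc, abs_of_nonneg hv,
      show v * -(a + 1 / 2) = -a * v - v / 2 by ring]
    exact mul_le_mul_of_nonneg_right (by linarith) (Real.exp_pos _).le
  · refine (H₂ _ hy).trans ?_
    rw [Real.mul_rpow hc.le (Real.exp_pos v).le, ← Real.exp_mul, ← mul_assoc, abs_of_nonpos hv,
      show v * -(a - 1 / 2) = -a * v - -v / 2 by ring]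
    exact mul_le_mul_of_nonneg_right (by linarith) (Real.exp_pos _).le

theorem OK.bound {F : ℝ → ℝ} (h : OK F) {a : ℝ} (ha : 0 < a) : ∃ C δ : ℝ, 0 < C ∧ 0 < δ ∧
    ∀ v, |F v| ≤ C * Real.exp (-a * v) * Real.exp (-δ * |v|) := by
  obtain ⟨C₁, H₁⟩ := h.2 (a + 1 / 2) (by linarith)
  obtain ⟨C₂, H₂⟩ := h.2 (1 / 2) le_rfl
  refine ⟨|C₁| + |C₂| + 1, min a 1, by positivity, lt_min ha one_pos, fun v => ?_⟩
  rw [mul_assoc, ← Real.exp_add]
  have h1 := min_le_left a 1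
  have h2 := min_le_right a 1
  rcases le_total 0 v with hv | hv
  · refine (H₁ v).trans (mul_le_mul ?_ (Real.exp_le_exp.2 ?_) (Real.exp_pos _).le (by positivity))
    · linarith [le_abs_self C₁, abs_nonneg C₂]
    · rw [abs_of_nonneg hv]
      nlinarith
  · refine (H₂ v).trans (mul_le_mul ?_ (Real.exp_le_exp.2 ?_) (Real.exp_pos _).le (by positivity))
    · linarith [le_abs_self C₂, abs_nonneg C₁]
    · rw [abs_of_nonpos hv]
      nlinarith

theorem integrable_exp_abs {c : ℝ} (hc : 0 < c) :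
    Integrable (fun u : ℝ => Real.exp (-c * |u|)) := by
  rw [← integrableOn_univ, ← Set.Iic_union_Ioi (a := (0 : ℝ))]
  refine IntegrableOn.union ?_ ?_
  · refine (integrableOn_exp_mul_Iic hc 0).congr_fun (fun x hx => ?_) measurableSet_Iic
    simp only
    rw [abs_of_nonpos hx]
    congr 1; ring
  · refine (exp_neg_integrableOn_Ioi 0 hc).congr_fun (fun x hx => ?_) measurableSet_Ioi
    simp only
    rw [abs_of_pos hx]

variable {ι : Type} [Fintype ι]

/-- The integrand. -/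
def ker (F : ℝ → ℝ) (x : ℝ) (v : ι → ℝ) : ℝ :=
  (∏ σ, F (v σ)) * Real.exp (-2 * (∑ σ, v σ - x) ^ 2 + (∑ σ, v σ - x) / 2)

theorem OK.ker_le {F : ℝ → ℝ} (h : OK F) {a : ℝ} (ha : 0 < a) : ∃ (C : ℝ) (g : (ι → ℝ) → ℝ),
    0 ≤ C ∧ Integrable g ∧ (∀ v, 0 ≤ g v) ∧
      ∀ x v, |ker F x v| ≤ C * Real.exp (-a * x) * g v := by
  obtain ⟨C, δ, hC, hδ, H⟩ := h.bound ha
  refine ⟨C ^ Fintype.card ι * Real.exp ((a - 1 / 2) ^ 2 / 8),
    fun v => ∏ σ, Real.exp (-δ * |v σ|), by positivity,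
    Integrable.fintype_prod (f := fun _ u => Real.exp (-δ * |u|)) fun _ => integrable_exp_abs hδ,
    fun v => Finset.prod_nonneg fun _ _ => (Real.exp_pos _).le, fun x v => ?_⟩
  have h1 : |∏ σ, F (v σ)| ≤ C ^ Fintype.card ι * Real.exp (-a * ∑ σ, v σ) *
      ∏ σ, Real.exp (-δ * |v σ|) := by
    rw [Finset.abs_prod]
    refine (Finset.prod_le_prod (fun _ _ => abs_nonneg _) fun σ _ => H (v σ)).trans_eq ?_
    rw [Finset.prod_mul_distrib, Finset.prod_mul_distrib, Finset.prod_const, Finset.card_univ,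
      ← Real.exp_sum, ← Finset.mul_sum]
  have h2 : Real.exp (-a * ∑ σ, v σ) *
      Real.exp (-2 * (∑ σ, v σ - x) ^ 2 + (∑ σ, v σ - x) / 2) ≤
      Real.exp ((a - 1 / 2) ^ 2 / 8) * Real.exp (-a * x) := by
    rw [← Real.exp_add, ← Real.exp_add]
    refine Real.exp_le_exp.2 ?_
    nlinarith [sq_nonneg (4 * (∑ σ, v σ - x) + (a - 1 / 2))]
  have h3 : 0 ≤ ∏ σ, Real.exp (-δ * |v σ|) := Finset.prod_nonneg fun _ _ => (Real.exp_pos _).le
  rw [ker, abs_mul, abs_of_pos (Real.exp_pos _)]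
  calc _ ≤ C ^ Fintype.card ι * Real.exp (-a * ∑ σ, v σ) * (∏ σ, Real.exp (-δ * |v σ|)) *
        Real.exp (-2 * (∑ σ, v σ - x) ^ 2 + (∑ σ, v σ - x) / 2) := by gcongr
    _ = C ^ Fintype.card ι * (Real.exp (-a * ∑ σ, v σ) *
        Real.exp (-2 * (∑ σ, v σ - x) ^ 2 + (∑ σ, v σ - x) / 2)) *
        ∏ σ, Real.exp (-δ * |v σ|) := by ring
    _ ≤ C ^ Fintype.card ι * (Real.exp ((a - 1 / 2) ^ 2 / 8) * Real.exp (-a * x)) *
        ∏ σ, Real.exp (-δ * |v σ|) := by gcongr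
    _ = _ := by ring

theorem OK.continuous_ker {F : ℝ → ℝ} (h : OK F) :
    Continuous fun p : ℝ × (ι → ℝ) => ker F p.1 p.2 := by
  have := h.1
  unfold ker
  fun_prop

theorem OK.integrable {F : ℝ → ℝ} (h : OK F) (x : ℝ) : Integrable (ker (ι := ι) F x) := by
  obtain ⟨C, g, -, hg, -, H⟩ := h.ker_le (ι := ι) one_pos
  exact (hg.const_mul _).mono'
    (h.continuous_ker.comp (Continuous.prodMk_right x)).aestronglyMeasurable
    (Filter.Eventually.of_forall fun v => H x v)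

theorem OK.integral_le {F : ℝ → ℝ} (h : OK F) {a : ℝ} (ha : 0 < a) :
    ∃ C : ℝ, ∀ x, |∫ v : ι → ℝ, ker F x v| ≤ C * Real.exp (-a * x) := by
  obtain ⟨C, g, -, hg, -, H⟩ := h.ker_le (ι := ι) ha
  refine ⟨C * ∫ v, g v, fun x => ?_⟩
  have h1 : ‖∫ v : ι → ℝ, ker F x v‖ ≤ ∫ v : ι → ℝ, C * Real.exp (-a * x) * g v :=
    norm_integral_le_of_norm_le (hg.const_mul _) (Filter.Eventually.of_forall fun v => H x v)
  refine h1.trans_eq ?_
  rw [integral_const_mul]
  ring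

theorem OK.continuous_integral {F : ℝ → ℝ} (h : OK F) :
    Continuous fun x => ∫ v : ι → ℝ, ker F x v := by
  obtain ⟨C, g, hC, hg, hg0, H⟩ := h.ker_le (ι := ι) one_pos
  refine continuous_iff_continuousAt.2 fun x₀ => continuousAt_of_dominated
    (bound := fun v => C * Real.exp (-1 * (x₀ - 1)) * g v)
    (Filter.Eventually.of_forall fun x =>
      (h.continuous_ker.comp (Continuous.prodMk_right x)).aestronglyMeasurable) ?_
    (hg.const_mul _) (Filter.Eventually.of_forall fun v =>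
      (h.continuous_ker.comp (Continuous.prodMk_left v)).continuousAt)
  filter_upwards [Ioi_mem_nhds (sub_one_lt x₀)] with x hx
  refine Filter.Eventually.of_forall fun v => (H x v).trans ?_
  have h1 : Real.exp (-1 * x) ≤ Real.exp (-1 * (x₀ - 1)) :=
    Real.exp_le_exp.2 (by linarith [Set.mem_Ioi.1 hx])
  have := hg0 v
  gcongr

theorem gauss_eq (S : ℝ) (s : ℂ) (x : ℝ) :
    (Real.exp (-2 * (S - x) ^ 2 + (S - x) / 2) : ℂ) * Complex.exp (s * x) =
      Complex.exp (-2 * x ^ 2 + (4 * S - 1 / 2 + s) * x + (-2 * S ^ 2 + S / 2)) := by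
  rw [Complex.ofReal_exp, ← Complex.exp_add]
  congr 1
  push_cast
  ring

theorem gauss_integrable (S : ℝ) (s : ℂ) : Integrable fun x : ℝ =>
    (Real.exp (-2 * (S - x) ^ 2 + (S - x) / 2) : ℂ) * Complex.exp (s * x) := by
  simp only [gauss_eq]
  exact integrable_cexp_quadratic' (b := -2) (by norm_num) _ _

theorem gauss_integral (S : ℝ) (s : ℂ) :
    ∫ x : ℝ, (Real.exp (-2 * (S - x) ^ 2 + (S - x) / 2) : ℂ) * Complex.exp (s * x) =
      (Real.sqrt (Real.pi / 2) : ℂ) * Complex.exp ((s - 1 / 2) ^ 2 / 8) * Complex.exp (s * S) := by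
  simp only [gauss_eq]
  rw [integral_cexp_quadratic (b := -2) (by norm_num), mul_assoc, ← Complex.exp_add,
    Real.sqrt_eq_rpow, Complex.ofReal_cpow (by positivity)]
  congr 2
  · push_cast
    ring
  · push_cast
    ring
  · ring

theorem gauss_integral_norm (S : ℝ) (s : ℂ) :
    ∫ x : ℝ, ‖(Real.exp (-2 * (S - x) ^ 2 + (S - x) / 2) : ℂ) * Complex.exp (s * x)‖ =
      Real.sqrt (Real.pi / 2) * Real.exp ((s.re - 1 / 2) ^ 2 / 8) * Real.exp (s.re * S) := by
  apply Complex.ofReal_injective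
  have h := gauss_integral S s.re
  rw [← integral_complex_ofReal]
  push_cast at h ⊢
  rw [← h]
  refine integral_congr_ae (Filter.Eventually.of_forall fun x => ?_)
  have h1 : (s * x).re = s.re * x := by simp
  have h2 : -2 * ((S : ℂ) - x) ^ 2 + (S - x) / 2 = ((-2 * (S - x) ^ 2 + (S - x) / 2 : ℝ) : ℂ) := by
    push_cast
    ring
  simp only
  rw [h2, norm_mul, Complex.norm_exp, Complex.norm_exp, h1, Complex.ofReal_re]
  push_cast
  ring

theorem OK.integrable_one {F : ℝ → ℝ} (h : OK F) {s : ℂ} (hs : 0 < s.re) :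
    Integrable fun v : ℝ => (F v : ℂ) * Complex.exp (s * v) := by
  obtain ⟨C, δ, -, hδ, H⟩ := h.bound hs
  have := h.1
  refine ((integrable_exp_abs hδ).const_mul C).mono' (Continuous.aestronglyMeasurable (by fun_prop))
    (Filter.Eventually.of_forall fun v => ?_)
  have h1 : (s * v).re = s.re * v := by simp
  rw [norm_mul, Complex.norm_real, Complex.norm_exp, h1, Real.norm_eq_abs]
  refine (mul_le_mul_of_nonneg_right (H v) (Real.exp_pos _).le).trans_eq ?_
  rw [mul_right_comm, mul_assoc C, ← Real.exp_add]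
  simp

theorem OK.mellin {F : ℝ → ℝ} (h : OK F) {s : ℂ} (hs : 0 < s.re) :
    Integrable (fun x : ℝ => ((∫ v : ι → ℝ, ker F x v : ℝ) : ℂ) * Complex.exp (s * x)) ∧
    ∫ x : ℝ, ((∫ v : ι → ℝ, ker F x v : ℝ) : ℂ) * Complex.exp (s * x) =
      (Real.sqrt (Real.pi / 2) : ℂ) * Complex.exp ((s - 1 / 2) ^ 2 / 8) *
        (∫ v : ℝ, (F v : ℂ) * Complex.exp (s * v)) ^ Fintype.card ι := by
  have hc := h.continuous_ker (ι := ι)
  have e1 : ∀ (x : ℝ) (v : ι → ℝ), (ker F x v : ℂ) * Complex.exp (s * x) =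
      ((∏ σ, F (v σ) : ℝ) : ℂ) * ((Real.exp (-2 * (∑ σ, v σ - x) ^ 2 + (∑ σ, v σ - x) / 2) : ℂ) *
        Complex.exp (s * x)) := fun x v => by
    rw [ker, Complex.ofReal_mul, mul_assoc]
  have e2 : ∀ v : ι → ℝ, ((∏ σ, F (v σ) : ℝ) : ℂ) * Complex.exp (s * (∑ σ, v σ : ℝ)) =
      ∏ σ, ((F (v σ) : ℂ) * Complex.exp (s * v σ)) := fun v => by
    rw [Finset.prod_mul_distrib, ← Complex.exp_sum, ← Finset.mul_sum]
    push_cast
    rfl
  have hP : Integrable fun v : ι → ℝ => ∏ σ, ((F (v σ) : ℂ) * Complex.exp (s * v σ)) :=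
    Integrable.fintype_prod (f := fun _ (u : ℝ) => (F u : ℂ) * Complex.exp (s * u))
      fun _ => h.integrable_one hs
  have hI : Integrable (Function.uncurry fun (x : ℝ) (v : ι → ℝ) =>
      (ker F x v : ℂ) * Complex.exp (s * x)) (volume.prod volume) := by
    refine (integrable_prod_iff' (Continuous.aestronglyMeasurable ?_)).2
      ⟨Filter.Eventually.of_forall fun v => ?_, ?_⟩
    · exact (Complex.continuous_ofReal.comp hc).mul (by fun_prop)
    · simp only [Function.uncurry_apply_pair, e1]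
      exact (gauss_integrable _ s).const_mul _
    · refine (hP.norm.const_mul
        (Real.sqrt (Real.pi / 2) * Real.exp ((s.re - 1 / 2) ^ 2 / 8))).congr
        (Filter.Eventually.of_forall fun v => ?_)
      simp only [Function.uncurry_apply_pair, e1]
      simp only [norm_mul (((∏ σ, F (v σ) : ℝ) : ℂ))]
      have h1 : (s * (∑ σ, v σ : ℝ)).re = s.re * ∑ σ, v σ := by
        rw [Complex.mul_re, Complex.ofReal_re, Complex.ofReal_im, mul_zero, sub_zero]
      rw [integral_const_mul, gauss_integral_norm, ← e2, norm_mul, Complex.norm_exp, h1]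
      ring
  have e3 : ∀ x : ℝ, ((∫ v : ι → ℝ, ker F x v : ℝ) : ℂ) * Complex.exp (s * x) =
      ∫ v : ι → ℝ, (ker F x v : ℂ) * Complex.exp (s * x) := fun x => by
    rw [integral_mul_const, integral_complex_ofReal]
  simp only [e3]
  refine ⟨hI.integral_prod_left, ?_⟩
  rw [integral_integral_swap hI, ← integral_fintype_prod_volume_eq_pow, ← integral_const_mul]
  refine integral_congr_ae (Filter.Eventually.of_forall fun v => ?_)
  simp only [e1]
  rw [integral_const_mul, gauss_integral, ← e2]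
  ring

theorem OK.summable {E : Type} [Field E] [NumberField E] [Om E] {a : E → ℂ} {D : ℕ} {H B : ℝ}
    (hD : D ≠ 0) (hB : 0 ≤ B)
    (ha : ∀ ν, a ν ≠ 0 → ν ≠ 0 ∧ IsIntegral ℤ ((D : E) * ν) ∧ ‖a ν‖ ≤ H * nr ν ^ B)
    {F : ℝ → ℝ} (h : OK F) (η : Pl E → ℝ) :
    Summable fun ν => ‖a ν * ((∏ σ, F (lg ν σ + η σ) : ℝ) : ℂ)‖ := by
  classical
  obtain ⟨C, HC⟩ := h.2 (B + 1) (by linarith)
  obtain ⟨C', -, H'⟩ := tsum_lattice_le (E := E) (δ := 1 / 2) (by norm_num) (le_refl 1)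
  refine Summable.of_nonneg_of_le (fun _ => norm_nonneg _) (fun ν => ?_)
    (((H' (D : E) η (Nat.cast_ne_zero.2 hD)).1).mul_left
      (|H| * |C| ^ rk E * Real.exp (-B * ∑ σ, η σ)))
  by_cases h0 : a ν = 0
  · rw [h0, zero_mul, norm_zero]
    split_ifs <;> positivity
  obtain ⟨h1, h2, h3⟩ := ha ν h0
  rw [if_pos ⟨h1, h2⟩, norm_mul, Complex.norm_real, Real.norm_eq_abs, Finset.abs_prod]
  have h4 : ∏ σ, |F (lg ν σ + η σ)| ≤ |C| ^ rk E *
      Real.exp (∑ σ, (-(B + 1) * (η σ + lg ν σ) - |η σ + lg ν σ| / 2)) := by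
    refine (Finset.prod_le_prod (fun _ _ => abs_nonneg _) fun σ _ => (HC _).trans
      (mul_le_mul_of_nonneg_right (le_abs_self C) (Real.exp_pos _).le)).trans_eq ?_
    rw [Finset.prod_mul_distrib, Finset.prod_const, Finset.card_univ, ← Real.exp_sum]
    simp only [add_comm (lg ν _)]
  have h5 : ‖a ν‖ ≤ |H| * Real.exp (B * ∑ σ, lg ν σ) := by
    refine h3.trans ?_
    rw [← exp_sum_lg h1, ← Real.exp_mul, mul_comm _ B]
    exact mul_le_mul_of_nonneg_right (le_abs_self H) (Real.exp_pos _).le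
  refine (mul_le_mul h5 h4 (Finset.prod_nonneg fun _ _ => abs_nonneg _) (by positivity)).trans_eq ?_
  rw [mul_mul_mul_comm, mul_assoc (|H| * |C| ^ rk E), ← Real.exp_add, ← Real.exp_add]
  congr 2
  simp only [Finset.sum_sub_distrib, Finset.sum_add_distrib, ← Finset.mul_sum, ← Finset.sum_div]
  ring

end Crest.Agent.R312.TavA
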