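import Crest.Agent.R312.Arch
import Crest.Agent.R17.WeightAuxA

/-!
# Row 312: auxiliary facts for part B of `Tav.lean` (the weight `Gw`)
-/

set_option autoImplicit false

noncomputable section

namespace Crest.Agent.R312.TavB

open MeasureTheory

/-- Substitution `y = exp x` in a Mellin integral. -/
theorem integral_Ioi_eq (g : ℝ → ℂ) (s : ℂ) :
    ∫ y in Set.Ioi (0 : ℝ), (y : ℂ) ^ (s - 1) * g y =
      ∫ x : ℝ, g (Real.exp x) * Complex.exp (s * x) := by
  rw [← Real.range_exp, ← Set.image_univ, integral_image_eq_integral_abs_deriv_smul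
    MeasurableSet.univ (fun x _ => (Real.hasDerivAt_exp x).hasDerivWithinAt)
    Real.exp_injective.injOn, Measure.restrict_univ]
  refine integral_congr_ae (Filter.Eventually.of_forall fun x => ?_)
  simp only
  rw [abs_of_pos (Real.exp_pos x), R17.WA.cpow_eq (Real.exp_pos x), Real.log_exp,
    Complex.real_smul, Complex.ofReal_exp, ← mul_assoc, ← Complex.exp_add, mul_comm]
  congr 2
  ring

theorem integrableOn_Ioi_iff (g : ℝ → ℂ) (s : ℂ) :
    IntegrableOn (fun y : ℝ => (y : ℂ) ^ (s - 1) * g y) (Set.Ioi 0) ↔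
      Integrable fun x : ℝ => g (Real.exp x) * Complex.exp (s * x) := by
  rw [← Real.range_exp, ← Set.image_univ, integrableOn_image_iff_integrableOn_abs_deriv_smul
    MeasurableSet.univ (fun x _ => (Real.hasDerivAt_exp x).hasDerivWithinAt)
    Real.exp_injective.injOn, integrableOn_univ]
  refine integrable_congr (Filter.Eventually.of_forall fun x => ?_)
  simp only
  rw [abs_of_pos (Real.exp_pos x), R17.WA.cpow_eq (Real.exp_pos x), Real.log_exp,
    Complex.real_smul, Complex.ofReal_exp, ← mul_assoc, ← Complex.exp_add, mul_comm]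
  congr 2
  ring

/-- `∫ exp(-2π e^v) e^{s v} dv = (2π)^{-s} Γ(s)`. -/
theorem integral_gauss {s : ℂ} (hs : 0 < s.re) :
    ∫ v : ℝ, ((Real.exp (-(2 * Real.pi) * Real.exp v) : ℝ) : ℂ) * Complex.exp (s * v) =
      ((2 * Real.pi : ℝ) : ℂ) ^ (-s) * Complex.Gamma s := by
  have h := integral_Ioi_eq (fun y => ((Real.exp (-(2 * Real.pi) * y) : ℝ) : ℂ)) s
  rw [← h]
  have h2 := Complex.integral_cpow_mul_exp_neg_mul_Ioi hs (r := 2 * Real.pi) (by positivity)
  have h3 : ((1 : ℂ) / ((2 * Real.pi : ℝ) : ℂ)) ^ s = ((2 * Real.pi : ℝ) : ℂ) ^ (-s) := by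
    rw [one_div, Complex.inv_cpow _ _ ?_, Complex.cpow_neg]
    rw [Complex.arg_ofReal_of_nonneg (by positivity)]
    exact Real.pi_ne_zero.symm
  rw [← h3, ← h2]
  refine setIntegral_congr_fun measurableSet_Ioi fun y _ => ?_
  rw [Complex.ofReal_exp]
  congr 2
  push_cast
  ring

/-- The norm of the Gaussian factor on a vertical line. -/
theorem norm_exp_line (σ u : ℝ) :
    ‖Complex.exp (((σ : ℂ) + u * Complex.I - 1 / 2) ^ 2 / 8)‖ =
      Real.exp (((σ - 1 / 2) ^ 2 - u ^ 2) / 8) := by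
  rw [Complex.norm_exp]
  congr 1
  have : ((σ : ℂ) + u * Complex.I - 1 / 2) ^ 2 / 8 =
      ((((σ - 1 / 2) ^ 2 - u ^ 2) / 8 : ℝ) : ℂ) + (((σ - 1 / 2) * u / 4 : ℝ) : ℂ) * Complex.I := by
    push_cast
    linear_combination ((u : ℂ) ^ 2 / 8) * Complex.I_sq
  rw [this]
  simp only [Complex.add_re, Complex.ofReal_re, Complex.mul_re, Complex.I_re, mul_zero,
    Complex.ofReal_im, Complex.I_im, mul_one, sub_self, add_zero]

theorem norm_fac_le {σ : ℝ} (hσ : 0 < σ) (u : ℝ) :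
    ‖((2 * Real.pi : ℝ) : ℂ) ^ (-((σ : ℂ) + u * Complex.I)) *
      Complex.Gamma (σ + u * Complex.I)‖ ≤ (2 * Real.pi) ^ (-σ) * Real.Gamma σ := by
  have hre : ((σ : ℂ) + u * Complex.I).re = σ := by simp
  rw [norm_mul, Complex.norm_cpow_eq_rpow_re_of_pos (by positivity), Complex.neg_re, hre]
  refine mul_le_mul_of_nonneg_left ?_ (by positivity)
  have := R17.WA.norm_Gamma_le (s := σ + u * Complex.I) (by rw [hre]; exact hσ)
  rwa [hre] at this

theorem continuous_fac {σ : ℝ} (hσ : 0 < σ) : Continuous fun u : ℝ =>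
    ((2 * Real.pi : ℝ) : ℂ) ^ (-((σ : ℂ) + u * Complex.I)) *
      Complex.Gamma (σ + u * Complex.I) := by
  refine Continuous.mul ?_ (R17.WA.continuous_Gamma_line hσ)
  simp_rw [R17.WA.cpow_eq (show 0 < 2 * Real.pi by positivity)]
  fun_prop

theorem gauss_pow_le (J : ℕ) (u : ℝ) :
    Real.exp (-(u ^ 2) / 8) * (1 + |u|) ^ J ≤
      Real.exp (4 * (J : ℝ) ^ 2) * Real.exp (-(1 / 16) * u ^ 2) := by
  have h1 : (1 + |u|) ^ J ≤ Real.exp (J * |u|) := by
    rw [Real.exp_nat_mul]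
    exact pow_le_pow_left₀ (by positivity) (by linarith [Real.add_one_le_exp |u|]) _
  refine (mul_le_mul_of_nonneg_left h1 (Real.exp_pos _).le).trans ?_
  rw [← Real.exp_add, ← Real.exp_add, Real.exp_le_exp, ← sq_abs u]
  nlinarith [sq_nonneg (|u| - 8 * J)]

section Arch
variable {E : Type} [Field E] [NumberField E] [Om E]

/-- `tav` of a non-negative antitone kernel is antitone. -/
theorem tav_antitone {F : ℝ → ℝ} (h0 : ∀ v, 0 ≤ F v) (hF : Antitone F)
    (hi : ∀ x : ℝ, Integrable fun v : Pl E → ℝ =>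
      (∏ σ, F (v σ)) * Real.exp (-2 * (∑ σ, v σ - x) ^ 2 + (∑ σ, v σ - x) / 2)) :
    Antitone (tav E F) := by
  intro x x' hx
  obtain ⟨σ₀⟩ : Nonempty (Pl E) := inferInstance
  set d : Pl E → ℝ := Pi.single σ₀ (x' - x) with hd
  have hd0 : ∀ σ, 0 ≤ d σ := fun σ => by
    rw [hd]
    by_cases h : σ = σ₀
    · subst h; simpa using hx
    · simp [h]
  have hds : ∑ σ, d σ = x' - x := by simp [hd]
  have hs : ∀ v : Pl E → ℝ, ∑ σ, (v + d) σ - x' = ∑ σ, v σ - x := fun v => by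
    simp only [Pi.add_apply, Finset.sum_add_distrib, hds]
    ring
  have e : tav E F x' = ∫ v : Pl E → ℝ, (∏ σ, F ((v + d) σ)) *
      Real.exp (-2 * (∑ σ, (v + d) σ - x') ^ 2 + (∑ σ, (v + d) σ - x') / 2) := by
    rw [tav]
    exact (integral_add_right_eq_self (fun v : Pl E → ℝ => (∏ σ, F (v σ)) *
      Real.exp (-2 * (∑ σ, v σ - x') ^ 2 + (∑ σ, v σ - x') / 2)) d).symm
  rw [e, tav]
  refine integral_mono ((hi x').comp_add_right d) (hi x) fun v => ?_
  simp only [hs]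
  refine mul_le_mul_of_nonneg_right ?_ (Real.exp_pos _).le
  exact Finset.prod_le_prod (fun σ _ => h0 _) fun σ _ => hF (by simpa using hd0 σ)

theorem tav_pos {F : ℝ → ℝ} (h0 : ∀ v, 0 < F v) {x : ℝ}
    (hi : Integrable fun v : Pl E → ℝ =>
      (∏ σ, F (v σ)) * Real.exp (-2 * (∑ σ, v σ - x) ^ 2 + (∑ σ, v σ - x) / 2)) :
    0 < tav E F x := by
  have hp : ∀ v : Pl E → ℝ,
      0 < (∏ σ, F (v σ)) * Real.exp (-2 * (∑ σ, v σ - x) ^ 2 + (∑ σ, v σ - x) / 2) := fun v =>
    mul_pos (Finset.prod_pos fun σ _ => h0 _) (Real.exp_pos _)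
  rw [tav, integral_pos_iff_support_of_nonneg (fun v => (hp v).le) hi]
  have : (Function.support fun v : Pl E → ℝ =>
      (∏ σ, F (v σ)) * Real.exp (-2 * (∑ σ, v σ - x) ^ 2 + (∑ σ, v σ - x) / 2)) = Set.univ :=
    Set.eq_univ_of_forall fun v => (hp v).ne'
  rw [this]
  exact isOpen_univ.measure_pos _ Set.univ_nonempty

end Arch

theorem gauss_antitone : Antitone fun v : ℝ => Real.exp (-(2 * Real.pi) * Real.exp v) := by
  intro v w h
  refine Real.exp_le_exp.2 ?_
  have := Real.exp_le_exp.2 h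
  nlinarith [Real.pi_pos]

end Crest.Agent.R312.TavB
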