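import Crest.Agent.R312.Frame
import Crest.Agent.R312.Box

/-!
# Row 312: auxiliary lemmas for the torus averaging (`Tav.lean`, part C)
-/

set_option autoImplicit false

noncomputable section

namespace Crest.Agent.R312

open NumberField MeasureTheory

/-- A series of integrable functions with summable `L¹` norms is integrable. -/
theorem tavC_integrable_tsum {ι α : Type} [Countable ι] [MeasurableSpace α] {μ : Measure α}
    {g : ι → α → ℂ} (hg : ∀ i, Integrable (g i) μ) (hs : Summable fun i => ∫ a, ‖g i a‖ ∂μ) :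
    Integrable (fun a => ∑' i, g i a) μ := by
  refine ⟨AEStronglyMeasurable.tsum fun i => (hg i).1, ?_⟩
  have h1 : ∀ i, ∫⁻ a, ‖g i a‖ₑ ∂μ = ENNReal.ofReal (∫ a, ‖g i a‖ ∂μ) := fun i =>
    (ofReal_integral_norm_eq_lintegral_enorm (hg i)).symm
  calc ∫⁻ a, ‖∑' i, g i a‖ₑ ∂μ ≤ ∫⁻ a, ∑' i, ‖g i a‖ₑ ∂μ :=
        lintegral_mono fun a => enorm_tsum_le_tsum_enorm
    _ = ∑' i, ∫⁻ a, ‖g i a‖ₑ ∂μ := lintegral_tsum fun i => (hg i).1.enorm
    _ = ENNReal.ofReal (∑' i, ∫ a, ‖g i a‖ ∂μ) := by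
        simp only [h1]
        exact (ENNReal.ofReal_tsum_of_nonneg (fun i => integral_nonneg fun a => norm_nonneg _)
          hs).symm
    _ < ⊤ := ENNReal.ofReal_lt_top

/-- A partition of unity under the integral. -/
theorem tavC_hasSum_weight {ι α : Type} [Countable ι] [MeasurableSpace α] {μ : Measure α}
    {p : ι → α → ℝ} (hp : ∀ i, Measurable (p i)) (hp0 : ∀ i a, 0 ≤ p i a)
    (h1 : ∀ a, HasSum (fun i => p i a) 1) {G : α → ℝ} (hG : Integrable G μ) :
    (∀ i, Integrable (fun a => G a * p i a) μ) ∧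
      HasSum (fun i => ∫ a, G a * p i a ∂μ) (∫ a, G a ∂μ) := by
  have hle : ∀ (s : Finset ι) a, ∑ i ∈ s, p i a ≤ 1 := fun s a =>
    sum_le_hasSum s (fun i _ => hp0 i a) (h1 a)
  have hi : ∀ i, Integrable (fun a => G a * p i a) μ := fun i => by
    refine hG.mul_bdd (c := 1) (hp i).aestronglyMeasurable (Filter.Eventually.of_forall fun a => ?_)
    rw [Real.norm_of_nonneg (hp0 i a)]
    simpa using hle {i} a
  refine ⟨hi, ?_⟩
  have hs : Summable fun i => ∫ a, ‖G a * p i a‖ ∂μ := by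
    refine summable_of_sum_le (c := ∫ a, ‖G a‖ ∂μ)
      (fun i => integral_nonneg fun a => norm_nonneg _) fun s => ?_
    rw [← integral_finsetSum s fun i _ => (hi i).norm]
    refine integral_mono (integrable_finsetSum s fun i _ => (hi i).norm) hG.norm fun a => ?_
    have : ∀ i, ‖G a * p i a‖ = ‖G a‖ * p i a := fun i => by
      rw [norm_mul, Real.norm_of_nonneg (hp0 i a)]
    simp only [this]
    rw [← Finset.mul_sum]
    exact mul_le_of_le_one_right (norm_nonneg _) (hle s a)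
  have h := hasSum_integral_of_summable_integral_norm hi hs
  have h2 : ∀ a, ∑' i, G a * p i a = G a := fun a => by
    rw [tsum_mul_left, (h1 a).tsum_eq, mul_one]
  simpa only [h2] using h

theorem tavC_integrable_exp_abs : Integrable fun t : ℝ => Real.exp (-|t|) := by
  have h1 : IntegrableOn (fun t : ℝ => Real.exp (-|t|)) (Set.Ioi 0) := by
    refine (integrableOn_exp_neg_Ioi 0).congr_fun (fun t ht => ?_) measurableSet_Ioi
    simp only [abs_of_pos (show 0 < t from ht)]
  have h2 : IntegrableOn (fun t : ℝ => Real.exp (-|t|)) (Set.Iic 0) := by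
    refine (integrableOn_exp_Iic 0).congr_fun (fun t ht => ?_) measurableSet_Iic
    simp only [abs_of_nonpos (show t ≤ 0 from ht), neg_neg]
  have := h2.union h1
  rwa [Set.Iic_union_Ioi, integrableOn_univ] at this

variable {E : Type} [Field E] [NumberField E] [Fr E]

theorem tavC_sum_lg {j : ℕ} (hj : 1 ≤ j) {u : E} (hu : V j u) : ∑ σ, lg u σ = 0 := by
  rw [sum_lg (hu.ne_zero hj), hu.nr_eq hj, Real.log_one]

theorem tavC_summable_V {j : ℕ} (hj : 1 ≤ j) (η : Pl E → ℝ) :
    Summable fun u : {u : E // V j u} => Real.exp (-∑ σ, |η σ + lg (u : E) σ|) := by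
  obtain ⟨C, -, hC⟩ := tsum_units_le (E := E) one_pos
  choose v hv _ using fun u : {u : E // V j u} => (V_iff hj).1 u.2
  have hinj : Function.Injective v := fun u u' h => Subtype.ext (by rw [← hv u, ← hv u', h])
  refine ((hC η).1.comp_injective hinj).congr fun u => ?_
  simp only [Function.comp_apply, hv, neg_mul, one_mul]

theorem tavC_balanced {j : ℕ} (hj : 1 ≤ j) : ∃ C : ℝ, ∀ η : Pl E → ℝ, ∃ u : E, V j u ∧
    ∀ σ, |η σ + lg u σ - (∑ τ, η τ) / rk E| ≤ C := by
  obtain ⟨C, hC⟩ := exists_balanced (E := E) (N := mm E ^ j) (pow_ne_zero j Fr.m_ne)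
  refine ⟨C, fun η => ?_⟩
  obtain ⟨u, h1, h2⟩ := hC η
  exact ⟨_, (V_iff hj).2 ⟨u, rfl, h1⟩, h2⟩

/-- Multiplication by an element of `V j`. -/
def tavC_mul {j : ℕ} (hj : 1 ≤ j) {v : E} (hv : V j v) : {u : E // V j u} ≃ {u : E // V j u} where
  toFun u := ⟨v * u, hv.mul u.2⟩
  invFun u := ⟨v⁻¹ * u, (hv.inv hj).mul u.2⟩
  left_inv _ := Subtype.ext (inv_mul_cancel_left₀ (hv.ne_zero hj) _)
  right_inv _ := Subtype.ext (mul_inv_cancel_left₀ (hv.ne_zero hj) _)

/-- Inversion. -/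
def tavC_inv {j : ℕ} (hj : 1 ≤ j) : {u : E // V j u} ≃ {u : E // V j u} where
  toFun u := ⟨(u : E)⁻¹, u.2.inv hj⟩
  invFun u := ⟨(u : E)⁻¹, u.2.inv hj⟩
  left_inv _ := Subtype.ext (inv_inv _)
  right_inv _ := Subtype.ext (inv_inv _)

theorem tavC_torus_weight {j : ℕ} (hj : 1 ≤ j) : ∃ (ψ : (Pl E → ℝ) → ℝ) (C : ℝ), Measurable ψ ∧
    (∀ η, 0 < ψ η ∧ ψ η ≤ C * Real.exp (-∑ σ, |η σ - (∑ τ, η τ) / rk E|)) ∧
    (∀ η, ψ (-η) = ψ η) ∧ (∀ η (x : ℝ), ψ (fun σ => η σ + x) = ψ η) ∧
    ∀ η, HasSum (fun u : {u : E // V j u} => ψ (η + lg (u : E))) 1 := by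
  set ψ₀ : (Pl E → ℝ) → ℝ := fun η => Real.exp (-∑ σ, |η σ - (∑ τ, η τ) / rk E|) with hψ₀
  have hr : (rk E : ℝ) ≠ 0 := Nat.cast_ne_zero.2 (rk_pos (E := E)).ne'
  have hshift : ∀ η (u : E), V j u → ψ₀ (η + lg u) =
      Real.exp (-∑ σ, |(η σ - (∑ τ, η τ) / rk E) + lg u σ|) := by
    intro η u hu
    simp only [hψ₀, Pi.add_apply, Finset.sum_add_distrib, tavC_sum_lg hj hu, add_zero]
    congr 3
    funext σ
    ring_nf
  have hsum : ∀ η, Summable fun u : {u : E // V j u} => ψ₀ (η + lg (u : E)) := fun η =>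
    (tavC_summable_V hj fun σ => η σ - (∑ τ, η τ) / rk E).congr fun u => (hshift η u u.2).symm
  set S : (Pl E → ℝ) → ℝ := fun η => ∑' u : {u : E // V j u}, ψ₀ (η + lg (u : E)) with hS
  obtain ⟨C, hC⟩ := tavC_balanced (E := E) hj
  have hlow : ∀ η, Real.exp (-(rk E * C)) ≤ S η := by
    intro η
    obtain ⟨u, hu, h⟩ := hC η
    refine le_trans ?_ ((hsum η).le_tsum ⟨u, hu⟩ fun _ _ => (Real.exp_pos _).le)
    rw [hshift η u hu]
    refine Real.exp_le_exp.2 (neg_le_neg ?_)
    calc ∑ σ, |(η σ - (∑ τ, η τ) / rk E) + lg u σ| ≤ ∑ _σ : Pl E, C :=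
          Finset.sum_le_sum fun σ _ => by
            rw [show η σ - (∑ τ, η τ) / rk E + lg u σ = η σ + lg u σ - (∑ τ, η τ) / rk E by ring]
            exact h σ
      _ = _ := by rw [Finset.sum_const, Finset.card_univ, nsmul_eq_mul]
  have hpos : ∀ η, 0 < S η := fun η => (Real.exp_pos _).trans_le (hlow η)
  have hm0 : Measurable ψ₀ := by
    rw [hψ₀]
    exact Continuous.measurable (by fun_prop)
  have hneg0 : ∀ η, ψ₀ (-η) = ψ₀ η := by
    intro η
    simp only [hψ₀, Pi.neg_apply, Finset.sum_neg_distrib]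
    congr 3
    funext σ
    rw [← abs_neg]
    ring_nf
  have hx0 : ∀ η (x : ℝ), ψ₀ (fun σ => η σ + x) = ψ₀ η := by
    intro η x
    simp only [hψ₀, Finset.sum_add_distrib, Finset.sum_const, Finset.card_univ, nsmul_eq_mul]
    congr 3
    funext σ
    congr 1
    field_simp
    ring
  have hSV : ∀ η (v : E), V j v → S (η + lg v) = S η := by
    intro η v hv
    simp only [hS]
    rw [← (tavC_mul hj hv).tsum_eq fun u : {u : E // V j u} => ψ₀ (η + lg (u : E))]
    refine tsum_congr fun u => ?_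
    rw [add_assoc, ← lg_mul (hv.ne_zero hj) (u.2.ne_zero hj)]
    rfl
  refine ⟨fun η => ψ₀ η / S η, Real.exp (rk E * C), ?_, fun η => ⟨?_, ?_⟩, fun η => ?_,
    fun η x => ?_, fun η => ?_⟩
  · exact hm0.div (Measurable.tsum fun u => hm0.comp (measurable_id.add_const _))
  · exact div_pos (Real.exp_pos _) (hpos η)
  · rw [div_le_iff₀ (hpos η)]
    have h1 : ψ₀ η = Real.exp (rk E * C) * ψ₀ η * Real.exp (-(rk E * C)) := by
      rw [mul_right_comm, ← Real.exp_add, add_neg_cancel, Real.exp_zero, one_mul]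
    exact h1.trans_le (mul_le_mul_of_nonneg_left (hlow η) (by positivity))
  · have : S (-η) = S η := by
      simp only [hS]
      rw [← (tavC_inv hj).tsum_eq fun u : {u : E // V j u} => ψ₀ (η + lg (u : E))]
      refine tsum_congr fun u => ?_
      rw [← hneg0]
      congr 1
      show -(-η + lg (u : E)) = η + lg (u : E)⁻¹
      rw [lg_inv]
      abel
    simp only [hneg0, this]
  · have : S (fun σ => η σ + x) = S η := by
      simp only [hS]
      refine tsum_congr fun u => ?_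
      rw [← hx0 (η + lg (u : E)) x]
      congr 1
      funext σ
      simp only [Pi.add_apply]
      ring
    simp only [hx0, this]
  · have h := (hsum η).hasSum.div_const (S η)
    rw [show (∑' u : {u : E // V j u}, ψ₀ (η + lg (u : E))) = S η from rfl,
      div_self (hpos η).ne'] at h
    simpa only [fun u : {u : E // V j u} => hSV η u u.2] using h

open Classical in
/-- The zeta function of a lattice modulo units converges at `2`. -/
theorem tavC_summable_Fd {j : ℕ} (hj : 1 ≤ j) {D : ℕ} (hD : D ≠ 0) :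
    Summable fun ν : E => if Fd j ν ∧ IsIntegral ℤ ((D : E) * ν) then
      Real.exp (-2 * Real.log (nr ν)) else 0 := by
  obtain ⟨C, hC⟩ := tavC_balanced (E := E) hj
  obtain ⟨C', -, hC'⟩ := tsum_lattice_le (E := E) one_pos (le_refl 1)
  have hD' : (D : E) ≠ 0 := Nat.cast_ne_zero.2 hD
  have h1 := (hC' (D : E) 0 hD').1
  choose u hu hb using fun ν : E => hC (lg ν)
  have hr : (0 : ℝ) < rk E := Nat.cast_pos.2 (rk_pos (E := E))
  set P : E → Prop := fun ν => Fd j ν ∧ IsIntegral ℤ ((D : E) * ν) with hP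
  have hinj : Function.Injective fun ν : {ν // P ν} => u ν * ν := by
    intro ν μ h
    have h' : u ν * ν = u μ * μ := h
    refine Subtype.ext (Fd.eq hj μ.2.1 ν.2.1 (((hu ν).inv hj).mul (hu μ)) ?_)
    rw [mul_assoc, ← h', inv_mul_cancel_left₀ ((hu ν).ne_zero hj)]
  have h2 := (h1.comp_injective hinj).mul_left
    (Real.exp (rk E * C + 2 * |Real.log (nr (D : E))|))
  have h3 : Summable fun ν : {ν // P ν} => Real.exp (-2 * Real.log (nr (ν : E))) := by
    refine Summable.of_nonneg_of_le (fun _ => (Real.exp_pos _).le) (fun ν => ?_) h2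
    have hν : (ν : E) ≠ 0 := ν.2.1.1
    have hu0 := (hu ν).ne_zero hj
    have hint : IsIntegral ℤ ((D : E) * (u ν * ν)) := by
      obtain ⟨v, hv, -⟩ := (V_iff hj).1 (hu ν)
      rw [mul_left_comm, ← hv]
      exact (v : 𝓞 E).isIntegral_coe.mul ν.2.2
    simp only [Function.comp_apply]
    rw [if_pos ⟨mul_ne_zero hu0 hν, hint⟩, ← Real.exp_add]
    refine Real.exp_le_exp.2 ?_
    simp only [Pi.zero_apply, zero_add]
    have e1 : ∑ σ, lg (u ν * ν) σ = Real.log (nr (ν : E)) := by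
      rw [sum_lg (mul_ne_zero hu0 hν), nr_mul, (hu ν).nr_eq hj, one_mul]
    have e2 : ∑ σ, |lg (u ν * ν) σ| ≤ rk E * C + |Real.log (nr (ν : E))| := by
      calc ∑ σ, |lg (u ν * ν) σ| ≤ ∑ _σ : Pl E, (C + |Real.log (nr (ν : E))| / rk E) := by
            refine Finset.sum_le_sum fun σ _ => ?_
            have h4 := hb ν σ
            rw [sum_lg hν] at h4
            rw [lg_mul hu0 hν, Pi.add_apply]
            have h5 := abs_add_le (lg (ν : E) σ + lg (u ν) σ - Real.log (nr (ν : E)) / rk E)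
              (Real.log (nr (ν : E)) / rk E)
            rw [sub_add_cancel, add_comm (lg (ν : E) σ), abs_div, abs_of_pos hr] at h5
            rw [add_comm (lg (ν : E) σ)] at h4
            linarith
        _ = _ := by
            rw [Finset.sum_const, Finset.card_univ, nsmul_eq_mul]
            field_simp
    have e3 : 0 ≤ Real.log (nr (D : E)) + Real.log (nr (ν : E)) := by
      rw [← Real.log_mul (nr_pos hD').ne' (nr_pos hν).ne', ← nr_mul]
      exact Real.log_nonneg (one_le_nr (mul_ne_zero hD' hν) ν.2.2)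
    have e4 : |Real.log (nr (ν : E))| ≤ Real.log (nr (ν : E)) + 2 * |Real.log (nr (D : E))| := by
      have := le_abs_self (Real.log (nr (D : E)))
      have := abs_nonneg (Real.log (nr (D : E)))
      exact abs_le.2 ⟨by linarith, by linarith⟩
    rw [e1]
    linarith
  have h := (summable_subtype_iff_indicator (s := {ν | P ν})
    (f := fun ν => Real.exp (-2 * Real.log (nr ν)))).1 h3
  refine h.congr fun ν => ?_
  by_cases hν : P ν
  · rw [Set.indicator_of_mem (show ν ∈ {ν | P ν} from hν), if_pos hν]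
  · rw [Set.indicator_of_notMem (show ν ∉ {ν | P ν} from hν), if_neg hν]

/-- The mass of the weight. -/
theorem tavC_kappa {ψ : (Pl E → ℝ) → ℝ} {C : ℝ} (hm : Measurable ψ)
    (hb : ∀ η, 0 < ψ η ∧ ψ η ≤ C * Real.exp (-∑ σ, |η σ - (∑ τ, η τ) / rk E|))
    (hx : ∀ η (x : ℝ), ψ (fun σ => η σ + x) = ψ η) : ∃ κ : ℝ, 0 < κ ∧ ∀ x : ℝ,
      Integrable (fun η : Pl E → ℝ =>
        ψ η * Real.exp (-2 * (∑ σ, η σ - x) ^ 2 + (∑ σ, η σ - x) / 2)) ∧
      ∫ η : Pl E → ℝ, ψ η * Real.exp (-2 * (∑ σ, η σ - x) ^ 2 + (∑ σ, η σ - x) / 2) = κ := by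
  have hr : (0 : ℝ) < rk E := Nat.cast_pos.2 (rk_pos (E := E))
  set g : (Pl E → ℝ) → ℝ := fun η => ψ η * Real.exp (-2 * (∑ σ, η σ) ^ 2 + (∑ σ, η σ) / 2)
    with hg
  have hC : 0 ≤ C := by
    have := (hb 0).1.trans_le (hb 0).2
    exact ((mul_pos_iff_of_pos_right (Real.exp_pos _)).1 this).le
  have hgi : Integrable g := by
    have h1 : Integrable fun η : Pl E → ℝ => ∏ σ, Real.exp (-|η σ|) :=
      Integrable.fintype_prod (f := fun (_ : Pl E) (t : ℝ) => Real.exp (-|t|))
        fun _ => tavC_integrable_exp_abs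
    refine (h1.const_mul (C * Real.exp 1)).mono'
      (hm.mul (Continuous.measurable (by fun_prop))).aestronglyMeasurable
      (Filter.Eventually.of_forall fun η => ?_)
    rw [Real.norm_of_nonneg (mul_pos (hb η).1 (Real.exp_pos _)).le]
    refine (mul_le_mul_of_nonneg_right (hb η).2 (Real.exp_pos _).le).trans ?_
    rw [← Real.exp_sum, mul_assoc, mul_assoc, ← Real.exp_add, ← Real.exp_add]
    refine mul_le_mul_of_nonneg_left (Real.exp_le_exp.2 ?_) hC
    set y := ∑ σ, η σ with hy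
    have h2 : ∑ σ, |η σ| ≤ ∑ σ, |η σ - y / rk E| + |y| := by
      calc ∑ σ, |η σ| ≤ ∑ σ, (|η σ - y / rk E| + |y| / rk E) := by
            refine Finset.sum_le_sum fun σ _ => ?_
            have h5 := abs_add_le (η σ - y / rk E) (y / rk E)
            rwa [sub_add_cancel, abs_div, abs_of_pos hr] at h5
        _ = _ := by
            rw [Finset.sum_add_distrib, Finset.sum_const, Finset.card_univ, nsmul_eq_mul,
              mul_div_cancel₀ _ hr.ne']
    rw [Finset.sum_neg_distrib]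
    have h3 := le_abs_self y
    nlinarith [sq_abs y, sq_nonneg (|y| - 1 / 2)]
  have hgp : 0 < ∫ η, g η := by
    rw [integral_pos_iff_support_of_nonneg (fun η => (mul_pos (hb η).1 (Real.exp_pos _)).le) hgi]
    have : Function.support g = Set.univ :=
      Set.eq_univ_of_forall fun η => (mul_pos (hb η).1 (Real.exp_pos _)).ne'
    rw [this]
    exact isOpen_univ.measure_pos _ Set.univ_nonempty
  refine ⟨∫ η, g η, hgp, fun x => ?_⟩
  have he : (fun η : Pl E → ℝ =>
      ψ η * Real.exp (-2 * (∑ σ, η σ - x) ^ 2 + (∑ σ, η σ - x) / 2)) =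
      fun η => g (η + fun _ => -(x / rk E)) := by
    funext η
    have h1 : ∑ σ, (η + fun _ => -(x / rk E) : Pl E → ℝ) σ = ∑ σ, η σ - x := by
      simp only [Pi.add_apply, Finset.sum_add_distrib, Finset.sum_const, Finset.card_univ,
        nsmul_eq_mul]
      field_simp
      ring
    simp only [hg, h1]
    congr 1
    exact (hx η _).symm
  rw [he]
  exact ⟨hgi.comp_add_right _, integral_add_right_eq_self g _⟩

open Classical in
/-- Unfolding of one side of the torus average. -/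
theorem tavC_key {j : ℕ} (hj : 1 ≤ j) {ψ : (Pl E → ℝ) → ℝ} (hm : Measurable ψ)
    (h0 : ∀ η, 0 ≤ ψ η) (hneg : ∀ η, ψ (-η) = ψ η)
    (h1 : ∀ η, HasSum (fun u : {u : E // V j u} => ψ (η + lg (u : E))) 1) {F : ℝ → ℝ}
    (hF : ∀ x : ℝ, Integrable fun v : Pl E → ℝ =>
      (∏ σ, F (v σ)) * Real.exp (-2 * (∑ σ, v σ - x) ^ 2 + (∑ σ, v σ - x) / 2))
    {a : E → ℂ} (ha0 : a 0 = 0) (hinv : Inv j a) (γ : Pl E → ℝ) (x : ℝ)
    (hs : Summable fun ν => if Fd j ν then
      ‖a ν‖ * tav E (fun v => |F v|) (Real.log (nr ν) + (∑ σ, γ σ + x)) else 0) :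
    Integrable (fun η : Pl E → ℝ => (∑' ν, a ν * ((∏ σ, F (lg ν σ + η σ + γ σ) : ℝ) : ℂ)) *
      ((ψ η * Real.exp (-2 * (∑ σ, η σ - x) ^ 2 + (∑ σ, η σ - x) / 2) : ℝ) : ℂ)) ∧
    ∫ η : Pl E → ℝ, (∑' ν, a ν * ((∏ σ, F (lg ν σ + η σ + γ σ) : ℝ) : ℂ)) *
      ((ψ η * Real.exp (-2 * (∑ σ, η σ - x) ^ 2 + (∑ σ, η σ - x) / 2) : ℝ) : ℂ) =
      ∑' ν, if Fd j ν then a ν * (tav E F (Real.log (nr ν) + (∑ σ, γ σ + x)) : ℂ) else 0 := by
  -- the kernels
  set G : (ℝ → ℝ) → ℝ → (Pl E → ℝ) → ℝ := fun H y v =>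
    (∏ σ, H (v σ)) * Real.exp (-2 * (∑ σ, v σ - y) ^ 2 + (∑ σ, v σ - y) / 2) with hG
  set y : E → ℝ := fun ν => Real.log (nr ν) + (∑ σ, γ σ + x) with hy
  have habs : ∀ z v, |G F z v| = G (fun t => |F t|) z v := fun z v => by
    simp only [hG, abs_mul, Finset.abs_prod, abs_of_pos (Real.exp_pos _)]
  have hA : ∀ z, Integrable (G (fun t => |F t|) z) := fun z =>
    (hF z).abs.congr (Filter.Eventually.of_forall fun v => habs z v)
  set q : (ℝ → ℝ) → E → (Pl E → ℝ) → ℝ := fun H ν η => G H (y ν) (η + (lg ν + γ)) * ψ η with hq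
  have hW : ∀ (H : (Pl E → ℝ) → ℝ), Integrable H → ∀ c : Pl E → ℝ,
      (∀ u : {u : E // V j u}, Integrable fun η => H (η + (lg (u : E) + c)) * ψ η) ∧
      HasSum (fun u : {u : E // V j u} => ∫ η, H (η + (lg (u : E) + c)) * ψ η) (∫ v, H v) := by
    intro H hH c
    obtain ⟨h2, h3⟩ := tavC_hasSum_weight (μ := volume)
      (p := fun (u : {u : E // V j u}) v => ψ (c - v + lg (u : E)))
      (fun u => hm.comp ((measurable_const.sub measurable_id).add_const _)) (fun _ _ => h0 _)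
      (fun v => h1 (c - v)) hH
    have he : ∀ u : {u : E // V j u}, (fun η => H (η + (lg (u : E) + c)) * ψ η) =
        fun η => (fun v => H v * ψ (c - v + lg (u : E))) (η + (lg (u : E) + c)) := by
      intro u
      funext η
      rw [← hneg η]
      congr 2
      abel
    refine ⟨fun u => ?_, ?_⟩
    · rw [he u]
      exact (h2 u).comp_add_right _
    · have h4 : (fun u : {u : E // V j u} => ∫ η, H (η + (lg (u : E) + c)) * ψ η) =
          fun u : {u : E // V j u} => ∫ v, H v * ψ (c - v + lg (u : E)) := by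
        funext u
        rw [he u]
        exact integral_add_right_eq_self (fun v => H v * ψ (c - v + lg (u : E))) _
      rw [h4]
      exact h3
  have hqV : ∀ (H : ℝ → ℝ) (ν : E), ν ≠ 0 → ∀ u : {u : E // V j u},
      q H (u * ν) = fun η => G H (y ν) (η + (lg (u : E) + (lg ν + γ))) * ψ η := by
    intro H ν hν u
    funext η
    simp only [hq, hy]
    rw [nr_mul, u.2.nr_eq hj, one_mul, lg_mul (u.2.ne_zero hj) hν, add_assoc (lg (u : E))]
  have hqi : ∀ ν : E, ν ≠ 0 → Integrable (q F ν) := fun ν hν => by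
    have := (hW _ (hF (y ν)) (lg ν + γ)).1 ⟨1, V_one j⟩
    rw [← hqV F ν hν ⟨1, V_one j⟩] at this
    simpa only [one_mul] using this
  set g : E → (Pl E → ℝ) → ℂ := fun ν η => a ν * ((q F ν η : ℝ) : ℂ) with hg
  have hgi : ∀ ν, Integrable (g ν) := fun ν => by
    by_cases hν : ν = 0
    · simp only [hg, hν, ha0, zero_mul]
      exact integrable_zero _ _ _
    · exact (hqi ν hν).ofReal.const_mul _
  have hgn : ∀ ν, ∫ η, ‖g ν η‖ = ‖a ν‖ * ∫ η, q (fun t => |F t|) ν η := fun ν => by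
    rw [← integral_const_mul]
    refine integral_congr_ae (Filter.Eventually.of_forall fun η => ?_)
    simp only [hg, hq, norm_mul, Complex.norm_real, Real.norm_eq_abs, habs, abs_of_nonneg (h0 _)]
  have hgI : ∀ ν, ∫ η, g ν η = a ν * ((∫ η, q F ν η : ℝ) : ℂ) := fun ν => by
    simp only [hg]
    rw [integral_const_mul, integral_complex_ofReal]
  have hgs : Summable fun ν => ∫ η, ‖g ν η‖ := by
    have h2 : ∀ ν : {ν : E // Fd j ν}, HasSum
        (fun u : {u : E // V j u} => ∫ η, ‖g (u * ν) η‖)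
        (‖a ν‖ * tav E (fun v => |F v|) (y ν)) := by
      intro ν
      have := ((hW _ (hA (y ν)) (lg (ν : E) + γ)).2).mul_left ‖a ν‖
      have h4 : (fun u : {u : E // V j u} => ∫ η, ‖g (u * ν) η‖) = fun u : {u : E // V j u} =>
          ‖a ν‖ * ∫ η, G (fun t => |F t|) (y ν) (η + (lg (u : E) + (lg (ν : E) + γ))) * ψ η := by
        funext u
        rw [hgn, hinv _ _ u.2, hqV (fun t => |F t|) ν ν.2.1 u]
      rw [h4]
      exact this
    have h3 : Summable fun p : {ν : E // Fd j ν} × {u : E // V j u} =>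
        ∫ η, ‖g (p.2 * p.1) η‖ := by
      refine (summable_prod_of_nonneg fun p => integral_nonneg fun _ => norm_nonneg _).2
        ⟨fun ν => (h2 ν).summable, ?_⟩
      refine (hs.comp_injective (Subtype.val_injective (p := fun ν => Fd j ν))).congr fun ν => ?_
      simp only [Function.comp_apply]
      rw [if_pos ν.2, (h2 ν).tsum_eq]
    have h4 : Summable fun ν : {ν : E // ν ≠ 0} => ∫ η, ‖g ν η‖ :=
      (frC2_unf hj).summable_iff.1 h3
    have h5 := (summable_subtype_iff_indicator (s := {ν : E | ν ≠ 0})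
      (f := fun ν => ∫ η, ‖g ν η‖)).1 h4
    refine h5.congr fun ν => ?_
    by_cases hν : ν = 0
    · subst hν
      rw [Set.indicator_of_notMem (by simp), hgn, ha0, norm_zero, zero_mul]
    · exact Set.indicator_of_mem (show ν ∈ {ν : E | ν ≠ 0} from hν) _
  have he : (fun η : Pl E → ℝ => (∑' ν, a ν * ((∏ σ, F (lg ν σ + η σ + γ σ) : ℝ) : ℂ)) *
      ((ψ η * Real.exp (-2 * (∑ σ, η σ - x) ^ 2 + (∑ σ, η σ - x) / 2) : ℝ) : ℂ)) =
      fun η => ∑' ν, g ν η := by
    funext η
    rw [← tsum_mul_right]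
    refine tsum_congr fun ν => ?_
    by_cases hν : ν = 0
    · simp only [hg, hν, ha0, zero_mul]
    · have h2 : ∑ σ, (η + (lg ν + γ)) σ - y ν = ∑ σ, η σ - x := by
        simp only [hy, Pi.add_apply, Finset.sum_add_distrib, sum_lg hν]
        ring
      have h3 : ∀ σ, (η + (lg ν + γ)) σ = lg ν σ + η σ + γ σ := fun σ => by
        simp only [Pi.add_apply]
        ring
      simp only [hg, hq, hG]
      rw [h2]
      simp only [h3]
      push_cast
      ring
  rw [he]
  refine ⟨tavC_integrable_tsum hgi hgs, ?_⟩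
  have h6 := hasSum_integral_of_summable_integral_norm hgi hgs
  rw [← h6.tsum_eq, tsum_unfold hj h6.summable, hgI, ha0, zero_mul, zero_add]
  refine tsum_congr fun ν => ?_
  split_ifs with hν
  · have h7 := (Complex.hasSum_ofReal.2 (hW _ (hF (y ν)) (lg ν + γ)).2).mul_left (a ν)
    refine Eq.trans (tsum_congr fun u => ?_) h7.tsum_eq
    rw [hgI, hinv _ _ u.2, hqV F ν hν.1 u]
  · rfl

end Crest.Agent.R312
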