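import Crest.Agent.R312.Frame
import Crest.Agent.R312.Box
import Crest.Agent.R312.TavAuxA
import Crest.Agent.R312.TavAuxB
import Crest.Agent.R312.TavAuxC
import Crest.Agent.R17.ThetaUnf
import Crest.Agent.R17.ThetaDens

/-!
# Row 312: averaging over the norm-one torus modulo units
-/

set_option autoImplicit false

noncomputable section

namespace Crest.Agent.R312

open NumberField
open scoped ComplexConjugate

open MeasureTheory

/-- Admissible radial kernels (in the variable `v = log |z|²`). -/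
def KerOK (F : ℝ → ℝ) : Prop :=
  Continuous F ∧ ∀ a : ℝ, 1 / 2 ≤ a → ∃ C : ℝ, ∀ v, |F v| ≤ C * Real.exp (-a * v - |v| / 2)

theorem kerOK_gauss : KerOK fun v => Real.exp (-(2 * Real.pi) * Real.exp v) := by
  have h := TavA.ok_of_rpow (G := fun y => Real.exp (-y)) (by fun_prop) (fun A hA => by
    obtain ⟨C, hC, H⟩ := R17.G1_exp_le hA
    exact ⟨C, hC, fun y hy => by rw [abs_of_pos (Real.exp_pos _)]; exact H y hy⟩)
    (c := 2 * Real.pi) (by positivity)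
  simp only [neg_mul]
  exact h
theorem kerOK_U1 {c : ℝ} (hc : 0 < c) : KerOK fun v => R17.U1 (c * Real.exp v) :=
  TavA.ok_of_rpow R17.continuousOn_U1 (fun A hA => by
    obtain ⟨C, hC, H⟩ := R17.U1_le_rpow (A := A) (by linarith)
    exact ⟨C, hC, fun y hy => by rw [abs_of_nonneg (H y hy).1]; exact (H y hy).2⟩) hc

section Arch
variable {E : Type} [Field E] [NumberField E] [Om E]

/-- Coefficients of polynomial growth on the non-zero points of a lattice. -/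
def LatB (a : E → ℂ) : Prop := ∃ (D : ℕ) (H B : ℝ), D ≠ 0 ∧ 0 ≤ B ∧
  ∀ ν, a ν ≠ 0 → ν ≠ 0 ∧ IsIntegral ℤ ((D : E) * ν) ∧ ‖a ν‖ ≤ H * nr ν ^ B

/-! ## part A: the averaged kernel -/

theorem KerOK.integrable {F : ℝ → ℝ} (h : KerOK F) (x : ℝ) : Integrable fun v : Pl E → ℝ =>
    (∏ σ, F (v σ)) * Real.exp (-2 * (∑ σ, v σ - x) ^ 2 + (∑ σ, v σ - x) / 2) :=
  TavA.OK.integrable h x
theorem KerOK.tav_le {F : ℝ → ℝ} (h : KerOK F) {a : ℝ} (ha : 0 < a) :
    ∃ C : ℝ, ∀ x, |tav E F x| ≤ C * Real.exp (-a * x) := TavA.OK.integral_le h ha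
theorem KerOK.continuous_tav {F : ℝ → ℝ} (h : KerOK F) : Continuous (tav E F) :=
  TavA.OK.continuous_integral h
/-- The Mellin (Laplace) transform: Fubini, `integral_fintype_prod_eq_prod`, a Gaussian integral. -/
theorem KerOK.mellin_tav {F : ℝ → ℝ} (h : KerOK F) {s : ℂ} (hs : 0 < s.re) :
    Integrable (fun x : ℝ => (tav E F x : ℂ) * Complex.exp (s * x)) ∧
    ∫ x : ℝ, (tav E F x : ℂ) * Complex.exp (s * x) =
      (Real.sqrt (Real.pi / 2) : ℂ) * Complex.exp ((s - 1 / 2) ^ 2 / 8) *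
        (∫ v : ℝ, (F v : ℂ) * Complex.exp (s * v)) ^ rk E := TavA.OK.mellin h hs
theorem LatB.summable {a : E → ℂ} (ha : LatB a) {F : ℝ → ℝ} (h : KerOK F) (η : Pl E → ℝ) :
    Summable fun ν => ‖a ν * ((∏ σ, F (lg ν σ + η σ) : ℝ) : ℂ)‖ := by
  obtain ⟨D, H, B, hD, hB, ha⟩ := ha
  exact TavA.OK.summable hD hB ha h η

/-! ## part B: the weight `Gw` -/

theorem Gw_pos (y : ℝ) : 0 < Gw E y :=
  TavB.tav_pos (fun _ => Real.exp_pos _) (kerOK_gauss.integrable _)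
theorem continuousOn_Gw : ContinuousOn (Gw E) (Set.Ioi 0) :=
  (kerOK_gauss.continuous_tav (E := E)).comp_continuousOn
    (Real.continuousOn_log.mono fun _ hy => ne_of_gt hy)
theorem Gw_antitoneOn_aux : ∃ c : ℝ, 0 < c ∧ ∀ y : ℝ, 0 < y → y ≤ 1 → c ≤ Gw E y :=
  ⟨Gw E 1, Gw_pos 1, fun _ hy h1 => TavB.tav_antitone (fun _ => (Real.exp_pos _).le)
    TavB.gauss_antitone kerOK_gauss.integrable (Real.log_le_log hy h1)⟩
theorem Gw_le_rpow {σ : ℝ} (hσ : 0 < σ) :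
    ∃ C : ℝ, 0 < C ∧ ∀ y : ℝ, 0 < y → Gw E y ≤ C * y ^ (-σ) := by
  obtain ⟨C, hC⟩ := kerOK_gauss.tav_le (E := E) hσ
  refine ⟨max C 1, lt_max_of_lt_right one_pos, fun y hy => ?_⟩
  rw [Real.rpow_def_of_pos hy, mul_comm (Real.log y)]
  exact ((le_abs_self _).trans (hC (Real.log y))).trans
    (mul_le_mul_of_nonneg_right (le_max_left _ _) (Real.exp_pos _).le)
/-- The Mellin transform of `Gw`. -/
def KG (E : Type) [Field E] [NumberField E] [Om E] (s : ℂ) : ℂ :=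
  (Real.sqrt (Real.pi / 2) : ℂ) * Complex.exp ((s - 1 / 2) ^ 2 / 8) *
    (((2 * Real.pi : ℝ) : ℂ) ^ (-s) * Complex.Gamma s) ^ rk E
theorem TavB.continuous_KG {σ : ℝ} (hσ : 0 < σ) :
    Continuous fun u : ℝ => KG E (σ + u * Complex.I) :=
  Continuous.mul (by fun_prop) ((TavB.continuous_fac hσ).pow _)
theorem integrable_KG {σ : ℝ} (hσ : 0 < σ) (J : ℕ) :
    Integrable fun u : ℝ => ‖KG E (σ + u * Complex.I)‖ * (1 + |u|) ^ J := by
  set A : ℝ := Real.sqrt (Real.pi / 2) * Real.exp ((σ - 1 / 2) ^ 2 / 8) *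
    ((2 * Real.pi) ^ (-σ) * Real.Gamma σ) ^ rk E with hA
  have hG := Real.Gamma_pos_of_pos hσ
  have hA0 : 0 ≤ A := by positivity
  refine ((integrable_exp_neg_mul_sq (b := 1 / 16) (by norm_num)).const_mul
    (A * Real.exp (4 * (J : ℝ) ^ 2))).mono' ?_ (Filter.Eventually.of_forall fun u => ?_)
  · exact ((TavB.continuous_KG hσ).norm.mul (by fun_prop)).aestronglyMeasurable
  · have h1 : ‖KG E (σ + u * Complex.I)‖ ≤ A * Real.exp (-(u ^ 2) / 8) := by
      rw [KG, norm_mul, norm_mul, norm_pow, TavB.norm_exp_line, Complex.norm_real,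
        Real.norm_of_nonneg (Real.sqrt_nonneg _),
        show ((σ - 1 / 2) ^ 2 - u ^ 2) / 8 = (σ - 1 / 2) ^ 2 / 8 + -(u ^ 2) / 8 by ring,
        Real.exp_add, hA]
      calc _ ≤ Real.sqrt (Real.pi / 2) *
            (Real.exp ((σ - 1 / 2) ^ 2 / 8) * Real.exp (-(u ^ 2) / 8)) *
            ((2 * Real.pi) ^ (-σ) * Real.Gamma σ) ^ rk E :=
            mul_le_mul_of_nonneg_left
              (pow_le_pow_left₀ (norm_nonneg _) (TavB.norm_fac_le hσ u) _) (by positivity)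
        _ = _ := by ring
    rw [Real.norm_of_nonneg (by positivity)]
    calc _ ≤ A * Real.exp (-(u ^ 2) / 8) * (1 + |u|) ^ J :=
          mul_le_mul_of_nonneg_right h1 (by positivity)
      _ = A * (Real.exp (-(u ^ 2) / 8) * (1 + |u|) ^ J) := by ring
      _ ≤ A * (Real.exp (4 * (J : ℝ) ^ 2) * Real.exp (-(1 / 16) * u ^ 2)) :=
          mul_le_mul_of_nonneg_left (TavB.gauss_pow_le J u) hA0
      _ = _ := by ring
theorem continuous_KG {σ : ℝ} (hσ : 0 < σ) : Continuous fun u : ℝ => KG E (σ + u * Complex.I) :=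
  TavB.continuous_KG hσ
/-- Mellin inversion (`mellin_inversion` or Fourier inversion in `log y`). -/
theorem Gw_eq_integral {y σ : ℝ} (hy : 0 < y) (hσ : 0 < σ) :
    (Gw E y : ℂ) = (1 / (2 * Real.pi) : ℂ) *
      ∫ u : ℝ, KG E (σ + u * Complex.I) * (y : ℂ) ^ (-(σ + u * Complex.I)) := by
  have hexp : ∀ x : ℝ, Gw E (Real.exp x) =
      tav E (fun v => Real.exp (-(2 * Real.pi) * Real.exp v)) x := fun x => by
    rw [Gw, Real.log_exp]
  have hm : ∀ u : ℝ, mellin (fun y : ℝ => (Gw E y : ℂ)) (σ + u * Complex.I) =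
      KG E (σ + u * Complex.I) := by
    intro u
    have hs : 0 < ((σ : ℂ) + u * Complex.I).re := by simpa using hσ
    simp only [mellin, smul_eq_mul]
    rw [TavB.integral_Ioi_eq (fun y : ℝ => (Gw E y : ℂ))]
    simp only [hexp]
    rw [(kerOK_gauss.mellin_tav hs).2, TavB.integral_gauss hs, KG]
  have h := mellinInv_mellin_eq σ (fun y : ℝ => (Gw E y : ℂ)) hy
    (by
      simp only [MellinConvergent, smul_eq_mul]
      rw [TavB.integrableOn_Ioi_iff (fun y : ℝ => (Gw E y : ℂ))]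
      simp only [hexp]
      exact (kerOK_gauss.mellin_tav (by simpa using hσ)).1)
    (by
      have h0 := integrable_KG (E := E) hσ 0
      simp only [pow_zero, mul_one] at h0
      simp only [Complex.VerticalIntegrable, hm]
      exact (integrable_norm_iff (continuous_KG hσ).aestronglyMeasurable).1 h0)
    (Complex.continuous_ofReal.continuousAt.comp
      (continuousOn_Gw.continuousAt (Ioi_mem_nhds hy)))
  rw [← h, mellinInv]
  simp only [hm, smul_eq_mul, Complex.real_smul]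
  congr 1
  · push_cast
    rfl
  · exact integral_congr_ae (Filter.Eventually.of_forall fun u => mul_comm _ _)
end Arch

/-! ## part C: torus averaging -/

variable {E : Type} [Field E] [NumberField E] [Fr E]

/-- An even weight for the action of `V j` on `ℝ^r`, invariant in the direction `(1, …, 1)`:
`ψ = ψ₀ / ∑_u ψ₀ (· + lg u)`, `ψ₀ η = exp (-∑ |η σ - mean η|)` (`tsum_units_le`,
`exists_balanced`). -/
theorem exists_torus_weight {j : ℕ} (hj : 1 ≤ j) : ∃ (ψ : (Pl E → ℝ) → ℝ) (C : ℝ), Measurable ψ ∧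
    (∀ η, 0 < ψ η ∧ ψ η ≤ C * Real.exp (-∑ σ, |η σ - (∑ τ, η τ) / rk E|)) ∧
    (∀ η, ψ (-η) = ψ η) ∧ (∀ η (x : ℝ), ψ (fun σ => η σ + x) = ψ η) ∧
    ∀ η, HasSum (fun u : {u : E // V j u} => ψ (η + lg (u : E))) 1 := tavC_torus_weight hj

open Classical in
theorem LatB.summable_tav {j : ℕ} (hj : 1 ≤ j) {a : E → ℂ} (ha : LatB a) {F : ℝ → ℝ} (h : KerOK F)
    (x : ℝ) :
    Summable fun ν => if Fd j ν then ‖a ν * (tav E F (Real.log (nr ν) + x) : ℂ)‖ else 0 := by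
  obtain ⟨D, H, B, hD, hB, hab⟩ := ha
  obtain ⟨C, hC⟩ := h.tav_le (E := E) (a := B + 2) (by linarith)
  refine Summable.of_nonneg_of_le (fun ν => by split_ifs <;> positivity) (fun ν => ?_)
    ((tavC_summable_Fd (E := E) hj hD).mul_left (|H| * |C| * Real.exp (-(B + 2) * x)))
  by_cases hν : a ν = 0
  · simp only [hν, zero_mul, norm_zero, ite_self]
    split_ifs <;> positivity
  obtain ⟨h0, h1, h2⟩ := hab ν hν
  by_cases hf : Fd j ν
  · rw [if_pos hf, if_pos ⟨hf, h1⟩, norm_mul, Complex.norm_real, Real.norm_eq_abs]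
    have h3 : ‖a ν‖ ≤ |H| * Real.exp (Real.log (nr ν) * B) := by
      rw [← Real.rpow_def_of_pos (nr_pos h0)]
      exact h2.trans (mul_le_mul_of_nonneg_right (le_abs_self H)
        (Real.rpow_nonneg (nr_nonneg ν) B))
    have h4 := (hC (Real.log (nr ν) + x)).trans
      (mul_le_mul_of_nonneg_right (le_abs_self C) (Real.exp_pos _).le)
    refine (mul_le_mul h3 h4 (abs_nonneg _) (by positivity)).trans_eq ?_
    rw [mul_mul_mul_comm, mul_assoc (|H| * |C|), ← Real.exp_add, ← Real.exp_add]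
    congr 2
    ring
  · rw [if_neg hf, if_neg fun h => hf h.1, mul_zero]

open Classical in
/-- One side of the torus average. -/
theorem tavC_side {j : ℕ} (hj : 1 ≤ j) {ψ : (Pl E → ℝ) → ℝ} (hm : Measurable ψ)
    (h0 : ∀ η, 0 ≤ ψ η) (hneg : ∀ η, ψ (-η) = ψ η)
    (h1 : ∀ η, HasSum (fun u : {u : E // V j u} => ψ (η + lg (u : E))) 1) {κ : ℝ}
    (hκ : ∀ x : ℝ, Integrable (fun η : Pl E → ℝ =>
        ψ η * Real.exp (-2 * (∑ σ, η σ - x) ^ 2 + (∑ σ, η σ - x) / 2)) ∧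
      ∫ η : Pl E → ℝ, ψ η * Real.exp (-2 * (∑ σ, η σ - x) ^ 2 + (∑ σ, η σ - x) / 2) = κ)
    {F : ℝ → ℝ} (hF : KerOK F) {a : E → ℂ} (hinv : Inv j a) (ha : LatB a) (a₀ : ℂ)
    (γ : Pl E → ℝ) (x : ℝ) :
    ∫ η : Pl E → ℝ, (a₀ + ∑' ν, a ν * ((∏ σ, F (lg ν σ + η σ + γ σ) : ℝ) : ℂ)) *
      ((ψ η * Real.exp (-2 * (∑ σ, η σ - x) ^ 2 + (∑ σ, η σ - x) / 2) : ℝ) : ℂ) =
      κ * a₀ +
        ∑' ν, if Fd j ν then a ν * (tav E F (Real.log (nr ν) + (∑ σ, γ σ + x)) : ℂ) else 0 := by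
  have hA : KerOK fun v => |F v| := ⟨hF.1.abs, fun c hc => by
    obtain ⟨C, hC⟩ := hF.2 c hc
    exact ⟨C, fun v => by rw [abs_abs]; exact hC v⟩⟩
  have ha0 : a 0 = 0 := by
    by_contra h
    obtain ⟨D, H, B, -, -, hab⟩ := ha
    exact (hab 0 h).1 rfl
  obtain ⟨h2, h3⟩ := tavC_key hj hm h0 hneg h1 (hF.integrable (E := E)) ha0 hinv γ x
    (Summable.of_norm_bounded (ha.summable_tav hj hA (∑ σ, γ σ + x)) fun ν => by
      split_ifs
      · rw [norm_mul, norm_mul, norm_norm, Complex.norm_real]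
      · rw [norm_zero])
  have h4 : Integrable fun η : Pl E → ℝ =>
      a₀ * ((ψ η * Real.exp (-2 * (∑ σ, η σ - x) ^ 2 + (∑ σ, η σ - x) / 2) : ℝ) : ℂ) :=
    (hκ x).1.ofReal.const_mul a₀
  simp only [add_mul]
  rw [integral_add h4 h2, h3, integral_const_mul,
    integral_complex_ofReal, (hκ x).2, mul_comm]

open Classical in
/-- **Torus averaging.**  Multiply by `ψ η · exp(-2 y² + y/2)`, `y = ∑ η - x`, integrate over `η`,
unfold (`tsum_unfold`); on the right side use `e^{-y} w(y) = w(-y)` and `η ↦ γ - η`. -/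
theorem TA {j : ℕ} (hj : 1 ≤ j) : ∃ κ : ℝ, 0 < κ ∧
    ∀ (F : ℝ → ℝ) (a b : E → ℂ) (a₀ b₀ ω : ℂ) (γ : Pl E → ℝ), KerOK F → Inv j a → Inv j b →
      LatB a → LatB b →
      (∀ η : Pl E → ℝ, a₀ + ∑' ν, a ν * ((∏ σ, F (lg ν σ + η σ) : ℝ) : ℂ) =
        ω * (Real.exp (-∑ σ, η σ) : ℂ) *
          (b₀ + ∑' ν, b ν * ((∏ σ, F (lg ν σ - η σ + γ σ) : ℝ) : ℂ))) →
      ∀ x : ℝ, κ * a₀ + ∑' ν, (if Fd j ν then a ν * (tav E F (Real.log (nr ν) + x) : ℂ) else 0) =
        ω * (Real.exp (-x) : ℂ) * (κ * b₀ +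
          ∑' ν, if Fd j ν then b ν * (tav E F (Real.log (nr ν) + ∑ σ, γ σ - x) : ℂ) else 0) := by
  obtain ⟨ψ, C, hm, hb, hneg, hx, h1⟩ := exists_torus_weight (E := E) hj
  obtain ⟨κ, hκ0, hκ⟩ := tavC_kappa hm hb hx
  refine ⟨κ, hκ0, fun F a b a₀ b₀ ω γ hF hia hib ha hb' hid x => ?_⟩
  have hL := tavC_side hj hm (fun η => (hb η).1.le) hneg h1 hκ hF hia ha a₀ 0 x
  have hR := tavC_side hj hm (fun η => (hb η).1.le) hneg h1 hκ hF hib hb' b₀ γ (-x)
  simp only [Pi.zero_apply, add_zero, Finset.sum_const_zero, zero_add] at hL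
  have e : ∀ ν : E, Real.log (nr ν) + ∑ σ, γ σ - x = Real.log (nr ν) + (∑ σ, γ σ + -x) :=
    fun ν => by ring
  simp only [e]
  rw [← hL, ← hR, ← integral_neg_eq_self, ← integral_const_mul]
  refine integral_congr_ae (Filter.Eventually.of_forall fun η => ?_)
  have h2 := hid (-η)
  have h3 : ∀ (ν : E) σ, lg ν σ - (-η) σ + γ σ = lg ν σ + η σ + γ σ := fun ν σ => by
    rw [Pi.neg_apply, sub_neg_eq_add]
  simp only [h3] at h2
  have h4 : Real.exp (-∑ σ, (-η) σ) *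
      (ψ (-η) * Real.exp (-2 * (∑ σ, (-η) σ - x) ^ 2 + (∑ σ, (-η) σ - x) / 2)) =
      Real.exp (-x) * (ψ η * Real.exp (-2 * (∑ σ, η σ - -x) ^ 2 + (∑ σ, η σ - -x) / 2)) := by
    rw [hneg, mul_left_comm, mul_left_comm (Real.exp (-x)), ← Real.exp_add, ← Real.exp_add]
    simp only [Pi.neg_apply, Finset.sum_neg_distrib]
    congr 2
    ring
  have h5 := congrArg (fun t : ℝ => (t : ℂ)) h4
  simp only [Complex.ofReal_mul (Real.exp _)] at h5
  beta_reduce
  rw [h2]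
  linear_combination
    ω * (b₀ + ∑' ν, b ν * ((∏ σ, F (lg ν σ + η σ + γ σ) : ℝ) : ℂ)) * h5

end Crest.Agent.R312
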