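import Crest.Agent.R312.ThH

/-!
# Row 312: auxiliary lemmas for part B of `ThAdm.lean`
-/

set_option autoImplicit false

noncomputable section

namespace Crest.Agent.R312.AdmB

open NumberField

theorem fin_reps {α β : Type} (S : Set α) {F : Set β} (hF : F.Finite) (R : α → β → Prop)
    (h : ∀ a ∈ S, ∃ b ∈ F, R a b) :
    ∃ T : Finset α, ↑T ⊆ S ∧ ∀ a ∈ S, ∃ t ∈ T, ∃ b, R a b ∧ R t b := by
  classical
  choose f hf hR using h
  have h1 : (Set.range fun a : S => f a a.2).Finite := hF.subset (by rintro _ ⟨a, rfl⟩; exact hf _ _)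
  obtain ⟨u, -, -, hu⟩ := Finset.exists_subset_injOn_image_eq_of_surjOn
    (f := fun a : S => f a a.2) Set.univ h1.toFinset (fun b hb => by simpa using hb)
  refine ⟨u.image Subtype.val, fun a ha => ?_, fun a ha => ?_⟩
  · obtain ⟨b, -, rfl⟩ := Finset.mem_image.1 (Finset.mem_coe.1 ha)
    exact b.2
  · have h2 : f a ha ∈ u.image fun a : S => f a a.2 := by
      rw [hu, Set.Finite.mem_toFinset]; exact ⟨⟨a, ha⟩, rfl⟩
    obtain ⟨t, ht, e⟩ := Finset.mem_image.1 h2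
    exact ⟨t, Finset.mem_image_of_mem _ ht, f a ha, hR a ha, e ▸ hR t t.2⟩

variable {E : Type} [Field E] [NumberField E]

omit [NumberField E] in
theorem int_eq {x y : E} (h : IsIntegral ℤ x) (e : y = x) : IsIntegral ℤ y := e ▸ h

theorem toM_pow (γ : SO E) (k : ℕ) : toM (γ ^ k) = toM γ ^ k := by
  induction k with
  | zero => rw [pow_zero, pow_zero, toM_one]
  | succ k ih => rw [pow_succ, pow_succ, toM_mul, ih]

theorem toM_mul_inv (γ : SO E) : toM γ * toM γ⁻¹ = 1 := by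
  rw [← toM_mul, mul_inv_cancel, toM_one]

omit [NumberField E] in
theorem nil_pow {X : Mt E} (h : X * X = 0) (k : ℕ) : (1 + X) ^ k = 1 + (k : E) • X := by
  induction k with
  | zero => simp
  | succ k ih =>
    rw [pow_succ, ih, mul_add, mul_one, add_mul, one_mul, smul_mul_assoc, h, smul_zero, add_zero,
      Nat.cast_succ, add_smul, one_smul, add_assoc]

theorem exists_unip {Γ : Subgroup (SO E)} (hΓ : Γ.FiniteIndex) : ∃ K : ℕ, K ≠ 0 ∧ ∀ X : Mt E,
    X * X = 0 → (1 + X).det = 1 → (∀ i j, IsIntegral ℤ (X i j)) →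
      ∃ γ ∈ Γ, toM γ = 1 + (K : E) • X := by
  refine ⟨Γ.normalCore.index, Subgroup.FiniteIndex.index_ne_zero, fun X h1 h2 h3 => ?_⟩
  obtain ⟨γ, hγ⟩ := exists_toM h2 fun i j => by
    rw [Matrix.add_apply, Matrix.one_apply]
    refine IsIntegral.add ?_ (h3 i j)
    split_ifs
    exacts [isIntegral_one, isIntegral_zero]
  exact ⟨_, Γ.normalCore_le (Γ.normalCore.pow_index_mem γ), by rw [toM_pow, hγ, nil_pow h1]⟩

theorem exists_den (g : Mt E) : ∃ M : ℕ, M ≠ 0 ∧ ∀ i j, IsIntegral ℤ ((M : E) * g i j) := by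
  choose D hD h using exists_nat_mul_isIntegral (E := E)
  refine ⟨∏ p : Fin 2 × Fin 2, D (g p.1 p.2), Finset.prod_ne_zero_iff.2 fun p _ => hD _,
    fun i j => ?_⟩
  obtain ⟨k, hk⟩ := Finset.dvd_prod_of_mem (fun p : Fin 2 × Fin 2 => D (g p.1 p.2))
    (Finset.mem_univ (i, j))
  rw [hk]
  refine int_eq ((MeanA2_nat k).mul (h (g i j))) ?_
  push_cast
  ring

theorem lat {Γ : Subgroup (SO E)} (hΓ : Γ.FiniteIndex) {g : Mt E} (hg : g.det = 1) :
    ∃ N : ℕ, N ≠ 0 ∧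
      (∀ x : E, IsIntegral ℤ x → ∃ γ ∈ Γ, g * toM γ = !![1, (N : E) * x; 0, 1] * g) ∧
      ∀ t : E, (∃ γ ∈ Γ, g * toM γ = !![1, t; 0, 1] * g) → IsIntegral ℤ ((N : E) * t) := by
  obtain ⟨K, hK, h⟩ := exists_unip hΓ
  obtain ⟨M, hM, hi⟩ := exists_den g
  rw [Matrix.det_fin_two] at hg
  refine ⟨K * (M * M), mul_ne_zero hK (mul_ne_zero hM hM), fun x hx => ?_, ?_⟩
  · obtain ⟨γ, hγ, e⟩ := h
      !![M * g 1 1 * (M * g 1 0) * x, M * g 1 1 * (M * g 1 1) * x;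
        -(M * g 1 0 * (M * g 1 0) * x), -(M * g 1 1 * (M * g 1 0) * x)]
      (by ext i j; fin_cases i <;> fin_cases j <;> simp [Matrix.mul_apply, Fin.sum_univ_two] <;> ring)
      (by simp [Matrix.det_fin_two]; ring)
      (fun i j => by
        fin_cases i <;> fin_cases j
        · simpa using ((hi 1 1).mul (hi 1 0)).mul hx
        · simpa using ((hi 1 1).mul (hi 1 1)).mul hx
        · simpa using (((hi 1 0).mul (hi 1 0)).mul hx).neg
        · simpa using (((hi 1 1).mul (hi 1 0)).mul hx).neg)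
    refine ⟨γ, hγ, ?_⟩
    rw [e]
    ext i j
    fin_cases i <;> fin_cases j <;> simp [Matrix.mul_apply, Fin.sum_univ_two, Matrix.one_apply]
    · linear_combination (K * M * M * x * g 1 0 : E) * hg
    · linear_combination (K * M * M * x * g 1 1 : E) * hg
    · ring
    · ring
  · rintro t ⟨γ, -, e⟩
    have e0 := congrFun (congrFun e 0) 0
    have e1 := congrFun (congrFun e 0) 1
    simp [Matrix.mul_apply, Fin.sum_univ_two] at e0 e1
    have hγ := isIntegral_toM γ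
    refine int_eq ((MeanA2_nat K).mul
      (((hi 0 0).mul (((hi 0 0).mul (hγ 0 1)).add ((hi 0 1).mul (hγ 1 1)))).sub
        ((hi 0 1).mul (((hi 0 0).mul (hγ 0 0)).add ((hi 0 1).mul (hγ 1 0)))))) ?_
    push_cast
    linear_combination (-K * M * M * g 0 0 : E) * e1 + (K * M * M * g 0 1 : E) * e0 -
      (K * M * M * t : E) * hg

theorem zero_row {D : ℕ} (hD : D ≠ 0) : ∃ T : Finset E, (∀ t ∈ T, t ≠ 0) ∧
    ∀ d : E, IsIntegral ℤ ((D : E) * d) → (∃ y, IsIntegral ℤ y ∧ d * y = D) →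
      ∃ t ∈ T, ∃ u : (𝓞 E)ˣ, d = ((u : 𝓞 E) : E) * t := by
  have hD' : (D : E) ≠ 0 := Nat.cast_ne_zero.2 hD
  have hD2 : Ideal.absNorm (Ideal.span {((D : 𝓞 E)) ^ 2}) ≠ 0 := by
    rw [Ne, Ideal.absNorm_eq_zero_iff, Ideal.span_singleton_eq_bot]
    exact pow_ne_zero _ (Nat.cast_ne_zero.2 hD)
  obtain ⟨T, hT, h⟩ := fin_reps
    {d : E | IsIntegral ℤ ((D : E) * d) ∧ ∃ y, IsIntegral ℤ y ∧ d * y = D}
    (Ideal.finite_setOfPred_absNorm_le (S := 𝓞 E) (Ideal.absNorm (Ideal.span {((D : 𝓞 E)) ^ 2})))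
    (fun d I => ∃ a : 𝓞 E, (a : E) = D * d ∧ I = Ideal.span {a}) (by
      rintro d ⟨h1, y, hy, e⟩
      refine ⟨_, Nat.le_of_dvd (Nat.pos_of_ne_zero hD2) (Ideal.absNorm_dvd_absNorm_of_le
        (Ideal.span_singleton_le_span_singleton.2 ⟨⟨y, hy⟩, ?_⟩)), ⟨_, h1⟩, rfl, rfl⟩
      apply RingOfIntegers.ext
      change (((D : 𝓞 E) ^ 2 : 𝓞 E) : E) = D * d * y
      rw [mul_assoc, e]
      simp [sq])
  refine ⟨T, fun t ht h0 => ?_, fun d h1 h2 => ?_⟩
  · obtain ⟨-, y, -, e⟩ := hT ht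
    rw [h0, zero_mul] at e
    exact hD' e.symm
  · obtain ⟨t, ht, I, ⟨a, ha, e⟩, b, hb, e'⟩ := h d ⟨h1, h2⟩
    obtain ⟨u, hu⟩ := Ideal.span_singleton_eq_span_singleton.1 (e'.symm.trans e)
    refine ⟨t, ht, u, mul_left_cancel₀ hD' ?_⟩
    have h3 : (b : E) * ((u : 𝓞 E) : E) = a := by rw [← hu]; simp
    rw [← ha, ← h3, hb]
    ring

theorem exists_SO {D : ℕ} (hD : D ≠ 0) {g g' τ : Mt E} (hg : g.det = 1) (hg' : g'.det = 1)
    (hi : ∀ i j, IsIntegral ℤ ((D : E) * g i j)) (h : ∀ i j, IsIntegral ℤ ((g i j - τ i j) / D))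
    (h' : ∀ i j, IsIntegral ℤ ((g' i j - τ i j) / D)) : ∃ δ : SO E, g' = g * toM δ := by
  have hD' : (D : E) ≠ 0 := Nat.cast_ne_zero.2 hD
  have h1 : g * g.adjugate = 1 := by rw [Matrix.mul_adjugate, hg, one_smul]
  have hd : ∀ i j, IsIntegral ℤ ((g' i j - g i j) / D) := fun i j =>
    int_eq ((h' i j).sub (h i j)) (by ring)
  obtain ⟨δ, hδ⟩ := exists_toM (g := g.adjugate * g')
    (by rw [Matrix.det_mul, Matrix.det_adjugate, hg, hg', one_pow, one_mul]) (fun i j => by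
      rw [Matrix.det_fin_two] at hg
      rw [Matrix.adjugate_fin_two]
      fin_cases i <;> fin_cases j <;> simp [Matrix.mul_apply, Fin.sum_univ_two]
      · refine int_eq (isIntegral_one.add (((hi 1 1).mul (hd 0 0)).sub ((hi 0 1).mul (hd 1 0)))) ?_
        field_simp
        linear_combination hg
      · refine int_eq (((hi 1 1).mul (hd 0 1)).sub ((hi 0 1).mul (hd 1 1))) ?_
        field_simp
        ring
      · refine int_eq (((hi 0 0).mul (hd 1 0)).sub ((hi 1 0).mul (hd 0 0))) ?_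
        field_simp
        ring
      · refine int_eq (isIntegral_one.add (((hi 0 0).mul (hd 1 1)).sub ((hi 1 0).mul (hd 0 1)))) ?_
        field_simp
        linear_combination hg)
  exact ⟨δ, by rw [hδ, ← Matrix.mul_assoc, h1, Matrix.one_mul]⟩

open Matrix in
/-- the orbit relation on row vectors -/
def orb (Γ : Subgroup (SO E)) : Setoid (Fin 2 → E) where
  r v w := ∃ γ ∈ Γ, v ᵥ* toM γ = w
  iseqv := ⟨fun v => ⟨1, Γ.one_mem, by rw [toM_one, vecMul_one]⟩, by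
      rintro v _ ⟨γ, hγ, rfl⟩
      exact ⟨γ⁻¹, Γ.inv_mem hγ, by rw [vecMul_vecMul, toM_mul_inv, vecMul_one]⟩, by
      rintro v _ _ ⟨γ, hγ, rfl⟩ ⟨γ', hγ', rfl⟩
      exact ⟨γ * γ', Γ.mul_mem hγ hγ', by rw [vecMul_vecMul, toM_mul]⟩⟩

open Matrix in
theorem orbits {Γ : Subgroup (SO E)} (hΓ : Γ.FiniteIndex) {D : ℕ} (hD : D ≠ 0) :
    ∃ T : Finset (Mt E), (∀ g ∈ T, g.det = 1) ∧ ∀ c d : E, IsIntegral ℤ ((D : E) * c) →
      IsIntegral ℤ ((D : E) * d) → (∃ x y : E, IsIntegral ℤ x ∧ IsIntegral ℤ y ∧ c * x + d * y = D) →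
      ∃! g, g ∈ T ∧ ∃ γ ∈ Γ, c = (g * toM γ) 1 0 ∧ d = (g * toM γ) 1 1 := by
  classical
  have hD' : (D : E) ≠ 0 := Nat.cast_ne_zero.2 hD
  obtain ⟨Q, -, -, hQ⟩ := exists_reps (E := E) hD
  let S : Set (Mt E) := {g | g.det = 1 ∧ ∀ i j, IsIntegral ℤ ((D : E) * g i j)}
  have hF : {τ : Fin 2 → Fin 2 → E | ∀ i j, τ i j ∈ Q}.Finite :=
    Set.Finite.pi' (t := fun _ => {v : Fin 2 → E | ∀ j, v j ∈ (Q : Set E)})
      fun _ => Set.Finite.pi' fun _ => Q.finite_toSet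
  obtain ⟨T₀, hT₀, h₀⟩ := fin_reps S hF (fun g τ => ∀ i j, IsIntegral ℤ ((g i j - τ i j) / D))
    fun g hg => by
      choose τ hτ using fun i j => (hQ _ (hg.2 i j)).exists
      exact ⟨τ, fun i j => (hτ i j).1, fun i j => (hτ i j).2⟩
  have : Finite (SO E ⧸ Γ) := Subgroup.finite_quotient_of_finiteIndex
  let f : Mt E → Quotient (orb Γ) := fun g => Quotient.mk _ (g 1)
  have hf : (f '' S).Finite := by
    refine (Set.finite_range fun p : T₀ × (SO E ⧸ Γ) => f (p.1 * toM p.2.out)).subset ?_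
    rintro _ ⟨g, hg, rfl⟩
    obtain ⟨t, ht, τ, h1, h2⟩ := h₀ g hg
    obtain ⟨δ, rfl⟩ := exists_SO (τ := τ) hD (hT₀ ht).1 hg.1 (hT₀ ht).2 h2 h1
    obtain ⟨k, hk⟩ := QuotientGroup.mk_out_eq_mul Γ δ
    refine ⟨(⟨t, ht⟩, (δ : SO E ⧸ Γ)), Quotient.sound ((orb Γ).iseqv.symm ⟨k, k.2, ?_⟩)⟩
    change (t * toM δ * toM (k : SO E) : Mt E) 1 =
      (t * toM (QuotientGroup.mk δ : SO E ⧸ Γ).out : Mt E) 1
    rw [hk, toM_mul, Matrix.mul_assoc]
  obtain ⟨T, hT, hinj, hT'⟩ := Finset.exists_subset_injOn_image_eq_of_surjOn (f := f) S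
    hf.toFinset (fun b hb => by simpa using hb)
  refine ⟨T, fun g hg => (hT hg).1, ?_⟩
  rintro c d hc hd ⟨x, y, hx, hy, e⟩
  have key : ∀ g : Mt E, (∃ γ ∈ Γ, c = (g * toM γ) 1 0 ∧ d = (g * toM γ) 1 1) ↔
      f g = Quotient.mk _ ![c, d] := fun g => by
    rw [Quotient.eq]
    refine exists_congr fun γ => and_congr_right fun _ => ?_
    change _ ↔ (g * toM γ) 1 = ![c, d]
    constructor
    · rintro ⟨h1, h2⟩
      funext j
      fin_cases j
      exacts [h1.symm, h2.symm]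
    · intro h
      rw [h]
      exact ⟨rfl, rfl⟩
  simp only [key]
  have h1 : (!![y / D, -x / D; c, d] : Mt E) ∈ S := by
    refine ⟨?_, fun i j => ?_⟩
    · rw [Matrix.det_fin_two_of]
      field_simp
      linear_combination e
    · fin_cases i <;> fin_cases j
      · simpa [mul_div_cancel₀ _ hD'] using hy
      · simpa [mul_div_cancel₀ _ hD'] using hx.neg
      · simpa using hc
      · simpa using hd
  have h2 : f !![y / D, -x / D; c, d] ∈ T.image f := by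
    rw [hT', Set.Finite.mem_toFinset]; exact ⟨_, h1, rfl⟩
  obtain ⟨g, hg, e'⟩ := Finset.mem_image.1 h2
  exact ⟨g, ⟨hg, e'⟩, fun g' hg' => hinj hg'.1 hg (hg'.2.trans e'.symm)⟩

end Crest.Agent.R312.AdmB
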