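import Crest.Agent.R312.ThH
import Crest.Agent.R312.ThAdmAuxB

/-!
# Row 312: theta module B: admissible functions (algebra)
-/

set_option autoImplicit false

noncomputable section

namespace Crest.Agent.R312

open NumberField
open scoped ComplexConjugate

open MeasureTheory Filter Topology
open scoped ENNReal
open Crest.Agent.R17 (H actC Qf μH Fk Mk IsWt W0 U1)

variable {E : Type} [Field E] [NumberField E] [Om E]

section
omit [Om E]

/-! ## part A -/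

theorem sl_one (ξ : E → E → ℂ) : sl ξ 1 = ξ := by
  funext c d
  simp [sl]
theorem sl_mul (ξ : E → E → ℂ) {g g' : Mt E} (hg : g.det ≠ 0) (hg' : g'.det ≠ 0) :
    sl ξ (g * g') = sl (sl ξ g) g' := by
  funext c d
  simp only [sl, Matrix.det_mul, Matrix.mul_apply, Fin.sum_univ_two]
  congr 1 <;> field_simp <;> ring
theorem sl_apply (ξ : E → E → ℂ) {g : Mt E} (hg : g.det ≠ 0) (c d : E) :
    sl ξ g (c * g 0 0 + d * g 1 0) (c * g 0 1 + d * g 1 1) = ξ c d := by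
  simp only [sl]
  congr 1 <;> rw [div_eq_iff hg, Matrix.det_fin_two] <;> ring
theorem sl_upper (ξ : E → E → ℂ) {a d : E} (ha : a ≠ 0) (hd : d ≠ 0) (b x y : E) :
    sl ξ !![a, b; 0, d] x y = ξ (x / a) ((y - x * b / a) / d) := by
  simp only [sl, Matrix.det_fin_two_of, Matrix.of_apply, Matrix.cons_val', Matrix.cons_val_zero,
    Matrix.cons_val_one, Matrix.cons_val_fin_one, mul_zero, sub_zero]
  congr 1 <;> field_simp
private theorem admA_det (γ : SO E) : (toM γ).det ≠ 0 := by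
  rw [det_toM]
  exact one_ne_zero
private theorem admA_nat (n : ℕ) : IsIntegral ℤ (n : E) := by
  exact_mod_cast isIntegral_algebraMap (x := (n : ℤ))
private theorem admA_back {g : Mt E} (hg : g.det ≠ 0) (c d : E) :
    c = (c * g 1 1 - d * g 1 0) / g.det * g 0 0 + (d * g 0 0 - c * g 0 1) / g.det * g 1 0 ∧
    d = (c * g 1 1 - d * g 1 0) / g.det * g 0 1 + (d * g 0 0 - c * g 0 1) / g.det * g 1 1 := by
  constructor <;> field_simp <;> rw [Matrix.det_fin_two] <;> ring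
theorem mem_Stab {ξ : E → E → ℂ} {γ : SO E} : γ ∈ Stab ξ ↔ sl ξ (toM γ) = ξ := by
  constructor
  · intro h
    funext c d
    obtain ⟨h1, h2⟩ := admA_back (admA_det γ) c d
    rw [sl, ← h, ← h1, ← h2]
  · intro h c d
    rw [← sl_apply ξ (admA_det γ) c d, h]
theorem Adm.zero_zero {ξ : E → E → ℂ} (h : Adm ξ) : ξ 0 0 = 0 := by
  by_contra h0
  obtain ⟨D, hD, h1⟩ := h.supp
  obtain ⟨-, -, x, y, -, -, h2⟩ := h1 0 0 h0
  rw [zero_mul, zero_mul, add_zero] at h2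
  exact hD (Nat.cast_eq_zero.1 h2.symm)
theorem adm_zero : Adm fun _ _ : E => (0 : ℂ) :=
  ⟨⟨0, fun _ _ => norm_zero.le⟩, ⟨1, one_ne_zero, fun _ _ h => absurd rfl h⟩,
    Subgroup.finiteIndex_of_le (H := ⊤) fun _ _ _ _ => rfl⟩
theorem Adm.const_mul {ξ : E → E → ℂ} (h : Adm ξ) (a : ℂ) : Adm fun c d => a * ξ c d := by
  obtain ⟨⟨B, hB⟩, ⟨D, hD, h1⟩, h2⟩ := h
  refine ⟨⟨‖a‖ * B, fun c d => ?_⟩, ⟨D, hD, fun c d h => h1 c d (right_ne_zero_of_mul h)⟩,
    Subgroup.finiteIndex_of_le (H := Stab ξ) fun γ hγ c d => congrArg (a * ·) (hγ c d)⟩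
  rw [norm_mul]
  exact mul_le_mul_of_nonneg_left (hB c d) (norm_nonneg _)
private theorem admA_supp {D : ℕ} (D' : ℕ) {c d : E} (h : IsIntegral ℤ ((D : E) * c) ∧
    IsIntegral ℤ ((D : E) * d) ∧ ∃ x y : E, IsIntegral ℤ x ∧ IsIntegral ℤ y ∧ c * x + d * y = D) :
    IsIntegral ℤ (((D' * D : ℕ) : E) * c) ∧ IsIntegral ℤ (((D' * D : ℕ) : E) * d) ∧
      ∃ x y : E, IsIntegral ℤ x ∧ IsIntegral ℤ y ∧ c * x + d * y = (D' * D : ℕ) := by
  obtain ⟨h1, h2, x, y, hx, hy, h3⟩ := h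
  simp only [Nat.cast_mul, mul_assoc]
  exact ⟨(admA_nat D').mul h1, (admA_nat D').mul h2, D' * x, D' * y, (admA_nat D').mul hx,
    (admA_nat D').mul hy, by linear_combination (D' : E) * h3⟩
theorem Adm.add {ξ ξ' : E → E → ℂ} (h : Adm ξ) (h' : Adm ξ') :
    Adm fun c d => ξ c d + ξ' c d := by
  obtain ⟨⟨B, hB⟩, ⟨D, hD, h1⟩, h2⟩ := h
  obtain ⟨⟨B', hB'⟩, ⟨D', hD', h1'⟩, h2'⟩ := h'
  refine ⟨⟨B + B', fun c d => (norm_add_le _ _).trans (add_le_add (hB c d) (hB' c d))⟩,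
    ⟨D' * D, mul_ne_zero hD' hD, fun c d h => ?_⟩,
    Subgroup.finiteIndex_of_le (H := Stab ξ ⊓ Stab ξ') fun γ hγ c d =>
      congrArg₂ (· + ·) (hγ.1 c d) (hγ.2 c d)⟩
  by_cases h0 : ξ c d = 0
  · rw [mul_comm D' D]
    exact admA_supp D (h1' c d fun h3 => h (by rw [h0, h3, add_zero]))
  · exact admA_supp D' (h1 c d h0)
theorem Adm.sum {α : Type} (s : Finset α) {ξ : α → E → E → ℂ} (h : ∀ i ∈ s, Adm (ξ i)) :
    Adm fun c d => ∑ i ∈ s, ξ i c d := by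
  classical
  induction s using Finset.induction_on with
  | empty => simpa using adm_zero
  | insert a s ha ih =>
    simp only [Finset.sum_insert ha]
    exact (h a (Finset.mem_insert_self _ _)).add (ih fun i hi => h i (Finset.mem_insert_of_mem hi))
private theorem admA_cong {N : ℕ} (hN : N ≠ 0) : ∃ Γ : Subgroup (SO E), Γ.FiniteIndex ∧
    ∀ γ ∈ Γ, ∀ i j, IsIntegral ℤ ((toM γ - 1) i j / N) := by
  have hN' : (N : 𝓞 E) ≠ 0 := Nat.cast_ne_zero.2 hN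
  have hNE : (N : E) ≠ 0 := Nat.cast_ne_zero.2 hN
  have h1 : Finite (𝓞 E ⧸ Ideal.span {(N : 𝓞 E)}) :=
    Ideal.finiteQuotientOfFreeOfNeBot _ (by rwa [Ne, Ideal.span_singleton_eq_bot])
  have h2 : Finite (Matrix.SpecialLinearGroup (Fin 2) (𝓞 E ⧸ Ideal.span {(N : 𝓞 E)})) :=
    Subtype.finite
  refine ⟨(Matrix.SpecialLinearGroup.map (n := Fin 2)
    (Ideal.Quotient.mk (Ideal.span {(N : 𝓞 E)}))).ker, inferInstance, fun γ hγ i j => ?_⟩
  have h3 : Ideal.Quotient.mk (Ideal.span {(N : 𝓞 E)}) (γ i j) =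
      Ideal.Quotient.mk (Ideal.span {(N : 𝓞 E)}) ((1 : Matrix (Fin 2) (Fin 2) (𝓞 E)) i j) := by
    have h4 := congrArg (fun A : Matrix.SpecialLinearGroup (Fin 2)
      (𝓞 E ⧸ Ideal.span {(N : 𝓞 E)}) => A i j) (MonoidHom.mem_ker.1 hγ)
    refine Eq.trans h4 ?_
    simp only [Matrix.SpecialLinearGroup.coe_one, Matrix.one_apply]
    split_ifs <;> simp
  obtain ⟨y, hy⟩ := Ideal.mem_span_singleton'.1 (Ideal.Quotient.eq.1 h3)
  have h5 : (toM γ - 1) i j = (y : E) * N := by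
    have h6 := congrArg (algebraMap (𝓞 E) E) hy
    rw [map_mul, map_sub, map_natCast] at h6
    rw [show (y : E) = algebraMap (𝓞 E) E y from rfl, h6, Matrix.sub_apply]
    congr 1
    simp only [Matrix.one_apply]
    split_ifs <;> simp
  rw [h5, mul_div_cancel_right₀ _ hNE]
  exact y.isIntegral_coe
/-- The congruence subgroup `Γ(N)` has finite index. -/
theorem finiteIndex_of_cong {Γ : Subgroup (SO E)} {N : ℕ} (hN : N ≠ 0)
    (h : ∀ γ : SO E, (∀ i j, IsIntegral ℤ ((toM γ - 1) i j / N)) → γ ∈ Γ) : Γ.FiniteIndex := by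
  obtain ⟨Δ, h1, h2⟩ := admA_cong (E := E) hN
  exact Subgroup.finiteIndex_of_le (H := Δ) fun γ hγ => h γ (h2 γ hγ)
private theorem admA_fin {G F : Type*} [Group G] [Finite F] (K : Subgroup G) (f : G → F)
    (h : ∀ x y, f x = f y → x⁻¹ * y ∈ K) : K.FiniteIndex := by
  have : Finite (G ⧸ K) := by
    refine Finite.of_surjective (fun t : Set.range f => (t.2.choose : G ⧸ K)) fun q => ?_
    obtain ⟨x, rfl⟩ := QuotientGroup.mk_surjective q
    exact ⟨⟨f x, x, rfl⟩,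
      QuotientGroup.eq.2 (h _ _ (Exists.choose_spec (⟨x, rfl⟩ : ∃ y, f y = f x)))⟩
  exact Subgroup.finiteIndex_of_finite_quotient
private theorem admA_eq {x y : E} (h : IsIntegral ℤ x) (e : y = x) : IsIntegral ℤ y := e ▸ h
private theorem admA_inv (ξ : E → E → ℂ) (γ : SO E) : sl (sl ξ (toM γ⁻¹)) (toM γ) = ξ := by
  rw [← sl_mul ξ (admA_det _) (admA_det _), ← toM_mul, inv_mul_cancel, toM_one, sl_one]
private theorem admA_fi {ξ : E → E → ℂ} {Γ : Subgroup (SO E)} (hΓ : Γ.FiniteIndex)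
    {S : Set (E → E → ℂ)} (hS : S.Finite) (h : ∀ γ ∈ Γ, sl ξ (toM γ) ∈ S) :
    (Stab ξ).FiniteIndex := by
  have := hS.to_subtype
  have h1 : ((Stab ξ).subgroupOf Γ).FiniteIndex := by
    refine admA_fin _ (F := S) (fun γ => ⟨_, h _ (Γ.inv_mem γ.2)⟩) fun x y hxy => ?_
    have h2 : sl ξ (toM (x : SO E)⁻¹) = sl ξ (toM (y : SO E)⁻¹) := congrArg Subtype.val hxy
    rw [Subgroup.mem_subgroupOf, mem_Stab, Subgroup.coe_mul, Subgroup.coe_inv, toM_mul,
      sl_mul ξ (admA_det _) (admA_det _), h2, admA_inv]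
  have h2 : (Stab ξ ⊓ Γ).FiniteIndex := by
    refine ⟨?_⟩
    rw [← Subgroup.relIndex_mul_index (inf_le_right : Stab ξ ⊓ Γ ≤ Γ), Subgroup.inf_relIndex_right]
    exact mul_ne_zero h1.index_ne_zero hΓ.index_ne_zero
  exact Subgroup.finiteIndex_of_le (H := Stab ξ ⊓ Γ) inf_le_left
private theorem admA_orbit {ξ : E → E → ℂ} (h : (Stab ξ).FiniteIndex) :
    (Set.range fun γ : SO E => sl ξ (toM γ)).Finite := by
  have : Finite (SO E ⧸ Stab ξ) := Subgroup.finite_quotient_of_finiteIndex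
  refine (Set.finite_range fun q : SO E ⧸ Stab ξ => sl ξ (toM q.out⁻¹)).subset ?_
  rintro _ ⟨γ, rfl⟩
  obtain ⟨k, hk⟩ := QuotientGroup.mk_out_eq_mul (Stab ξ) γ⁻¹
  refine ⟨(γ⁻¹ : SO E), ?_⟩
  simp only
  rw [hk, mul_inv_rev, inv_inv, toM_mul, sl_mul ξ (admA_det _) (admA_det _),
    mem_Stab.1 ((Stab ξ).inv_mem k.2)]
/-- A criterion: `ξ` is multiplied by a cube root of unity under `Γ(N)`.  (The elements of `Γ(N)`
act on the line `ℂ ξ` through a finite group; `R17.ThV_finiteIndex`.) -/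
theorem finiteIndex_Stab {ξ : E → E → ℂ} {N : ℕ} (hN : N ≠ 0)
    (h : ∀ γ : SO E, (∀ i j, IsIntegral ℤ ((toM γ - 1) i j / N)) →
      ∃ s : ℂ, s ^ 3 = 1 ∧ sl ξ (toM γ) = fun c d => s * ξ c d) : (Stab ξ).FiniteIndex := by
  obtain ⟨Δ, h1, h2⟩ := admA_cong (E := E) hN
  have h3 : {s : ℂ | s ^ 3 = 1}.Finite :=
    (Polynomial.nthRoots 3 (1 : ℂ)).finite_toSet.subset fun x hx =>
      (Polynomial.mem_nthRoots (by norm_num)).2 hx
  refine admA_fi h1 (h3.image fun s c d => s * ξ c d) fun γ hγ => ?_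
  obtain ⟨s, hs, h4⟩ := h γ (h2 γ hγ)
  exact ⟨s, hs, h4.symm⟩
private theorem admA_den {g : Mt E} : ∃ M : ℕ, M ≠ 0 ∧ ∀ i j, IsIntegral ℤ ((M : E) * g i j) ∧
    IsIntegral ℤ ((M : E) * (g i j / g.det)) := by
  choose D hD h using exists_nat_mul_isIntegral (E := E)
  refine ⟨∏ p : Fin 2 × Fin 2, D (g p.1 p.2) * D (g p.1 p.2 / g.det),
    Finset.prod_ne_zero_iff.2 fun p _ => mul_ne_zero (hD _) (hD _), fun i j => ?_⟩
  obtain ⟨k, hk⟩ := Finset.dvd_prod_of_mem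
    (fun p : Fin 2 × Fin 2 => D (g p.1 p.2) * D (g p.1 p.2 / g.det)) (Finset.mem_univ (i, j))
  rw [hk]
  constructor
  · refine admA_eq ((admA_nat (D (g i j / g.det) * k)).mul (h (g i j))) ?_
    push_cast
    ring
  · refine admA_eq ((admA_nat (D (g i j) * k)).mul (h (g i j / g.det))) ?_
    push_cast
    ring
/-- `g⁻¹ Γ g ∩ SL₂(𝓞)` has finite index: conjugation by `g` maps `Γ(N)` into `SL₂(𝓞)`. -/
theorem Adm.sl {ξ : E → E → ℂ} (h : Adm ξ) {g : Mt E} (hg : g.det ≠ 0) : Adm (sl ξ g) := by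
  obtain ⟨⟨B, hB⟩, ⟨D, hD, h1⟩, h2⟩ := h
  obtain ⟨M, hM, h3⟩ := admA_den (g := g)
  have hME : (M : E) ≠ 0 := Nat.cast_ne_zero.2 hM
  refine ⟨⟨B, fun c d => hB _ _⟩, ⟨D * M, mul_ne_zero hD hM, fun c d h => ?_⟩, ?_⟩
  · obtain ⟨h4, h5, x, y, hx, hy, h6⟩ := h1 _ _ h
    obtain ⟨h7, h8⟩ := admA_back hg c d
    refine ⟨?_, ?_, M * (g 1 1 / g.det) * x - M * (g 0 1 / g.det) * y,
      M * (g 0 0 / g.det) * y - M * (g 1 0 / g.det) * x,
      ((h3 1 1).2.mul hx).sub ((h3 0 1).2.mul hy), ((h3 0 0).2.mul hy).sub ((h3 1 0).2.mul hx), ?_⟩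
    · refine admA_eq ((h4.mul (h3 0 0).1).add (h5.mul (h3 1 0).1)) ?_
      push_cast
      linear_combination (D : E) * M * h7
    · refine admA_eq ((h4.mul (h3 0 1).1).add (h5.mul (h3 1 1).1)) ?_
      push_cast
      linear_combination (D : E) * M * h8
    · push_cast
      linear_combination (M : E) * h6
  · obtain ⟨Δ, h4, h5⟩ := admA_cong (E := E) (mul_ne_zero hM hM)
    refine admA_fi h4 ((admA_orbit h2).image fun ζ => R312.sl ζ g) fun δ hδ => ?_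
    set g' : Mt E := !![g 1 1 / g.det, -(g 0 1 / g.det); -(g 1 0 / g.det), g 0 0 / g.det] with hg'
    have h6 : g' * g = 1 := by
      ext i j
      fin_cases i <;> fin_cases j <;>
        simp [hg', Matrix.mul_apply, Fin.sum_univ_two] <;> field_simp <;>
        (try rw [Matrix.det_fin_two]) <;> ring
    have h7 : g * g' = 1 := mul_eq_one_comm.1 h6
    have h8 : ∀ i j, IsIntegral ℤ ((M : E) * g' i j) := by
      intro i j
      fin_cases i <;> fin_cases j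
      · simpa [hg'] using (h3 1 1).2
      · simpa [hg'] using (h3 0 1).2.neg
      · simpa [hg'] using (h3 1 0).2.neg
      · simpa [hg'] using (h3 0 0).2
    have h9 : g * toM δ * g' = 1 + g * (toM δ - 1) * g' := by
      rw [Matrix.mul_sub, Matrix.sub_mul, Matrix.mul_one, h7, add_sub_cancel]
    obtain ⟨γ, hγ⟩ := exists_toM (g := g * toM δ * g') (by
      rw [Matrix.det_mul, Matrix.det_mul, det_toM, mul_one, ← Matrix.det_mul, h7, Matrix.det_one])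
      (fun i j => by
        rw [h9, Matrix.add_apply, Matrix.mul_apply]
        refine IsIntegral.add ?_ (IsIntegral.sum _ fun l _ => ?_)
        · rw [Matrix.one_apply]
          split_ifs
          exacts [isIntegral_one, isIntegral_zero]
        · rw [Matrix.mul_apply, Finset.sum_mul]
          refine IsIntegral.sum _ fun k _ => ?_
          refine admA_eq (((h3 i k).1.mul (h5 δ hδ k l)).mul (h8 l j)) ?_
          push_cast
          field_simp)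
    refine ⟨_, ⟨γ, rfl⟩, ?_⟩
    simp only
    rw [← sl_mul ξ (admA_det _) hg, ← sl_mul ξ hg (admA_det _), hγ, Matrix.mul_assoc, h6,
      Matrix.mul_one]

/-! ## part B -/

theorem Adm.isLat_Lx {ξ : E → E → ℂ} (h : Adm ξ) : IsLat (Lx ξ) := by
  obtain ⟨N, hN, h1, -⟩ := AdmB.lat h.fin (Matrix.det_one (n := Fin 2) (R := E))
  refine ⟨N, hN, fun x hx => ⟨(admA_nat N).mul hx, fun c d => ?_⟩,
    fun x hx => (admA_nat N).mul hx.1⟩
  obtain ⟨γ, hγ, e⟩ := h1 x hx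
  rw [Matrix.one_mul, Matrix.mul_one] at e
  have h2 := hγ c d
  rw [e] at h2
  simpa [add_comm] using h2
theorem Adm.per {ξ : E → E → ℂ} (h : Adm ξ) {c : E} (hc : c ≠ 0) : Per (ξ c) := by
  obtain ⟨N, hN, h1, -⟩ := h.isLat_Lx
  obtain ⟨D, hD, h2⟩ := h.supp
  obtain ⟨e, he, h3⟩ := exists_nat_mul_isIntegral c⁻¹
  refine ⟨N * e * D, mul_ne_zero (mul_ne_zero hN he) hD, fun x hx => ?_, fun x y hy => ?_⟩
  · refine admA_eq ((admA_nat (N * e)).mul (h2 c x hx).2.1) ?_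
    push_cast
    ring
  · rw [← (h1 _ (((admA_nat D).mul h3).mul hy)).2 c x]
    congr 1
    push_cast
    field_simp
theorem Adm.exists_lower {ξ : E → E → ℂ} (h : Adm ξ) : ∃ N : ℕ, N ≠ 0 ∧ ∃ γ ∈ Stab ξ,
    toM γ = !![1, 0; (N : E), 1] := by
  obtain ⟨K, hK, h1⟩ := AdmB.exists_unip h.fin
  obtain ⟨γ, hγ, e⟩ := h1 !![0, 0; 1, 0]
    (by ext i j; fin_cases i <;> fin_cases j <;> simp [Matrix.mul_apply, Fin.sum_univ_two])
    (by simp [Matrix.det_fin_two])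
    (fun i j => by fin_cases i <;> fin_cases j <;> simp [isIntegral_zero, isIntegral_one])
  refine ⟨K, hK, γ, hγ, e.trans ?_⟩
  ext i j
  fin_cases i <;> fin_cases j <;> simp
/-- The vectors `(0, d)` in the support: `D d` is a divisor of `D²` in `𝓞`, there are finitely
many such `d` up to units. -/
theorem Adm.zero_row {ξ : E → E → ℂ} (h : Adm ξ) : ∃ T : Finset E, (∀ t ∈ T, t ≠ 0) ∧
    ∀ d, ξ 0 d ≠ 0 → ∃ t ∈ T, ∃ u : (𝓞 E)ˣ, d = ((u : 𝓞 E) : E) * t := by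
  obtain ⟨D, hD, h1⟩ := h.supp
  obtain ⟨T, hT, h2⟩ := AdmB.zero_row (E := E) hD
  refine ⟨T, hT, fun d hd => ?_⟩
  obtain ⟨-, h3, x, y, -, hy, e⟩ := h1 0 d hd
  exact h2 d h3 ⟨y, hy, by simpa using e⟩
/-- **Finitely many orbits.**  For `v = (c, d)` with `c x + d y = D` put
`g = (y/D, -x/D; c, d)`; if `(D c, D d, x, y) ≡ (D c', D d', x', y') (mod D² 𝓞)` then
`g⁻¹ g' ∈ SL₂(𝓞)`.  So there are finitely many `SL₂(𝓞)`-orbits, hence finitely many `Γ`-orbits. -/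
theorem Adm.orbits {ξ : E → E → ℂ} (h : Adm ξ) : ∃ T : Finset (Mt E), (∀ g ∈ T, g.det = 1) ∧
    ∀ c d, ξ c d ≠ 0 → ∃! g, g ∈ T ∧ ∃ γ ∈ Stab ξ, c = (g * toM γ) 1 0 ∧ d = (g * toM γ) 1 1 := by
  obtain ⟨D, hD, h1⟩ := h.supp
  obtain ⟨T, hT, h2⟩ := AdmB.orbits h.fin hD
  exact ⟨T, hT, fun c d hd => h2 c d (h1 c d hd).1 (h1 c d hd).2.1 (h1 c d hd).2.2⟩
/-- The translations in `g Γ g⁻¹`. -/
def Lg (Γ : Subgroup (SO E)) (g : Mt E) : AddSubgroup E where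
  carrier := {t | ∃ γ ∈ Γ, g * toM γ = !![1, t; 0, 1] * g}
  zero_mem' := ⟨1, Γ.one_mem, by
    rw [toM_one, Matrix.mul_one, ← Matrix.one_fin_two, Matrix.one_mul]⟩
  add_mem' := by
    rintro s t ⟨γ, hγ, e⟩ ⟨γ', hγ', e'⟩
    refine ⟨γ * γ', Γ.mul_mem hγ hγ', ?_⟩
    rw [toM_mul, ← Matrix.mul_assoc, e, Matrix.mul_assoc, e', ← Matrix.mul_assoc]
    simp [add_comm]
  neg_mem' := by
    rintro t ⟨γ, hγ, e⟩
    refine ⟨γ⁻¹, Γ.inv_mem hγ, ?_⟩
    have h : (!![1, -t; 0, 1] : Mt E) * !![1, t; 0, 1] = 1 := by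
      simp [Matrix.one_fin_two]
    calc g * toM γ⁻¹ = !![1, -t; 0, 1] * (!![1, t; 0, 1] * g) * toM γ⁻¹ := by
          rw [← Matrix.mul_assoc, h, Matrix.one_mul]
      _ = _ := by rw [← e, Matrix.mul_assoc, Matrix.mul_assoc, AdmB.toM_mul_inv, Matrix.mul_one]
theorem isLat_Lg {Γ : Subgroup (SO E)} (hΓ : Γ.FiniteIndex) {g : Mt E} (hg : g.det = 1) :
    IsLat (Lg Γ g) := AdmB.lat hΓ hg
/-- Two elements of `g Γ` with the same second row differ by a translation in `Lg Γ g`. -/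
theorem exists_Lg {Γ : Subgroup (SO E)} {g : Mt E} (hg : g.det = 1) {γ γ' : SO E} (h : γ ∈ Γ)
    (h' : γ' ∈ Γ) (h0 : (g * toM γ) 1 0 = (g * toM γ') 1 0)
    (h1 : (g * toM γ) 1 1 = (g * toM γ') 1 1) :
    ∃ t ∈ Lg Γ g, g * toM γ' = !![1, t; 0, 1] * (g * toM γ) := by
  have hA : (g * toM γ).det = 1 := by rw [Matrix.det_mul, hg, det_toM, one_mul]
  have hA' : (g * toM γ').det = 1 := by rw [Matrix.det_mul, hg, det_toM, one_mul]
  have key : ∃ t : E, g * toM γ' = !![1, t; 0, 1] * (g * toM γ) := by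
    generalize g * toM γ = A at *
    generalize g * toM γ' = A' at *
    rw [Matrix.det_fin_two] at hA hA'
    refine ⟨A 0 0 * A' 0 1 - A' 0 0 * A 0 1, ?_⟩
    ext i j
    fin_cases i <;> fin_cases j <;> simp [Matrix.mul_apply, Fin.sum_univ_two]
    · rw [← h0, ← h1] at hA'
      linear_combination (A 0 0) * hA' - (A' 0 0) * hA
    · rw [← h0, ← h1] at hA'
      linear_combination (A 0 1) * hA' - (A' 0 1) * hA
    · exact h0.symm
    · exact h1.symm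
  obtain ⟨t, ht⟩ := key
  refine ⟨t, ⟨γ' * γ⁻¹, Γ.mul_mem h' (Γ.inv_mem h), ?_⟩, ht⟩
  rw [toM_mul, ← Matrix.mul_assoc, ht, Matrix.mul_assoc, Matrix.mul_assoc, AdmB.toM_mul_inv,
    Matrix.mul_one]
theorem sl_inv_transl {ξ : E → E → ℂ} {g : Mt E} (hg : g.det = 1) {t : E} (ht : t ∈ Lg (Stab ξ) g)
    (c d : E) : sl ξ g⁻¹ c (d + c * t) = sl ξ g⁻¹ c d := by
  have hg' : g.det ≠ 0 := by rw [hg]; exact one_ne_zero
  have hu : IsUnit g.det := isUnit_iff_ne_zero.2 hg'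
  have h1 : ∀ c d, sl ξ g⁻¹ c d = ξ (c * g 0 0 + d * g 1 0) (c * g 0 1 + d * g 1 1) := fun c d => by
    rw [← sl_apply (sl ξ g⁻¹) hg' c d, ← sl_mul ξ (Matrix.isUnit_nonsing_inv_det g hu).ne_zero hg',
      Matrix.nonsing_inv_mul g hu, sl_one]
  obtain ⟨γ, hγ, e⟩ := ht
  have e' := fun i j => congrFun (congrFun e i) j
  have e00 := e' 0 0
  have e01 := e' 0 1
  have e10 := e' 1 0
  have e11 := e' 1 1
  simp [Matrix.mul_apply, Fin.sum_univ_two] at e00 e01 e10 e11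
  rw [h1, h1, ← hγ (c * g 0 0 + d * g 1 0)]
  congr 1
  · linear_combination -c * e00 - d * e10
  · linear_combination -c * e01 - d * e11
theorem Lg_one {ξ : E → E → ℂ} : Lg (Stab ξ) 1 = Lx ξ := by
  ext t
  constructor
  · rintro ⟨γ, hγ, e⟩
    rw [Matrix.one_mul, Matrix.mul_one] at e
    refine ⟨by simpa [e] using isIntegral_toM γ 0 1, fun c d => ?_⟩
    have h2 := hγ c d
    rw [e] at h2
    simpa [add_comm] using h2
  · rintro ⟨h1, h2⟩
    obtain ⟨γ, e⟩ := exists_toM (g := (!![1, t; 0, 1] : Mt E)) (by simp [Matrix.det_fin_two])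
      (fun i j => by fin_cases i <;> fin_cases j <;> simp [isIntegral_zero, isIntegral_one, h1])
    refine ⟨γ, fun c d => ?_, by rw [Matrix.one_mul, Matrix.mul_one, e]⟩
    rw [e]
    simpa [add_comm] using h2 c d
end

theorem Adm.norm_Mn_le {ξ : E → E → ℂ} (h : Adm ξ) :
    ∃ B : ℝ, ∀ c ν : E, c ≠ 0 → ‖Mn fun d => ξ c d * eT (ν * d)‖ ≤ B := by
  obtain ⟨B, hB⟩ := h.bdd
  obtain ⟨D, hD, h1⟩ := h.supp
  exact ⟨B * (D : ℝ) ^ Module.finrank ℚ E, fun c ν hc => R312.norm_Mn_le ((h.per hc).mul_eT ν) hD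
    (fun x hx => (h1 c x (left_ne_zero_of_mul hx)).2.1)
    (fun x => by rw [norm_mul, norm_eT, mul_one]; exact hB c x)⟩
theorem Adm.norm_Gx_le {ξ : E → E → ℂ} (h : Adm ξ) : ∃ B : ℝ, ∀ ν c, ‖Gx ξ ν c‖ ≤ B * nr c := by
  obtain ⟨B, hB⟩ := h.norm_Mn_le
  refine ⟨B, fun ν c => ?_⟩
  unfold Gx
  split_ifs with hc
  · simp [hc]
  · rw [norm_mul, Complex.norm_real, Real.norm_of_nonneg (nr_nonneg c), mul_comm]
    exact mul_le_mul_of_nonneg_right (hB c _ hc) (nr_nonneg c)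
theorem Adm.polyG {ξ : E → E → ℂ} (h : Adm ξ) (ν : E) : PolyG (Gx ξ ν) := by
  obtain ⟨B, hB⟩ := h.norm_Gx_le
  obtain ⟨D, hD, h1⟩ := h.supp
  refine ⟨D, B, 1, hD, zero_le_one, fun c hc => ⟨?_, ?_, by rw [Real.rpow_one]; exact hB ν c⟩⟩
  · rintro rfl
    exact hc (if_pos rfl)
  · by_contra h2
    have h3 : ∀ d, ξ c d = 0 := fun d => by
      by_contra h4
      exact h2 (h1 c d h4).1
    apply hc
    simp [Gx, h3]
theorem Adm.Gx_eq_zero {ξ : E → E → ℂ} (h : Adm ξ) {t ν : E} (ht : ∀ c d, ξ c (d + c * t) = ξ c d)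
    (hν : eT (ν * t) ≠ 1) (c : E) : Gx ξ ν c = 0 := by
  unfold Gx
  split_ifs with hc
  · rfl
  · rw [Mn_mul_eT_eq_zero (h.per hc) (t := c * t) (ht c)
      (by rwa [show ν / c * (c * t) = ν * t by field_simp]), mul_zero]
theorem Gx_const_mul {ξ : E → E → ℂ} (h : Adm ξ) (a : ℂ) (ν c : E) :
    Gx (fun c d => a * ξ c d) ν c = a * Gx ξ ν c := by
  unfold Gx
  split_ifs with hc
  · rw [mul_zero]
  · simp only [mul_assoc]
    rw [Mn_const_mul ((h.per hc).mul_eT _)]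
    ring
theorem Gx_add {ξ ξ' : E → E → ℂ} (h : Adm ξ) (h' : Adm ξ') (ν c : E) :
    Gx (fun c d => ξ c d + ξ' c d) ν c = Gx ξ ν c + Gx ξ' ν c := by
  unfold Gx
  split_ifs with hc
  · rw [add_zero]
  · simp only [add_mul]
    rw [Mn_add ((h.per hc).mul_eT _) ((h'.per hc).mul_eT _)]
    ring
theorem Gx_upper {ξ : E → E → ℂ} (h : Adm ξ) {a d : E} (ha : a ≠ 0) (hd : d ≠ 0) (b ν c : E) :
    Gx (sl ξ !![a, b; 0, d]) (ν * a / d) (a * c) =
      ((nr a / nr d : ℝ) : ℂ) * eT (ν * b / d) * Gx ξ ν c := by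
  by_cases hc : c = 0
  · simp [Gx, hc]
  have hφ := (h.per hc).mul_eT (ν / c)
  have hψ : Per fun y => ξ c (d⁻¹ * y) * eT (ν / c * (d⁻¹ * y)) := by
    simpa using hφ.affine (inv_ne_zero hd) 0
  have e : (fun y => sl ξ !![a, b; 0, d] (a * c) y * eT (ν * a / d / (a * c) * y)) =
      fun y => eT (ν * b / d) *
        (ξ c (d⁻¹ * (y + -(c * b))) * eT (ν / c * (d⁻¹ * (y + -(c * b))))) := by
    funext y
    rw [sl_upper ξ ha hd, mul_left_comm, ← eT_add]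
    congr 2 <;> field_simp <;> ring
  have hχ : Per fun y => ξ c (d⁻¹ * (y + -(c * b))) * eT (ν / c * (d⁻¹ * (y + -(c * b)))) := by
    simpa using hψ.affine one_ne_zero (-(c * b))
  unfold Gx
  rw [if_neg (mul_ne_zero ha hc), if_neg hc, e, Mn_const_mul hχ, Mn_add_const hψ,
    Mn_mul_left hφ (inv_ne_zero hd), nr_mul, nr_inv]
  push_cast
  ring

end Crest.Agent.R312
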