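import Crest.Agent.R312.ThH

/-!
# Row 312: theta module C: the weight `wtL`, Parseval (port of part B2 of `R17/ThetaUnf.lean`)
-/

set_option autoImplicit false

noncomputable section

namespace Crest.Agent.R312

open NumberField
open scoped ComplexConjugate

open MeasureTheory Filter Topology
open scoped ENNReal
open Crest.Agent.R17 (H actC Qf μH Fk Mk IsWt W0 U1)

variable {E : Type} [Field E] [NumberField E] [Om E]

theorem tbx_summable {L : AddSubgroup E} (h : IsLat L) (z : Pl E → ℂ) (α : Pl E → ℝ) :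
    Summable fun t : L => gz (em (t : E) + z) α := by
  classical
  obtain ⟨N, hN, -, h2⟩ := h
  obtain ⟨C, -, hC⟩ := tsum_gz_le (E := E)
  have h1 := (hC (N : E) α z (Nat.cast_ne_zero.2 hN)).1.comp_injective
    (Subtype.val_injective (p := fun x => x ∈ L))
  refine h1.congr fun t => ?_
  exact if_pos (h2 t t.2)

theorem IsLat.summable {L : AddSubgroup E} (h : IsLat L) (z : Pl E → ℂ) :
    Summable fun t : L => gz (em (t : E) + z) 0 := tbx_summable h z 0

theorem tbx_den_pos {L : AddSubgroup E} (h : IsLat L) (z : Pl E → ℂ) :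
    0 < ∑' t : L, gz (em (t : E) + z) 0 :=
  (h.summable z).tsum_pos (fun _ => (gz_pos _ _).le) 0 (gz_pos _ _)

theorem wtL_pos {L : AddSubgroup E} (h : IsLat L) (z : Pl E → ℂ) : 0 < wtL L z :=
  div_pos (gz_pos _ _) (tbx_den_pos h z)

theorem tbx_gz_shift (x z : Pl E → ℂ) {R : ℝ} (hz : ‖z‖ ≤ R) :
    gz (x + z) 0 ≤ Real.exp (2 * Real.pi * (rk E * R ^ 2)) * gz x fun _ => Real.log 2 := by
  have hπ := Real.pi_pos
  rw [gz, gz, ← Real.exp_add]
  refine Real.exp_le_exp.2 ?_
  have h1 : ∑ σ, ‖x σ‖ ^ 2 * Real.exp (-Real.log 2) ≤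
      rk E * R ^ 2 + ∑ σ, ‖(x + z) σ‖ ^ 2 * Real.exp (-(0 : Pl E → ℝ) σ) := by
    rw [show (rk E : ℝ) * R ^ 2 = ∑ _σ : Pl E, R ^ 2 by simp, ← Finset.sum_add_distrib]
    refine Finset.sum_le_sum fun σ _ => ?_
    rw [Real.exp_neg, Real.exp_log two_pos]
    simp only [Pi.zero_apply, neg_zero, Real.exp_zero, mul_one, Pi.add_apply]
    have h2 : ‖z σ‖ ≤ R := (norm_le_pi_norm z σ).trans hz
    have h3 : ‖x σ‖ ≤ ‖x σ + z σ‖ + ‖z σ‖ := by
      simpa using norm_sub_le (x σ + z σ) (z σ)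
    have h4 : ‖x σ‖ ≤ ‖x σ + z σ‖ + R := by linarith
    have h5 : ‖x σ‖ ^ 2 ≤ (‖x σ + z σ‖ + R) ^ 2 := pow_le_pow_left₀ (norm_nonneg _) h4 2
    nlinarith [sq_nonneg (‖x σ + z σ‖ - R)]
  nlinarith

theorem tbx_continuous_gz (x : Pl E → ℂ) : Continuous fun z : Pl E → ℂ => gz (x + z) 0 := by
  unfold gz
  fun_prop

theorem tbx_continuous_den {L : AddSubgroup E} (h : IsLat L) :
    Continuous fun z : Pl E → ℂ => ∑' t : L, gz (em (t : E) + z) 0 := by
  refine continuous_iff_continuousAt.2 fun z₀ => ?_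
  have hs := (tbx_summable h 0 fun _ => Real.log 2).mul_left
    (Real.exp (2 * Real.pi * (rk E * (‖z₀‖ + 1) ^ 2)))
  have h1 := continuousOn_tsum (s := Metric.ball (0 : Pl E → ℂ) (‖z₀‖ + 1))
    (f := fun (t : L) z => gz (em (t : E) + z) 0)
    (fun t => (tbx_continuous_gz _).continuousOn) hs fun t z hz => by
      rw [Real.norm_of_nonneg (gz_pos _ _).le, add_zero]
      exact tbx_gz_shift _ _ (mem_ball_zero_iff.1 hz).le
  exact h1.continuousAt (Metric.isOpen_ball.mem_nhds (mem_ball_zero_iff.2 (lt_add_one _)))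

theorem continuous_wtL {L : AddSubgroup E} (h : IsLat L) : Continuous (wtL L) :=
  Continuous.div (f := fun z => gz z 0) (by unfold gz; fun_prop) (tbx_continuous_den h)
    fun z => (tbx_den_pos h z).ne'

/-- The denominator is bounded below (`exists_near`). -/
theorem wtL_le {L : AddSubgroup E} (h : IsLat L) : ∃ C : ℝ, ∀ z, wtL L z ≤ C * gz z 0 := by
  obtain ⟨C, hC⟩ := exists_near (E := E)
  obtain ⟨N, hN, h1, -⟩ := id h
  have hπ := Real.pi_pos
  have hN' : (N : ℂ) ≠ 0 := Nat.cast_ne_zero.2 hN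
  refine ⟨(Real.exp (-(2 * Real.pi) * ∑ _σ : Pl E, (N * C) ^ 2))⁻¹, fun z => ?_⟩
  obtain ⟨t, ht⟩ := hC fun σ => -z σ / N
  have h2 : Real.exp (-(2 * Real.pi) * ∑ _σ : Pl E, (N * C) ^ 2) ≤
      ∑' t : L, gz (em (t : E) + z) 0 := by
    refine le_trans ?_ ((h.summable z).le_tsum ⟨_, h1 t t.isIntegral_coe⟩
      fun _ _ => (gz_pos _ _).le)
    rw [gz]
    refine Real.exp_le_exp.2 ?_
    rw [neg_mul, neg_mul, neg_le_neg_iff]
    refine mul_le_mul_of_nonneg_left (Finset.sum_le_sum fun σ _ => ?_) (by positivity)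
    simp only [Pi.zero_apply, neg_zero, Real.exp_zero, mul_one, Pi.add_apply, em, map_mul,
      map_natCast]
    refine pow_le_pow_left₀ (norm_nonneg _) ?_ 2
    have e : (N : ℂ) * σ.1 t + z σ = -(N * (-z σ / N - σ.1 t)) := by
      field_simp
      ring
    rw [e, norm_neg, norm_mul, Complex.norm_natCast]
    exact mul_le_mul_of_nonneg_left (ht σ) (Nat.cast_nonneg _)
  rw [wtL, div_eq_inv_mul]
  exact mul_le_mul_of_nonneg_right (inv_anti₀ (Real.exp_pos _) h2) (gz_pos _ _).le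

theorem tbx_integrable_gz : Integrable fun z : Pl E → ℂ => gz z 0 := by
  have hπ := Real.pi_pos
  have h1 : Integrable fun u : ℂ => Real.exp (-(2 * Real.pi) * ‖u‖ ^ 2) := by
    have := (GaussianFourier.integrable_cexp_neg_mul_sq_norm_add (V := ℂ)
      (b := ((2 * Real.pi : ℝ) : ℂ)) (by rw [Complex.ofReal_re]; positivity) 0 0).norm
    refine this.congr (Eventually.of_forall fun u => ?_)
    simp only [zero_mul, add_zero]
    rw [show -((2 * Real.pi : ℝ) : ℂ) * (‖u‖ : ℂ) ^ 2 = ((-(2 * Real.pi) * ‖u‖ ^ 2 : ℝ) : ℂ) by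
      push_cast; ring, Complex.norm_exp_ofReal]
  simp only [gz, Pi.zero_apply, neg_zero, Real.exp_zero, mul_one, Finset.mul_sum, Real.exp_sum]
  exact Integrable.fintype_prod (f := fun _ (u : ℂ) => Real.exp (-(2 * Real.pi) * ‖u‖ ^ 2))
    fun _ => h1

theorem integrable_wtL {L : AddSubgroup E} (h : IsLat L) : Integrable (wtL L) := by
  obtain ⟨C, hC⟩ := wtL_le h
  refine (tbx_integrable_gz.const_mul C).mono' (continuous_wtL h).aestronglyMeasurable
    (Eventually.of_forall fun z => ?_)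
  rw [Real.norm_of_nonneg (wtL_pos h z).le]
  exact hC z

theorem vol_pos {L : AddSubgroup E} (h : IsLat L) : 0 < vol L :=
  integral_pos_of_integrable_nonneg_nonzero (x := 0) (continuous_wtL h) (integrable_wtL h)
    (fun z => (wtL_pos h z).le) (wtL_pos h 0).ne'

theorem tbx_den_add {L : AddSubgroup E} (z : Pl E → ℂ) (s : L) :
    ∑' t : L, gz (em (t : E) + (z + em (s : E))) 0 = ∑' t : L, gz (em (t : E) + z) 0 := by
  rw [← (Equiv.addRight s).tsum_eq fun t : L => gz (em (t : E) + z) 0]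
  refine tsum_congr fun t => ?_
  simp only [Equiv.coe_addRight, AddSubgroup.coe_add, em_add]
  congr 1
  abel

theorem hasSum_wtL {L : AddSubgroup E} (h : IsLat L) (z : Pl E → ℂ) :
    HasSum (fun t : L => wtL L (z + em (t : E))) 1 := by
  have h1 := (h.summable z).hasSum.div_const (∑' t : L, gz (em (t : E) + z) 0)
  rw [div_self (tbx_den_pos h z).ne'] at h1
  refine (funext fun t => ?_ : _ = fun t : L => wtL L (z + em (t : E))) ▸ h1
  rw [wtL, tbx_den_add, add_comm]

theorem tbx_integrable_wtC {L : AddSubgroup E} (h : IsLat L) :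
    Integrable fun z => (wtL L z : ℂ) := (integrable_wtL h).ofReal

/-- A partition of unity under the integral. -/
theorem tbx_hasSum_weight {ι α : Type} [Countable ι] [MeasurableSpace α] {μ : Measure α}
    {p : ι → α → ℝ} (hp : ∀ i, Measurable (p i)) (hp0 : ∀ i a, 0 ≤ p i a)
    (h1 : ∀ a, HasSum (fun i => p i a) 1) {G : α → ℂ} (hG : Integrable G μ) :
    HasSum (fun i => ∫ a, G a * p i a ∂μ) (∫ a, G a ∂μ) := by
  have hle : ∀ (s : Finset ι) a, ∑ i ∈ s, p i a ≤ 1 := fun s a =>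
    sum_le_hasSum s (fun i _ => hp0 i a) (h1 a)
  have hi : ∀ i, Integrable (fun a => G a * p i a) μ := fun i => by
    refine hG.mul_bdd (c := 1) (Complex.measurable_ofReal.comp (hp i)).aestronglyMeasurable
      (Filter.Eventually.of_forall fun a => ?_)
    rw [Complex.norm_real, Real.norm_of_nonneg (hp0 i a)]
    simpa using hle {i} a
  have hs : Summable fun i => ∫ a, ‖G a * p i a‖ ∂μ := by
    refine summable_of_sum_le (c := ∫ a, ‖G a‖ ∂μ)
      (fun i => integral_nonneg fun a => norm_nonneg _) fun s => ?_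
    rw [← integral_finsetSum s fun i _ => (hi i).norm]
    refine integral_mono (integrable_finsetSum s fun i _ => (hi i).norm) hG.norm fun a => ?_
    have : ∀ i, ‖G a * p i a‖ = ‖G a‖ * p i a := fun i => by
      rw [norm_mul, Complex.norm_real, Real.norm_of_nonneg (hp0 i a)]
    simp only [this]
    rw [← Finset.mul_sum]
    exact mul_le_of_le_one_right (norm_nonneg _) (hle s a)
  have h := hasSum_integral_of_summable_integral_norm hi hs
  have h2 : ∀ a, ∑' i, G a * p i a = G a := fun a => by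
    rw [tsum_mul_left, ← Complex.ofReal_tsum, (h1 a).tsum_eq, Complex.ofReal_one, mul_one]
  simpa only [h2] using h

/-- The integral of a bounded `L`-periodic function does not depend on the weight: translation
invariance. -/
theorem integral_wtL_add {L : AddSubgroup E} (h : IsLat L) {f : (Pl E → ℂ) → ℂ}
    (hf : Continuous f) {B : ℝ} (hB : ∀ z, ‖f z‖ ≤ B) (hp : ∀ t ∈ L, ∀ z, f (z + em t) = f z)
    (a : Pl E → ℂ) : ∫ z, (wtL L z : ℂ) * f (z + a) = ∫ z, (wtL L z : ℂ) * f z := by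
  have hw := continuous_wtL h
  have i1 : Integrable fun z => (wtL L z : ℂ) * f (z + a) :=
    (tbx_integrable_wtC h).mul_bdd (c := B) (by fun_prop) (Eventually.of_forall fun z => hB _)
  have i2 : Integrable fun z => (wtL L z : ℂ) * f z :=
    (tbx_integrable_wtC h).mul_bdd (c := B) (by fun_prop) (Eventually.of_forall fun z => hB _)
  have s1 := tbx_hasSum_weight (p := fun (t : L) z => wtL L (z + a + em (t : E)))
    (fun t => by fun_prop) (fun t z => (wtL_pos h _).le) (fun z => hasSum_wtL h (z + a)) i1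
  have s2 := tbx_hasSum_weight (p := fun (t : L) z => wtL L (z - a + em (t : E)))
    (fun t => by fun_prop) (fun t z => (wtL_pos h _).le) (fun z => hasSum_wtL h (z - a)) i2
  rw [← (Equiv.neg L).hasSum_iff] at s2
  refine s1.unique ((funext fun t => ?_ : _ = fun t : L =>
    ∫ z, (wtL L z : ℂ) * f (z + a) * wtL L (z + a + em (t : E))) ▸ s2)
  simp only [Function.comp_apply, Equiv.neg_apply, AddSubgroup.coe_neg, em_neg]
  rw [← integral_add_right_eq_self _ (a + em (t : E))]
  refine integral_congr_ae (Eventually.of_forall fun z => ?_)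
  have e : z + (a + em (t : E)) - a + -em (t : E) = z := by abel
  beta_reduce
  rw [e, ← add_assoc, hp t t.2]
  ring

theorem tbx_continuous_ez (ν : Pl E → ℂ) : Continuous (ez ν) := by
  unfold ez
  fun_prop

theorem tbx_exists_ez {ν : E} (hν : ν ≠ 0) : ∃ a : Pl E → ℂ, ez (em ν) a ≠ 1 := by
  classical
  obtain ⟨σ⟩ := Fintype.card_pos_iff.1 (rk_pos (E := E))
  refine ⟨Pi.single σ ((4 * σ.1 ν)⁻¹), ?_⟩
  have h0 := σ.ne_zero hν
  have e : ∑ τ, 2 * (em ν τ * (Pi.single σ ((4 * σ.1 ν)⁻¹) : Pl E → ℂ) τ).re = 1 / 2 := by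
    rw [Finset.sum_eq_single σ (fun τ _ hτ => by simp [Pi.single_eq_of_ne hτ]) (by simp)]
    rw [Pi.single_eq_same, em, show σ.1 ν * (4 * σ.1 ν)⁻¹ = ((1 / 4 : ℝ) : ℂ) by
      push_cast; field_simp, Complex.ofReal_re]
    norm_num
  rw [ez, e, show 2 * (Real.pi : ℂ) * Complex.I * ((1 / 2 : ℝ) : ℂ) = Real.pi * Complex.I by
    push_cast; ring, Complex.exp_pi_mul_I]
  norm_num

open Classical in
/-- Orthogonality. -/
theorem integral_wtL_ez {L : AddSubgroup E} (h : IsLat L) {ν : E} (hν : ∀ t ∈ L, eT (ν * t) = 1) :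
    ∫ z, (wtL L z : ℂ) * ez (em ν) z = if ν = 0 then (vol L : ℂ) else 0 := by
  split_ifs with h0
  · simp only [h0, em_zero, ez_zero_left, mul_one]
    rw [integral_complex_ofReal, vol]
  · obtain ⟨a, ha⟩ := tbx_exists_ez h0
    have h1 := integral_wtL_add h (tbx_continuous_ez (em ν)) (B := 1)
      (fun z => (norm_ez _ _).le) (fun t ht z => by rw [ez_add_right, ez_em, hν t ht, mul_one]) a
    simp only [ez_add_right, ← mul_assoc] at h1
    rw [integral_mul_const] at h1
    by_contra h2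
    exact ha (mul_left_cancel₀ h2 (h1.trans (mul_one _).symm))

/-- Mean value of a trigonometric series, general index set. -/
theorem tbx_integral_gen {κ : Type} [Countable κ] {L : AddSubgroup E} (h : IsLat L) {ξ : κ → E}
    [∀ r, Decidable (ξ r = 0)] {a : κ → ℂ} (ha : Summable fun r => ‖a r‖)
    (hξ : ∀ r, a r ≠ 0 → ∀ t ∈ L, eT (ξ r * t) = 1) :
    ∫ z, (wtL L z : ℂ) * ∑' r, a r * ez (em (ξ r)) z =
      vol L * ∑' r, if ξ r = 0 then a r else 0 := by
  have hw := tbx_integrable_wtC h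
  have hi : ∀ r, Integrable fun z => (wtL L z : ℂ) * (a r * ez (em (ξ r)) z) := fun r =>
    hw.mul_bdd (c := ‖a r‖)
      (continuous_const.mul (tbx_continuous_ez _)).aestronglyMeasurable
      (Filter.Eventually.of_forall fun z => by rw [norm_mul, norm_ez, mul_one])
  have hs : Summable fun r => ∫ z, ‖(wtL L z : ℂ) * (a r * ez (em (ξ r)) z)‖ := by
    simp only [norm_mul, norm_ez, mul_one, integral_mul_const]
    exact ha.mul_left _
  simp only [← tsum_mul_left]
  rw [← integral_tsum_of_summable_integral_norm hi hs]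
  refine tsum_congr fun r => ?_
  have e : ∀ z, (wtL L z : ℂ) * (a r * ez (em (ξ r)) z) =
      (wtL L z : ℂ) * ez (em (ξ r)) z * a r := fun z => by ring
  simp only [e]
  rw [integral_mul_const]
  by_cases h0 : a r = 0
  · simp [h0]
  · rw [integral_wtL_ez h (hξ r h0)]
    split_ifs <;> simp

theorem integral_wtL_tsum {L : AddSubgroup E} (h : IsLat L) {a : E → ℂ}
    (ha : Summable fun ν => ‖a ν‖) (hs : ∀ ν, a ν ≠ 0 → ∀ t ∈ L, eT (ν * t) = 1) :
    ∫ z, (wtL L z : ℂ) * ∑' ν, a ν * ez (em ν) z = vol L * a 0 := by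
  classical
  rw [tbx_integral_gen h (ξ := fun ν => ν) ha hs, tsum_eq_single 0 fun r hr => if_neg hr,
    if_pos rfl]

theorem tbx_normSq_tsum {a : E → ℂ} (ha : Summable fun r => ‖a r‖) (z : Pl E → ℂ) :
    ∑' p : E × E, a p.1 * conj (a p.2) * ez (em (p.1 - p.2)) z =
      ((‖∑' r, a r * ez (em r) z‖ ^ 2 : ℝ) : ℂ) := by
  have s1 : Summable fun r => ‖a r * ez (em r) z‖ := by
    simpa only [norm_mul, norm_ez, mul_one] using ha
  have s2 : Summable fun r => ‖conj (a r * ez (em r) z)‖ := by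
    simpa only [Complex.norm_conj] using s1
  rw [Complex.ofReal_pow, ← Complex.mul_conj', Complex.conj_tsum,
    tsum_mul_tsum_of_summable_norm s1 s2]
  refine tsum_congr fun p => ?_
  rw [map_mul, ← ez_neg_left, mul_mul_mul_comm, ← ez_add_left, sub_eq_add_neg, em_add, em_neg]

omit [NumberField E] [Om E] in
open Classical in
theorem tbx_tsum_diag (a : E → ℂ) :
    (∑' p : E × E, if p.1 - p.2 = 0 then a p.1 * conj (a p.2) else 0) =
      ((∑' r, ‖a r‖ ^ 2 : ℝ) : ℂ) := by
  have hinj : Function.Injective fun r : E => (r, r) := fun r s h => (Prod.mk.inj h).1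
  rw [← hinj.tsum_eq, Complex.ofReal_tsum]
  · refine tsum_congr fun r => ?_
    simp [Complex.mul_conj']
  · intro p hp
    by_contra hn
    exact hp (if_neg fun h => hn ⟨p.1, Prod.ext rfl (sub_eq_zero.1 h)⟩)

omit [Om E] in
theorem tbx_eT_sub {x y t : E} (hx : eT (x * t) = 1) (hy : eT (y * t) = 1) :
    eT ((x - y) * t) = 1 := by
  rw [sub_mul, sub_eq_add_neg, eT_add, eT_neg, hx, hy, map_one, mul_one]

theorem tbx_parseval_real {L : AddSubgroup E} (h : IsLat L) {a : E → ℂ}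
    (ha : Summable fun ν => ‖a ν‖) (hs : ∀ ν, a ν ≠ 0 → ∀ t ∈ L, eT (ν * t) = 1) :
    ∫ z, wtL L z * ‖∑' r, a r * ez (em r) z‖ ^ 2 = vol L * ∑' r, ‖a r‖ ^ 2 := by
  classical
  have ha' : Summable fun r => ‖conj (a r)‖ := by simpa only [Complex.norm_conj] using ha
  have hb : Summable fun p : E × E => ‖a p.1 * conj (a p.2)‖ :=
    Summable.mul_norm (f := a) (g := fun r => conj (a r)) ha ha'
  have h1 := tbx_integral_gen (κ := E × E) h
    (ξ := fun p => p.1 - p.2) (a := fun p => a p.1 * conj (a p.2)) hb fun p hp t ht =>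
      tbx_eT_sub (hs _ (left_ne_zero_of_mul hp) t ht)
        (hs _ (fun h0 => right_ne_zero_of_mul hp (by rw [h0, map_zero])) t ht)
  rw [tbx_tsum_diag a] at h1
  simp only [tbx_normSq_tsum ha, ← Complex.ofReal_mul] at h1
  rw [integral_complex_ofReal] at h1
  exact_mod_cast h1

theorem parseval {L : AddSubgroup E} (h : IsLat L) {a : E → ℂ}
    (ha : Summable fun ν => ‖a ν‖) (hs : ∀ ν, a ν ≠ 0 → ∀ t ∈ L, eT (ν * t) = 1) :
    ∫⁻ z, ENNReal.ofReal (wtL L z) * ‖∑' ν, a ν * ez (em ν) z‖ₑ ^ 2 =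
      ENNReal.ofReal (vol L) * ∑' ν, ‖a ν‖ₑ ^ 2 := by
  have hc : Continuous fun z : Pl E → ℂ => ∑' r, a r * ez (em r) z :=
    continuous_tsum (fun r => continuous_const.mul (tbx_continuous_ez _)) ha
      fun r z => by rw [norm_mul, norm_ez, mul_one]
  have hi : Integrable fun z => wtL L z * ‖∑' r, a r * ez (em r) z‖ ^ 2 := by
    refine (integrable_wtL h).mul_bdd (c := (∑' r, ‖a r‖) ^ 2)
      (hc.norm.pow 2).aestronglyMeasurable
      (Filter.Eventually.of_forall fun z => ?_)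
    rw [norm_pow, norm_norm]
    refine pow_le_pow_left₀ (norm_nonneg _) (tsum_of_norm_bounded ha.hasSum fun r => ?_) 2
    rw [norm_mul, norm_ez, mul_one]
  have hs' : Summable fun r => ‖a r‖ ^ 2 := by
    refine (ha.mul_left (∑' r, ‖a r‖)).of_nonneg_of_le (fun _ => by positivity) fun r => ?_
    rw [sq]
    exact mul_le_mul_of_nonneg_right (ha.le_tsum r fun _ _ => norm_nonneg _) (norm_nonneg _)
  simp only [← ofReal_norm, ← ENNReal.ofReal_pow (norm_nonneg _),
    ← ENNReal.ofReal_mul (wtL_pos h _).le]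
  rw [← ofReal_integral_eq_lintegral_ofReal hi (Filter.Eventually.of_forall fun z =>
    mul_nonneg (wtL_pos h _).le (by positivity)), tbx_parseval_real h ha hs,
    ENNReal.ofReal_mul (vol_pos h).le, ENNReal.ofReal_tsum_of_nonneg (fun _ => by positivity) hs']

omit [NumberField E] [Om E] in
theorem tbx_isIntegral_nat (n : ℕ) : IsIntegral ℤ (n : E) := by
  exact_mod_cast isIntegral_algebraMap (x := (n : ℤ))

set_option linter.unusedSectionVars false in
theorem IsLat.inf {L L' : AddSubgroup E} (h : IsLat L) (h' : IsLat L') : IsLat (L ⊓ L') := by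
  obtain ⟨N, hN, h1, h2⟩ := h
  obtain ⟨N', hN', h1', h2'⟩ := h'
  refine ⟨N * N', mul_ne_zero hN hN', fun x hx => ⟨?_, ?_⟩, fun x hx => ?_⟩
  · have := h1 _ ((tbx_isIntegral_nat N').mul hx)
    rwa [← mul_assoc, ← Nat.cast_mul] at this
  · have := h1' _ ((tbx_isIntegral_nat N).mul hx)
    rwa [← mul_assoc, ← Nat.cast_mul, mul_comm N' N] at this
  · have := (tbx_isIntegral_nat N).mul (h2' x hx.2)
    rwa [← mul_assoc, ← Nat.cast_mul] at this

theorem coeff_unique {L L' : AddSubgroup E} (h : IsLat L) (h' : IsLat L') {a a' : E → ℂ}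
    (ha : Summable fun ν => ‖a ν‖) (ha' : Summable fun ν => ‖a' ν‖)
    (hs : ∀ ν, a ν ≠ 0 → ∀ t ∈ L, eT (ν * t) = 1) (hs' : ∀ ν, a' ν ≠ 0 → ∀ t ∈ L', eT (ν * t) = 1)
    (heq : ∀ z, ∑' ν, a ν * ez (em ν) z = ∑' ν, a' ν * ez (em ν) z) : a = a' := by
  have hb : Summable fun ν => ‖a ν - a' ν‖ :=
    (ha.add ha').of_nonneg_of_le (fun _ => norm_nonneg _) fun _ => norm_sub_le _ _
  have h1 := parseval (h.inf h') (a := fun ν => a ν - a' ν) hb fun ν hν t ht => by
    by_cases h0 : a ν = 0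
    · exact hs' ν (fun h1 => hν (by rw [h0, h1, sub_zero])) t ht.2
    · exact hs ν h0 t ht.1
  have h2 : ∀ z, ∑' ν, (a ν - a' ν) * ez (em ν) z = 0 := fun z => by
    simp only [sub_mul]
    rw [Summable.tsum_sub, heq, sub_self]
    · exact Summable.of_norm (by simpa only [norm_mul, norm_ez, mul_one] using ha)
    · exact Summable.of_norm (by simpa only [norm_mul, norm_ez, mul_one] using ha')
  simp only [h2, enorm_zero, ne_eq, OfNat.ofNat_ne_zero, not_false_eq_true, zero_pow, mul_zero,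
    lintegral_const, zero_mul] at h1
  have h3 := (mul_eq_zero.1 h1.symm).resolve_left
    (ENNReal.ofReal_pos.2 (vol_pos (h.inf h'))).ne'
  funext ν
  have h4 := ENNReal.tsum_eq_zero.1 h3 ν
  exact sub_eq_zero.1 (by simpa using h4)

set_option linter.unusedSectionVars false in
/-- The dual of a lattice is contained in a lattice. -/
theorem IsLat.dual {L : AddSubgroup E} (h : IsLat L) : ∃ D : ℕ, D ≠ 0 ∧
    ∀ ν : E, (∀ t ∈ L, eT (ν * t) = 1) → IsIntegral ℤ ((D : E) * ν) := by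
  obtain ⟨N, hN, h1, -⟩ := h
  refine ⟨(discr E).natAbs * N, mul_ne_zero (Int.natAbs_ne_zero.2 (discr_ne_zero E)) hN,
    fun ν hν => ?_⟩
  have := isIntegral_discr_mul (y := (N : E) * ν) fun x hx => by
    rw [show (N : E) * ν * x = ν * (N * x) by ring]
    exact hν _ (h1 x hx)
  rwa [← mul_assoc, ← Nat.cast_mul] at this

/-- The norm on a strip in terms of the coefficients. -/
theorem lintegral_strip {L : AddSubgroup E} (h : IsLat L) {f : HH E → ℂ}
    {A : E → (Pl E → ℝ) → ℂ} (hf : FExp L f A) {S : Set (Pl E → ℝ)} (hS : MeasurableSet S) :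
    ∫⁻ w, (vc ⁻¹' S).indicator (fun w : HH E => ENNReal.ofReal (wtL L (zc w))) w * ‖f w‖ₑ ^ 2
        ∂μE E =
      ENNReal.ofReal (vol L) *
        ∑' ν, ∫⁻ v in S, ‖A ν v‖ₑ ^ 2 * ENNReal.ofReal (Real.exp (-2 * ∑ σ, v σ)) := by
  obtain ⟨hg, hA, hd, hF⟩ := hf
  have hm1 : Measurable fun w : HH E => ENNReal.ofReal (wtL L (zc w)) :=
    ((continuous_wtL h).comp continuous_zc).measurable.ennreal_ofReal
  have hm2 : Measurable fun v : Pl E → ℝ => ENNReal.ofReal (Real.exp (-2 * ∑ σ, v σ)) := by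
    fun_prop
  have hm3 : Measurable fun w : HH E => (vc ⁻¹' S).indicator
      (fun w : HH E => ENNReal.ofReal (wtL L (zc w))) w * ‖f w‖ₑ ^ 2 :=
    (hm1.indicator (continuous_vc.measurable hS)).mul (hg.enorm.pow_const 2)
  have hm4 : ∀ r, AEMeasurable
      (fun v : Pl E → ℝ => ‖A r v‖ₑ ^ 2 * ENNReal.ofReal (Real.exp (-2 * ∑ σ, v σ)))
      (volume.restrict S) := fun r => (((hA r).enorm.pow_const 2).mul hm2).aemeasurable
  rw [lintegral_μE hm3, ← lintegral_tsum hm4,
    ← lintegral_const_mul' _ _ ENNReal.ofReal_ne_top, ← lintegral_indicator hS]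
  refine lintegral_congr fun v => ?_
  by_cases hv : v ∈ S
  · have h2 : ∀ z : Pl E → ℂ, (vc ⁻¹' S).indicator
        (fun w : HH E => ENNReal.ofReal (wtL L (zc w))) (mkH z v) =
        ENNReal.ofReal (wtL L z) := fun z => Set.indicator_of_mem (by exact hv) _
    simp only [h2, (hF v).2, Set.indicator_of_mem hv]
    rw [parseval h (hF v).1 fun ν => hd ν v, ENNReal.tsum_mul_right]
    ring
  · have h2 : ∀ z : Pl E → ℂ, (vc ⁻¹' S).indicator
        (fun w : HH E => ENNReal.ofReal (wtL L (zc w))) (mkH z v) = 0 := fun z =>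
      Set.indicator_of_notMem (by exact hv) _
    simp [h2, Set.indicator_of_notMem hv]

theorem tbx_measurableSet_bx (a : Pl E → ℝ) : MeasurableSet (bx a) := measurableSet_Icc

/-- A compact set is covered by finitely many boxes. -/
theorem tbx_cover {K : Set (Pl E → ℝ)} (hK : IsCompact K) :
    ∃ T : Finset (Pl E → ℝ), K ⊆ ⋃ a ∈ T, bx a := by
  classical
  obtain ⟨T, -, hT⟩ := hK.elim_nhds_subcover (fun v => bx (v - fun _ => 1 / 2)) fun v _ =>
    pi_Icc_mem_nhds (fun σ => by simp) fun σ => by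
      simp only [Pi.add_apply, Pi.sub_apply, Pi.one_apply]
      linarith
  refine ⟨T.image fun v => v - fun _ => 1 / 2, fun v hv => ?_⟩
  obtain ⟨u, hu, hvu⟩ := Set.mem_iUnion₂.1 (hT hv)
  exact Set.mem_iUnion₂.2 ⟨_, Finset.mem_image_of_mem _ hu, hvu⟩

/-- The norm on a compact set is dominated by the coefficients. -/
theorem compact_le_strip {L : AddSubgroup E} (h : IsLat L) {K : Set (HH E)} (hK : IsCompact K) :
    ∃ (C : ℝ) (T : Finset (Pl E → ℝ)), ∀ (f : HH E → ℂ) (A : E → (Pl E → ℝ) → ℂ), FExp L f A →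
      ∫⁻ w in K, ‖f w‖ₑ ^ 2 ∂μE E ≤
        ENNReal.ofReal C * ∑ a ∈ T, ∑' ν, ∫⁻ v in bx a, ‖A ν v‖ₑ ^ 2 := by
  obtain ⟨T, hT⟩ := tbx_cover (hK.image continuous_vc)
  obtain ⟨M, hM⟩ := hK.exists_bound_of_continuousOn (f := fun w => (wtL L (zc w))⁻¹)
    ((((continuous_wtL h).comp continuous_zc).inv₀ fun w => (wtL_pos h _).ne').continuousOn)
  obtain ⟨B, hB⟩ : ∃ B : ℝ, ∀ a ∈ T, Real.exp (-2 * ∑ σ, a σ) ≤ B :=
    ⟨∑ a ∈ T, Real.exp (-2 * ∑ σ, a σ), fun a ha => Finset.single_le_sum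
      (f := fun a : Pl E → ℝ => Real.exp (-2 * ∑ σ, a σ)) (fun _ _ => (Real.exp_pos _).le) ha⟩
  refine ⟨|M| * (vol L * B), T, fun f A hf => ?_⟩
  have hm1 : Measurable fun w : HH E => ENNReal.ofReal (wtL L (zc w)) :=
    ((continuous_wtL h).comp continuous_zc).measurable.ennreal_ofReal
  have hm3 : ∀ a, Measurable fun w : HH E => (vc ⁻¹' bx a).indicator
      (fun w : HH E => ENNReal.ofReal (wtL L (zc w))) w * ‖f w‖ₑ ^ 2 := fun a =>
    (hm1.indicator (continuous_vc.measurable (tbx_measurableSet_bx a))).mul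
      (hf.1.enorm.pow_const 2)
  calc ∫⁻ w in K, ‖f w‖ₑ ^ 2 ∂μE E
      ≤ ∫⁻ w in K, ENNReal.ofReal |M| * ∑ a ∈ T, (vc ⁻¹' bx a).indicator
          (fun w : HH E => ENNReal.ofReal (wtL L (zc w))) w * ‖f w‖ₑ ^ 2 ∂μE E := by
        refine setLIntegral_mono' hK.measurableSet fun w hw => ?_
        obtain ⟨a, ha, hwa⟩ := Set.mem_iUnion₂.1 (hT (Set.mem_image_of_mem _ hw))
        refine le_trans ?_ (mul_le_mul_right (Finset.single_le_sum
          (f := fun a => (vc ⁻¹' bx a).indicator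
            (fun w : HH E => ENNReal.ofReal (wtL L (zc w))) w * ‖f w‖ₑ ^ 2)
          (fun _ _ => zero_le) ha) _)
        rw [Set.indicator_of_mem (show w ∈ vc ⁻¹' bx a from hwa), ← mul_assoc,
          ← ENNReal.ofReal_mul (abs_nonneg _)]
        refine le_mul_of_one_le_left zero_le (ENNReal.one_le_ofReal.2 ?_)
        have h1 := ((le_abs_self _).trans (hM w hw)).trans (le_abs_self M)
        have h2 := wtL_pos h (zc w)
        rwa [← div_le_iff₀ h2, one_div]
    _ ≤ ∫⁻ w, ENNReal.ofReal |M| * ∑ a ∈ T, (vc ⁻¹' bx a).indicator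
          (fun w : HH E => ENNReal.ofReal (wtL L (zc w))) w * ‖f w‖ₑ ^ 2 ∂μE E :=
        setLIntegral_le_lintegral _ _
    _ = ENNReal.ofReal |M| * ∑ a ∈ T, ENNReal.ofReal (vol L) *
          ∑' ν, ∫⁻ v in bx a, ‖A ν v‖ₑ ^ 2 * ENNReal.ofReal (Real.exp (-2 * ∑ σ, v σ)) := by
        rw [lintegral_const_mul' _ _ ENNReal.ofReal_ne_top, lintegral_finsetSum _ fun a _ => hm3 a]
        congr 1
        exact Finset.sum_congr rfl fun a _ => lintegral_strip h hf (tbx_measurableSet_bx a)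
    _ ≤ ENNReal.ofReal |M| * ∑ a ∈ T, ENNReal.ofReal (vol L) *
          ∑' ν, ENNReal.ofReal B * ∫⁻ v in bx a, ‖A ν v‖ₑ ^ 2 := by
        gcongr with a ha ν
        rw [← lintegral_const_mul' _ _ ENNReal.ofReal_ne_top]
        refine setLIntegral_mono' (tbx_measurableSet_bx a) fun v hv => ?_
        rw [mul_comm]
        refine mul_le_mul_left (ENNReal.ofReal_le_ofReal (le_trans ?_ (hB a ha))) _
        have := Finset.sum_le_sum fun σ (_ : σ ∈ Finset.univ) => hv.1 σ
        exact Real.exp_le_exp.2 (by linarith)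
    _ = _ := by
        simp only [ENNReal.tsum_mul_left, ← Finset.mul_sum]
        rw [ENNReal.ofReal_mul (abs_nonneg _), ENNReal.ofReal_mul (vol_pos h).le, mul_assoc,
          mul_assoc]

end Crest.Agent.R312
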