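import Crest.Agent.R312.Pois
import Crest.Agent.R17.ThetaUnf
import Crest.Agent.R17.ThetaDens

/-!
# Row 312: theta module, definitions

`HH E` is the product of `r` hyperbolic 3-spaces.  `ξ : E → E → ℂ` is a function of row vectors,
`thY ξ η` the incomplete theta series, `tt ξ ν` the Fourier coefficients of its limit `Th ξ` as
`∑ η → -∞`.  This is the port of `R17/Theta*.lean` with an abstract `ξ` (predicate `Adm`).
DO NOT change a definition of this file.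
-/

set_option autoImplicit false

noncomputable section

namespace Crest.Agent.R312

open NumberField
open scoped ComplexConjugate

open MeasureTheory Filter Topology
open scoped ENNReal
open Crest.Agent.R17 (H actC Qf μH Fk Mk)

/-- The symmetric space. -/
abbrev HH (E : Type) [Field E] [NumberField E] [Om E] : Type := Pl E → H

/-- Matrices over `E`. -/
abbrev Mt (E : Type) [Field E] : Type := Matrix (Fin 2) (Fin 2) E

/-- `SL₂(𝓞)`. -/
abbrev SO (E : Type) [Field E] [NumberField E] : Type := Matrix.SpecialLinearGroup (Fin 2) (𝓞 E)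

section
variable {E : Type} [Field E] [NumberField E]

/-- An integral matrix as a matrix over `E`. -/
def toM (γ : SO E) : Mt E := (γ : Matrix (Fin 2) (Fin 2) (𝓞 E)).map (algebraMap (𝓞 E) E)

/-- The right action on functions of row vectors: `sl ξ g v = ξ (v g⁻¹)`. -/
def sl (ξ : E → E → ℂ) (g : Mt E) : E → E → ℂ := fun c d =>
  ξ ((c * g 1 1 - d * g 1 0) / g.det) ((d * g 0 0 - c * g 0 1) / g.det)

/-- The stabiliser. -/
def Stab (ξ : E → E → ℂ) : Subgroup (SO E) where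
  carrier := {γ | ∀ c d, ξ (c * toM γ 0 0 + d * toM γ 1 0) (c * toM γ 0 1 + d * toM γ 1 1) = ξ c d}
  one_mem' := by intro c d; simp [toM]
  mul_mem' := by
    intro a b ha hb c d
    rw [← ha c d, ← hb (c * toM a 0 0 + d * toM a 1 0)]
    simp only [toM, Matrix.SpecialLinearGroup.coe_mul, Matrix.map_apply, Matrix.mul_apply,
      Fin.sum_univ_two, map_add, map_mul]
    congr 1 <;> ring
  inv_mem' := by
    intro a ha c d
    rw [← ha]
    have h : toM a 0 0 * toM a 1 1 - toM a 0 1 * toM a 1 0 = 1 := by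
      have := congrArg (algebraMap (𝓞 E) E) a.det_coe
      rw [Matrix.det_fin_two, map_sub, map_mul, map_mul, map_one] at this
      exact this
    have e : toM a⁻¹ = !![toM a 1 1, -toM a 0 1; -toM a 1 0, toM a 0 0] := by
      ext i j
      fin_cases i <;> fin_cases j <;>
        simp [toM, Matrix.SpecialLinearGroup.coe_inv, Matrix.adjugate_fin_two]
    rw [e]
    simp only [Matrix.of_apply, Matrix.cons_val', Matrix.cons_val_zero, Matrix.cons_val_one,
      Matrix.cons_val_fin_one]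
    congr 1
    · linear_combination c * h
    · linear_combination d * h

/-- Admissible functions: bounded, supported on vectors with a bounded content, invariant under a
subgroup of finite index. -/
structure Adm (ξ : E → E → ℂ) : Prop where
  bdd : ∃ B : ℝ, ∀ c d, ‖ξ c d‖ ≤ B
  supp : ∃ D : ℕ, D ≠ 0 ∧ ∀ c d, ξ c d ≠ 0 → IsIntegral ℤ ((D : E) * c) ∧
    IsIntegral ℤ ((D : E) * d) ∧ ∃ x y : E, IsIntegral ℤ x ∧ IsIntegral ℤ y ∧ c * x + d * y = D
  fin : (Stab ξ).FiniteIndex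

/-- Lattices in `E`. -/
def IsLat (L : AddSubgroup E) : Prop := ∃ N : ℕ, N ≠ 0 ∧
  (∀ x : E, IsIntegral ℤ x → (N : E) * x ∈ L) ∧ ∀ x ∈ L, IsIntegral ℤ ((N : E) * x)
end

variable {E : Type} [Field E] [NumberField E] [Om E]

/-- The point with the coordinates `z` and `v = log y`. -/
def mkH (z : Pl E → ℂ) (v : Pl E → ℝ) : HH E := fun σ => (z σ, v σ)

/-- The horizontal coordinate. -/
def zc (w : HH E) : Pl E → ℂ := fun σ => (w σ).1

/-- The logarithmic height. -/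
def vc (w : HH E) : Pl E → ℝ := fun σ => (w σ).2

/-- The action of a matrix of non-zero determinant. -/
def act (g : Mt E) (w : HH E) : HH E := fun σ => actC (g.map σ.1) (w σ)

/-- The Hermitian forms. -/
def Qv (w : HH E) (c d : E) : Pl E → ℝ := fun σ => Qf (w σ) (σ.1 c) (σ.1 d)

/-- The invariant measure. -/
def μE (E : Type) [Field E] [NumberField E] [Om E] : Measure (HH E) := Measure.pi fun _ => μH

/-- The incomplete theta series. -/
def thY (ξ : E → E → ℂ) (η : Pl E → ℝ) (w : HH E) : ℂ :=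
  (Real.exp (4 / 3 * ∑ σ, η σ) : ℂ) *
    ∑' v : E × E, ξ v.1 v.2 * (Real.exp (-∑ σ, Real.exp (η σ) * Qv w v.1 v.2 σ) : ℂ)

open Classical in
/-- The profile of the constant term. -/
def P0 (ξ : E → E → ℂ) (η : Pl E → ℝ) : ℂ :=
  (Real.exp ((∑ σ, η σ) / 3) : ℂ) * ∑' c : E, if c = 0 then 0 else
    Mn (ξ c) * (Real.exp (-∑ σ, Real.exp (η σ) * ‖σ.1 c‖ ^ 2) : ℂ)

/-- The constant terms converge at all the cusps. -/
def CT (ξ : E → E → ℂ) : Prop :=
  ∀ g : Mt E, g.det = 1 → ∃ L : ℂ, Tendsto (P0 (sl ξ g)) (lB E) (𝓝 L)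

open Classical in
/-- The Gauss sums. -/
def Gx (ξ : E → E → ℂ) (ν c : E) : ℂ :=
  if c = 0 then 0 else nr c * Mn fun d => ξ c d * eT (ν / c * d)

/-- Smoothed sums. -/
def Sk (g : E → ℂ) (k : (Pl E → ℝ) → ℝ) (η : Pl E → ℝ) : ℂ :=
  (Real.exp (4 / 3 * ∑ σ, η σ) : ℂ) * ∑' c : E, g c * (k (η + lg c) : ℂ)

/-- The moment of a kernel. -/
def Mo (k : (Pl E → ℝ) → ℝ) : ℝ := ∫ v, k v * Real.exp (4 / 3 * ∑ σ, v σ)

/-- Admissible kernels. -/
def KC (k : (Pl E → ℝ) → ℝ) : Prop :=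
  Measurable k ∧ (∀ v, 0 ≤ k v) ∧ 0 < Mo k ∧ ∀ a δ : ℝ, 0 ≤ δ → 1 + δ < a →
    ∃ C : ℝ, ∀ v, k v ≤ C * Real.exp (-a * ∑ σ, v σ - δ * ∑ σ, |v σ|)

/-- Weak density. -/
def WD (g : E → ℂ) (t : ℂ) : Prop := ∃ k, KC k ∧ Tendsto (Sk g k) (lB E) (𝓝 (t * (Mo k : ℂ)))

/-- Polynomially bounded functions on the non-zero points of a lattice. -/
def PolyG (g : E → ℂ) : Prop := ∃ (D : ℕ) (B A : ℝ), D ≠ 0 ∧ 0 ≤ A ∧
  ∀ c, g c ≠ 0 → c ≠ 0 ∧ IsIntegral ℤ ((D : E) * c) ∧ ‖g c‖ ≤ B * nr c ^ A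

/-- `4π² |σ ν|²`. -/
def bb (ν : E) : Pl E → ℝ := fun σ => 4 * Real.pi ^ 2 * ‖σ.1 ν‖ ^ 2

/-- The kernel produced by Poisson summation. -/
def kF (v b s : Pl E → ℝ) : ℝ := ∏ σ, Fk (Real.exp (v σ)) (b σ) (Real.exp (s σ))

/-- The radial part of the Fourier expansion. -/
def MkE (v b : Pl E → ℝ) : ℝ := ∏ σ, Mk (Real.exp (v σ)) (b σ)

/-- The contribution of the vectors `(0, d)`. -/
def E0 (ξ : E → E → ℂ) (η v : Pl E → ℝ) : ℂ :=
  (Real.exp (4 / 3 * ∑ σ, η σ) : ℂ) *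
    ∑' d : E, ξ 0 d * (Real.exp (-∑ σ, Real.exp (η σ - v σ) * ‖σ.1 d‖ ^ 2) : ℂ)

open Classical in
/-- The Fourier coefficients of `thY ξ η`. -/
def Acoef (ξ : E → E → ℂ) (η : Pl E → ℝ) (ν : E) (v : Pl E → ℝ) : ℂ :=
  (if ν = 0 then E0 ξ η v else 0) + (2 * Real.pi : ℂ) ^ rk E * Sk (Gx ξ ν) (kF v (bb ν)) η

/-- The Fourier coefficients of the theta function. -/
def tt (ξ : E → E → ℂ) (ν : E) : ℂ := (2 * Real.pi : ℂ) ^ rk E * Classical.epsilon (WD (Gx ξ ν))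

/-- The theta function. -/
def Th (ξ : E → E → ℂ) (w : HH E) : ℂ :=
  ∑' ν : E, tt ξ ν * (MkE (vc w) (bb ν) : ℂ) * ez (em ν) (zc w)

/-- A weight for the translations by a lattice. -/
def wtL (L : AddSubgroup E) (z : Pl E → ℂ) : ℝ := gz z 0 / ∑' t : L, gz (em (t : E) + z) 0

/-- The covolume (for the Lebesgue measure). -/
def vol (L : AddSubgroup E) : ℝ := ∫ z, wtL L z

/-- A weight for a subgroup of `SL₂(𝓞)`. -/
def wOf (Γ : Subgroup (SO E)) (w : HH E) : ℝ :=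
  Real.exp (-∑ σ, (Qv w 1 0 σ + Qv w 0 1 σ)) /
    ∑' γ : Γ, Real.exp (-∑ σ, (Qv (act (toM γ) w) 1 0 σ + Qv (act (toM γ) w) 0 1 σ))

/-- The square of the norm on `Γ \ HH`. -/
def N2 (Γ : Subgroup (SO E)) (f : HH E → ℂ) : ℝ≥0∞ :=
  ∫⁻ w, ENNReal.ofReal (wOf Γ w) * ‖f w‖ₑ ^ 2 ∂μE E

/-- The box `[a, a + 1]`. -/
def bx (a : Pl E → ℝ) : Set (Pl E → ℝ) := Set.Icc a (a + 1)

/-- `f` has an absolutely convergent Fourier expansion with the coefficients `A`, and the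
frequencies are in the dual of `L`. -/
def FExp (L : AddSubgroup E) (f : HH E → ℂ) (A : E → (Pl E → ℝ) → ℂ) : Prop :=
  Measurable f ∧ (∀ ν, Measurable (A ν)) ∧ (∀ ν v, A ν v ≠ 0 → ∀ t ∈ L, eT (ν * t) = 1) ∧
    ∀ v, (Summable fun ν => ‖A ν v‖) ∧ ∀ z, f (mkH z v) = ∑' ν, A ν v * ez (em ν) z

/-- The translations which fix `ξ` (intersected with `𝓞`). -/
def Lx (ξ : E → E → ℂ) : AddSubgroup E where
  carrier := {t | IsIntegral ℤ t ∧ ∀ c d, ξ c (d + c * t) = ξ c d}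
  zero_mem' := ⟨isIntegral_zero, by simp⟩
  add_mem' := by
    rintro s t ⟨hs, hs'⟩ ⟨ht, ht'⟩
    refine ⟨hs.add ht, fun c d => ?_⟩
    rw [mul_add, ← add_assoc, ht', hs']
  neg_mem' := by
    rintro t ⟨ht, ht'⟩
    refine ⟨ht.neg, fun c d => ?_⟩
    rw [← ht' c (d + c * -t)]
    congr 1
    ring

end Crest.Agent.R312
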