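import Crest.Agent.R312.ThH

/-!
# Row 312: theta module D: kernels and weak densities (port of parts G2, G3 of `R17/ThetaDens.lean`)
-/

set_option autoImplicit false

noncomputable section

namespace Crest.Agent.R312

open NumberField
open scoped ComplexConjugate

open MeasureTheory Filter Topology
open scoped ENNReal
open Crest.Agent.R17 (H actC Qf μH Fk Mk IsWt W0 U1)

variable {E : Type} [Field E] [NumberField E] [Om E]

/-! ## part A: the kernels -/

theorem bb_nonneg (ν : E) (σ : Pl E) : 0 ≤ bb ν σ := by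
  unfold bb; positivity
@[simp] theorem bb_zero : bb (0 : E) = 0 := by
  funext σ; simp [bb]
theorem MkE_pos (v : Pl E → ℝ) {b : Pl E → ℝ} (hb : ∀ σ, 0 ≤ b σ) : 0 < MkE v b :=
  Finset.prod_pos fun σ _ => R17.Mk_pos (Real.exp_pos _) (hb σ)
theorem continuous_MkE {b : Pl E → ℝ} (hb : ∀ σ, 0 ≤ b σ) : Continuous fun v => MkE v b :=
  continuous_finsetProd _ fun σ _ => (R17.continuousOn_Mk (hb σ)).comp_continuous
    (f := fun v : Pl E → ℝ => Real.exp (v σ)) (by fun_prop) fun _ => Real.exp_pos _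
theorem ThDensA.MkE_eq (v b : Pl E → ℝ) :
    MkE v b = Real.exp (2 / 3 * ∑ σ, v σ) * ∏ σ, W0 (Real.exp (v σ) ^ 2 * b σ) := by
  simp only [MkE, R17.Mk, Finset.prod_mul_distrib, ← Real.exp_mul, ← Real.exp_sum, Finset.mul_sum,
    mul_comm]
theorem MkE_zero (v : Pl E → ℝ) :
    MkE v 0 = Real.exp (2 / 3 * ∑ σ, v σ) * W0 0 ^ rk E := by
  simp [ThDensA.MkE_eq]
theorem MkE_mul (v : Pl E → ℝ) {a : E} (ha : a ≠ 0) (ν : E) :
    MkE (fun σ => v σ + lg a σ / 2) (bb ν) = nr a ^ (1 / 3 : ℝ) * MkE v (bb (ν * a)) := by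
  rw [ThDensA.MkE_eq, ThDensA.MkE_eq, ← exp_sum_lg ha, ← Real.exp_mul, ← mul_assoc, ← Real.exp_add,
    Finset.sum_add_distrib, ← Finset.sum_div]
  congr 1
  · congr 1; ring
  · refine Finset.prod_congr rfl fun σ _ => ?_
    congr 1
    rw [Real.exp_add, mul_pow, ← Real.exp_nat_mul (lg a σ / 2),
      show ((2 : ℕ) : ℝ) * (lg a σ / 2) = lg a σ by push_cast; ring, exp_lg ha]
    simp only [bb, map_mul, norm_mul]
    ring
theorem ThDensA.Mo_exp (k : ℝ → ℝ) :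
    ∫ s : ℝ, k (Real.exp s) * Real.exp (4 / 3 * s) = R17.Mo k := by
  rw [R17.Mo, ← Real.range_exp, ← Set.image_univ, integral_image_eq_integral_abs_deriv_smul
    MeasurableSet.univ (fun x _ => (Real.hasDerivAt_exp x).hasDerivWithinAt)
    Real.exp_injective.injOn, Measure.restrict_univ]
  refine integral_congr_ae (Eventually.of_forall fun s => ?_)
  dsimp only
  rw [abs_of_pos (Real.exp_pos s), smul_eq_mul, ← Real.exp_mul, mul_left_comm, ← Real.exp_add]
  congr 2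
  ring
theorem Mo_kF (v : Pl E → ℝ) {b : Pl E → ℝ} (hb : ∀ σ, 0 ≤ b σ) : Mo (kF v b) = MkE v b := by
  simp only [Mo, kF, Finset.mul_sum, Real.exp_sum, ← Finset.prod_mul_distrib]
  rw [integral_fintype_prod_volume_eq_prod
    (fun (σ : Pl E) (s : ℝ) => Fk (Real.exp (v σ)) (b σ) (Real.exp s) * Real.exp (4 / 3 * s))]
  refine Finset.prod_congr rfl fun σ _ => ?_
  rw [ThDensA.Mo_exp, R17.Mo_Fk (Real.exp_pos _) (hb σ)]
theorem ThDensA.two_sided {k : ℝ → ℝ} {a δ C₁ C₂ : ℝ}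
    (h₁ : ∀ x, 0 < x → k x ≤ C₁ * x ^ (-(a + δ))) (h₂ : ∀ x, 0 < x → k x ≤ C₂ * x ^ (-(a - δ)))
    (s : ℝ) : k (Real.exp s) ≤ max C₁ C₂ * Real.exp (-a * s - δ * |s|) := by
  rcases le_total 0 s with hs | hs
  · refine (h₁ _ (Real.exp_pos s)).trans ?_
    rw [← Real.exp_mul, abs_of_nonneg hs, show s * -(a + δ) = -a * s - δ * s by ring]
    exact mul_le_mul_of_nonneg_right (le_max_left _ _) (Real.exp_pos _).le
  · refine (h₂ _ (Real.exp_pos s)).trans ?_
    rw [← Real.exp_mul, abs_of_nonpos hs, show s * -(a - δ) = -a * s - δ * -s by ring]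
    exact mul_le_mul_of_nonneg_right (le_max_right _ _) (Real.exp_pos _).le
theorem ThDensA.prod_exp (a δ : ℝ) (s : Pl E → ℝ) : ∏ σ, Real.exp (-a * s σ - δ * |s σ|) =
    Real.exp (-a * ∑ σ, s σ - δ * ∑ σ, |s σ|) := by
  rw [← Real.exp_sum, Finset.sum_sub_distrib, Finset.mul_sum, Finset.mul_sum]
theorem ThDensA.Fk_nonneg (v b s : ℝ) : 0 ≤ Fk (Real.exp v) b (Real.exp s) := by
  unfold Fk; positivity
theorem KC_kF (v : Pl E → ℝ) {b : Pl E → ℝ} (hb : ∀ σ, 0 ≤ b σ) : KC (kF v b) := by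
  refine ⟨?_, fun s => Finset.prod_nonneg fun σ _ => ThDensA.Fk_nonneg _ _ _,
    (Mo_kF v hb).symm ▸ MkE_pos v hb, fun a δ hδ ha => ?_⟩
  · unfold kF Fk
    fun_prop
  · choose C₁ h₁ using fun σ =>
      (R17.KC_Fk (Real.exp_pos (v σ)) (hb σ)).2.2.2 (a + δ) (by linarith)
    choose C₂ h₂ using fun σ =>
      (R17.KC_Fk (Real.exp_pos (v σ)) (hb σ)).2.2.2 (a - δ) (by linarith)
    refine ⟨∏ σ, max (C₁ σ) (C₂ σ), fun s => ?_⟩
    rw [← ThDensA.prod_exp, ← Finset.prod_mul_distrib]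
    exact Finset.prod_le_prod (fun σ _ => ThDensA.Fk_nonneg _ _ _)
      fun σ _ => ThDensA.two_sided (h₁ σ) (h₂ σ) _
theorem measurable_kF (b : Pl E → ℝ) :
    Measurable fun p : (Pl E → ℝ) × (Pl E → ℝ) => kF p.1 b p.2 := by
  unfold kF Fk
  fun_prop
theorem ThDensA.arg_eq {ν : E} (hν : ν ≠ 0) (v : Pl E → ℝ) (σ : Pl E) :
    Real.exp (v σ) ^ 2 * bb ν σ = 4 * Real.pi ^ 2 * Real.exp (2 * v σ + lg ν σ) := by
  rw [Real.exp_add, exp_lg hν, bb, ← Real.exp_nat_mul]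
  push_cast
  ring
/-- Rapid decay of the radial part. -/
theorem MkE_le {a δ : ℝ} (hδ : 0 ≤ δ) (ha : δ ≤ a) : ∃ C : ℝ, ∀ (v : Pl E → ℝ) (ν : E), ν ≠ 0 →
    MkE v (bb ν) ≤ C * Real.exp (2 / 3 * ∑ σ, v σ) *
      Real.exp (-a * ∑ σ, (2 * v σ + lg ν σ) - δ * ∑ σ, |2 * v σ + lg ν σ|) := by
  obtain ⟨C₁, -, h₁⟩ := R17.W0_le_rpow (A := a + δ) (by linarith)
  obtain ⟨C₂, -, h₂⟩ := R17.W0_le_rpow (A := a - δ) (by linarith)
  refine ⟨∏ _σ : Pl E, max C₁ C₂, fun v ν hν => ?_⟩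
  rw [ThDensA.MkE_eq, ← ThDensA.prod_exp a δ fun σ => 2 * v σ + lg ν σ, mul_right_comm,
    ← Finset.prod_mul_distrib, mul_comm]
  refine mul_le_mul_of_nonneg_right (Finset.prod_le_prod
    (fun σ _ => (R17.W0_pos (mul_nonneg (by positivity) (bb_nonneg ν σ))).le)
    fun σ _ => le_trans ?_ (ThDensA.two_sided h₁ h₂ _)) (Real.exp_pos _).le
  rw [ThDensA.arg_eq hν]
  have h1 : 1 ≤ 4 * Real.pi ^ 2 := by nlinarith [Real.pi_gt_three]
  exact R17.W0_antitoneOn (Real.exp_pos _).le (Set.mem_Ici.2 (by positivity))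
    (le_mul_of_one_le_left (Real.exp_pos _).le h1)
/-- A lower bound on the box which is adapted to `ν`. -/
theorem le_MkE : ∃ c : ℝ, 0 < c ∧ ∀ (ν : E) (v : Pl E → ℝ), ν ≠ 0 →
    v ∈ bx (fun σ => -lg ν σ / 2) → c * nr ν ^ (-(1 / 3 : ℝ)) ≤ MkE v (bb ν) := by
  have hw : 0 < W0 (4 * Real.pi ^ 2 * Real.exp 2) := R17.W0_pos (by positivity)
  refine ⟨∏ _σ : Pl E, W0 (4 * Real.pi ^ 2 * Real.exp 2), Finset.prod_pos fun _ _ => hw,
    fun ν v hν hv => ?_⟩
  have h1 : ∀ σ, -lg ν σ / 2 ≤ v σ := hv.1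
  have h2 : ∀ σ, v σ ≤ -lg ν σ / 2 + 1 := hv.2
  rw [ThDensA.MkE_eq, mul_comm, ← exp_sum_lg hν, ← Real.exp_mul]
  refine mul_le_mul (Real.exp_le_exp.2 ?_) (Finset.prod_le_prod (fun _ _ => hw.le) fun σ _ => ?_)
    (Finset.prod_nonneg fun _ _ => hw.le) (Real.exp_pos _).le
  · rw [Finset.sum_mul, Finset.mul_sum]
    exact Finset.sum_le_sum fun σ _ => by linarith [h1 σ]
  · rw [ThDensA.arg_eq hν]
    refine R17.W0_antitoneOn (Set.mem_Ici.2 (by positivity)) (Set.mem_Ici.2 (by positivity)) ?_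
    gcongr
    linarith [h2 σ]

/-! ## part B: weak densities -/

/-- Convolution. -/
def kconv (k k' : (Pl E → ℝ) → ℝ) (x : Pl E → ℝ) : ℝ := ∫ s, k s * k' (x - s)
theorem kconv_comm (k k' : (Pl E → ℝ) → ℝ) : kconv k k' = kconv k' k := by
  funext x
  rw [kconv, kconv, ← integral_sub_left_eq_self _ volume x]
  simp only [sub_sub_cancel, mul_comm]
theorem KC.integrable_Mo {k : (Pl E → ℝ) → ℝ} (h : KC k) :
    Integrable fun v => k v * Real.exp (4 / 3 * ∑ σ, v σ) :=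
  Integrable.of_integral_ne_zero h.2.2.1.ne'
theorem DensB_exp_sub (a : ℝ) (x s : Pl E → ℝ) : Real.exp (a * ∑ σ, x σ) =
    Real.exp (a * ∑ σ, s σ) * Real.exp (a * ∑ σ, (x - s) σ) := by
  simp only [← Real.exp_add, Pi.sub_apply, Finset.sum_sub_distrib]
  congr 1
  ring
theorem DensB_int_abs {ε : ℝ} (hε : 0 < ε) : Integrable fun x : ℝ => Real.exp (-ε * |x|) := by
  have h : IntegrableOn (fun x : ℝ => Real.exp (-ε * |x|)) (Set.Ioi 0) :=
    (exp_neg_integrableOn_Ioi 0 hε).congr_fun (fun x hx => by rw [abs_of_pos hx]) measurableSet_Ioi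
  rw [← integrableOn_univ, ← Set.Iic_union_Ioi (a := (0 : ℝ))]
  refine IntegrableOn.union ?_ h
  refine (integrableOn_exp_mul_Iic hε 0).congr_fun (fun x hx => ?_) measurableSet_Iic
  rw [abs_of_nonpos hx, neg_mul_neg]
theorem DensB_int_sum {ε : ℝ} (hε : 0 < ε) :
    Integrable fun v : Pl E → ℝ => Real.exp (-ε * ∑ σ, |v σ|) := by
  simp only [Finset.mul_sum, Real.exp_sum]
  exact Integrable.fintype_prod (f := fun _ x => Real.exp (-ε * |x|)) fun _ => DensB_int_abs hε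
theorem KC.bound {k : (Pl E → ℝ) → ℝ} (h : KC k) {a δ : ℝ} (hδ : 0 ≤ δ) (ha : 1 + δ < a) :
    ∃ C : ℝ, 0 ≤ C ∧ ∀ v, k v ≤ C * Real.exp (-a * ∑ σ, v σ - δ * ∑ σ, |v σ|) := by
  obtain ⟨C, hC⟩ := h.2.2.2 a δ hδ ha
  exact ⟨C, by simpa using (h.2.1 0).trans (hC 0), hC⟩
theorem DensB_conv_le {k k' : (Pl E → ℝ) → ℝ} (h : KC k) (h' : KC k') {a δ : ℝ} (hδ : 0 ≤ δ)
    (ha : 1 + δ < a) : ∃ C ε : ℝ, 0 < ε ∧ ∀ x s, k s * k' (x - s) ≤
      C * Real.exp (-a * ∑ σ, x σ - δ * ∑ σ, |x σ|) * Real.exp (-ε * ∑ σ, |s σ|) := by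
  obtain ⟨C, hC0, hC⟩ := h.bound (a := a) (δ := δ + (a - 1 - δ) / 2) (by linarith) (by linarith)
  obtain ⟨C', hC0', hC'⟩ := h'.bound hδ ha
  refine ⟨C * C', (a - 1 - δ) / 2, by linarith, fun x s => ?_⟩
  refine (mul_le_mul (hC s) (hC' _) (h'.2.1 _) (by positivity)).trans ?_
  rw [mul_mul_mul_comm, mul_assoc (C * C'), ← Real.exp_add, ← Real.exp_add]
  refine mul_le_mul_of_nonneg_left (Real.exp_le_exp.2 ?_) (by positivity)
  have h1 : ∑ σ, |x σ| ≤ ∑ σ, |s σ| + ∑ σ, |(x - s) σ| := by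
    rw [← Finset.sum_add_distrib]
    exact Finset.sum_le_sum fun σ _ => by simpa using abs_add_le (s σ) (x σ - s σ)
  have h2 := mul_le_mul_of_nonneg_left h1 hδ
  have h3 : ∑ σ, (x - s) σ = ∑ σ, x σ - ∑ σ, s σ := by
    simp only [Pi.sub_apply, Finset.sum_sub_distrib]
  rw [h3]
  linarith
theorem DensB_int_conv {k k' : (Pl E → ℝ) → ℝ} (h : KC k) (h' : KC k') (x : Pl E → ℝ) :
    Integrable fun s => k s * k' (x - s) := by
  obtain ⟨C, ε, hε, hC⟩ := DensB_conv_le h h' (a := 2) le_rfl (by norm_num)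
  exact ((DensB_int_sum hε).const_mul _).mono'
    (h.1.mul (h'.1.comp (measurable_const.sub measurable_id))).aestronglyMeasurable
    (Eventually.of_forall fun s => by
      rw [Real.norm_of_nonneg (mul_nonneg (h.2.1 _) (h'.2.1 _))]; exact hC x s)
theorem Mo_kconv {k k' : (Pl E → ℝ) → ℝ} (h : KC k) (h' : KC k') :
    Mo (kconv k k') = Mo k * Mo k' := by
  refine Eq.trans ?_ (integral_convolution (ContinuousLinearMap.mul ℝ ℝ) h.integrable_Mo
    h'.integrable_Mo)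
  refine integral_congr_ae (Eventually.of_forall fun x => ?_)
  simp only [kconv, convolution_def, ContinuousLinearMap.mul_apply', ← integral_mul_const]
  refine integral_congr_ae (Eventually.of_forall fun s => ?_)
  simp only [DensB_exp_sub _ x s]
  ring
theorem KC.kconv {k k' : (Pl E → ℝ) → ℝ} (h : KC k) (h' : KC k') : KC (kconv k k') := by
  refine ⟨?_, fun x => integral_nonneg fun s => mul_nonneg (h.2.1 _) (h'.2.1 _), ?_,
    fun a δ hδ ha => ?_⟩
  · exact (((h.1.comp measurable_snd).mul (h'.1.comp (measurable_fst.sub measurable_snd)))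
      |>.stronglyMeasurable.integral_prod_right' (ν := volume)).measurable
  · rw [Mo_kconv h h']
    exact mul_pos h.2.2.1 h'.2.2.1
  · obtain ⟨C, ε, hε, hC⟩ := DensB_conv_le h h' hδ ha
    refine ⟨C * ∫ s : Pl E → ℝ, Real.exp (-ε * ∑ σ, |s σ|), fun x => ?_⟩
    rw [mul_right_comm, ← integral_const_mul]
    exact integral_mono (DensB_int_conv h h' x) ((DensB_int_sum hε).const_mul _) (hC x)
open Classical in
theorem DensB_term_le {g : E → ℂ} (hg : PolyG g) {k : (Pl E → ℝ) → ℝ} (h : KC k) :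
    ∃ (D : E) (A C : ℝ), D ≠ 0 ∧ 0 ≤ A ∧ 0 ≤ C ∧ ∀ (η : Pl E → ℝ) (c : E),
      ‖g c * (k (η + lg c) : ℂ)‖ ≤ C * Real.exp (-A * ∑ σ, η σ) *
        if c ≠ 0 ∧ IsIntegral ℤ (D * c) then
          Real.exp (-2 * ∑ σ, (η σ + lg c σ) - 1 / 2 * ∑ σ, |η σ + lg c σ|) else 0 := by
  obtain ⟨D, B, A, hD, hA, hg⟩ := hg
  obtain ⟨C, hC0, hC⟩ := h.bound (a := A + 2) (δ := 1 / 2) (by norm_num) (by linarith)
  refine ⟨D, A, |B| * C, Nat.cast_ne_zero.2 hD, hA, by positivity, fun η c => ?_⟩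
  by_cases hc : g c = 0
  · rw [hc, zero_mul, norm_zero]
    split_ifs <;> positivity
  obtain ⟨h0, h1, h2⟩ := hg c hc
  have hn := nr_pos h0
  rw [if_pos ⟨h0, h1⟩, norm_mul, Complex.norm_real, Real.norm_of_nonneg (h.2.1 _)]
  refine (mul_le_mul (h2.trans (mul_le_mul_of_nonneg_right (le_abs_self B) (by positivity))) (hC _)
    (h.2.1 _) (by positivity)).trans (le_of_eq ?_)
  rw [Real.rpow_def_of_pos hn, ← sum_lg h0, mul_mul_mul_comm, mul_assoc (|B| * C), ← Real.exp_add,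
    ← Real.exp_add]
  simp only [Pi.add_apply, Finset.sum_add_distrib]
  congr 2
  ring
theorem PolyG.summable {g : E → ℂ} (hg : PolyG g) {k : (Pl E → ℝ) → ℝ} (h : KC k) (η : Pl E → ℝ) :
    Summable fun c => ‖g c * (k (η + lg c) : ℂ)‖ := by
  obtain ⟨D, A, C, hD, -, -, hC⟩ := DensB_term_le hg h
  obtain ⟨C', -, H⟩ := tsum_lattice_le (E := E) (δ := 1 / 2) (a := 2) (by norm_num) one_le_two
  exact Summable.of_nonneg_of_le (fun _ => norm_nonneg _) (hC η) ((H D η hD).1.mul_left _)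
/-- `tsum_lattice_le`. -/
theorem PolyG.norm_Sk_le {g : E → ℂ} (hg : PolyG g) {k : (Pl E → ℝ) → ℝ} (h : KC k) (x : ℝ) :
    ∃ C : ℝ, ∀ η : Pl E → ℝ, x ≤ ∑ σ, η σ → ‖Sk g k η‖ ≤ C := by
  obtain ⟨D, A, C, hD, hA, hC0, hC⟩ := DensB_term_le hg h
  obtain ⟨C', hC', H⟩ := tsum_lattice_le (E := E) (δ := 1 / 2) (a := 2) (by norm_num) one_le_two
  have hn := nr_pos hD
  refine ⟨C * (C' * nr D ^ (2 : ℝ)) * Real.exp (-(A + 2 / 3) * x), fun η hη => ?_⟩
  have h1 := tsum_of_norm_bounded ((H D η hD).1.mul_left _).hasSum (hC η)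
  rw [tsum_mul_left] at h1
  have h2 := h1.trans (mul_le_mul_of_nonneg_left (H D η hD).2 (by positivity))
  rw [Sk, norm_mul, Complex.norm_real, Real.norm_of_nonneg (Real.exp_pos _).le]
  refine (mul_le_mul_of_nonneg_left h2 (Real.exp_pos _).le).trans ?_
  rw [mul_mul_mul_comm, mul_left_comm, ← Real.exp_add, ← Real.exp_add]
  refine mul_le_mul_of_nonneg_left (Real.exp_le_exp.2 ?_) (by positivity)
  nlinarith
theorem PolyG.measurable_Sk {g : E → ℂ} {k : (Pl E → ℝ) → ℝ} (h : Measurable k) :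
    Measurable (Sk g k) := by
  unfold Sk
  exact Measurable.mul (by fun_prop) (Measurable.tsum fun c => by fun_prop)
theorem Sk_kconv {g : E → ℂ} (hg : PolyG g) {k k' : (Pl E → ℝ) → ℝ} (h : KC k) (h' : KC k')
    (η : Pl E → ℝ) : Sk g (kconv k k') η =
      ∫ s, ((k s * Real.exp (4 / 3 * ∑ σ, s σ) : ℝ) : ℂ) * Sk g k' (η - s) := by
  have hFi : ∀ c, Integrable fun s => g c * ((k s * k' (η + lg c - s) : ℝ) : ℂ) := fun c =>
    (DensB_int_conv h h' _).ofReal.const_mul _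
  have hFs : Summable fun c => ∫ s, ‖g c * ((k s * k' (η + lg c - s) : ℝ) : ℂ)‖ := by
    refine (hg.summable (h.kconv h') η).congr fun c => ?_
    rw [norm_mul, Complex.norm_real, Real.norm_of_nonneg ((h.kconv h').2.1 _), kconv,
      ← integral_const_mul]
    refine integral_congr_ae (Eventually.of_forall fun s => ?_)
    simp only [norm_mul (g c), Complex.norm_real,
      Real.norm_of_nonneg (mul_nonneg (h.2.1 _) (h'.2.1 _))]
  have h1 : ∀ c, g c * (kconv k k' (η + lg c) : ℂ) =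
      ∫ s, g c * ((k s * k' (η + lg c - s) : ℝ) : ℂ) := fun c => by
    rw [integral_const_mul, integral_complex_ofReal, kconv]
  simp only [Sk, h1]
  rw [integral_tsum_of_summable_integral_norm hFi hFs, ← integral_const_mul]
  refine integral_congr_ae (Eventually.of_forall fun s => ?_)
  simp only [DensB_exp_sub _ η s, Complex.ofReal_mul, mul_left_comm (g _) (k s), tsum_mul_left,
    add_sub_right_comm η]
  ring
theorem tendsto_Sk_kconv {g : E → ℂ} (hg : PolyG g) {k k' : (Pl E → ℝ) → ℝ} (h : KC k)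
    (h' : KC k') {l : ℂ} (hl : Tendsto (Sk g k') (lB E) (𝓝 l)) :
    Tendsto (Sk g (kconv k k')) (lB E) (𝓝 (Mo k * l)) := by
  obtain ⟨M, hM⟩ : ∃ M : ℝ, ∀ η, ‖Sk g k' η‖ ≤ M := by
    obtain ⟨x, hx⟩ := eventually_atBot.1
      (eventually_comap.1 (hl.norm.eventually (gt_mem_nhds (lt_add_one _))))
    obtain ⟨C, hC⟩ := hg.norm_Sk_le h' x
    refine ⟨max (‖l‖ + 1) C, fun η => ?_⟩
    rcases le_total (∑ σ, η σ) x with hη | hη
    exacts [(hx _ hη η rfl).le.trans (le_max_left _ _), (hC η hη).trans (le_max_right _ _)]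
  rw [funext (Sk_kconv hg h h'), Mo, ← integral_complex_ofReal, ← integral_mul_const]
  have hm := PolyG.measurable_Sk (g := g) h'.1
  have hk := h.1
  refine tendsto_integral_filter_of_dominated_convergence
    (fun s => k s * Real.exp (4 / 3 * ∑ σ, s σ) * M)
    (Eventually.of_forall fun η => Measurable.aestronglyMeasurable (by fun_prop))
    (Eventually.of_forall fun η => Eventually.of_forall fun s => ?_) (h.integrable_Mo.mul_const M)
    (Eventually.of_forall fun s => Tendsto.const_mul _ ?_)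
  · have h0 := mul_nonneg (h.2.1 s) (Real.exp_pos (4 / 3 * ∑ σ, s σ)).le
    rw [norm_mul, Complex.norm_real, Real.norm_of_nonneg h0]
    exact mul_le_mul_of_nonneg_left (hM _) h0
  · simpa only [sub_eq_add_neg, Function.comp_def] using hl.comp (tendsto_add_lB (-s))
theorem DensB_eq {g : E → ℂ} (hg : PolyG g) {t l : ℂ} (h : WD g t) {k : (Pl E → ℝ) → ℝ}
    (hk : KC k) (hl : Tendsto (Sk g k) (lB E) (𝓝 l)) : l = t * Mo k := by
  obtain ⟨k', hk', h⟩ := h
  have e := tendsto_nhds_unique (tendsto_Sk_kconv hg hk hk' h)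
    (kconv_comm k' k ▸ tendsto_Sk_kconv hg hk' hk hl)
  apply mul_left_cancel₀ (Complex.ofReal_ne_zero.2 hk'.2.2.1.ne')
  linear_combination -e
theorem WD.unique {g : E → ℂ} (hg : PolyG g) {t t' : ℂ} (h : WD g t) (h' : WD g t') : t = t' := by
  obtain ⟨k, hk, h⟩ := h
  exact mul_right_cancel₀ (Complex.ofReal_ne_zero.2 hk.2.2.1.ne') (DensB_eq hg h' hk h)
theorem WD.eq_of_tendsto {g : E → ℂ} (hg : PolyG g) {t l : ℂ} (h : WD g t) {k : (Pl E → ℝ) → ℝ}
    (hk : KC k) (hl : Tendsto (Sk g k) (lB E) (𝓝 l)) : l = t * Mo k :=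
  DensB_eq hg h hk hl
theorem wd_zero : WD (fun _ : E => (0 : ℂ)) 0 := by
  refine ⟨_, KC_kF 0 (b := 0) fun _ => le_rfl, ?_⟩
  unfold Sk
  simp only [zero_mul, tsum_zero, mul_zero, tendsto_const_nhds]
theorem WD.const_mul {g : E → ℂ} {t : ℂ} (h : WD g t) (a : ℂ) : WD (fun c => a * g c) (a * t) := by
  obtain ⟨k, hk, h⟩ := h
  refine ⟨k, hk, ?_⟩
  rw [mul_assoc]
  refine (h.const_mul a).congr fun η => ?_
  simp only [Sk, mul_assoc, tsum_mul_left]
  ring
theorem PolyG.add {g g' : E → ℂ} (hg : PolyG g) (hg' : PolyG g') : PolyG fun c => g c + g' c := by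
  obtain ⟨D, B, A, hD, hA, hg⟩ := hg
  obtain ⟨D', B', A', hD', hA', hg'⟩ := hg'
  have hi : ∀ n : ℕ, IsIntegral ℤ (n : E) := fun n => by
    exact_mod_cast isIntegral_algebraMap (x := (n : ℤ))
  have hDD : ((D * D' : ℕ) : E) ≠ 0 := Nat.cast_ne_zero.2 (mul_ne_zero hD hD')
  have key : ∀ {f : E → ℂ} {b a a' : ℝ} {c : E}, c ≠ 0 → IsIntegral ℤ (((D * D' : ℕ) : E) * c) →
      0 ≤ a' → (f c ≠ 0 → ‖f c‖ ≤ b * nr c ^ a) →
      ‖f c‖ ≤ |b| * nr ((D * D' : ℕ) : E) ^ a' * nr c ^ (a + a') := by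
    intro f b a a' c hc hc' ha' hf
    have h0 := nr_pos hc
    have h1 := nr_pos hDD
    by_cases h : f c = 0
    · rw [h, norm_zero]; positivity
    refine ((hf h).trans (mul_le_mul_of_nonneg_right (le_abs_self b) (by positivity))).trans ?_
    rw [add_comm a, Real.rpow_add h0, mul_assoc, ← mul_assoc (_ ^ a'), ← Real.mul_rpow h1.le h0.le,
      ← nr_mul]
    exact mul_le_mul_of_nonneg_left (le_mul_of_one_le_left (by positivity)
      (Real.one_le_rpow (one_le_nr (mul_ne_zero hDD hc) hc') ha')) (abs_nonneg _)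
  refine ⟨D * D', |B| * nr ((D * D' : ℕ) : E) ^ A' + |B'| * nr ((D * D' : ℕ) : E) ^ A, A + A',
    mul_ne_zero hD hD', add_nonneg hA hA', fun c hc => ?_⟩
  obtain ⟨h0, h1⟩ : c ≠ 0 ∧ IsIntegral ℤ (((D * D' : ℕ) : E) * c) := by
    by_cases h : g c = 0
    · obtain ⟨h0, h1, -⟩ := hg' c (by simpa [h] using hc)
      exact ⟨h0, by rw [Nat.cast_mul, mul_assoc]; exact (hi D).mul h1⟩
    · obtain ⟨h0, h1, -⟩ := hg c h
      exact ⟨h0, by rw [Nat.cast_mul, mul_comm (D : E), mul_assoc]; exact (hi D').mul h1⟩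
  refine ⟨h0, h1, (norm_add_le _ _).trans ?_⟩
  rw [add_mul]
  exact add_le_add (key h0 h1 hA' fun h => (hg c h).2.2)
    (add_comm A A' ▸ key h0 h1 hA fun h => (hg' c h).2.2)
theorem WD.add {g g' : E → ℂ} (hg : PolyG g) (hg' : PolyG g') {t t' : ℂ} (h : WD g t)
    (h' : WD g' t') : WD (fun c => g c + g' c) (t + t') := by
  obtain ⟨k, hk, h⟩ := h
  obtain ⟨k', hk', h'⟩ := h'
  have hK := hk.kconv hk'
  refine ⟨_, hK, ?_⟩
  have h1 := (kconv_comm k' k ▸ tendsto_Sk_kconv hg hk' hk h).add (tendsto_Sk_kconv hg' hk hk' h')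
  rw [show (Mo k' : ℂ) * (t * Mo k) + Mo k * (t' * Mo k') = (t + t') * (Mo (kconv k k') : ℂ) by
    rw [Mo_kconv hk hk']; push_cast; ring] at h1
  refine h1.congr fun η => ?_
  simp only [Sk, add_mul]
  rw [(hg.summable hK η).of_norm.tsum_add (hg'.summable hK η).of_norm, mul_add]
theorem WD.dilate {g g' : E → ℂ} {t : ℂ} (hg : PolyG g) (h : WD g t) {a : E} (ha : a ≠ 0)
    (hg' : ∀ c, g' (a * c) = g c) : WD g' (((nr a ^ (-(4 / 3 : ℝ)) : ℝ) : ℂ) * t) := by
  obtain ⟨k, hk, h⟩ := h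
  obtain ⟨D, B, A, -, -, hg⟩ := hg
  refine ⟨k, hk, ?_⟩
  rw [mul_assoc]
  refine ((h.comp (tendsto_add_lB (lg a))).const_mul _).congr fun η => ?_
  simp only [Function.comp, Sk]
  rw [← (Equiv.mulLeft₀ a ha).tsum_eq fun c => g' c * (k (η + lg c) : ℂ), ← mul_assoc,
    ← Complex.ofReal_mul, Real.rpow_def_of_pos (nr_pos ha), ← sum_lg ha, ← Real.exp_add]
  congr 3
  · simp only [Pi.add_apply, Finset.sum_add_distrib]
    ring
  · funext c
    rw [Equiv.mulLeft₀_apply, hg']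
    by_cases hc : g c = 0
    · rw [hc, zero_mul, zero_mul]
    · rw [lg_mul ha (hg c hc).1, add_assoc]

/-! ## part C: the shape of the limit -/

theorem G3_kF_nonneg (v b s : Pl E → ℝ) : 0 ≤ kF v b s :=
  Finset.prod_nonneg fun _ _ => R17.G3_Fk_nonneg (Real.exp_pos _).le (Real.exp_pos _).le

omit [NumberField E] [Om E] in
theorem G3_Fk_le {a y b s : ℝ} (h1 : a ≤ y) (h2 : y ≤ a + 1) (hb : 0 ≤ b) :
    Fk (Real.exp y) b (Real.exp s) ≤ Real.exp 1 * Fk (Real.exp a) 0 (Real.exp s) := by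
  have hs := Real.exp_pos s
  have ha := Real.exp_pos a
  have e1 : Real.exp a ≤ Real.exp y := Real.exp_le_exp.2 h1
  have e2 : Real.exp y ≤ Real.exp 1 * Real.exp a := by
    rw [← Real.exp_add]
    exact Real.exp_le_exp.2 (by linarith)
  have e3 : Real.exp (-Real.exp y * (Real.exp s + b / Real.exp s)) ≤
      Real.exp (-Real.exp a * (Real.exp s + 0 / Real.exp s)) := by
    refine Real.exp_le_exp.2 ?_
    have : 0 ≤ b / Real.exp s := by positivity
    rw [zero_div, add_zero]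
    nlinarith
  unfold Fk
  rw [← mul_assoc, ← mul_div_assoc]
  exact mul_le_mul (div_le_div_of_nonneg_right e2 hs.le) e3 (Real.exp_pos _).le (by positivity)

theorem G3_kF_le {a v b : Pl E → ℝ} (hv : v ∈ bx a) (hb : ∀ σ, 0 ≤ b σ) (s : Pl E → ℝ) :
    kF v b s ≤ Real.exp 1 ^ rk E * kF a 0 s := by
  unfold kF
  rw [rk, ← Finset.card_univ, ← Finset.prod_const, ← Finset.prod_mul_distrib]
  exact Finset.prod_le_prod
    (fun _ _ => R17.G3_Fk_nonneg (Real.exp_pos _).le (Real.exp_pos _).le)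
    fun σ _ => G3_Fk_le (hv.1 σ) (hv.2 σ) (hb σ)

theorem G3_measurable_kF (b s : Pl E → ℝ) : Measurable fun v : Pl E → ℝ => kF v b s :=
  (measurable_kF b).comp measurable_prodMk_right

theorem G3_measurable_Sk (g : E → ℂ) (b η : Pl E → ℝ) : Measurable fun v => Sk g (kF v b) η := by
  unfold Sk
  refine Measurable.const_mul (Measurable.tsum fun c => ?_) _
  exact (Complex.measurable_ofReal.comp (G3_measurable_kF b _)).const_mul _

/-- The kernel obtained by integrating `kF v b` over `v ∈ S`. -/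
def G3_m (S : Set (Pl E → ℝ)) (b s : Pl E → ℝ) : ℝ := ∫ v in S, kF v b s

theorem G3_bx_lt_top (a : Pl E → ℝ) : volume (bx a) < ⊤ := isCompact_Icc.measure_lt_top

theorem G3_bx_ne_zero (a : Pl E → ℝ) : volume (bx a) ≠ 0 := by
  unfold bx
  rw [Real.volume_Icc_pi]
  simp

theorem G3_measurableSet_bx (a : Pl E → ℝ) : MeasurableSet (bx a) := measurableSet_Icc

section
variable {a b : Pl E → ℝ} {S : Set (Pl E → ℝ)}

theorem G3_fin (hS' : S ⊆ bx a) : IsFiniteMeasure (volume.restrict S) :=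
  ⟨by
    rw [Measure.restrict_apply_univ]
    exact lt_of_le_of_lt (measure_mono hS') (G3_bx_lt_top a)⟩

theorem G3_integrableOn_MkE (hb : ∀ σ, 0 ≤ b σ) (hS' : S ⊆ bx a) :
    IntegrableOn (fun v => MkE v b) S :=
  ((continuous_MkE hb).continuousOn.integrableOn_compact (isCompact_Icc (a := a) (b := a + 1))).mono_set
    hS'

theorem G3_Mo (hb : ∀ σ, 0 ≤ b σ) (hS : MeasurableSet S) (hS' : S ⊆ bx a) :
    Mo (G3_m S b) = ∫ v in S, MkE v b := by
  have hm : Measurable fun p : (Pl E → ℝ) × (Pl E → ℝ) =>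
      kF p.1 b p.2 * Real.exp (4 / 3 * ∑ σ, p.2 σ) :=
    (measurable_kF b).mul (by fun_prop)
  have hint : Integrable
      (Function.uncurry fun v s : Pl E → ℝ => kF v b s * Real.exp (4 / 3 * ∑ σ, s σ))
      ((volume.restrict S).prod volume) := by
    refine (integrable_prod_iff hm.aestronglyMeasurable).2 ⟨?_, ?_⟩
    · exact Eventually.of_forall fun v => (KC_kF v hb).integrable_Mo
    · refine (G3_integrableOn_MkE hb hS').congr_fun (fun v _ => ?_) hS
      beta_reduce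
      rw [← Mo_kF v hb, Mo]
      refine integral_congr_ae (Eventually.of_forall fun s => ?_)
      have := G3_kF_nonneg v b s
      simp only [Real.norm_eq_abs]
      rw [abs_of_nonneg (by positivity)]
  calc Mo (G3_m S b) = ∫ s, ∫ v in S, kF v b s * Real.exp (4 / 3 * ∑ σ, s σ) := by
        simp only [Mo, G3_m, integral_mul_const]
    _ = ∫ v in S, ∫ s, kF v b s * Real.exp (4 / 3 * ∑ σ, s σ) :=
        (integral_integral_swap hint).symm
    _ = ∫ v in S, MkE v b := setIntegral_congr_fun hS fun v _ => Mo_kF v hb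

theorem G3_int_pos (hb : ∀ σ, 0 ≤ b σ) (hS' : S ⊆ bx a) (h0 : volume S ≠ 0) :
    0 < ∫ v in S, MkE v b := by
  rw [setIntegral_pos_iff_support_of_nonneg_ae _ (G3_integrableOn_MkE hb hS')]
  · exact lt_of_lt_of_le (pos_iff_ne_zero.2 h0) (measure_mono fun v hv => ⟨(MkE_pos v hb).ne', hv⟩)
  · exact Eventually.of_forall fun v => (MkE_pos v hb).le

theorem G3_KC (hb : ∀ σ, 0 ≤ b σ) (hS : MeasurableSet S) (hS' : S ⊆ bx a)
    (h0 : volume S ≠ 0) : KC (G3_m S b) := by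
  have := G3_fin hS'
  refine ⟨?_, fun x => ?_, ?_, fun A δ hδ hA => ?_⟩
  · exact ((measurable_kF b).stronglyMeasurable.integral_prod_left'
      (μ := volume.restrict S)).measurable
  · exact integral_nonneg fun v => G3_kF_nonneg v b x
  · rw [G3_Mo hb hS hS']; exact G3_int_pos hb hS' h0
  · obtain ⟨C, hC⟩ := (KC_kF a (b := 0) fun _ => le_rfl).2.2.2 A δ hδ hA
    refine ⟨Real.exp 1 ^ rk E * C * volume.real S, fun x => ?_⟩
    have h1 : ‖∫ v in S, kF v b x‖ ≤ Real.exp 1 ^ rk E *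
        (C * Real.exp (-A * ∑ σ, x σ - δ * ∑ σ, |x σ|)) * volume.real S := by
      refine norm_setIntegral_le_of_norm_le_const
        (lt_of_le_of_lt (measure_mono hS') (G3_bx_lt_top a)) fun v hv => ?_
      rw [Real.norm_eq_abs, abs_of_nonneg (G3_kF_nonneg v b x)]
      exact (G3_kF_le (hS' hv) hb x).trans (mul_le_mul_of_nonneg_left (hC x) (by positivity))
    calc G3_m S b x ≤ ‖∫ v in S, kF v b x‖ := le_abs_self _
      _ ≤ _ := h1
      _ = _ := by ring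

theorem G3_term_le (hb : ∀ σ, 0 ≤ b σ) (g : E → ℂ) (η : Pl E → ℝ) {v : Pl E → ℝ}
    (hv : v ∈ bx a) (c : E) :
    ‖g c * (kF v b (η + lg c) : ℂ)‖ ≤ Real.exp 1 ^ rk E * ‖g c * (kF a 0 (η + lg c) : ℂ)‖ := by
  rw [norm_mul, norm_mul, Complex.norm_real, Complex.norm_real, Real.norm_eq_abs, Real.norm_eq_abs,
    abs_of_nonneg (G3_kF_nonneg _ _ _), abs_of_nonneg (G3_kF_nonneg _ _ _), mul_left_comm]
  exact mul_le_mul_of_nonneg_left (G3_kF_le hv hb _) (norm_nonneg _)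

theorem G3_Sk {g : E → ℂ} (hg : PolyG g) (hb : ∀ σ, 0 ≤ b σ) (hS : MeasurableSet S)
    (hS' : S ⊆ bx a) (η : Pl E → ℝ) :
    Sk g (G3_m S b) η = ∫ v in S, Sk g (kF v b) η := by
  have := G3_fin hS'
  have hsum := hg.summable (KC_kF a (b := 0) fun _ => le_rfl) η
  have hb1 : ∀ c : E, ∀ᵐ v ∂volume.restrict S, ‖g c * (kF v b (η + lg c) : ℂ)‖ ≤
      Real.exp 1 ^ rk E * ‖g c * (kF a 0 (η + lg c) : ℂ)‖ := fun c => by
    filter_upwards [ae_restrict_mem hS] with v hv using G3_term_le hb g η (hS' hv) c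
  have hint : ∀ c : E, Integrable (fun v => g c * (kF v b (η + lg c) : ℂ)) (volume.restrict S) :=
    fun c => Integrable.of_bound
      ((Complex.measurable_ofReal.comp (G3_measurable_kF b _)).const_mul _).aestronglyMeasurable
      _ (hb1 c)
  unfold Sk
  rw [integral_const_mul, ← integral_tsum_of_summable_integral_norm hint]
  · congr 1
    refine tsum_congr fun c => ?_
    rw [integral_const_mul, integral_complex_ofReal]; rfl
  · refine Summable.of_nonneg_of_le (fun c => integral_nonneg fun y => norm_nonneg _) (fun c => ?_)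
      ((hsum.mul_left (Real.exp 1 ^ rk E)).mul_right ((volume.restrict S).real Set.univ))
    refine le_trans (Real.le_norm_self _) (norm_integral_le_of_norm_le_const ?_)
    filter_upwards [hb1 c] with y hy using by rwa [norm_norm]

theorem G3_memLp {g : E → ℂ} (hg : PolyG g) (hb : ∀ σ, 0 ≤ b σ) (a η : Pl E → ℝ) :
    MemLp (fun v => Sk g (kF v b) η) 2 (volume.restrict (bx a)) := by
  have := G3_fin (subset_refl (bx a))
  have hsum := hg.summable (KC_kF a (b := 0) fun _ => le_rfl) η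
  refine MemLp.of_bound (G3_measurable_Sk g b η).aestronglyMeasurable
    (‖(Real.exp (4 / 3 * ∑ σ, η σ) : ℂ)‖ *
      ∑' c : E, Real.exp 1 ^ rk E * ‖g c * (kF a 0 (η + lg c) : ℂ)‖) ?_
  filter_upwards [ae_restrict_mem (G3_measurableSet_bx a)] with v hv
  unfold Sk
  rw [norm_mul]
  refine mul_le_mul_of_nonneg_left ?_ (norm_nonneg _)
  exact tsum_of_norm_bounded (hsum.mul_left _).hasSum fun c => G3_term_le hb g η hv c

theorem G3_sq {α : Type} [MeasurableSpace α] (f : α → ℂ) (μ : Measure α) :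
    ∫⁻ y, ‖f y‖ₑ ^ 2 ∂μ = eLpNorm f 2 μ ^ 2 := by
  have := eLpNorm_nnreal_pow_eq_lintegral (f := f) (μ := μ) (p := 2) two_ne_zero
  simpa using this.symm

theorem G3_limit {g : E → ℂ} (hg : PolyG g) (hb : ∀ σ, 0 ≤ b σ)
    (hC : Tendsto (fun p : (Pl E → ℝ) × (Pl E → ℝ) =>
      ∫⁻ v in bx a, ‖Sk g (kF v b) p.1 - Sk g (kF v b) p.2‖ₑ ^ 2) (lB E ×ˢ lB E) (𝓝 0)) :
    ∃ f : (Pl E → ℝ) → ℂ, MemLp f 2 (volume.restrict (bx a)) ∧
      Tendsto (fun η => eLpNorm ((fun v => Sk g (kF v b) η) - f) 2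
        (volume.restrict (bx a))) (lB E) (𝓝 0) ∧
      ∀ S : Set (Pl E → ℝ), MeasurableSet S → S ⊆ bx a →
        Tendsto (Sk g (G3_m S b)) (lB E) (𝓝 (∫ v in S, f v)) := by
  have := G3_fin (subset_refl (bx a))
  set μ := volume.restrict (bx a) with hμ
  let G : (Pl E → ℝ) → Lp ℂ 2 μ := fun η => (G3_memLp hg hb a η).toLp _
  have hc : Cauchy (Filter.map G (lB E)) := by
    refine EMetric.cauchy_iff.2 ⟨Filter.map_neBot.ne, fun ε hε => ?_⟩
    have h := hC.eventually (gt_mem_nhds (ENNReal.pow_pos hε 2))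
    obtain ⟨T, hT, hTT⟩ := Filter.mem_prod_self_iff.1 h
    refine ⟨G '' T, Filter.image_mem_map hT, ?_⟩
    rintro _ ⟨η, hη, rfl⟩ _ ⟨η', hη', rfl⟩
    have h1 := hTT (Set.mk_mem_prod hη hη')
    simp only [Set.mem_ofPred_eq] at h1
    rw [G3_sq (fun v => Sk g (kF v b) η - Sk g (kF v b) η')] at h1
    simp only [G]
    rw [Lp.edist_toLp_toLp]
    exact (ENNReal.pow_lt_pow_left_iff two_ne_zero).1 h1
  obtain ⟨F, hF⟩ := cauchy_map_iff_exists_tendsto.1 hc
  have h2 : Tendsto (fun η => eLpNorm ((fun v => Sk g (kF v b) η) - ⇑F) 2 μ) (lB E) (𝓝 0) := by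
    refine (tendsto_iff_edist_tendsto_0.1 hF).congr fun η => ?_
    simp only [G]
    rw [Lp.edist_def]
    exact eLpNorm_congr_ae ((MemLp.coeFn_toLp _).sub EventuallyEq.rfl)
  refine ⟨F, Lp.memLp F, h2, fun S hS hS' => ?_⟩
  have hSμ : μ S ≠ ∞ := measure_ne_top _ _
  have h3 : Tendsto (fun η => inner ℂ (indicatorConstLp 2 hS hSμ (1 : ℂ)) (G η)) (lB E)
      (𝓝 (inner ℂ (indicatorConstLp 2 hS hSμ (1 : ℂ)) F)) := tendsto_const_nhds.inner hF
  have hr : μ.restrict S = volume.restrict S := Measure.restrict_restrict_of_subset hS'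
  rw [L2.inner_indicatorConstLp_one, hr] at h3
  refine h3.congr fun η => ?_
  rw [L2.inner_indicatorConstLp_one, G3_Sk hg hb hS hS' η, ← hr]
  exact integral_congr_ae (ae_restrict_of_ae (MemLp.coeFn_toLp _))

theorem G3_wd {g : E → ℂ} (hb : ∀ σ, 0 ≤ b σ) (hS : MeasurableSet S)
    (hS' : S ⊆ bx a) (h0 : volume S ≠ 0) {l : ℂ}
    (h : Tendsto (Sk g (G3_m S b)) (lB E) (𝓝 l)) :
    WD g (l / ((∫ v in S, MkE v b : ℝ) : ℂ)) := by
  refine ⟨G3_m S b, G3_KC hb hS hS' h0, ?_⟩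
  rw [G3_Mo hb hS hS', div_mul_cancel₀ _
    (Complex.ofReal_ne_zero.2 (G3_int_pos hb hS' h0).ne')]
  exact h

end

/-- If the coefficient functions `v ↦ Sk g (kF v b) η` are Cauchy in `L²_loc` along `lB`, the limit
is `t · MkE v b` with `t` the weak density of `g` (as `R17.exists_wd_of_cauchy`: integrate the
kernel over measurable subsets `S` of the box, `Mo (∫_S kF v b) = ∫_S MkE v b`). -/
theorem exists_wd_of_cauchy {g : E → ℂ} (hg : PolyG g) {b : Pl E → ℝ} (hb : ∀ σ, 0 ≤ b σ)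
    (hC : ∀ a : Pl E → ℝ, Tendsto (fun p : (Pl E → ℝ) × (Pl E → ℝ) =>
      ∫⁻ v in bx a, ‖Sk g (kF v b) p.1 - Sk g (kF v b) p.2‖ₑ ^ 2) (lB E ×ˢ lB E) (𝓝 0)) :
    ∃ t : ℂ, WD g t ∧ ∀ a : Pl E → ℝ,
      Tendsto (fun η => ∫⁻ v in bx a, ‖Sk g (kF v b) η - t * (MkE v b : ℂ)‖ₑ ^ 2) (lB E) (𝓝 0) := by
  obtain ⟨f₀, -, -, h₀⟩ := G3_limit hg hb (hC 0)
  have ht := G3_wd hb (G3_measurableSet_bx 0) subset_rfl (G3_bx_ne_zero 0)
    (h₀ _ (G3_measurableSet_bx 0) subset_rfl)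
  refine ⟨_, ht, fun a => ?_⟩
  generalize (∫ v in bx 0, f₀ v) / ((∫ v in bx 0, MkE v b : ℝ) : ℂ) = t at ht
  obtain ⟨f, hf, h1, h2⟩ := G3_limit hg hb (hC a)
  have := G3_fin (subset_refl (bx a))
  have hM : Integrable (fun v => t * (MkE v b : ℂ)) (volume.restrict (bx a)) :=
    (G3_integrableOn_MkE hb subset_rfl).ofReal.const_mul t
  have he : f =ᵐ[volume.restrict (bx a)] fun v => t * (MkE v b : ℂ) := by
    refine ae_eq_of_forall_setIntegral_eq_of_sigmaFinite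
      (fun s _ _ => (hf.integrable one_le_two).integrableOn) (fun s _ _ => hM.integrableOn)
      fun s hs _ => ?_
    rw [Measure.restrict_restrict hs]
    have hS : MeasurableSet (s ∩ bx a) := hs.inter (G3_measurableSet_bx a)
    by_cases h0 : volume (s ∩ bx a) = 0
    · rw [Measure.restrict_eq_zero.2 h0]; simp
    · have h3 := WD.unique hg (G3_wd hb hS Set.inter_subset_right h0
        (h2 _ hS Set.inter_subset_right)) ht
      rw [div_eq_iff (Complex.ofReal_ne_zero.2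
        (G3_int_pos hb Set.inter_subset_right h0).ne')] at h3
      rw [h3, integral_const_mul, integral_complex_ofReal]
  have h4 := ENNReal.Tendsto.pow (n := 2) h1
  rw [zero_pow two_ne_zero] at h4
  refine h4.congr fun η => ?_
  rw [G3_sq (fun v => Sk g (kF v b) η - t * (MkE v b : ℂ))]
  congr 1
  exact eLpNorm_congr_ae (EventuallyEq.rfl.sub he)

end Crest.Agent.R312
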