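import Crest.Agent.R312.ThAdm
import Crest.Agent.R312.ThBox
import Crest.Agent.R312.ThDens

/-!
# Row 312: theta module E, part B: auxiliary lemmas for the Fourier expansion
-/

set_option autoImplicit false

noncomputable section

namespace Crest.Agent.R312

open NumberField
open scoped ComplexConjugate

open MeasureTheory Filter Topology
open scoped ENNReal
open Crest.Agent.R17 (H actC Qf μH Fk Mk IsWt W0 U1)

variable {E : Type} [Field E] [NumberField E] [Om E]

theorem EisB_gz_prod (z : Pl E → ℂ) (α : Pl E → ℝ) :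
    gz z α = ∏ σ, Real.exp (-(2 * Real.pi) * (‖z σ‖ ^ 2 * Real.exp (-α σ))) := by
  rw [gz, Finset.mul_sum, Real.exp_sum]

theorem EisB_split (η v : Pl E → ℝ) (z : Pl E → ℂ) (c d : E) :
    Real.exp (-∑ σ, Real.exp (η σ) * Qv (mkH z v) c d σ) =
      Real.exp (-∑ σ, Real.exp (η σ + v σ) * ‖σ.1 c‖ ^ 2) *
        gz (em d + em c * z) fun σ => Real.log (2 * Real.pi) + v σ - η σ := by
  have hπ : 0 < 2 * Real.pi := by positivity
  rw [gz, ← Real.exp_add, Finset.mul_sum, ← Finset.sum_neg_distrib, ← Finset.sum_neg_distrib,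
    ← Finset.sum_add_distrib]
  congr 1
  refine Finset.sum_congr rfl fun σ _ => ?_
  have e : (em d + em c * z) σ = σ.1 c * z σ + σ.1 d := by simp [em, add_comm]
  rw [Qv_mkH, e, show -(Real.log (2 * Real.pi) + v σ - η σ) =
      η σ + -v σ - Real.log (2 * Real.pi) by ring, Real.exp_sub, Real.exp_log hπ, Real.exp_add,
    Real.exp_add]
  field_simp
  ring

theorem EisB_kernel (η v : Pl E → ℝ) {c : E} (hc : c ≠ 0) (ν : E) :
    Real.exp (-∑ σ, Real.exp (η σ + v σ) * ‖σ.1 c‖ ^ 2) *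
        (Real.exp (∑ σ, (Real.log (2 * Real.pi) + v σ - η σ)) *
          gz (em (ν / c)) (-fun σ => Real.log (2 * Real.pi) + v σ - η σ)) =
      (2 * Real.pi) ^ rk E * (nr c * kF v (bb ν) (η + lg c)) := by
  have hπ : 0 < 2 * Real.pi := by positivity
  rw [EisB_gz_prod, ← Finset.sum_neg_distrib, Real.exp_sum, Real.exp_sum, kF, nr,
    ← Finset.prod_mul_distrib, ← Finset.prod_mul_distrib, ← Finset.prod_mul_distrib,
    show (2 * Real.pi) ^ rk E = ∏ _σ : Pl E, 2 * Real.pi by simp, ← Finset.prod_mul_distrib]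
  refine Finset.prod_congr rfl fun σ _ => ?_
  have h0 : ‖σ.1 c‖ ≠ 0 := norm_ne_zero_iff.2 (σ.ne_zero hc)
  have e1 : Real.exp (Real.log (2 * Real.pi) + v σ - η σ) =
      2 * Real.pi * Real.exp (v σ) / Real.exp (η σ) := by
    rw [Real.exp_sub, Real.exp_add, Real.exp_log hπ]
  have e2 : ‖em (ν / c) σ‖ = ‖σ.1 ν‖ / ‖σ.1 c‖ := by simp [em]
  have hη := (Real.exp_pos (η σ)).ne'
  simp only [Pi.neg_apply, neg_neg, Pi.add_apply, Fk, bb]
  rw [e1, e2, Real.exp_add (η σ) (lg c σ), exp_lg hc, Real.exp_add (η σ) (v σ),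
    show -Real.exp (v σ) * (Real.exp (η σ) * ‖σ.1 c‖ ^ 2 +
        4 * Real.pi ^ 2 * ‖σ.1 ν‖ ^ 2 / (Real.exp (η σ) * ‖σ.1 c‖ ^ 2)) =
      -(Real.exp (η σ) * Real.exp (v σ) * ‖σ.1 c‖ ^ 2) +
        -(2 * Real.pi) * ((‖σ.1 ν‖ / ‖σ.1 c‖) ^ 2 *
          (2 * Real.pi * Real.exp (v σ) / Real.exp (η σ))) by field_simp; ring, Real.exp_add]
  field_simp

theorem EisB_inner_sum {ξ : E → E → ℂ} (h : Adm ξ) (η v : Pl E → ℝ) (z : Pl E → ℂ) {c : E}
    (hc : c ≠ 0) :
    ∑' d : E, ξ c d * (Real.exp (-∑ σ, Real.exp (η σ) * Qv (mkH z v) c d σ) : ℂ) =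
      ∑' ν : E, (2 * Real.pi : ℂ) ^ rk E * (Gx ξ ν c * (kF v (bb ν) (η + lg c) : ℂ)) *
        ez (em ν) z := by
  have h1 := PS (h.per hc) (em c * z) fun σ => Real.log (2 * Real.pi) + v σ - η σ
  simp only [EisB_split, Complex.ofReal_mul, mul_left_comm (ξ c _)]
  rw [tsum_mul_left, h1, ← tsum_mul_left, ← tsum_mul_left, ← (Equiv.divRight₀ c hc).tsum_eq]
  refine tsum_congr fun ν => ?_
  have h2 := congrArg (fun x : ℝ => (x : ℂ)) (EisB_kernel η v hc ν)
  have h3 : ez (em (ν / c)) (em c * z) = ez (em ν) z := by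
    rw [← ez_mul, ← em_mul, div_mul_cancel₀ _ hc]
  simp only [Complex.ofReal_mul, Complex.ofReal_pow, Complex.ofReal_ofNat] at h2
  simp only [Equiv.divRight₀_apply, h3, Gx, if_neg hc]
  linear_combination (Mn (fun d => ξ c d * eT (ν / c * d)) * ez (em ν) z) * h2

theorem EisB_kF_nonneg (v b s : Pl E → ℝ) : 0 ≤ kF v b s :=
  Finset.prod_nonneg fun σ _ => by unfold Fk; positivity

theorem EisB_kF_eq (v s : Pl E → ℝ) (ν : E) :
    kF v (bb ν) s = kF v 0 s * gz (em ν + 0) fun σ => s σ - v σ - Real.log (2 * Real.pi) := by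
  have hπ : 0 < 2 * Real.pi := by positivity
  rw [EisB_gz_prod, kF, kF, ← Finset.prod_mul_distrib]
  refine Finset.prod_congr rfl fun σ _ => ?_
  have hs := (Real.exp_pos (s σ)).ne'
  have e1 : Real.exp (-(s σ - v σ - Real.log (2 * Real.pi))) =
      2 * Real.pi * Real.exp (v σ) / Real.exp (s σ) := by
    rw [show -(s σ - v σ - Real.log (2 * Real.pi)) = Real.log (2 * Real.pi) + v σ - s σ by ring,
      Real.exp_sub, Real.exp_add, Real.exp_log hπ]
  simp only [Fk, bb, Pi.zero_apply, add_zero, zero_div, em]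
  rw [e1, mul_assoc (_ / _), ← Real.exp_add]
  congr 2
  field_simp
  ring

theorem EisB_supp {ξ : E → E → ℂ} (h : Adm ξ) : ∃ D D' : ℕ, D ≠ 0 ∧ D' ≠ 0 ∧ ∀ ν c,
    Gx ξ ν c ≠ 0 → c ≠ 0 ∧ IsIntegral ℤ ((D : E) * c) ∧ IsIntegral ℤ ((D' : E) * ν) := by
  obtain ⟨D, hD, h1⟩ := h.supp
  obtain ⟨D', hD', h2⟩ := h.isLat_Lx.dual
  refine ⟨D, D', hD, hD', fun ν c h0 => ⟨?_, ?_, h2 ν fun t ht => ?_⟩⟩
  · rintro rfl
    exact h0 (by simp [Gx])
  · by_contra h3
    have h4 : ∀ d, ξ c d = 0 := fun d => by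
      by_contra h5
      exact h3 (h1 c d h5).1
    exact h0 (by simp [Gx, h4])
  · by_contra h3
    exact h0 (h.Gx_eq_zero ht.2 h3 c)

open Classical in
theorem EisB_summable_pow {D : ℕ} (hD : D ≠ 0) (η v : Pl E → ℝ) (k : ℕ) :
    Summable fun c : E => if c ≠ 0 ∧ IsIntegral ℤ ((D : E) * c) then
      nr c ^ k * kF v 0 (η + lg c) else 0 := by
  have hg : PolyG fun c : E => if c ≠ 0 ∧ IsIntegral ℤ ((D : E) * c) then
      ((nr c ^ k : ℝ) : ℂ) else 0 := by
    refine ⟨D, 1, k, hD, Nat.cast_nonneg _, fun c hc => ?_⟩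
    have h1 : c ≠ 0 ∧ IsIntegral ℤ ((D : E) * c) := by
      by_contra h2
      exact hc (if_neg h2)
    refine ⟨h1.1, h1.2, ?_⟩
    simp only [if_pos h1]
    rw [Complex.norm_real, Real.norm_of_nonneg (pow_nonneg (nr_nonneg c) k), Real.rpow_natCast,
      one_mul]
  refine (hg.summable (KC_kF v (b := 0) fun _ => le_rfl) η).congr fun c => ?_
  split_ifs with h1
  · rw [← Complex.ofReal_mul, Complex.norm_real, Real.norm_of_nonneg
      (mul_nonneg (pow_nonneg (nr_nonneg c) k) (EisB_kF_nonneg _ _ _))]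
  · simp

theorem EisB_summable_dual {ξ : E → E → ℂ} (h : Adm ξ) (η v : Pl E → ℝ) :
    Summable fun p : E × E => ‖Gx ξ p.2 p.1 * (kF v (bb p.2) (η + lg p.1) : ℂ)‖ := by
  classical
  obtain ⟨D, D', hD, hD', hs⟩ := EisB_supp h
  obtain ⟨B, hB⟩ := h.norm_Gx_le
  obtain ⟨C, hC, hgz⟩ := tsum_gz_le (E := E)
  have hD'E : (D' : E) ≠ 0 := Nat.cast_ne_zero.2 hD'
  set β : E → Pl E → ℝ := fun c σ => (η + lg c) σ - v σ - Real.log (2 * Real.pi) with hβ
  set a : E → ℝ := fun c => if c ≠ 0 ∧ IsIntegral ℤ ((D : E) * c) then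
    |B| * (nr c * kF v 0 (η + lg c)) else 0 with ha
  have ha0 : ∀ c, 0 ≤ a c := fun c => by
    simp only [ha]
    split_ifs
    · exact mul_nonneg (abs_nonneg _) (mul_nonneg (nr_nonneg _) (EisB_kF_nonneg _ _ _))
    · exact le_rfl
  set g : E → E → ℝ := fun c ν => if IsIntegral ℤ ((D' : E) * ν) then gz (em ν + 0) (β c) else 0
    with hg
  have hg0 : ∀ c ν, 0 ≤ g c ν := fun c ν => by
    simp only [hg]
    split_ifs
    · exact (gz_pos _ _).le
    · exact le_rfl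
  refine Summable.of_nonneg_of_le (f := fun p : E × E => a p.1 * g p.1 p.2)
    (fun _ => norm_nonneg _) (fun p => ?_) ?_
  · by_cases h0 : Gx ξ p.2 p.1 = 0
    · rw [h0, zero_mul, norm_zero]
      exact mul_nonneg (ha0 _) (hg0 _ _)
    obtain ⟨h1, h2, h3⟩ := hs _ _ h0
    simp only [ha, hg, if_pos (And.intro h1 h2), if_pos h3]
    rw [norm_mul, Complex.norm_real, Real.norm_of_nonneg (EisB_kF_nonneg _ _ _), EisB_kF_eq,
      ← mul_assoc, ← mul_assoc]
    refine mul_le_mul_of_nonneg_right (mul_le_mul_of_nonneg_right ((hB _ _).trans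
      (mul_le_mul_of_nonneg_right (le_abs_self B) (nr_nonneg _))) (EisB_kF_nonneg _ _ _))
      (gz_pos _ _).le
  · refine (summable_prod_of_nonneg fun p => mul_nonneg (ha0 _) (hg0 _ _)).2
      ⟨fun c => Summable.mul_left (f := g c) (a c) (hgz D' (β c) 0 hD'E).1, ?_⟩
    set K : ℝ := nr (D' : E) * Real.exp (∑ σ, (η σ - v σ - Real.log (2 * Real.pi))) with hK
    refine Summable.of_nonneg_of_le (fun c => tsum_nonneg fun ν => mul_nonneg (ha0 _) (hg0 _ _))
      (fun c => ?_) (((EisB_summable_pow hD η v 1).mul_left (|B| * C)).add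
        ((EisB_summable_pow hD η v 2).mul_left (|B| * C * K)))
    simp only
    rw [tsum_mul_left]
    refine (mul_le_mul_of_nonneg_left (hgz D' (β c) 0 hD'E).2 (ha0 c)).trans (le_of_eq ?_)
    simp only [ha]
    split_ifs with h1
    · have e : Real.exp (∑ σ, β c σ) =
          Real.exp (∑ σ, (η σ - v σ - Real.log (2 * Real.pi))) * nr c := by
        rw [← exp_sum_lg h1.1, ← Real.exp_add, ← Finset.sum_add_distrib]
        congr 1
        exact Finset.sum_congr rfl fun σ _ => by simp only [hβ, Pi.add_apply]; ring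
      rw [e, hK]
      ring
    · simp

theorem EisB_sub {L : AddSubgroup E} {f f' : HH E → ℂ} {A A' : E → (Pl E → ℝ) → ℂ}
    (h : FExp L f A) (h' : FExp L f' A') : FExp L (f - f') fun ν v => A ν v - A' ν v := by
  obtain ⟨h1, h2, h3, h4⟩ := h
  obtain ⟨h1', h2', h3', h4'⟩ := h'
  refine ⟨h1.sub h1', fun ν => (h2 ν).sub (h2' ν), fun ν v h0 => ?_, fun v => ⟨?_, fun z => ?_⟩⟩
  · by_cases h5 : A ν v = 0
    · exact h3' ν v fun h6 => h0 (by simp only [h5, h6, sub_zero])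
    · exact h3 ν v h5
  · exact Summable.of_nonneg_of_le (fun _ => norm_nonneg _) (fun ν => norm_sub_le _ _)
      ((h4 v).1.add (h4' v).1)
  · have s1 : Summable fun ν => A ν v * ez (em ν) z :=
      .of_norm (by simpa only [norm_mul, norm_ez, mul_one] using (h4 v).1)
    have s2 : Summable fun ν => A' ν v * ez (em ν) z :=
      .of_norm (by simpa only [norm_mul, norm_ez, mul_one] using (h4' v).1)
    rw [Pi.sub_apply, (h4 v).2 z, (h4' v).2 z, ← s1.tsum_sub s2]
    exact tsum_congr fun ν => by ring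

theorem EisB_summable_Acoef {ξ : E → E → ℂ} (h : Adm ξ) (η v : Pl E → ℝ) :
    Summable fun ν => ‖Acoef ξ η ν v‖ := by
  classical
  have hs := (EisB_summable_dual h η v).prod_symm
  have h1 : Summable fun ν : E => ‖(if ν = 0 then E0 ξ η v else 0)‖ :=
    summable_of_ne_finset_zero (s := {0}) fun ν hν => by
      rw [if_neg (by simpa using hν), norm_zero]
  refine Summable.of_nonneg_of_le (fun _ => norm_nonneg _) (fun ν => ?_)
    (h1.add (hs.prod.mul_left (‖(2 * Real.pi : ℂ) ^ rk E‖ *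
      ‖(Real.exp (4 / 3 * ∑ σ, η σ) : ℂ)‖)))
  unfold Acoef Sk
  refine (norm_add_le _ _).trans (add_le_add le_rfl ?_)
  rw [norm_mul, norm_mul, mul_assoc]
  exact mul_le_mul_of_nonneg_left (mul_le_mul_of_nonneg_left
    (norm_tsum_le_tsum_norm (hs.prod_factor ν)) (norm_nonneg _)) (norm_nonneg _)

theorem EisB_expand {ξ : E → E → ℂ} (h : Adm ξ) (η v : Pl E → ℝ) (z : Pl E → ℂ)
    (hsum : Summable fun p : E × E =>
      ‖ξ p.1 p.2 * (Real.exp (-∑ σ, Real.exp (η σ) * Qv (mkH z v) p.1 p.2 σ) : ℂ)‖) :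
    thY ξ η (mkH z v) = ∑' ν, Acoef ξ η ν v * ez (em ν) z := by
  classical
  have s0 := hsum.of_norm
  set T : E → E → ℂ := fun c ν =>
    (2 * Real.pi : ℂ) ^ rk E * (Gx ξ ν c * (kF v (bb ν) (η + lg c) : ℂ)) * ez (em ν) z with hT
  have sT : Summable (Function.uncurry T) := by
    refine .of_norm (((EisB_summable_dual h η v).mul_left ‖(2 * Real.pi : ℂ) ^ rk E‖).congr
      fun p => ?_)
    simp only [hT, Function.uncurry, norm_mul, norm_ez, mul_one]
  have e0 : (Real.exp (4 / 3 * ∑ σ, η σ) : ℂ) *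
      ∑' d : E, ξ 0 d * (Real.exp (-∑ σ, Real.exp (η σ) * Qv (mkH z v) 0 d σ) : ℂ) =
      E0 ξ η v := by
    unfold E0
    congr 1
    refine tsum_congr fun d => ?_
    congr 4
    refine Finset.sum_congr rfl fun σ _ => ?_
    rw [Qv_mkH, sub_eq_add_neg, Real.exp_add]
    simp only [map_zero, zero_mul, zero_add, norm_zero, ne_eq, OfNat.ofNat_ne_zero,
      not_false_eq_true, zero_pow, add_zero]
    ring
  have e1 : ∀ c : E, (if c = 0 then 0 else
      ∑' d : E, ξ c d * (Real.exp (-∑ σ, Real.exp (η σ) * Qv (mkH z v) c d σ) : ℂ)) =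
      ∑' ν, T c ν := fun c => by
    split_ifs with hc
    · simp [hT, hc, Gx]
    · exact EisB_inner_sum h η v z hc
  have s1 : Summable fun ν : E => (if ν = 0 then E0 ξ η v else 0) * ez (em ν) z :=
    summable_of_ne_finset_zero (s := {0}) fun ν hν => by
      rw [if_neg (by simpa using hν), zero_mul]
  have s2 : Summable fun ν : E => (Real.exp (4 / 3 * ∑ σ, η σ) : ℂ) * ∑' c, T c ν :=
    sT.prod_symm.prod.mul_left _
  have e2 : ∀ ν : E, Acoef ξ η ν v * ez (em ν) z =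
      (if ν = 0 then E0 ξ η v else 0) * ez (em ν) z +
        (Real.exp (4 / 3 * ∑ σ, η σ) : ℂ) * ∑' c, T c ν := fun ν => by
    simp only [hT, Acoef, Sk, tsum_mul_right, tsum_mul_left]
    ring
  rw [thY, s0.tsum_prod, s0.prod.tsum_eq_add_tsum_ite 0]
  simp only [e1, e2]
  rw [s1.tsum_add s2, tsum_mul_left, mul_add, e0, sT.tsum_comm,
    tsum_eq_single (f := fun ν : E => (if ν = 0 then E0 ξ η v else 0) * ez (em ν) z) 0
      fun ν hν => by rw [if_neg hν, zero_mul]]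
  simp

end Crest.Agent.R312
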