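import Crest.Agent.R312.ThEisAuxA
import Crest.Agent.R312.ThAdm
import Crest.Agent.R312.ThBox
import Crest.Agent.R312.ThDens
import Crest.Agent.R312.ThEisAuxB

/-!
# Row 312: theta module E: the incomplete theta series (port of `R17/ThetaEis*.lean`)
-/

set_option autoImplicit false

noncomputable section

namespace Crest.Agent.R312

open NumberField
open scoped ComplexConjugate

open MeasureTheory Filter Topology
open scoped ENNReal
open Crest.Agent.R17 (H actC Qf μH Fk Mk IsWt W0 U1)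

variable {E : Type} [Field E] [NumberField E] [Om E]

/-! ## part A -/

open Classical in
/-- Gaussian sums over `D⁻¹ 𝓞 × D⁻¹ 𝓞` (`Qv_mkH`, `tsum_gz_le` twice). -/
theorem summable_exp_Qv {D : ℕ} (hD : D ≠ 0) (η : Pl E → ℝ) (w : HH E) :
    Summable fun v : E × E => if IsIntegral ℤ ((D : E) * v.1) ∧ IsIntegral ℤ ((D : E) * v.2) then
      Real.exp (-∑ σ, Real.exp (η σ) * Qv w v.1 v.2 σ) else 0 :=
  ((EA_double (Nat.cast_ne_zero.2 hD) η).choose_spec.2 w).1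
theorem Adm.summable {ξ : E → E → ℂ} (h : Adm ξ) (η : Pl E → ℝ) (w : HH E) :
    Summable fun v : E × E =>
      ‖ξ v.1 v.2 * (Real.exp (-∑ σ, Real.exp (η σ) * Qv w v.1 v.2 σ) : ℂ)‖ :=
  ((EA_tsum h η).choose_spec w).1
/-- Crude bound, uniform in `z`. -/
theorem Adm.tsum_norm_le {ξ : E → E → ℂ} (h : Adm ξ) (η : Pl E → ℝ) : ∃ C : ℝ, ∀ w : HH E,
    ∑' v : E × E, ‖ξ v.1 v.2 * (Real.exp (-∑ σ, Real.exp (η σ) * Qv w v.1 v.2 σ) : ℂ)‖ ≤
      C * (1 + Real.exp (∑ σ, vc w σ) + Real.exp (-∑ σ, vc w σ)) :=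
  (EA_tsum h η).imp fun _ hC w => (hC w).2
theorem Adm.continuous_thY {ξ : E → E → ℂ} (h : Adm ξ) (η : Pl E → ℝ) : Continuous (thY ξ η) :=
  continuous_const.mul (EA_continuous h η)
theorem thY_act (ξ : E → E → ℂ) {g : Mt E} (hg : g.det ≠ 0) (η : Pl E → ℝ) (w : HH E) :
    thY ξ η (act g w) =
      ((nr g.det ^ (2 / 3 : ℝ) : ℝ) : ℂ) * thY (sl ξ g) (fun σ => η σ - lg g.det σ / 2) w :=
  EA_act ξ hg η w
theorem thY_act_one (ξ : E → E → ℂ) {g : Mt E} (hg : g.det = 1) (η : Pl E → ℝ) (w : HH E) :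
    thY ξ η (act g w) = thY (sl ξ g) η w := by
  rw [thY_act ξ (hg.trans_ne one_ne_zero), hg]
  simp
theorem thY_aut {ξ : E → E → ℂ} {γ : SO E} (h : γ ∈ Stab ξ) (η : Pl E → ℝ) (w : HH E) :
    thY ξ η (γ • w) = thY ξ η w := by
  rw [smul_def, thY_act_one ξ (det_toM γ), mem_Stab.1 h]
theorem Adm.norm_E0_le {ξ : E → E → ℂ} (h : Adm ξ) : ∃ C : ℝ, ∀ η v : Pl E → ℝ,
    ‖E0 ξ η v‖ ≤ C * Real.exp ((∑ σ, η σ) / 3 + ∑ σ, v σ) := EA_E0 h
theorem measurable_Acoef (ξ : E → E → ℂ) (η : Pl E → ℝ) (ν : E) : Measurable (Acoef ξ η ν) := by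
  refine Measurable.add ?_ (measurable_const.mul (measurable_const.mul (Measurable.tsum fun c =>
    measurable_const.mul (Complex.measurable_ofReal.comp
      ((measurable_kF (bb ν)).comp (measurable_id.prodMk measurable_const))))))
  exact Measurable.ite (MeasurableSet.const _)
    (measurable_const.mul (Measurable.tsum fun d => by fun_prop)) measurable_const
theorem Sk_zero_eq (ξ : E → E → ℂ) (η v : Pl E → ℝ) :
    Sk (Gx ξ 0) (kF v 0) η = (Real.exp (2 / 3 * ∑ σ, v σ) : ℂ) * P0 ξ (η + v) :=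
  EA_Sk_zero ξ η v
theorem measurable_P0 (ξ : E → E → ℂ) : Measurable (P0 ξ) := by
  rw [show P0 ξ = _ from funext (EA_P0_eq ξ)]
  exact Measurable.mul (by fun_prop) (Measurable.tsum fun c => by fun_prop)
/-- A convergent profile is bounded. -/
theorem Adm.norm_P0_le {ξ : E → E → ℂ} (h : Adm ξ) {L : ℂ} (hL : Tendsto (P0 ξ) (lB E) (𝓝 L)) :
    ∃ C : ℝ, ∀ η, ‖P0 ξ η‖ ≤ C := EA_norm_P0 h hL
theorem P0_const_mul {ξ : E → E → ℂ} (h : Adm ξ) (a : ℂ) (η : Pl E → ℝ) :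
    P0 (fun c d => a * ξ c d) η = a * P0 ξ η := EA_P0_const_mul h a η
theorem P0_add {ξ ξ' : E → E → ℂ} (h : Adm ξ) (h' : Adm ξ') (η : Pl E → ℝ) :
    P0 (fun c d => ξ c d + ξ' c d) η = P0 ξ η + P0 ξ' η := EA_P0_add h h' η
theorem P0_upper {ξ : E → E → ℂ} (h : Adm ξ) {a d : E} (ha : a ≠ 0) (hd : d ≠ 0) (b : E)
    (η : Pl E → ℝ) : P0 (sl ξ !![a, b; 0, d]) η =
      ((nr a ^ (-(1 / 3 : ℝ)) / nr d : ℝ) : ℂ) * P0 ξ (η + lg a) := EA_P0_upper h ha hd b η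
theorem CT.const_mul {ξ : E → E → ℂ} (h : Adm ξ) (hc : CT ξ) (a : ℂ) :
    CT fun c d => a * ξ c d := fun g hg => by
  obtain ⟨L, hL⟩ := hc g hg
  exact ⟨_, (hL.const_mul a).congr fun η =>
    (P0_const_mul (h.sl (hg.trans_ne one_ne_zero)) a η).symm⟩
theorem CT.add {ξ ξ' : E → E → ℂ} (h : Adm ξ) (h' : Adm ξ') (hc : CT ξ) (hc' : CT ξ') :
    CT fun c d => ξ c d + ξ' c d := fun g hg => by
  obtain ⟨L, hL⟩ := hc g hg
  obtain ⟨L', hL'⟩ := hc' g hg
  exact ⟨_, (hL.add hL').congr fun η =>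
    (P0_add (h.sl (hg.trans_ne one_ne_zero)) (h'.sl (hg.trans_ne one_ne_zero)) η).symm⟩
theorem CT.sum {α : Type} (s : Finset α) {ξ : α → E → E → ℂ} (h : ∀ i ∈ s, Adm (ξ i))
    (hc : ∀ i ∈ s, CT (ξ i)) : CT fun c d => ∑ i ∈ s, ξ i c d := by
  classical
  induction s using Finset.induction_on with
  | empty =>
    refine fun g _ => ⟨0, tendsto_const_nhds.congr fun η => ?_⟩
    rw [EA_P0_eq, show sl (fun c d : E => ∑ i ∈ (∅ : Finset α), ξ i c d) g = fun _ _ => 0 from rfl]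
    simp
  | insert i s hi ih =>
    have h1 : ∀ j ∈ s, Adm (ξ j) := fun j hj => h j (Finset.mem_insert_of_mem hj)
    rw [show (fun c d => ∑ j ∈ insert i s, ξ j c d) = fun c d => ξ i c d + ∑ j ∈ s, ξ j c d from
      funext₂ fun c d => Finset.sum_insert hi]
    exact CT.add (h i (Finset.mem_insert_self i s)) (Adm.sum s h1) (hc i (Finset.mem_insert_self i s))
      (ih h1 fun j hj => hc j (Finset.mem_insert_of_mem hj))
/-- `g g' = g'' diag(det g, 1)` with `det g'' = 1`. -/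
theorem CT.sl {ξ : E → E → ℂ} (h : Adm ξ) (hc : CT ξ) {g : Mt E} (hg : g.det ≠ 0) :
    CT (sl ξ g) := EA_CT_sl h hc hg

/-! ## part B: the Fourier expansion -/

/-- The inner sum for a fixed `c ≠ 0` (`PS` with `w = c z`, `α = log (2π) + v - η`; `ν = μ c`). -/
theorem Adm.inner_sum {ξ : E → E → ℂ} (h : Adm ξ) (η v : Pl E → ℝ) (z : Pl E → ℂ) {c : E}
    (hc : c ≠ 0) :
    ∑' d : E, ξ c d * (Real.exp (-∑ σ, Real.exp (η σ) * Qv (mkH z v) c d σ) : ℂ) =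
      ∑' ν : E, (2 * Real.pi : ℂ) ^ rk E * (Gx ξ ν c * (kF v (bb ν) (η + lg c) : ℂ)) *
        ez (em ν) z := EisB_inner_sum h η v z hc
theorem Adm.summable_dual {ξ : E → E → ℂ} (h : Adm ξ) (η v : Pl E → ℝ) :
    Summable fun p : E × E => ‖Gx ξ p.2 p.1 * (kF v (bb p.2) (η + lg p.1) : ℂ)‖ :=
  EisB_summable_dual h η v
/-- **Fourier expansion**, with respect to any lattice of translations which fix `ξ`. -/
theorem Adm.fexp {ξ : E → E → ℂ} (h : Adm ξ) {L : AddSubgroup E}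
    (hL : ∀ t ∈ L, ∀ c d, ξ c (d + c * t) = ξ c d) (η : Pl E → ℝ) :
    FExp L (thY ξ η) (Acoef ξ η) := by
  refine ⟨(h.continuous_thY η).measurable, measurable_Acoef ξ η, fun ν v h0 t ht => ?_,
    fun v => ⟨EisB_summable_Acoef h η v, fun z => EisB_expand h η v z (h.summable η _)⟩⟩
  by_cases hν : ν = 0
  · rw [hν, zero_mul, eT_zero]
  · by_contra h1
    exact h0 (by simp [Acoef, Sk, hν, h.Gx_eq_zero (hL t ht) h1])
theorem FExp.sub {L : AddSubgroup E} {f f' : HH E → ℂ} {A A' : E → (Pl E → ℝ) → ℂ}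
    (h : FExp L f A) (h' : FExp L f' A') : FExp L (f - f') fun ν v => A ν v - A' ν v :=
  EisB_sub h h'

end Crest.Agent.R312
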