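import Crest.Agent.R312.ThAdm
import Crest.Agent.R312.ThDens

/-!
# Row 312: theta module E, part A: auxiliary estimates for the incomplete theta series
-/

set_option autoImplicit false

noncomputable section

namespace Crest.Agent.R312

open NumberField
open scoped ComplexConjugate

open MeasureTheory Filter Topology
open Crest.Agent.R17 (H Qf Fk hy hy_pos continuous_hy)

variable {E : Type} [Field E] [NumberField E] [Om E]

theorem EA_gz (x : Pl E → ℂ) (s : Pl E → ℝ) :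
    gz x (fun σ => Real.log (2 * Real.pi) - s σ) = Real.exp (-∑ σ, Real.exp (s σ) * ‖x σ‖ ^ 2) := by
  have hp : 0 < 2 * Real.pi := by positivity
  unfold gz
  rw [Finset.mul_sum, ← Finset.sum_neg_distrib]
  refine congrArg _ (Finset.sum_congr rfl fun σ _ => ?_)
  rw [neg_sub, Real.exp_sub, Real.exp_log hp]
  field_simp

open Classical in
/-- Shifted Gaussian sums. -/
theorem EA_shift {D : E} (hD : D ≠ 0) : ∃ C : ℝ, 0 < C ∧ ∀ (s : Pl E → ℝ) (w : Pl E → ℂ),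
    (Summable fun x : E => if IsIntegral ℤ (D * x) then
      Real.exp (-∑ σ, Real.exp (s σ) * ‖σ.1 x + w σ‖ ^ 2) else 0) ∧
    ∑' x : E, (if IsIntegral ℤ (D * x) then
      Real.exp (-∑ σ, Real.exp (s σ) * ‖σ.1 x + w σ‖ ^ 2) else 0) ≤
      C * (1 + Real.exp (-∑ σ, s σ)) := by
  obtain ⟨C, hC, h⟩ := tsum_gz_le (E := E)
  have hn := nr_pos hD
  refine ⟨C * (1 + nr D * Real.exp (∑ _σ : Pl E, Real.log (2 * Real.pi))), by positivity,
    fun s w => ?_⟩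
  obtain ⟨h1, h2⟩ := h D (fun σ => Real.log (2 * Real.pi) - s σ) w hD
  simp only [EA_gz] at h1 h2
  refine ⟨h1, le_trans h2 ?_⟩
  rw [Finset.sum_sub_distrib, sub_eq_add_neg, Real.exp_add, mul_assoc C]
  refine mul_le_mul_of_nonneg_left ?_ hC.le
  have a1 := mul_pos hn (Real.exp_pos (∑ _σ : Pl E, Real.log (2 * Real.pi)))
  have a2 := Real.exp_pos (-∑ σ, s σ)
  nlinarith

theorem EA_two_mul_le (t : ℝ) : t + |t| ≤ Real.exp t := by
  rcases abs_cases t with h | h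
  · have h1 := Real.add_one_le_exp (t / 2)
    have h2 : Real.exp t = Real.exp (t / 2) * Real.exp (t / 2) := by
      rw [← Real.exp_add, add_halves]
    have h3 := mul_le_mul h1 h1 (by linarith [h.2]) (Real.exp_pos _).le
    nlinarith [sq_nonneg (t / 2 - 1), h.1]
  · linarith [Real.exp_pos t, h.1]

open Classical in
/-- Gaussian sums over the non-zero points. -/
theorem EA_ne {D : E} (hD : D ≠ 0) : ∃ C : ℝ, 0 < C ∧ ∀ s : Pl E → ℝ,
    (Summable fun x : E => if x ≠ 0 ∧ IsIntegral ℤ (D * x) then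
      Real.exp (-∑ σ, Real.exp (s σ) * ‖σ.1 x‖ ^ 2) else 0) ∧
    ∑' x : E, (if x ≠ 0 ∧ IsIntegral ℤ (D * x) then
      Real.exp (-∑ σ, Real.exp (s σ) * ‖σ.1 x‖ ^ 2) else 0) ≤ C * Real.exp (-∑ σ, s σ) := by
  obtain ⟨C, hC, h⟩ := tsum_lattice_le (E := E) (δ := 1) (a := 1) one_pos le_rfl
  have hn := nr_pos hD
  refine ⟨C * nr D, by positivity, fun s => ?_⟩
  obtain ⟨h1, h2⟩ := h D s hD
  have key : ∀ x : E, (if x ≠ 0 ∧ IsIntegral ℤ (D * x) then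
      Real.exp (-∑ σ, Real.exp (s σ) * ‖σ.1 x‖ ^ 2) else 0) ≤
      if x ≠ 0 ∧ IsIntegral ℤ (D * x) then
        Real.exp (-1 * ∑ σ, (s σ + lg x σ) - 1 * ∑ σ, |s σ + lg x σ|) else 0 := fun x => by
    split_ifs with hx
    · refine Real.exp_le_exp.2 ?_
      have : ∑ σ, ((s σ + lg x σ) + |s σ + lg x σ|) ≤ ∑ σ, Real.exp (s σ) * ‖σ.1 x‖ ^ 2 :=
        Finset.sum_le_sum fun σ _ => by
          rw [← exp_lg hx.1, ← Real.exp_add]
          exact EA_two_mul_le _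
      rw [Finset.sum_add_distrib] at this
      linarith
    · exact le_rfl
  have h3 := Summable.of_nonneg_of_le (fun x => by positivity) key h1
  refine ⟨h3, (h3.tsum_le_tsum key h1).trans (h2.trans (le_of_eq ?_))⟩
  rw [Real.rpow_one, neg_one_mul]

open Classical in
/-- Gaussian sums with bounded coefficients. -/
theorem EA_coef {g : E → ℂ} {B : ℝ} {D : E} (hD : D ≠ 0) (hB : ∀ x, ‖g x‖ ≤ B)
    (hg : ∀ x, g x ≠ 0 → x ≠ 0 ∧ IsIntegral ℤ (D * x)) : ∃ C : ℝ, 0 ≤ C ∧ ∀ s : Pl E → ℝ,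
    (Summable fun x : E => ‖g x * (Real.exp (-∑ σ, Real.exp (s σ) * ‖σ.1 x‖ ^ 2) : ℂ)‖) ∧
    ‖∑' x : E, g x * (Real.exp (-∑ σ, Real.exp (s σ) * ‖σ.1 x‖ ^ 2) : ℂ)‖ ≤
      C * Real.exp (-∑ σ, s σ) := by
  obtain ⟨C, hC, h⟩ := EA_ne hD
  have hB0 : 0 ≤ B := (norm_nonneg _).trans (hB 0)
  refine ⟨B * C, by positivity, fun s => ?_⟩
  obtain ⟨h1, h2⟩ := h s
  have key : ∀ x : E, ‖g x * (Real.exp (-∑ σ, Real.exp (s σ) * ‖σ.1 x‖ ^ 2) : ℂ)‖ ≤
      B * if x ≠ 0 ∧ IsIntegral ℤ (D * x) then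
        Real.exp (-∑ σ, Real.exp (s σ) * ‖σ.1 x‖ ^ 2) else 0 := fun x => by
    by_cases hx : g x = 0
    · rw [hx, zero_mul, norm_zero]
      positivity
    · rw [if_pos (hg x hx), norm_mul, Complex.norm_real, Real.norm_of_nonneg (Real.exp_pos _).le]
      exact mul_le_mul_of_nonneg_right (hB x) (Real.exp_pos _).le
  have h3 := Summable.of_nonneg_of_le (fun x => norm_nonneg _) key (h1.mul_left B)
  refine ⟨h3, (norm_tsum_le_tsum_norm h3).trans ((h3.tsum_le_tsum key (h1.mul_left B)).trans ?_)⟩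
  rw [tsum_mul_left, mul_assoc]
  exact mul_le_mul_of_nonneg_left h2 hB0

theorem EA_fac (η : Pl E → ℝ) (w : HH E) (c d : E) :
    Real.exp (-∑ σ, Real.exp (η σ) * Qv w c d σ) =
      Real.exp (-∑ σ, Real.exp (η σ + vc w σ) * ‖σ.1 c‖ ^ 2) *
        Real.exp (-∑ σ, Real.exp (η σ - vc w σ) * ‖σ.1 d + σ.1 c * zc w σ‖ ^ 2) := by
  rw [← Real.exp_add, ← neg_add, ← Finset.sum_add_distrib]
  refine congrArg (fun t => Real.exp (-t)) (Finset.sum_congr rfl fun σ _ => ?_)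
  conv_lhs => rw [← mkH_zc_vc w, Qv_mkH]
  rw [sub_eq_add_neg, Real.exp_add, Real.exp_add, add_comm (σ.1 d)]
  ring

open Classical in
/-- The double Gaussian sum. -/
theorem EA_double {D : E} (hD : D ≠ 0) (η : Pl E → ℝ) : ∃ C : ℝ, 0 ≤ C ∧ ∀ w : HH E,
    (Summable fun v : E × E => if IsIntegral ℤ (D * v.1) ∧ IsIntegral ℤ (D * v.2) then
      Real.exp (-∑ σ, Real.exp (η σ) * Qv w v.1 v.2 σ) else 0) ∧
    ∑' v : E × E, (if IsIntegral ℤ (D * v.1) ∧ IsIntegral ℤ (D * v.2) then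
      Real.exp (-∑ σ, Real.exp (η σ) * Qv w v.1 v.2 σ) else 0) ≤
      C * (1 + Real.exp (∑ σ, vc w σ) + Real.exp (-∑ σ, vc w σ)) := by
  obtain ⟨C, hC, h⟩ := EA_shift hD
  have hA := Real.exp_pos (-∑ σ, η σ)
  refine ⟨C ^ 2 * (1 + Real.exp (-∑ σ, η σ)) ^ 2, by positivity, fun w => ?_⟩
  obtain ⟨f, hf⟩ : ∃ f : E → ℝ, f = fun c => if IsIntegral ℤ (D * c) then
      Real.exp (-∑ σ, Real.exp (η σ + vc w σ) * ‖σ.1 c‖ ^ 2) else 0 := ⟨_, rfl⟩
  obtain ⟨g, hg⟩ : ∃ g : E → E → ℝ, g = fun c d => if IsIntegral ℤ (D * d) then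
      Real.exp (-∑ σ, Real.exp (η σ - vc w σ) * ‖σ.1 d + σ.1 c * zc w σ‖ ^ 2) else 0 := ⟨_, rfl⟩
  have e : ∀ v : E × E, (if IsIntegral ℤ (D * v.1) ∧ IsIntegral ℤ (D * v.2) then
      Real.exp (-∑ σ, Real.exp (η σ) * Qv w v.1 v.2 σ) else 0) = f v.1 * g v.1 v.2 := fun v => by
    rw [hf, hg, EA_fac]
    by_cases h1 : IsIntegral ℤ (D * v.1) <;> by_cases h2 : IsIntegral ℤ (D * v.2) <;>
      simp only [h1, h2, and_self, and_true, and_false, if_true, if_false, mul_zero, zero_mul]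
  have f0 : ∀ c, 0 ≤ f c := fun c => by rw [hf]; positivity
  have g0 : ∀ c d, 0 ≤ g c d := fun c d => by rw [hg]; positivity
  have f1 : Summable f ∧ ∑' c, f c ≤ C * (1 + Real.exp (-∑ σ, (η σ + vc w σ))) := by
    simpa only [hf, Pi.zero_apply, add_zero] using h (fun σ => η σ + vc w σ) 0
  have g1 : ∀ c, Summable (g c) ∧ ∑' d, g c d ≤ C * (1 + Real.exp (-∑ σ, (η σ - vc w σ))) :=
    fun c => by simpa only [hg] using h (fun σ => η σ - vc w σ) fun σ => σ.1 c * zc w σ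
  have k1 : ∀ c, ∑' d, f c * g c d ≤ f c * (C * (1 + Real.exp (-∑ σ, (η σ - vc w σ)))) :=
    fun c => by
      rw [tsum_mul_left]
      exact mul_le_mul_of_nonneg_left (g1 c).2 (f0 c)
  have k2 : Summable fun c => ∑' d, f c * g c d := Summable.of_nonneg_of_le
    (fun c => tsum_nonneg fun d => mul_nonneg (f0 c) (g0 c d)) k1 (f1.1.mul_right _)
  have k3 : Summable fun v : E × E => f v.1 * g v.1 v.2 :=
    (summable_prod_of_nonneg fun v => mul_nonneg (f0 _) (g0 _ _)).2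
      ⟨fun c => (g1 c).1.mul_left (f c), k2⟩
  simp only [e]
  refine ⟨k3, ?_⟩
  rw [k3.tsum_prod' fun c => (g1 c).1.mul_left (f c)]
  refine (k2.tsum_le_tsum k1 (f1.1.mul_right _)).trans ?_
  rw [tsum_mul_right]
  refine (mul_le_mul_of_nonneg_right f1.2 (by positivity)).trans ?_
  rw [Finset.sum_add_distrib, Finset.sum_sub_distrib, neg_add, neg_sub, sub_eq_add_neg,
    Real.exp_add, Real.exp_add]
  have hP := Real.exp_pos (∑ σ, vc w σ)
  have hN := Real.exp_pos (-∑ σ, vc w σ)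
  have hPN : Real.exp (∑ σ, vc w σ) * Real.exp (-∑ σ, vc w σ) = 1 := by
    rw [← Real.exp_add, add_neg_cancel, Real.exp_zero]
  generalize Real.exp (-∑ σ, η σ) = A at hA ⊢
  generalize Real.exp (∑ σ, vc w σ) = P at hP hPN ⊢
  generalize Real.exp (-∑ σ, vc w σ) = N at hN hPN ⊢
  have b : (1 + A * N) * (1 + P * A) ≤ (1 + A) ^ 2 * (1 + P + N) := by
    have b1 : A * N * (P * A) = A ^ 2 := by linear_combination A ^ 2 * hPN
    have b2 := mul_pos hA hP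
    have b3 := mul_pos hA hN
    have b4 := mul_pos (pow_pos hA 2) hP
    have b5 := mul_pos (pow_pos hA 2) hN
    nlinarith
  have := mul_le_mul_of_nonneg_left b (sq_nonneg C)
  linarith

omit [Om E] in
open Classical in
theorem EA_term {ξ : E → E → ℂ} (h : Adm ξ) : ∃ (D : ℕ) (B : ℝ), D ≠ 0 ∧ 0 ≤ B ∧
    ∀ (v : E × E) (t t' : ℝ), t ≤ t' → ‖ξ v.1 v.2 * (Real.exp t : ℂ)‖ ≤
      B * if IsIntegral ℤ ((D : E) * v.1) ∧ IsIntegral ℤ ((D : E) * v.2) then Real.exp t' else 0 := by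
  obtain ⟨B, hB⟩ := h.bdd
  obtain ⟨D, hD, hs⟩ := h.supp
  have hB0 : 0 ≤ B := (norm_nonneg _).trans (hB 0 0)
  refine ⟨D, B, hD, hB0, fun v t t' ht => ?_⟩
  by_cases hv : ξ v.1 v.2 = 0
  · rw [hv, zero_mul, norm_zero]
    positivity
  · rw [if_pos ⟨(hs _ _ hv).1, (hs _ _ hv).2.1⟩, norm_mul, Complex.norm_real,
      Real.norm_of_nonneg (Real.exp_pos _).le]
    exact mul_le_mul (hB _ _) (Real.exp_le_exp.2 ht) (Real.exp_pos _).le hB0

theorem EA_tsum {ξ : E → E → ℂ} (h : Adm ξ) (η : Pl E → ℝ) : ∃ C : ℝ, ∀ w : HH E,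
    (Summable fun v : E × E =>
      ‖ξ v.1 v.2 * (Real.exp (-∑ σ, Real.exp (η σ) * Qv w v.1 v.2 σ) : ℂ)‖) ∧
    ∑' v : E × E, ‖ξ v.1 v.2 * (Real.exp (-∑ σ, Real.exp (η σ) * Qv w v.1 v.2 σ) : ℂ)‖ ≤
      C * (1 + Real.exp (∑ σ, vc w σ) + Real.exp (-∑ σ, vc w σ)) := by
  obtain ⟨D, B, hD, hB, hb⟩ := EA_term h
  obtain ⟨C, -, hC⟩ := EA_double (E := E) (Nat.cast_ne_zero.2 hD) η
  refine ⟨B * C, fun w => ?_⟩
  obtain ⟨h1, h2⟩ := hC w
  have h3 := Summable.of_nonneg_of_le (fun v => norm_nonneg _) (fun v => hb v _ _ le_rfl)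
    (h1.mul_left B)
  refine ⟨h3, (h3.tsum_le_tsum (fun v => hb v _ _ le_rfl) (h1.mul_left B)).trans ?_⟩
  rw [tsum_mul_left, mul_assoc]
  exact mul_le_mul_of_nonneg_left h2 hB

/-- Local comparison of the forms. -/
theorem EA_Qf_le {w w0 : H} (h1 : ‖w.1 - w0.1‖ < hy w0) (h2 : hy w0 < 2 * hy w)
    (h3 : hy w < 2 * hy w0) (c d : ℂ) : Qf w0 c d ≤ 6 * Qf w c d := by
  have p := hy_pos w
  have p0 := hy_pos w0
  have t : ‖c * w0.1 + d‖ ≤ ‖c * w.1 + d‖ + ‖c‖ * hy w0 := by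
    calc ‖c * w0.1 + d‖ = ‖(c * w.1 + d) - c * (w.1 - w0.1)‖ := by congr 1; ring
      _ ≤ ‖c * w.1 + d‖ + ‖c * (w.1 - w0.1)‖ := norm_sub_le _ _
      _ ≤ _ := by rw [norm_mul]; gcongr
  have t2 : ‖c * w0.1 + d‖ ^ 2 ≤ 2 * ‖c * w.1 + d‖ ^ 2 + 2 * (‖c‖ ^ 2 * hy w0 ^ 2) := by
    have := pow_le_pow_left₀ (norm_nonneg _) t 2
    nlinarith [sq_nonneg (‖c * w.1 + d‖ - ‖c‖ * hy w0)]
  unfold Qf
  rw [← mul_div_assoc, div_le_div_iff₀ p0 p]
  set A := ‖c * w.1 + d‖ ^ 2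
  set B := ‖c‖ ^ 2
  have hA : 0 ≤ A := sq_nonneg _
  have hB : 0 ≤ B := sq_nonneg _
  have e1 : A * hy w ≤ A * (2 * hy w0) := by gcongr
  have e2 : B * hy w0 * hy w * hy w0 ≤ B * hy w0 * hy w * (2 * hy w) := by gcongr
  have e3 := mul_le_mul_of_nonneg_right t2 p.le
  have e4 : 0 ≤ A * hy w0 := by positivity
  nlinarith

theorem EA_continuous {ξ : E → E → ℂ} (h : Adm ξ) (η : Pl E → ℝ) : Continuous fun w : HH E =>
    ∑' v : E × E, ξ v.1 v.2 * (Real.exp (-∑ σ, Real.exp (η σ) * Qv w v.1 v.2 σ) : ℂ) := by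
  obtain ⟨D, B, hD, hB, hb⟩ := EA_term h
  obtain ⟨C, -, hC⟩ := EA_double (E := E) (Nat.cast_ne_zero.2 hD) fun σ => η σ - Real.log 6
  refine continuous_iff_continuousAt.2 fun w0 => ?_
  have ho : IsOpen (⋂ σ, {w : HH E | ‖(w σ).1 - (w0 σ).1‖ < hy (w0 σ) ∧
      hy (w0 σ) < 2 * hy (w σ) ∧ hy (w σ) < 2 * hy (w0 σ)}) := by
    refine isOpen_iInter_of_finite fun σ => ?_
    have : Continuous fun w : HH E => hy (w σ) := continuous_hy.comp (continuous_apply σ)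
    exact IsOpen.and (isOpen_lt (by fun_prop) continuous_const)
      (IsOpen.and (isOpen_lt continuous_const (by fun_prop)) (isOpen_lt this continuous_const))
  refine (continuousOn_tsum (fun v => ?_) ((hC w0).1.mul_left B)
    fun v w hw => hb v _ _ ?_).continuousAt (ho.mem_nhds (Set.mem_iInter.2 fun σ => ?_))
  · exact (continuous_const.mul (Complex.continuous_ofReal.comp (Real.continuous_exp.comp
      (continuous_finsetSum _ fun σ _ =>
        continuous_const.mul (continuous_Qv _ _ σ)).neg))).continuousOn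
  · refine neg_le_neg (Finset.sum_le_sum fun σ _ => ?_)
    obtain ⟨a1, a2, a3⟩ := Set.mem_iInter.1 hw σ
    have a4 : Qv w0 v.1 v.2 σ ≤ 6 * Qv w v.1 v.2 σ := EA_Qf_le a1 a2 a3 _ _
    rw [Real.exp_sub, Real.exp_log (by norm_num)]
    have := mul_le_mul_of_nonneg_left a4 (Real.exp_pos (η σ)).le
    linarith
  · have p0 := hy_pos (w0 σ)
    exact ⟨by simpa using p0, by linarith, by linarith⟩

/-- Right multiplication of row vectors by `g`. -/
def EA_row {g : Mt E} (hg : g.det ≠ 0) : E × E ≃ E × E where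
  toFun v := (v.1 * g 0 0 + v.2 * g 1 0, v.1 * g 0 1 + v.2 * g 1 1)
  invFun v := ((v.1 * g 1 1 - v.2 * g 1 0) / g.det, (v.2 * g 0 0 - v.1 * g 0 1) / g.det)
  left_inv v := by
    ext1
    · rw [div_eq_iff hg, Matrix.det_fin_two]; ring
    · rw [div_eq_iff hg, Matrix.det_fin_two]; ring
  right_inv v := by
    ext1
    · field_simp
      rw [Matrix.det_fin_two]; ring
    · field_simp
      rw [Matrix.det_fin_two]; ring

theorem EA_exp_mul {a : E} (ha : a ≠ 0) (t : ℝ) : nr a ^ t = Real.exp (t * ∑ σ, lg a σ) := by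
  rw [sum_lg ha, Real.rpow_def_of_pos (nr_pos ha), mul_comm]

theorem EA_act (ξ : E → E → ℂ) {g : Mt E} (hg : g.det ≠ 0) (η : Pl E → ℝ) (w : HH E) :
    thY ξ η (act g w) =
      ((nr g.det ^ (2 / 3 : ℝ) : ℝ) : ℂ) * thY (sl ξ g) (fun σ => η σ - lg g.det σ / 2) w := by
  unfold thY
  rw [← mul_assoc, ← Complex.ofReal_mul, EA_exp_mul hg, ← Real.exp_add, ← (EA_row hg).tsum_eq
    fun v : E × E => sl ξ g v.1 v.2 *
      (Real.exp (-∑ σ, Real.exp (η σ - lg g.det σ / 2) * Qv w v.1 v.2 σ) : ℂ)]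
  refine congrArg₂ (· * ·) (congrArg (fun t => ((Real.exp t : ℝ) : ℂ)) ?_)
    (tsum_congr fun v => congrArg₂ (· * ·) (sl_apply ξ hg _ _).symm
      (congrArg (fun t => ((Real.exp (-t) : ℝ) : ℂ)) (Finset.sum_congr rfl fun σ _ => ?_)))
  · rw [Finset.sum_sub_distrib, ← Finset.sum_div]
    ring
  · have h1 : Real.exp (lg g.det σ / 2) = ‖σ.1 g.det‖ := by
      rw [Real.exp_half, exp_lg hg, Real.sqrt_sq (norm_nonneg _)]
    rw [Qv_act hg, Real.exp_sub, h1, div_mul_eq_mul_div, mul_div_assoc]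
    rfl

theorem EA_E0 {ξ : E → E → ℂ} (h : Adm ξ) : ∃ C : ℝ, ∀ η v : Pl E → ℝ,
    ‖E0 ξ η v‖ ≤ C * Real.exp ((∑ σ, η σ) / 3 + ∑ σ, v σ) := by
  obtain ⟨B, hB⟩ := h.bdd
  obtain ⟨D, hD, hs⟩ := h.supp
  obtain ⟨C, -, hC⟩ := EA_coef (g := ξ 0) (Nat.cast_ne_zero.2 hD) (hB 0)
    fun x hx => ⟨fun e => hx (e ▸ h.zero_zero), (hs _ _ hx).2.1⟩
  refine ⟨C, fun η v => ?_⟩
  unfold E0
  rw [norm_mul, Complex.norm_real, Real.norm_of_nonneg (Real.exp_pos _).le]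
  refine (mul_le_mul_of_nonneg_left (hC fun σ => η σ - v σ).2 (Real.exp_pos _).le).trans
    (le_of_eq ?_)
  rw [mul_left_comm, ← Real.exp_add, Finset.sum_sub_distrib]
  congr 2
  ring

open Classical in
theorem EA_P0_eq (ξ : E → E → ℂ) (η : Pl E → ℝ) : P0 ξ η = (Real.exp ((∑ σ, η σ) / 3) : ℂ) *
    ∑' c : E, (if c = 0 then 0 else Mn (ξ c)) *
      (Real.exp (-∑ σ, Real.exp (η σ) * ‖σ.1 c‖ ^ 2) : ℂ) := by
  unfold P0
  simp only [ite_mul, zero_mul]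

open Classical in
theorem EA_P0 {ξ : E → E → ℂ} (h : Adm ξ) : ∃ C : ℝ, 0 ≤ C ∧ ∀ s : Pl E → ℝ,
    (Summable fun c : E => ‖(if c = 0 then 0 else Mn (ξ c)) *
      (Real.exp (-∑ σ, Real.exp (s σ) * ‖σ.1 c‖ ^ 2) : ℂ)‖) ∧
    ‖∑' c : E, (if c = 0 then 0 else Mn (ξ c)) *
      (Real.exp (-∑ σ, Real.exp (s σ) * ‖σ.1 c‖ ^ 2) : ℂ)‖ ≤ C * Real.exp (-∑ σ, s σ) := by
  obtain ⟨B, hB⟩ := h.norm_Mn_le
  obtain ⟨D, hD, hs⟩ := h.supp
  refine EA_coef (B := max B 0) (D := (D : E)) (Nat.cast_ne_zero.2 hD) (fun c => ?_) fun c hc => ?_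
  · split_ifs with hc
    · rw [norm_zero]
      exact le_max_right _ _
    · refine le_trans ?_ (le_max_left _ _)
      simpa only [zero_mul, eT_zero, mul_one] using hB c 0 hc
  · have h0 : c ≠ 0 := fun e => hc (if_pos e)
    refine ⟨h0, ?_⟩
    by_contra h1
    refine hc ?_
    rw [if_neg h0, show ξ c = fun _ => 0 from funext fun d => by
      by_contra h2
      exact h1 (hs c d h2).1, Mn_zero]

theorem EA_kF_zero (η v : Pl E → ℝ) {c : E} (hc : c ≠ 0) :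
    nr c * kF v 0 (η + lg c) = Real.exp (∑ σ, v σ - ∑ σ, η σ) *
      Real.exp (-∑ σ, Real.exp ((η + v) σ) * ‖σ.1 c‖ ^ 2) := by
  unfold kF Fk
  rw [← exp_sum_lg hc, ← Finset.sum_sub_distrib, ← Finset.sum_neg_distrib, Real.exp_sum,
    Real.exp_sum, Real.exp_sum, ← Finset.prod_mul_distrib, ← Finset.prod_mul_distrib]
  refine Finset.prod_congr rfl fun σ _ => ?_
  rw [← exp_lg hc, Pi.zero_apply, zero_div, add_zero, Pi.add_apply, Pi.add_apply, Real.exp_add,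
    Real.exp_add, Real.exp_sub, show -Real.exp (v σ) * (Real.exp (η σ) * Real.exp (lg c σ)) =
      -(Real.exp (η σ) * Real.exp (v σ) * Real.exp (lg c σ)) by ring]
  have := Real.exp_pos (η σ)
  have := Real.exp_pos (lg c σ)
  field_simp

theorem EA_Sk_zero (ξ : E → E → ℂ) (η v : Pl E → ℝ) :
    Sk (Gx ξ 0) (kF v 0) η = (Real.exp (2 / 3 * ∑ σ, v σ) : ℂ) * P0 ξ (η + v) := by
  classical
  have h1 : ∀ c : E, Gx ξ 0 c * (kF v 0 (η + lg c) : ℂ) =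
      (Real.exp (∑ σ, v σ - ∑ σ, η σ) : ℂ) * ((if c = 0 then 0 else Mn (ξ c)) *
        (Real.exp (-∑ σ, Real.exp ((η + v) σ) * ‖σ.1 c‖ ^ 2) : ℂ)) := fun c => by
    unfold Gx
    by_cases hc : c = 0
    · rw [if_pos hc, if_pos hc, zero_mul, zero_mul, mul_zero]
    · rw [if_neg hc, if_neg hc, show (fun d => ξ c d * eT (0 / c * d)) = ξ c from
        funext fun d => by rw [zero_div, zero_mul, eT_zero, mul_one], mul_right_comm, ← Complex.ofReal_mul, EA_kF_zero η v hc, Complex.ofReal_mul]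
      exact mul_assoc _ _ _ |>.trans (congrArg _ (mul_comm _ _))
  rw [EA_P0_eq]
  unfold Sk
  rw [tsum_congr h1, tsum_mul_left, ← mul_assoc, ← mul_assoc, ← Complex.ofReal_mul, ← Complex.ofReal_mul,
    ← Real.exp_add, ← Real.exp_add]
  simp only [Pi.add_apply, Finset.sum_add_distrib]
  congr 3
  ring

theorem EA_norm_P0 {ξ : E → E → ℂ} (h : Adm ξ) {L : ℂ} (hL : Tendsto (P0 ξ) (lB E) (𝓝 L)) :
    ∃ C : ℝ, ∀ η, ‖P0 ξ η‖ ≤ C := by
  obtain ⟨C, hC0, hC⟩ := EA_P0 h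
  have h1 : ∀ᶠ η in lB E, ‖P0 ξ η‖ ≤ ‖L‖ + 1 := hL.norm.eventually_le_const (lt_add_one _)
  obtain ⟨x, hx⟩ := eventually_atBot.1 (eventually_comap.1 h1)
  refine ⟨max (‖L‖ + 1) (C * Real.exp (-(2 / 3) * x)), fun η => ?_⟩
  rcases le_total (∑ σ, η σ) x with h2 | h2
  · exact (hx _ h2 η rfl).trans (le_max_left _ _)
  · refine le_trans ?_ (le_max_right _ _)
    rw [EA_P0_eq, norm_mul, Complex.norm_real, Real.norm_of_nonneg (Real.exp_pos _).le]
    refine (mul_le_mul_of_nonneg_left (hC η).2 (Real.exp_pos _).le).trans ?_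
    rw [mul_left_comm, ← Real.exp_add]
    exact mul_le_mul_of_nonneg_left (Real.exp_le_exp.2 (by linarith)) hC0

theorem EA_P0_const_mul {ξ : E → E → ℂ} (h : Adm ξ) (a : ℂ) (η : Pl E → ℝ) :
    P0 (fun c d => a * ξ c d) η = a * P0 ξ η := by
  rw [EA_P0_eq, EA_P0_eq, mul_left_comm, ← tsum_mul_left (a := a)]
  refine congrArg _ (tsum_congr fun c => ?_)
  split_ifs with hc
  · simp only [zero_mul, mul_zero]
  · rw [← mul_assoc]
    exact congrArg (· * _) (Mn_const_mul (h.per hc) a)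

theorem EA_P0_add {ξ ξ' : E → E → ℂ} (h : Adm ξ) (h' : Adm ξ') (η : Pl E → ℝ) :
    P0 (fun c d => ξ c d + ξ' c d) η = P0 ξ η + P0 ξ' η := by
  obtain ⟨C, -, hC⟩ := EA_P0 h
  obtain ⟨C', -, hC'⟩ := EA_P0 h'
  rw [EA_P0_eq, EA_P0_eq, EA_P0_eq, ← mul_add, ← (hC η).1.of_norm.tsum_add (hC' η).1.of_norm]
  refine congrArg _ (tsum_congr fun c => ?_)
  split_ifs with hc
  · simp only [zero_mul, add_zero]
  · rw [← add_mul]
    exact congrArg (· * _) (Mn_add (h.per hc) (h'.per hc))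

theorem EA_P0_upper {ξ : E → E → ℂ} (h : Adm ξ) {a d : E} (ha : a ≠ 0) (hd : d ≠ 0) (b : E)
    (η : Pl E → ℝ) : P0 (sl ξ !![a, b; 0, d]) η =
      ((nr a ^ (-(1 / 3 : ℝ)) / nr d : ℝ) : ℂ) * P0 ξ (η + lg a) := by
  classical
  have h1 : ∀ c : E, c ≠ 0 → Mn (sl ξ !![a, b; 0, d] (a * c)) = (((nr d)⁻¹ : ℝ) : ℂ) * Mn (ξ c) :=
    fun c hc => by
      have p := h.per hc
      have p' : Per fun x => ξ c (x + -(c * b / d)) := by
        simpa only [one_mul] using p.affine one_ne_zero (-(c * b / d))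
      rw [← nr_inv, ← Mn_add_const p (-(c * b / d)), ← Mn_mul_left p' (inv_ne_zero hd)]
      refine congrArg Mn (funext fun y => ?_)
      rw [sl_upper ξ ha hd, mul_div_cancel_left₀ _ ha]
      refine congrArg _ ?_
      field_simp
      ring
  rw [EA_P0_eq, EA_P0_eq, ← (Equiv.mulLeft₀ a ha).tsum_eq]
  have h2 : ∀ c : E, (if (Equiv.mulLeft₀ a ha) c = 0 then 0 else
      Mn (sl ξ !![a, b; 0, d] ((Equiv.mulLeft₀ a ha) c))) *
        (Real.exp (-∑ σ, Real.exp (η σ) * ‖σ.1 ((Equiv.mulLeft₀ a ha) c)‖ ^ 2) : ℂ) =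
      (((nr d)⁻¹ : ℝ) : ℂ) * ((if c = 0 then 0 else Mn (ξ c)) *
        (Real.exp (-∑ σ, Real.exp ((η + lg a) σ) * ‖σ.1 c‖ ^ 2) : ℂ)) := fun c => by
    rw [show (Equiv.mulLeft₀ a ha) c = a * c from rfl]
    by_cases hc : c = 0
    · rw [if_pos hc, if_pos (by rw [hc, mul_zero]), zero_mul, zero_mul, mul_zero]
    · rw [if_neg hc, if_neg (mul_ne_zero ha hc), h1 c hc, mul_assoc]
      simp only [Pi.add_apply, Real.exp_add, exp_lg ha, map_mul, norm_mul, mul_pow, mul_assoc]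
  simp only [h2]
  rw [tsum_mul_left, ← mul_assoc, ← mul_assoc, ← Complex.ofReal_mul, ← Complex.ofReal_mul,
    EA_exp_mul ha, div_mul_eq_mul_div, ← Real.exp_add, div_eq_mul_inv _ (nr d)]
  simp only [Pi.add_apply, Finset.sum_add_distrib]
  congr 4
  ring

theorem EA_CT_sl {ξ : E → E → ℂ} (h : Adm ξ) (hc : CT ξ) {g : Mt E} (hg : g.det ≠ 0) :
    CT (sl ξ g) := by
  intro g' hg'
  have d1 : (!![g.det, 0; 0, 1] : Mt E).det = g.det := by simp [Matrix.det_fin_two]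
  have d2 : (g * g' * !![g.det⁻¹, 0; 0, 1]).det = 1 := by
    rw [Matrix.det_mul, Matrix.det_mul, hg', Matrix.det_fin_two_of]
    field_simp
    ring
  have d3 : g * g' = g * g' * !![g.det⁻¹, 0; 0, 1] * !![g.det, 0; 0, 1] := by
    rw [mul_assoc (g * g'), Matrix.mul_fin_two, inv_mul_cancel₀ hg]
    simp [← Matrix.one_fin_two]
  obtain ⟨L, hL⟩ := hc _ d2
  have d4 := d2.trans_ne one_ne_zero
  rw [← sl_mul ξ hg (hg'.trans_ne one_ne_zero), d3, sl_mul ξ d4 (d1.trans_ne hg)]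
  refine ⟨_, ((hL.comp (tendsto_add_lB (lg g.det))).const_mul _).congr fun η =>
    (EA_P0_upper (h.sl d4) hg one_ne_zero 0 η).symm⟩

end Crest.Agent.R312
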