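import Crest.Agent.R312.ThDefs

/-!
# Row 312: theta module A: the space `HH E` (from `R17/ThetaH.lean`, place by place)
-/

set_option autoImplicit false

noncomputable section

namespace Crest.Agent.R312

open NumberField
open scoped ComplexConjugate

open MeasureTheory Filter Topology
open scoped ENNReal
open Crest.Agent.R17 (H actC Qf μH Fk Mk IsWt W0 U1)

variable {E : Type} [Field E] [NumberField E] [Om E]

omit [Om E] in
theorem toM_one : toM (1 : SO E) = 1 := by
  rw [toM, Matrix.SpecialLinearGroup.coe_one, Matrix.map_one _ (map_zero _) (map_one _)]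
omit [Om E] in
theorem toM_mul (γ γ' : SO E) : toM (γ * γ') = toM γ * toM γ' := by
  rw [toM, toM, toM, Matrix.SpecialLinearGroup.coe_mul, Matrix.map_mul]
omit [Om E] in
theorem det_toM (γ : SO E) : (toM γ).det = 1 := by
  have h := (algebraMap (𝓞 E) E).map_det (γ : Matrix (Fin 2) (Fin 2) (𝓞 E))
  rw [γ.det_coe, map_one] at h
  exact h.symm
omit [Om E] in
theorem toM_injective : Function.Injective (toM (E := E)) := fun _ _ h =>
  Matrix.SpecialLinearGroup.ext _ _ fun i j =>
    RingOfIntegers.coe_injective (congrFun (congrFun h i) j)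
omit [Om E] in
theorem isIntegral_toM (γ : SO E) (i j : Fin 2) : IsIntegral ℤ (toM γ i j) :=
  (γ i j).isIntegral_coe
omit [Om E] in
theorem exists_toM {g : Mt E} (h : g.det = 1) (hi : ∀ i j, IsIntegral ℤ (g i j)) :
    ∃ γ : SO E, toM γ = g := by
  let A : Matrix (Fin 2) (Fin 2) (𝓞 E) := Matrix.of fun i j => ⟨g i j, hi i j⟩
  have hA : A.map (algebraMap (𝓞 E) E) = g := rfl
  refine ⟨⟨A, RingOfIntegers.coe_injective ?_⟩, hA⟩
  rw [(algebraMap (𝓞 E) E).map_det, map_one, ← h]
  rfl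
omit [Om E] in
instance : Countable (SO E) :=
  haveI : Countable (Mt E) := inferInstanceAs (Countable (Fin 2 → Fin 2 → E))
  toM_injective.countable

@[simp] theorem zc_mkH (z : Pl E → ℂ) (v : Pl E → ℝ) : zc (mkH z v) = z := rfl
@[simp] theorem vc_mkH (z : Pl E → ℂ) (v : Pl E → ℝ) : vc (mkH z v) = v := rfl
theorem mkH_zc_vc (w : HH E) : mkH (zc w) (vc w) = w := rfl
theorem continuous_zc : Continuous (zc (E := E)) := by
  unfold zc
  fun_prop
theorem continuous_vc : Continuous (vc (E := E)) := by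
  unfold vc
  fun_prop
theorem continuous_mkH : Continuous fun p : (Pl E → ℂ) × (Pl E → ℝ) => mkH p.1 p.2 := by
  unfold mkH
  fun_prop

omit [NumberField E] in
theorem thH_det (g : Mt E) (σ : Pl E) : (g.map σ.1).det = σ.1 g.det := (σ.1.map_det g).symm
theorem thH_det_ne {g : Mt E} (hg : g.det ≠ 0) (σ : Pl E) : (g.map σ.1).det ≠ 0 := by
  rw [thH_det]
  exact Pl.ne_zero σ hg
omit [NumberField E] in
theorem thH_map (a b c d : E) (σ : Pl E) :
    (!![a, b; c, d] : Mt E).map σ.1 = !![σ.1 a, σ.1 b; σ.1 c, σ.1 d] := by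
  ext i j
  fin_cases i <;> fin_cases j <;> rfl
theorem thH_mkH (z : Pl E → ℂ) (v : Pl E → ℝ) (σ : Pl E) :
    mkH z v σ = R17.hp (z σ) (Real.exp (v σ)) := by
  rw [R17.hp, Real.log_exp]
  rfl

theorem act_one (w : HH E) : act 1 w = w := by
  funext σ
  rw [act, Matrix.map_one _ (map_zero _) (map_one _), R17.actC_one]
theorem act_mul {g g' : Mt E} (hg : g.det ≠ 0) (hg' : g'.det ≠ 0) (w : HH E) :
    act (g * g') w = act g (act g' w) := by
  funext σ
  rw [act, act, act, Matrix.map_mul, R17.actC_mul (thH_det_ne hg σ) (thH_det_ne hg' σ)]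
theorem act_smul {ρ : E} (hρ : ρ ≠ 0) {g : Mt E} (hg : g.det ≠ 0) (w : HH E) :
    act (ρ • g) w = act g w := by
  funext σ
  rw [act, act, show (ρ • g).map σ.1 = σ.1 ρ • g.map σ.1 by ext i j; simp,
    R17.actC_smul (Pl.ne_zero σ hρ) (thH_det_ne hg σ)]
theorem continuous_act {g : Mt E} (hg : g.det ≠ 0) : Continuous (act g) :=
  continuous_pi fun σ => (R17.continuous_actC (thH_det_ne hg σ)).comp (continuous_apply σ)
instance : MulAction (SO E) (HH E) where
  smul γ w := act (toM γ) w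
  one_smul w := by
    change act (toM 1) w = w
    rw [toM_one, act_one]
  mul_smul γ γ' w := by
    change act (toM (γ * γ')) w = act (toM γ) (act (toM γ') w)
    rw [toM_mul, act_mul (by rw [det_toM]; exact one_ne_zero) (by rw [det_toM]; exact one_ne_zero)]
theorem smul_def (γ : SO E) (w : HH E) : γ • w = act (toM γ) w := rfl

theorem Qv_nonneg (w : HH E) (c d : E) (σ : Pl E) : 0 ≤ Qv w c d σ := R17.Qf_nonneg _ _ _
theorem Qv_pos (w : HH E) {c d : E} (h : c ≠ 0 ∨ d ≠ 0) (σ : Pl E) : 0 < Qv w c d σ :=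
  R17.Qf_pos _ (h.imp (Pl.ne_zero σ) (Pl.ne_zero σ))
theorem Qv_mkH (z : Pl E → ℂ) (v : Pl E → ℝ) (c d : E) (σ : Pl E) : Qv (mkH z v) c d σ =
    ‖σ.1 c * z σ + σ.1 d‖ ^ 2 * Real.exp (-v σ) + ‖σ.1 c‖ ^ 2 * Real.exp (v σ) := by
  have h := Real.exp_pos (v σ)
  rw [Qv, thH_mkH, R17.Qf_hp _ h, Real.exp_neg]
  field_simp
theorem Qv_mul (w : HH E) (ρ c d : E) (σ : Pl E) :
    Qv w (ρ * c) (ρ * d) σ = ‖σ.1 ρ‖ ^ 2 * Qv w c d σ := by
  rw [Qv, Qv, map_mul, map_mul, R17.Qf_mul]
theorem Qv_zero_one (w : HH E) (σ : Pl E) : Qv w 0 1 σ = Real.exp (-vc w σ) := by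
  rw [Qv, map_zero, map_one, R17.Qf_zero_left, norm_one, one_pow, one_div, Real.exp_neg]
  rfl
theorem continuous_Qv (c d : E) (σ : Pl E) : Continuous fun w : HH E => Qv w c d σ :=
  (R17.continuous_Qf _ _).comp (continuous_apply σ)
theorem Qv_act {g : Mt E} (hg : g.det ≠ 0) (w : HH E) (c d : E) (σ : Pl E) :
    Qv (act g w) c d σ = Qv w (c * g 0 0 + d * g 1 0) (c * g 0 1 + d * g 1 1) σ / ‖σ.1 g.det‖ := by
  rw [Qv, Qv, act, R17.Qf_actC (thH_det_ne hg σ), thH_det]
  simp only [Matrix.map_apply, map_add, map_mul]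
theorem exp_vc_act {g : Mt E} (hg : g.det ≠ 0) (w : HH E) (σ : Pl E) :
    Real.exp (vc (act g w) σ) = ‖σ.1 g.det‖ / Qv w (g 1 0) (g 1 1) σ := by
  rw [← thH_det]
  exact R17.hy_actC (thH_det_ne hg σ) (w σ)
theorem norm_det_sq_le_Qv (w : HH E) (c d c' d' : E) (σ : Pl E) :
    ‖σ.1 (c * d' - c' * d)‖ ^ 2 ≤ Qv w c d σ * Qv w c' d' σ := by
  rw [map_sub, map_mul, map_mul]
  exact R17.norm_det_sq_le_Qf _ _ _ _ _
theorem act_upper {a d : E} (ha : a ≠ 0) (hd : d ≠ 0) (b : E) (z : Pl E → ℂ) (v : Pl E → ℝ) :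
    act !![a, b; 0, d] (mkH z v) =
      mkH (fun σ => (σ.1 a * z σ + σ.1 b) / σ.1 d) (fun σ => v σ + lg (a / d) σ / 2) := by
  funext σ
  have h1 := norm_pos_iff.2 (Pl.ne_zero σ ha)
  have h2 := norm_pos_iff.2 (Pl.ne_zero σ hd)
  rw [act, thH_map, map_zero, thH_mkH,
    R17.actC_upper (Pl.ne_zero σ ha) (Pl.ne_zero σ hd) _ _ (Real.exp_pos _)]
  refine Prod.ext rfl ?_
  show Real.log _ = v σ + Real.log (‖σ.1 (a / d)‖ ^ 2) / 2
  rw [Real.log_mul (div_pos h1 h2).ne' (Real.exp_pos _).ne', Real.log_exp, Real.log_pow, map_div₀,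
    norm_div]
  push_cast
  ring
theorem act_transl (t : E) (w : HH E) : act !![1, t; 0, 1] w = mkH (zc w + em t) (vc w) := by
  have h := act_upper one_ne_zero one_ne_zero t (zc w) (vc w)
  rw [mkH_zc_vc] at h
  rw [h]
  congr 1
  · funext σ
    simp [em]
  · funext σ
    simp
theorem act_w0 (z : Pl E → ℂ) (v : Pl E → ℝ) :
    act !![0, -1; 1, 0] (mkH z v) =
      mkH (fun σ => -conj (z σ) / ((‖z σ‖ ^ 2 + Real.exp (2 * v σ) : ℝ) : ℂ))
        (fun σ => v σ - Real.log (‖z σ‖ ^ 2 + Real.exp (2 * v σ))) := by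
  funext σ
  have h0 := Real.exp_pos (v σ)
  have h := R17.actC_geod (α := 0) (x := 1) (β := -1) (δ := 0) (by ring) (by norm_num) (z σ) h0
  have e : Real.exp (v σ) ^ 2 = Real.exp (2 * v σ) := by
    rw [← Real.exp_nat_mul]
    norm_num
  have hS : 0 < ‖z σ‖ ^ 2 + Real.exp (2 * v σ) := by positivity
  rw [zero_div, zero_add, neg_neg, e] at h
  rw [act, thH_map, map_zero, map_neg, map_one, thH_mkH, h]
  refine Prod.ext ?_ ?_
  · simp [mkH, neg_div]
  · show Real.log _ = v σ - _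
    rw [norm_neg, norm_one, one_pow, one_mul, Real.log_div h0.ne' hS.ne', Real.log_exp]

instance : SigmaFinite (μE E) := by
  unfold μE
  infer_instance
instance : (μE E).IsOpenPosMeasure := by
  unfold μE
  infer_instance
instance : IsLocallyFiniteMeasure (μE E) := by
  unfold μE
  infer_instance
theorem measurePreserving_act {g : Mt E} (hg : g.det ≠ 0) :
    MeasurePreserving (act g) (μE E) (μE E) :=
  measurePreserving_pi (fun _ => μH) (fun _ => μH)
    fun σ => R17.measurePreserving_actC (thH_det_ne hg σ)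
theorem measurePreserving_smul (γ : SO E) :
    MeasurePreserving (fun w : HH E => γ • w) (μE E) (μE E) :=
  measurePreserving_act (by rw [det_toM]; exact one_ne_zero)

theorem thH_lintegral_fin {n : ℕ} {X : Fin n → Type}
    {mX : ∀ i, MeasurableSpace (X i)} {μ : (i : Fin n) → Measure (X i)} [∀ i, SigmaFinite (μ i)]
    (f : (i : Fin n) → X i → ℝ≥0∞) (hf : ∀ i, Measurable (f i)) :
    ∫⁻ x : (i : Fin n) → X i, ∏ i, f i (x i) ∂(Measure.pi μ) = ∏ i, ∫⁻ x, f i x ∂(μ i) := by
  induction n with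
  | zero => simp
  | succ n ih =>
    have h1 := ((measurePreserving_piFinSuccAbove μ 0).symm).lintegral_comp_emb
      (MeasurableEquiv.measurableEmbedding _) (fun x => ∏ i, f i (x i))
    rw [← h1]
    simp_rw [MeasurableEquiv.piFinSuccAbove_symm_apply, Fin.insertNthEquiv,
      Fin.prod_univ_succ, Fin.insertNth_zero, Equiv.coe_fn_mk, Fin.cons_succ,
      Fin.zero_succAbove]
    rw [← ih (fun i => f i.succ) (fun i => hf _)]
    exact lintegral_prod_mul (μ := μ 0) (ν := Measure.pi fun i : Fin n => μ i.succ) (f := f 0)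
      (g := fun x : (i : Fin n) → X i.succ => ∏ i, f i.succ (x i)) (hf 0).aemeasurable
      (Finset.measurable_prod _ fun i _ => (hf _).comp (measurable_pi_apply i)).aemeasurable

/-- Tonelli's theorem for a product of functions of one variable each. -/
theorem thH_lintegral_prod {ι : Type} [Fintype ι] {X : ι → Type}
    {mX : ∀ i, MeasurableSpace (X i)} {μ : (i : ι) → Measure (X i)} [∀ i, SigmaFinite (μ i)]
    (f : (i : ι) → X i → ℝ≥0∞) (hf : ∀ i, Measurable (f i)) :
    ∫⁻ x : (i : ι) → X i, ∏ i, f i (x i) ∂(Measure.pi μ) = ∏ i, ∫⁻ x, f i x ∂(μ i) := by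
  let e := (Fintype.equivFin ι).symm
  rw [← (measurePreserving_piCongrLeft μ e).lintegral_comp_emb
    (MeasurableEquiv.measurableEmbedding _)]
  simp_rw [← e.prod_comp, MeasurableEquiv.coe_piCongrLeft, Equiv.piCongrLeft_apply_apply]
  exact thH_lintegral_fin (fun i => f (e i)) (fun i => hf _)

theorem thH_meas_dens :
    Measurable fun w : HH E => ENNReal.ofReal (Real.exp (-2 * ∑ σ, vc w σ)) := by
  unfold vc
  fun_prop

/-- `μE` has a density with respect to the Lebesgue measure. -/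
theorem thH_μE_eq : μE E = (volume : Measure (HH E)).withDensity
    fun w => ENNReal.ofReal (Real.exp (-2 * ∑ σ, vc w σ)) := by
  refine Measure.pi_eq fun s hs => ?_
  have h1 : ∀ w : HH E, ENNReal.ofReal (Real.exp (-2 * ∑ σ, vc w σ)) =
      ∏ σ, ENNReal.ofReal (Real.exp (-2 * (w σ).2)) := fun w => by
    rw [Finset.mul_sum, Real.exp_sum, ENNReal.ofReal_prod_of_nonneg fun _ _ => (Real.exp_pos _).le]
    rfl
  rw [withDensity_apply _ (MeasurableSet.univ_pi hs), volume_pi, Measure.restrict_pi_pi]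
  simp only [h1]
  rw [thH_lintegral_prod (fun (_ : Pl E) (w : H) => ENNReal.ofReal (Real.exp (-2 * w.2)))
    fun _ => R17.A2_meas_dens]
  exact Finset.prod_congr rfl fun σ _ => (withDensity_apply _ (hs σ)).symm

theorem thH_mp : MeasurePreserving (MeasurableEquiv.arrowProdEquivProdArrow ℂ ℝ (Pl E)).symm
    ((volume : Measure (Pl E → ℂ)).prod (volume : Measure (Pl E → ℝ))) volume :=
  (volume_measurePreserving_arrowProdEquivProdArrow ℂ ℝ (Pl E)).symm _

/-- `μE = exp(-2 ∑ v) dz dv` (`MeasurableEquiv.arrowProdEquivProdArrow`; a product of measures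
with densities: compare on boxes, `Measure.pi_eq`, or transport `R17.A2B_mp`). -/
theorem lintegral_μE {f : HH E → ℝ≥0∞} (hf : Measurable f) :
    ∫⁻ w, f w ∂μE E =
      ∫⁻ v : Pl E → ℝ, ENNReal.ofReal (Real.exp (-2 * ∑ σ, v σ)) * ∫⁻ z, f (mkH z v) := by
  rw [thH_μE_eq, lintegral_withDensity_eq_lintegral_mul _ thH_meas_dens hf,
    ← thH_mp.lintegral_comp_emb (MeasurableEquiv.measurableEmbedding _)]
  refine (lintegral_prod_symm _ ((thH_meas_dens.mul hf).comp thH_mp.measurable).aemeasurable).trans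
    (lintegral_congr fun v => ?_)
  exact lintegral_const_mul (ENNReal.ofReal (Real.exp (-2 * ∑ σ, v σ)))
    (hf.comp (continuous_mkH.measurable.comp measurable_prodMk_right))
theorem integral_μE {f : HH E → ℂ} (hf : Integrable f (μE E)) :
    ∫ w, f w ∂μE E = ∫ v : Pl E → ℝ, (Real.exp (-2 * ∑ σ, v σ) : ℂ) * ∫ z, f (mkH z v) := by
  have hlt : ∀ᵐ w : HH E, ENNReal.ofReal (Real.exp (-2 * ∑ σ, vc w σ)) < ∞ :=
    Filter.Eventually.of_forall fun _ => ENNReal.ofReal_lt_top
  rw [thH_μE_eq] at hf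
  have h1 := (integrable_withDensity_iff_integrable_smul' thH_meas_dens hlt).1 hf
  have h2 := (thH_mp.integrable_comp_emb (MeasurableEquiv.measurableEmbedding _)).2 h1
  rw [thH_μE_eq, integral_withDensity_eq_integral_toReal_smul thH_meas_dens hlt,
    ← thH_mp.integral_comp']
  refine (integral_prod_symm _ h2).trans
    (integral_congr_ae (Filter.Eventually.of_forall fun v => ?_))
  show ∫ z, (ENNReal.ofReal (Real.exp (-2 * ∑ σ, v σ))).toReal • f (mkH z v) = _
  rw [integral_smul, ENNReal.toReal_ofReal (Real.exp_pos _).le, Complex.real_smul]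

end Crest.Agent.R312
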