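import Crest.Agent.R312.ThUnf

/-!
# Row 312: theta module G, part A (auxiliary): the seed integrals
-/

set_option autoImplicit false

noncomputable section

namespace Crest.Agent.R312

open NumberField
open scoped ComplexConjugate

open MeasureTheory Filter Topology
open scoped ENNReal

/-! ## Gamma integrals in logarithmic coordinates -/

theorem tnA_gamma {s : ℝ} (hs : 0 < s) :
    Integrable (fun u : ℝ => Real.exp (s * u - Real.exp u)) ∧
      ∫ u : ℝ, Real.exp (s * u - Real.exp u) = Real.Gamma s := by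
  have e : ∀ u : ℝ, |Real.exp u| • (Real.exp (-Real.exp u) * Real.exp u ^ (s - 1)) =
      Real.exp (s * u - Real.exp u) := fun u => by
    rw [abs_of_pos (Real.exp_pos u), ← Real.exp_mul, smul_eq_mul, ← Real.exp_add, ← Real.exp_add]
    congr 1
    ring
  have h1 := Real.GammaIntegral_convergent hs
  have h2 := Real.Gamma_eq_integral hs
  rw [← Real.range_exp, ← Set.image_univ] at h1 h2
  rw [integrableOn_image_iff_integrableOn_abs_deriv_smul MeasurableSet.univ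
    (fun x _ => (Real.hasDerivAt_exp x).hasDerivWithinAt) Real.exp_injective.injOn,
    integrableOn_univ] at h1
  rw [integral_image_eq_integral_abs_deriv_smul MeasurableSet.univ
    (fun x _ => (Real.hasDerivAt_exp x).hasDerivWithinAt) Real.exp_injective.injOn,
    Measure.restrict_univ] at h2
  simp only [e] at h1 h2
  exact ⟨h1, h2.symm⟩

theorem tnA_gamma_pi {ι : Type} [Fintype ι] {s : ℝ} (hs : 0 < s) :
    Integrable (fun u : ι → ℝ => ∏ σ, Real.exp (s * u σ - Real.exp (u σ))) ∧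
      ∫ u : ι → ℝ, ∏ σ, Real.exp (s * u σ - Real.exp (u σ)) = Real.Gamma s ^ Fintype.card ι := by
  refine ⟨Integrable.fintype_prod (f := fun _ u => Real.exp (s * u - Real.exp u))
    fun _ => (tnA_gamma hs).1, ?_⟩
  rw [integral_fintype_prod_volume_eq_pow fun u => Real.exp (s * u - Real.exp u), (tnA_gamma hs).2]

theorem tnA_prod {ι : Type} [Fintype ι] (s : ℝ) (a v : ι → ℝ) :
    ∏ σ, Real.exp (s * (a - v) σ - Real.exp ((a - v) σ)) =
      Real.exp (s * ∑ σ, a σ) * (Real.exp (-s * ∑ σ, v σ) * Real.exp (-∑ σ, Real.exp (a σ - v σ))) := by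
  rw [← Real.exp_sum, ← Real.exp_add, ← Real.exp_add]
  congr 1
  simp only [Pi.sub_apply, mul_sub, Finset.sum_sub_distrib, ← Finset.mul_sum]
  ring

theorem tnA_rad {ι : Type} [Fintype ι] {s : ℝ} (hs : 0 < s) (a : ι → ℝ) :
    Integrable (fun v : ι → ℝ =>
      Real.exp (-s * ∑ σ, v σ) * Real.exp (-∑ σ, Real.exp (a σ - v σ))) ∧
    ∫ v : ι → ℝ, Real.exp (-s * ∑ σ, v σ) * Real.exp (-∑ σ, Real.exp (a σ - v σ)) =
      Real.exp (-s * ∑ σ, a σ) * Real.Gamma s ^ Fintype.card ι := by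
  obtain ⟨h1, h2⟩ := tnA_gamma_pi (ι := ι) hs
  have e : ∀ v : ι → ℝ, Real.exp (-s * ∑ σ, v σ) * Real.exp (-∑ σ, Real.exp (a σ - v σ)) =
      Real.exp (-s * ∑ σ, a σ) * ∏ σ, Real.exp (s * (a - v) σ - Real.exp ((a - v) σ)) := fun v => by
    rw [tnA_prod, ← mul_assoc (Real.exp (-s * ∑ σ, a σ)), ← Real.exp_add (-s * ∑ σ, a σ)]
    simp
  simp only [e]
  refine ⟨(h1.comp_sub_left a).const_mul _, ?_⟩
  rw [integral_const_mul, ← h2,
    ← integral_sub_left_eq_self (fun u : ι → ℝ => ∏ σ, Real.exp (s * u σ - Real.exp (u σ))) volume a]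

variable {E : Type} [Field E] [NumberField E] [Om E]

/-! ## the vectors `(0, d)` -/

omit [NumberField E] [Om E] in
theorem tnA_orbit {F : E → ℝ} (hF : ∀ d, 0 ≤ F d) {T : Finset E} (hT : ∀ t ∈ T, t ≠ 0)
    (h : ∀ d, F d ≠ 0 → ∃ t ∈ T, ∃ u : (𝓞 E)ˣ, d = ((u : 𝓞 E) : E) * t)
    (hs : ∀ t ∈ T, Summable fun u : (𝓞 E)ˣ => F (((u : 𝓞 E) : E) * t)) :
    Summable F ∧ ∑' d, F d ≤ ∑ t ∈ T, ∑' u : (𝓞 E)ˣ, F (((u : 𝓞 E) : E) * t) := by
  classical
  have h1 : ∀ t ∈ T, HasSum ((Set.range fun u : (𝓞 E)ˣ => ((u : 𝓞 E) : E) * t).indicator F)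
      (∑' u : (𝓞 E)ˣ, F (((u : 𝓞 E) : E) * t)) := fun t ht => by
    have hi : Function.Injective fun u : (𝓞 E)ˣ => ((u : 𝓞 E) : E) * t := fun u u' huu =>
      Units.ext (RingOfIntegers.ext (mul_right_cancel₀ (hT t ht) huu))
    refine (hi.hasSum_iff fun x hx => Set.indicator_of_notMem hx _).1 ?_
    convert (hs t ht).hasSum using 1
    funext u
    exact Set.indicator_of_mem (Set.mem_range_self u) F
  have h2 := hasSum_sum h1
  have h3 : ∀ d, F d ≤ ∑ t ∈ T,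
      (Set.range fun u : (𝓞 E)ˣ => ((u : 𝓞 E) : E) * t).indicator F d := fun d => by
    have h0 : ∀ t ∈ T, 0 ≤ (Set.range fun u : (𝓞 E)ˣ => ((u : 𝓞 E) : E) * t).indicator F d :=
      fun t _ => Set.indicator_nonneg (fun x _ => hF x) d
    by_cases hd : F d = 0
    · rw [hd]
      exact Finset.sum_nonneg h0
    · obtain ⟨t, ht, u, hu⟩ := h d hd
      refine le_trans (le_of_eq ?_) (Finset.single_le_sum h0 ht)
      exact (Set.indicator_of_mem (Set.mem_range.2 ⟨u, hu.symm⟩) F).symm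
  have h4 : Summable F := Summable.of_nonneg_of_le hF h3 h2.summable
  exact ⟨h4, hasSum_le h3 h4.hasSum h2⟩

theorem tnA_inv_sq_le (a b : ℝ) :
    ((Real.exp a + Real.exp b) ^ 2)⁻¹ ≤ Real.exp (-(a + b) - |a - b|) := by
  have ha := Real.exp_pos a
  have hb := Real.exp_pos b
  rw [show -(a + b) - |a - b| = -(a + b + |a - b|) by ring, Real.exp_neg]
  refine inv_anti₀ (Real.exp_pos _) ?_
  rcases le_total a b with h | h
  · rw [abs_of_nonpos (by linarith), show a + b + -(a - b) = b + b by ring, Real.exp_add]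
    nlinarith
  · rw [abs_of_nonneg (by linarith), show a + b + (a - b) = a + a by ring, Real.exp_add]
    nlinarith

theorem tnA_E1_sum {ξ : E → E → ℂ} (h : Adm ξ) : ∃ C : ℝ, ∀ η η' : Pl E → ℝ,
    (Summable fun d : E =>
      ‖ξ 0 d‖ * ∏ σ, ((Real.exp (η σ) * ‖σ.1 d‖ ^ 2 + Real.exp (η' σ)) ^ 2)⁻¹) ∧
    ∑' d : E, ‖ξ 0 d‖ * ∏ σ, ((Real.exp (η σ) * ‖σ.1 d‖ ^ 2 + Real.exp (η' σ)) ^ 2)⁻¹ ≤
      C * Real.exp (-∑ σ, (η σ + η' σ)) := by
  obtain ⟨B, hB⟩ := h.bdd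
  have hB0 : 0 ≤ B := (norm_nonneg _).trans (hB 0 0)
  obtain ⟨T, hT, hz⟩ := h.zero_row
  obtain ⟨C, -, hC⟩ := tsum_units_le (E := E) one_pos
  refine ⟨∑ t ∈ T, B * (nr t)⁻¹ * C, fun η η' => ?_⟩
  have key : ∀ t ∈ T, ∀ u : (𝓞 E)ˣ, ‖ξ 0 (((u : 𝓞 E) : E) * t)‖ *
      ∏ σ, ((Real.exp (η σ) * ‖σ.1 (((u : 𝓞 E) : E) * t)‖ ^ 2 + Real.exp (η' σ)) ^ 2)⁻¹ ≤
      B * (nr t)⁻¹ * Real.exp (-∑ σ, (η σ + η' σ)) *
        Real.exp (-1 * ∑ σ, |(η - η' + lg t) σ + lg ((u : 𝓞 E) : E) σ|) := fun t ht u => by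
    have hne : ((u : 𝓞 E) : E) * t ≠ 0 := mul_ne_zero (BoxU_ne u) (hT t ht)
    rw [mul_assoc, mul_assoc]
    refine mul_le_mul (hB _ _) ?_ (Finset.prod_nonneg fun _ _ => by positivity) hB0
    have e1 : ∀ σ : Pl E, Real.exp (η σ) * ‖σ.1 (((u : 𝓞 E) : E) * t)‖ ^ 2 =
        Real.exp (η σ + (lg ((u : 𝓞 E) : E) σ + lg t σ)) := fun σ => by
      rw [← exp_lg hne, lg_mul (BoxU_ne u) (hT t ht), ← Real.exp_add, Pi.add_apply]
    simp only [e1]
    refine (Finset.prod_le_prod (fun _ _ => by positivity)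
      fun σ _ => tnA_inv_sq_le _ _).trans (le_of_eq ?_)
    rw [← Real.exp_sum, ← exp_sum_lg (hT t ht), ← Real.exp_neg, ← Real.exp_add, ← Real.exp_add]
    congr 1
    have e2 : ∀ σ : Pl E, η σ + (lg ((u : 𝓞 E) : E) σ + lg t σ) - η' σ =
        (η - η' + lg t) σ + lg ((u : 𝓞 E) : E) σ := fun σ => by
      simp only [Pi.add_apply, Pi.sub_apply]
      ring
    simp only [e2, Finset.sum_sub_distrib, Finset.sum_neg_distrib, Finset.sum_add_distrib, BoxU_sum]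
    ring
  have hs : ∀ t ∈ T, Summable fun u : (𝓞 E)ˣ => ‖ξ 0 (((u : 𝓞 E) : E) * t)‖ *
      ∏ σ, ((Real.exp (η σ) * ‖σ.1 (((u : 𝓞 E) : E) * t)‖ ^ 2 + Real.exp (η' σ)) ^ 2)⁻¹ :=
    fun t ht => Summable.of_nonneg_of_le
      (fun _ => mul_nonneg (norm_nonneg _) (Finset.prod_nonneg fun _ _ => by positivity)) (key t ht)
      ((hC _).1.mul_left _)
  obtain ⟨a1, a2⟩ := tnA_orbit (F := fun d : E =>
      ‖ξ 0 d‖ * ∏ σ, ((Real.exp (η σ) * ‖σ.1 d‖ ^ 2 + Real.exp (η' σ)) ^ 2)⁻¹)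
    (fun _ => mul_nonneg (norm_nonneg _) (Finset.prod_nonneg fun _ _ => by positivity)) hT
    (fun d hd => hz d fun h0 => hd (by simp [h0])) hs
  refine ⟨a1, a2.trans ?_⟩
  rw [Finset.sum_mul]
  refine Finset.sum_le_sum fun t ht => ?_
  refine ((hs t ht).tsum_le_tsum (key t ht) ((hC _).1.mul_left _)).trans ?_
  rw [tsum_mul_left, mul_right_comm _ C]
  have := nr_nonneg t
  exact mul_le_mul_of_nonneg_left (hC _).2 (by positivity)

theorem tnA_norm_E1_le {ξ : E → E → ℂ} (h : Adm ξ) : ∃ C : ℝ, ∀ η η' : Pl E → ℝ,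
    ‖(Real.exp (4 / 3 * ∑ σ, (η σ + η' σ)) : ℂ) * ∑' d : E, ξ 0 d *
      ((∏ σ, ((Real.exp (η σ) * ‖σ.1 d‖ ^ 2 + Real.exp (η' σ)) ^ 2)⁻¹ : ℝ) : ℂ)‖ ≤
      C * Real.exp ((∑ σ, (η σ + η' σ)) / 3) := by
  obtain ⟨C, hC⟩ := tnA_E1_sum h
  refine ⟨C, fun η η' => ?_⟩
  have e : ∀ d : E, ‖ξ 0 d *
      ((∏ σ, ((Real.exp (η σ) * ‖σ.1 d‖ ^ 2 + Real.exp (η' σ)) ^ 2)⁻¹ : ℝ) : ℂ)‖ =
      ‖ξ 0 d‖ * ∏ σ, ((Real.exp (η σ) * ‖σ.1 d‖ ^ 2 + Real.exp (η' σ)) ^ 2)⁻¹ := fun d => by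
    rw [norm_mul, Complex.norm_real,
      Real.norm_of_nonneg (Finset.prod_nonneg fun _ _ => by positivity)]
  have h1 := norm_tsum_le_tsum_norm (f := fun d : E => ξ 0 d *
      ((∏ σ, ((Real.exp (η σ) * ‖σ.1 d‖ ^ 2 + Real.exp (η' σ)) ^ 2)⁻¹ : ℝ) : ℂ))
    (by simp only [e]; exact (hC η η').1)
  simp only [e] at h1
  rw [norm_mul, Complex.norm_real, Real.norm_of_nonneg (Real.exp_pos _).le]
  refine (mul_le_mul_of_nonneg_left (h1.trans (hC η η').2) (Real.exp_pos _).le).trans (le_of_eq ?_)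
  rw [mul_left_comm, ← Real.exp_add]
  congr 2
  ring

/-! ## the profile -/

theorem tnA_exp_le (x : ℝ) : Real.exp (-Real.exp x) ≤ 2 * Real.exp (-x - |x|) := by
  rcases le_total x 0 with h | h
  · rw [abs_of_nonpos h, show -x - -x = 0 by ring, Real.exp_zero]
    have := Real.exp_le_one_iff.2 (neg_nonpos.2 (Real.exp_pos x).le)
    linarith
  · rw [abs_of_nonneg h, show -x - x = -(x + x) by ring, Real.exp_neg, Real.exp_neg, Real.exp_add,
      ← div_eq_mul_inv, inv_eq_one_div, div_le_div_iff₀ (Real.exp_pos _) (by positivity)]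
    have := Real.quadratic_le_exp_of_nonneg (Real.exp_pos x).le
    nlinarith [Real.exp_pos x]

theorem tnA_norm_P0_le {ξ : E → E → ℂ} (h : Adm ξ) : ∃ C : ℝ, ∀ η : Pl E → ℝ,
    ‖P0 ξ η‖ ≤ C * Real.exp (-(2 / 3) * ∑ σ, η σ) := by
  classical
  obtain ⟨B, hB⟩ := h.norm_Mn_le
  have hB0 : 0 ≤ B := (norm_nonneg _).trans (hB 1 0 one_ne_zero)
  obtain ⟨D, hD, hs⟩ := h.supp
  obtain ⟨C, -, hC⟩ := tsum_lattice_le (E := E) (δ := 1) (a := 1) one_pos le_rfl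
  refine ⟨B * 2 ^ rk E * (C * nr (D : E) ^ (1 : ℝ)), fun η => ?_⟩
  obtain ⟨c1, c2⟩ := hC D η (Nat.cast_ne_zero.2 hD)
  have key : ∀ c : E, ‖if c = 0 then (0 : ℂ) else
      Mn (ξ c) * (Real.exp (-∑ σ, Real.exp (η σ) * ‖σ.1 c‖ ^ 2) : ℂ)‖ ≤
      B * 2 ^ rk E * if c ≠ 0 ∧ IsIntegral ℤ ((D : E) * c) then
        Real.exp (-1 * ∑ σ, (η σ + lg c σ) - 1 * ∑ σ, |η σ + lg c σ|) else 0 := fun c => by
    by_cases hc : c = 0
    · simp [hc]
    by_cases hi : IsIntegral ℤ ((D : E) * c)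
    · rw [if_neg hc, if_pos ⟨hc, hi⟩, norm_mul, Complex.norm_real,
        Real.norm_of_nonneg (Real.exp_pos _).le, mul_assoc]
      refine mul_le_mul (by simpa using hB c 0 hc) ?_ (Real.exp_pos _).le hB0
      have e1 : ∀ σ : Pl E, Real.exp (η σ) * ‖σ.1 c‖ ^ 2 = Real.exp (η σ + lg c σ) := fun σ => by
        rw [← exp_lg hc, ← Real.exp_add]
      simp only [e1]
      rw [← Finset.sum_neg_distrib, Real.exp_sum]
      refine (Finset.prod_le_prod (fun _ _ => (Real.exp_pos _).le)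
        fun σ _ => tnA_exp_le _).trans (le_of_eq ?_)
      rw [Finset.prod_mul_distrib, Finset.prod_const, Finset.card_univ, ← Real.exp_sum,
        Finset.sum_sub_distrib, Finset.sum_neg_distrib]
      congr 2
      ring
    · have : ξ c = fun _ => 0 := funext fun d => not_not.1 fun hd => hi (hs c d hd).1
      simp [hi, this]
  have h1 := tsum_of_norm_bounded (c1.mul_left (B * 2 ^ rk E)).hasSum key
  rw [tsum_mul_left] at h1
  unfold P0
  rw [norm_mul, Complex.norm_real, Real.norm_of_nonneg (Real.exp_pos _).le]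
  refine (mul_le_mul_of_nonneg_left (le_trans (le_of_eq (by congr)) (h1.trans
    (mul_le_mul_of_nonneg_left c2 (by positivity)))) (Real.exp_pos _).le).trans (le_of_eq ?_)
  rw [show -(2 / 3) * ∑ σ, η σ = (∑ σ, η σ) / 3 + -1 * ∑ σ, η σ by ring, Real.exp_add]
  ring

theorem tnA_measurable_Phi (ξ : E → E → ℂ) (η : Pl E → ℝ) : Measurable fun u : Pl E → ℝ =>
    ((∏ σ, Real.exp (4 / 3 * u σ - Real.exp (u σ)) : ℝ) : ℂ) * P0 ξ (η - u) :=
  (Complex.measurable_ofReal.comp (by fun_prop)).mul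
    ((measurable_P0 ξ).comp (measurable_const.sub measurable_id))

theorem tnA_integrable_Phi {ξ : E → E → ℂ} (h : Adm ξ) (η : Pl E → ℝ) :
    Integrable fun u : Pl E → ℝ =>
      ((∏ σ, Real.exp (4 / 3 * u σ - Real.exp (u σ)) : ℝ) : ℂ) * P0 ξ (η - u) := by
  obtain ⟨C, hC⟩ := tnA_norm_P0_le h
  refine Integrable.mono' ((tnA_gamma_pi (ι := Pl E) two_pos).1.const_mul
    (C * Real.exp (-(2 / 3) * ∑ σ, η σ))) (tnA_measurable_Phi ξ η).aestronglyMeasurable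
    (Eventually.of_forall fun u => ?_)
  have h0 : 0 ≤ ∏ σ, Real.exp (4 / 3 * u σ - Real.exp (u σ)) :=
    Finset.prod_nonneg fun _ _ => (Real.exp_pos _).le
  rw [norm_mul, Complex.norm_real, Real.norm_of_nonneg h0]
  refine (mul_le_mul_of_nonneg_left (hC _) h0).trans (le_of_eq ?_)
  rw [mul_left_comm, mul_assoc, ← Real.exp_sum, ← Real.exp_sum, ← Real.exp_add, ← Real.exp_add]
  congr 2
  simp only [Pi.sub_apply, Finset.sum_sub_distrib, ← Finset.mul_sum]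
  ring

theorem tnA_tendsto_Phi {ξ : E → E → ℂ} (h : Adm ξ) {L : ℂ} (hL : Tendsto (P0 ξ) (lB E) (𝓝 L)) :
    Tendsto (fun η : Pl E → ℝ => ∫ u : Pl E → ℝ,
      ((∏ σ, Real.exp (4 / 3 * u σ - Real.exp (u σ)) : ℝ) : ℂ) * P0 ξ (η - u)) (lB E)
      (𝓝 ((Real.Gamma (4 / 3) : ℂ) ^ rk E * L)) := by
  obtain ⟨C, hC⟩ := h.norm_P0_le hL
  obtain ⟨g1, g2⟩ := tnA_gamma_pi (ι := Pl E) (s := 4 / 3) (by norm_num)
  have e : (Real.Gamma (4 / 3) : ℂ) ^ rk E * L = ∫ u : Pl E → ℝ,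
      ((∏ σ, Real.exp (4 / 3 * u σ - Real.exp (u σ)) : ℝ) : ℂ) * L := by
    rw [integral_mul_const, integral_complex_ofReal, g2, Complex.ofReal_pow]
  rw [e]
  refine tendsto_integral_filter_of_dominated_convergence
    (fun u => (∏ σ, Real.exp (4 / 3 * u σ - Real.exp (u σ))) * C)
    (Eventually.of_forall fun η => (tnA_measurable_Phi ξ η).aestronglyMeasurable)
    (Eventually.of_forall fun η => Eventually.of_forall fun u => ?_) (g1.mul_const C)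
    (Eventually.of_forall fun u => ?_)
  · have h0 : 0 ≤ ∏ σ, Real.exp (4 / 3 * u σ - Real.exp (u σ)) :=
      Finset.prod_nonneg fun _ _ => (Real.exp_pos _).le
    rw [norm_mul, Complex.norm_real, Real.norm_of_nonneg h0]
    exact mul_le_mul_of_nonneg_left (hC _) h0
  · refine Tendsto.const_mul _ ?_
    simp only [sub_eq_add_neg]
    exact hL.comp (tendsto_add_lB (-u))

/-! ## the seed -/

theorem tnA_measurable_seed {L : AddSubgroup E} (hL : IsLat L) (η : Pl E → ℝ) :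
    Measurable fun w : HH E => ((wtL L (zc w) * (Real.exp (4 / 3 * ∑ σ, η σ) *
      Real.exp (-∑ σ, Real.exp (η σ - vc w σ))) : ℝ) : ℂ) := by
  have h1 := (continuous_wtL hL).comp continuous_zc
  have h2 : ∀ σ, Continuous fun w : HH E => vc w σ := fun σ =>
    (continuous_apply σ).comp continuous_vc
  refine (Complex.continuous_ofReal.comp (h1.mul (continuous_const.mul ?_))).measurable
  exact Real.continuous_exp.comp (continuous_finsetSum _ fun σ _ =>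
    Real.continuous_exp.comp (continuous_const.sub (h2 σ))).neg

theorem tnA_integrable_seed {ξ : E → E → ℂ} (h : Adm ξ) {L : AddSubgroup E} (hL : IsLat L)
    (η η' : Pl E → ℝ) : Integrable (fun w => thY ξ η w * conj ((wtL L (zc w) *
      (Real.exp (4 / 3 * ∑ σ, η' σ) * Real.exp (-∑ σ, Real.exp (η' σ - vc w σ))) : ℝ) : ℂ))
      (μE E) := by
  simp only [Complex.conj_ofReal]
  have hm := (h.continuous_thY η).measurable.mul (tnA_measurable_seed hL η')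
  refine ⟨hm.aestronglyMeasurable, ?_⟩
  obtain ⟨C, hC⟩ := h.tsum_norm_le η
  set K := Real.exp (4 / 3 * ∑ σ, η σ) * C * Real.exp (4 / 3 * ∑ σ, η' σ) with hK
  set g : (Pl E → ℝ) → ℝ := fun v => K *
    (Real.exp (-2 * ∑ σ, v σ) * Real.exp (-∑ σ, Real.exp (η' σ - v σ)) +
      Real.exp (-1 * ∑ σ, v σ) * Real.exp (-∑ σ, Real.exp (η' σ - v σ)) +
      Real.exp (-3 * ∑ σ, v σ) * Real.exp (-∑ σ, Real.exp (η' σ - v σ))) with hg
  have gi : Integrable g := (((tnA_rad two_pos η').1.add (tnA_rad one_pos η').1).add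
    (tnA_rad three_pos η').1).const_mul K
  have wi := (integrable_wtL hL).2
  unfold HasFiniteIntegral at wi ⊢
  refine (lintegral_μE hm.enorm).trans_lt ?_
  refine lt_of_le_of_lt (lintegral_mono (g := fun v => ‖g v‖ₑ * ∫⁻ z, ‖wtL L z‖ₑ) fun v => ?_) ?_
  · simp only
    rw [← lintegral_const_mul' _ _ ENNReal.ofReal_ne_top, ← lintegral_const_mul' _ _ enorm_ne_top]
    refine lintegral_mono fun z => ?_
    simp only
    rw [← enorm_mul, ← ofReal_norm, ← ofReal_norm, ← ENNReal.ofReal_mul (Real.exp_pos _).le]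
    refine ENNReal.ofReal_le_ofReal (le_trans ?_ (le_abs_self _))
    have hw := (wtL_pos hL z).le
    have h1 : ‖thY ξ η (mkH z v)‖ ≤ Real.exp (4 / 3 * ∑ σ, η σ) *
        (C * (1 + Real.exp (∑ σ, v σ) + Real.exp (-∑ σ, v σ))) := by
      unfold thY
      rw [norm_mul, Complex.norm_real, Real.norm_of_nonneg (Real.exp_pos _).le]
      exact mul_le_mul_of_nonneg_left
        ((norm_tsum_le_tsum_norm (h.summable η _)).trans (hC (mkH z v))) (Real.exp_pos _).le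
    have h2 : 0 ≤ wtL L z * (Real.exp (4 / 3 * ∑ σ, η' σ) *
        Real.exp (-∑ σ, Real.exp (η' σ - v σ))) := by positivity
    change _ * ‖thY ξ η (mkH z v) * ((wtL L z * (Real.exp (4 / 3 * ∑ σ, η' σ) *
        Real.exp (-∑ σ, Real.exp (η' σ - v σ))) : ℝ) : ℂ)‖ ≤ _
    rw [norm_mul, Complex.norm_real, Real.norm_of_nonneg h2]
    refine (mul_le_mul_of_nonneg_left (mul_le_mul_of_nonneg_right h1 h2)
      (Real.exp_pos _).le).trans (le_of_eq ?_)
    simp only [hg, hK]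
    rw [show -1 * ∑ σ, v σ = -2 * ∑ σ, v σ + ∑ σ, v σ by ring,
      show -3 * ∑ σ, v σ = -2 * ∑ σ, v σ + -∑ σ, v σ by ring, Real.exp_add, Real.exp_add]
    ring
  · rw [lintegral_mul_const' _ _ wi.ne]
    exact ENNReal.mul_lt_top gi.2 wi

/-- the contribution of one vector `(0, d)` -/
theorem tnA_term (η η' : Pl E → ℝ) (d : E) :
    Integrable (fun v : Pl E → ℝ => Real.exp (-2 * ∑ σ, v σ) *
      (Real.exp (-∑ σ, Real.exp (η σ - v σ) * ‖σ.1 d‖ ^ 2) *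
        Real.exp (-∑ σ, Real.exp (η' σ - v σ)))) ∧
    ∫ v : Pl E → ℝ, Real.exp (-2 * ∑ σ, v σ) *
      (Real.exp (-∑ σ, Real.exp (η σ - v σ) * ‖σ.1 d‖ ^ 2) *
        Real.exp (-∑ σ, Real.exp (η' σ - v σ))) =
      ∏ σ, ((Real.exp (η σ) * ‖σ.1 d‖ ^ 2 + Real.exp (η' σ)) ^ 2)⁻¹ := by
  have hA : ∀ σ : Pl E, 0 < Real.exp (η σ) * ‖σ.1 d‖ ^ 2 + Real.exp (η' σ) := fun σ => by
    positivity
  obtain ⟨h1, h2⟩ := tnA_rad two_pos fun σ : Pl E =>
    Real.log (Real.exp (η σ) * ‖σ.1 d‖ ^ 2 + Real.exp (η' σ))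
  have e : ∀ v : Pl E → ℝ, Real.exp (-∑ σ, Real.exp (η σ - v σ) * ‖σ.1 d‖ ^ 2) *
      Real.exp (-∑ σ, Real.exp (η' σ - v σ)) = Real.exp (-∑ σ, Real.exp
        (Real.log (Real.exp (η σ) * ‖σ.1 d‖ ^ 2 + Real.exp (η' σ)) - v σ)) := fun v => by
    rw [← Real.exp_add, ← neg_add, ← Finset.sum_add_distrib]
    congr 2
    refine Finset.sum_congr rfl fun σ _ => ?_
    rw [Real.exp_sub, Real.exp_sub, Real.exp_sub, Real.exp_log (hA σ)]
    ring
  simp only [e]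
  refine ⟨h1, ?_⟩
  rw [h2, Real.Gamma_two, one_pow, mul_one, Finset.mul_sum, Real.exp_sum]
  refine Finset.prod_congr rfl fun σ _ => ?_
  rw [neg_mul, Real.exp_neg, two_mul, Real.exp_add, Real.exp_log (hA σ), ← sq]

theorem tnA_radial {ξ : E → E → ℂ} (h : Adm ξ) (η η' : Pl E → ℝ) :
    ∫ v : Pl E → ℝ, (Real.exp (-2 * ∑ σ, v σ) : ℂ) * (Acoef ξ η 0 v *
        ((Real.exp (4 / 3 * ∑ σ, η' σ) * Real.exp (-∑ σ, Real.exp (η' σ - v σ)) : ℝ) : ℂ)) =
      (Real.exp (4 / 3 * ∑ σ, (η σ + η' σ)) : ℂ) * ∑' d : E, ξ 0 d *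
        ((∏ σ, ((Real.exp (η σ) * ‖σ.1 d‖ ^ 2 + Real.exp (η' σ)) ^ 2)⁻¹ : ℝ) : ℂ) +
      (2 * Real.pi : ℂ) ^ rk E * ∫ u : Pl E → ℝ,
        ((∏ σ, Real.exp (4 / 3 * u σ - Real.exp (u σ)) : ℝ) : ℂ) * P0 ξ (η + η' - u) := by
  set F : E → (Pl E → ℝ) → ℂ := fun d v => ξ 0 d * ((Real.exp (-2 * ∑ σ, v σ) *
      (Real.exp (-∑ σ, Real.exp (η σ - v σ) * ‖σ.1 d‖ ^ 2) *
        Real.exp (-∑ σ, Real.exp (η' σ - v σ))) : ℝ) : ℂ) with hF
  have iF : ∀ d, Integrable (F d) := fun d => (tnA_term η η' d).1.ofReal.const_mul _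
  have nF : ∀ d, ∫ v, ‖F d v‖ =
      ‖ξ 0 d‖ * ∏ σ, ((Real.exp (η σ) * ‖σ.1 d‖ ^ 2 + Real.exp (η' σ)) ^ 2)⁻¹ := fun d => by
    rw [← (tnA_term η η' d).2, ← integral_const_mul]
    refine integral_congr_ae (Eventually.of_forall fun v => ?_)
    simp only [hF]
    rw [norm_mul, Complex.norm_real, Real.norm_of_nonneg (by positivity)]
  obtain ⟨C, hC⟩ := tnA_E1_sum h
  have sF : Summable fun d => ∫ v, ‖F d v‖ := by
    simp only [nF]
    exact (hC η η').1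
  have h1 : ∫ v, ∑' d, F d v = ∑' d : E, ξ 0 d *
      ((∏ σ, ((Real.exp (η σ) * ‖σ.1 d‖ ^ 2 + Real.exp (η' σ)) ^ 2)⁻¹ : ℝ) : ℂ) := by
    rw [← integral_tsum_of_summable_integral_norm iF sF]
    refine tsum_congr fun d => ?_
    simp only [hF]
    rw [integral_const_mul, integral_complex_ofReal, (tnA_term η η' d).2]
  have e0 : ∀ v : Pl E → ℝ, (Real.exp (4 / 3 * ∑ σ, (η σ + η' σ)) : ℂ) * ∑' d, F d v =
      E0 ξ η v * ((Real.exp (4 / 3 * ∑ σ, η' σ) * (Real.exp (-2 * ∑ σ, v σ) *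
        Real.exp (-∑ σ, Real.exp (η' σ - v σ))) : ℝ) : ℂ) := fun v => by
    unfold E0
    rw [Finset.sum_add_distrib, mul_add, Real.exp_add, mul_assoc, ← tsum_mul_right,
      Complex.ofReal_mul, mul_assoc, ← tsum_mul_left]
    congr 1
    refine tsum_congr fun d => ?_
    simp only [hF, Complex.ofReal_mul]
    ring
  have i1 : Integrable fun v : Pl E → ℝ =>
      (Real.exp (4 / 3 * ∑ σ, (η σ + η' σ)) : ℂ) * ∑' d, F d v := by
    obtain ⟨C', hC'⟩ := h.norm_E0_le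
    refine Integrable.mono' ((tnA_rad one_pos η').1.const_mul
      (C' * Real.exp ((∑ σ, η σ) / 3) * Real.exp (4 / 3 * ∑ σ, η' σ))) ?_
      (Eventually.of_forall fun v => ?_)
    · refine (Measurable.const_mul (Measurable.tsum fun d => ?_) _).aestronglyMeasurable
      exact (Complex.measurable_ofReal.comp (by fun_prop)).const_mul _
    · have h0 : 0 ≤ Real.exp (4 / 3 * ∑ σ, η' σ) * (Real.exp (-2 * ∑ σ, v σ) *
          Real.exp (-∑ σ, Real.exp (η' σ - v σ))) := by positivity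
      rw [e0, norm_mul, Complex.norm_real, Real.norm_of_nonneg h0]
      refine (mul_le_mul_of_nonneg_right (hC' η v) h0).trans (le_of_eq ?_)
      rw [show -1 * ∑ σ, v σ = -2 * ∑ σ, v σ + ∑ σ, v σ by ring, Real.exp_add, Real.exp_add]
      ring
  have i2 := (tnA_integrable_Phi h (η + η')).comp_sub_left η'
  rw [← h1, ← integral_const_mul, ← integral_sub_left_eq_self (fun u : Pl E → ℝ =>
    ((∏ σ, Real.exp (4 / 3 * u σ - Real.exp (u σ)) : ℝ) : ℂ) * P0 ξ (η + η' - u)) volume η',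
    ← integral_const_mul, ← integral_add i1 (i2.const_mul _)]
  refine integral_congr_ae (Eventually.of_forall fun v => ?_)
  simp only
  rw [e0, tnA_prod, show η + η' - (η' - v) = η + v by abel]
  unfold Acoef
  rw [if_pos rfl, bb_zero, Sk_zero_eq, show -(4 / 3) * ∑ σ, v σ = -2 * ∑ σ, v σ + 2 / 3 * ∑ σ, v σ
    by ring, Real.exp_add]
  simp only [Complex.ofReal_mul]
  ring

theorem tnA_integral_seed {ξ : E → E → ℂ} (h : Adm ξ) {L : AddSubgroup E} (hL : IsLat L)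
    (hL' : ∀ t ∈ L, ∀ c d, ξ c (d + c * t) = ξ c d) (η η' : Pl E → ℝ) :
    ∫ w, thY ξ η w * conj ((wtL L (zc w) * (Real.exp (4 / 3 * ∑ σ, η' σ) *
      Real.exp (-∑ σ, Real.exp (η' σ - vc w σ))) : ℝ) : ℂ) ∂μE E =
      vol L * ∫ v : Pl E → ℝ, (Real.exp (-2 * ∑ σ, v σ) : ℂ) * (Acoef ξ η 0 v *
        ((Real.exp (4 / 3 * ∑ σ, η' σ) * Real.exp (-∑ σ, Real.exp (η' σ - v σ)) : ℝ) : ℂ)) := by
  obtain ⟨-, -, f3, f4⟩ := h.fexp hL' η
  rw [integral_μE (tnA_integrable_seed h hL η η'), ← integral_const_mul]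
  refine integral_congr_ae (Eventually.of_forall fun v => ?_)
  have e : ∀ z, thY ξ η (mkH z v) * conj ((wtL L (zc (mkH z v)) * (Real.exp (4 / 3 * ∑ σ, η' σ) *
      Real.exp (-∑ σ, Real.exp (η' σ - vc (mkH z v) σ))) : ℝ) : ℂ) =
      ((wtL L z : ℂ) * ∑' ν, Acoef ξ η ν v * ez (em ν) z) *
        ((Real.exp (4 / 3 * ∑ σ, η' σ) * Real.exp (-∑ σ, Real.exp (η' σ - v σ)) : ℝ) : ℂ) :=
    fun z => by
      rw [Complex.conj_ofReal, (f4 v).2 z, Complex.ofReal_mul]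
      change _ * ((wtL L z : ℂ) * ((Real.exp (4 / 3 * ∑ σ, η' σ) *
        Real.exp (-∑ σ, Real.exp (η' σ - v σ)) : ℝ) : ℂ)) = _
      ring
  simp only [e]
  rw [integral_mul_const, integral_wtL_tsum hL (f4 v).1 fun ν hν => f3 ν v hν]
  ring

end Crest.Agent.R312
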