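import Crest.Agent.R312.ThUnf
import Crest.Agent.R312.ThNormAuxA

/-!
# Row 312: theta module G: the norm formula (port of `R17/ThetaNorm.lean`)
-/

set_option autoImplicit false

noncomputable section

namespace Crest.Agent.R312

open NumberField
open scoped ComplexConjugate

open MeasureTheory Filter Topology
open scoped ENNReal
open Crest.Agent.R17 (H actC Qf μH Fk Mk IsWt W0 U1)

variable {E : Type} [Field E] [NumberField E] [Om E]

/-- The seed of the Poincaré series. -/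
def seed (L : AddSubgroup E) (η : Pl E → ℝ) (w : HH E) : ℂ :=
  ((wtL L (zc w) * (Real.exp (4 / 3 * ∑ σ, η σ) * Real.exp (-∑ σ, Real.exp (η σ - vc w σ))) : ℝ) : ℂ)

/-- The contribution of the vectors `(0, d)` to the inner product. -/
def E1 (ξ : E → E → ℂ) (η η' : Pl E → ℝ) : ℂ :=
  (Real.exp (4 / 3 * ∑ σ, (η σ + η' σ)) : ℂ) *
    ∑' d : E, ξ 0 d * ((∏ σ, ((Real.exp (η σ) * ‖σ.1 d‖ ^ 2 + Real.exp (η' σ)) ^ 2)⁻¹ : ℝ) : ℂ)

/-- The contribution of the other vectors. -/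
def Phi1 (ξ : E → E → ℂ) (η : Pl E → ℝ) : ℂ :=
  ∫ u : Pl E → ℝ, ((∏ σ, Real.exp (4 / 3 * u σ - Real.exp (u σ)) : ℝ) : ℂ) * P0 ξ (η - u)

/-! ## part A -/

/-- `(e^a + e^b)^{-2} ≤ e^{-a-b-|a-b|}`, `Adm.zero_row`, `tsum_units_le`. -/
theorem Adm.norm_E1_le {ξ : E → E → ℂ} (h : Adm ξ) : ∃ C : ℝ, ∀ η η' : Pl E → ℝ,
    ‖E1 ξ η η'‖ ≤ C * Real.exp ((∑ σ, (η σ + η' σ)) / 3) := tnA_norm_E1_le h
theorem Adm.tendsto_Phi1 {ξ : E → E → ℂ} (h : Adm ξ) {L : ℂ} (hL : Tendsto (P0 ξ) (lB E) (𝓝 L)) :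
    Tendsto (Phi1 ξ) (lB E) (𝓝 ((Real.Gamma (4 / 3) : ℂ) ^ rk E * L)) :=
  tnA_tendsto_Phi h hL
theorem measurable_seed {L : AddSubgroup E} (hL : IsLat L) (η : Pl E → ℝ) :
    Measurable (seed L η) := tnA_measurable_seed hL η
/-- `Adm.tsum_norm_le` is not enough when `r > 1` (the bound must decay in the directions
`∑ v = const`): `exp (-2 v - exp (η' - v))` is integrable against `exp (± v)` in each variable,
so it is enough after all: the majorant is a sum of three products. -/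
theorem Adm.integrable_seed {ξ : E → E → ℂ} (h : Adm ξ) {L : AddSubgroup E} (hL : IsLat L)
    (η η' : Pl E → ℝ) : Integrable (fun w => thY ξ η w * conj (seed L η' w)) (μE E) :=
  tnA_integrable_seed h hL η η'
/-- The radial integral: substitute `u = η' - v`;
`∫ exp(-2 v - A e^{-v}) dv = A⁻²`. -/
theorem Adm.radial {ξ : E → E → ℂ} (h : Adm ξ) (η η' : Pl E → ℝ) :
    ∫ v : Pl E → ℝ, (Real.exp (-2 * ∑ σ, v σ) : ℂ) * (Acoef ξ η 0 v *
        ((Real.exp (4 / 3 * ∑ σ, η' σ) * Real.exp (-∑ σ, Real.exp (η' σ - v σ)) : ℝ) : ℂ)) =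
      E1 ξ η η' + (2 * Real.pi : ℂ) ^ rk E * Phi1 ξ (η + η') := tnA_radial h η η'
theorem Adm.integral_seed {ξ : E → E → ℂ} (h : Adm ξ) {L : AddSubgroup E} (hL : IsLat L)
    (hL' : ∀ t ∈ L, ∀ c d, ξ c (d + c * t) = ξ c d) (η η' : Pl E → ℝ) :
    ∫ w, thY ξ η w * conj (seed L η' w) ∂μE E =
      vol L * (E1 ξ η η' + (2 * Real.pi : ℂ) ^ rk E * Phi1 ξ (η + η')) := by
  rw [← h.radial]
  exact tnA_integral_seed h hL hL' η η'

/-! ## part B -/

omit [Om E] in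
theorem normB_row {ξ : E → E → ℂ} {γ : SO E} (hγ : γ ∈ Stab ξ) (g : Mt E) :
    ξ ((g * toM γ) 1 0) ((g * toM γ) 1 1) = ξ (g 1 0) (g 1 1) := by
  simp only [Matrix.mul_apply, Fin.sum_univ_two]
  exact hγ _ _

theorem normB_seed (L : AddSubgroup E) (η : Pl E → ℝ) {g : Mt E} (hg : g.det = 1) (w : HH E) :
    seed L η (act g w) = (wtL L (zc (act g w)) : ℂ) * ((Real.exp (4 / 3 * ∑ σ, η σ) : ℂ) *
      (Real.exp (-∑ σ, Real.exp (η σ) * Qv w (g 1 0) (g 1 1) σ) : ℂ)) := by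
  have e : ∀ σ, Real.exp (η σ - vc (act g w) σ) = Real.exp (η σ) * Qv w (g 1 0) (g 1 1) σ :=
    fun σ => by
      rw [Real.exp_sub, exp_vc_act (by rw [hg]; exact one_ne_zero), hg, map_one, norm_one,
        div_div_eq_mul_div, div_one]
  simp only [seed, e, Complex.ofReal_mul]

/-- `thY` as a finite sum of Poincaré series (`Adm.orbits`, `hasSum_fold`, `exp_vc_act`). -/
theorem Adm.thY_eq {ξ : E → E → ℂ} (h : Adm ξ) : ∃ T : Finset (Mt E), (∀ g ∈ T, g.det = 1) ∧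
    ∀ (η : Pl E → ℝ) (w : HH E),
      (∀ g ∈ T, Summable fun γ : Stab ξ => seed (Lg (Stab ξ) g) η (act g ((γ : SO E) • w))) ∧
      thY ξ η w = ∑ g ∈ T, ξ (g 1 0) (g 1 1) *
        ∑' γ : Stab ξ, seed (Lg (Stab ξ) g) η (act g ((γ : SO E) • w)) := by
  classical
  obtain ⟨T, hT, hO⟩ := h.orbits
  refine ⟨T.filter fun g => ξ (g 1 0) (g 1 1) ≠ 0, fun g hg => hT g (Finset.mem_filter.1 hg).1,
    fun η w => ?_⟩
  set K : ℂ := (Real.exp (4 / 3 * ∑ σ, η σ) : ℂ) with hK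
  set F : E × E → ℂ := fun v =>
    K * (ξ v.1 v.2 * (Real.exp (-∑ σ, Real.exp (η σ) * Qv w v.1 v.2 σ) : ℂ)) with hF
  set P : Mt E → E × E → Prop := fun g v =>
    ∃ γ ∈ Stab ξ, v.1 = (g * toM γ) 1 0 ∧ v.2 = (g * toM γ) 1 1 with hP
  have hFs : Summable fun v => ‖F v‖ :=
    ((h.summable η w).mul_left ‖K‖).congr fun v => (norm_mul _ _).symm
  have hGs : ∀ g, Summable fun v => ‖if P g v then F v else 0‖ := fun g =>
    Summable.of_nonneg_of_le (fun _ => norm_nonneg _) (fun v => by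
      split_ifs
      exacts [le_rfl, norm_zero.trans_le (norm_nonneg _)]) hFs
  have key : ∀ g ∈ T, HasSum (fun γ : Stab ξ => ξ (g 1 0) (g 1 1) *
      seed (Lg (Stab ξ) g) η (act g ((γ : SO E) • w))) (∑' v, if P g v then F v else 0) := by
    intro g hg
    have hg1 := hT g hg
    have h1 := hasSum_fold h.fin hg1 w (hGs g) fun v hv => by
      by_contra h2
      exact hv (if_neg h2)
    convert h1 using 2 with γ
    have hγ : (toM (γ : SO E)).det ≠ 0 := by rw [det_toM]; exact one_ne_zero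
    rw [smul_def, ← act_mul (by rw [hg1]; exact one_ne_zero) hγ,
      normB_seed _ _ (by rw [Matrix.det_mul, hg1, det_toM, one_mul]),
      if_pos (show P g _ from ⟨γ, γ.2, rfl, rfl⟩)]
    simp only [hF, normB_row γ.2 g]
    ring
  refine ⟨fun g hg => ?_, ?_⟩
  · obtain ⟨hg, hg0⟩ := Finset.mem_filter.1 hg
    exact (summable_mul_left_iff hg0).1 (key g hg).summable
  · rw [Finset.sum_congr rfl fun g hg => tsum_mul_left.symm.trans
      (key g (Finset.mem_filter.1 hg).1).tsum_eq,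
      ← Summable.tsum_finsetSum fun g _ => (hGs g).of_norm, thY, ← tsum_mul_left]
    refine tsum_congr fun v => ?_
    change F v = _
    by_cases hv : ξ v.1 v.2 = 0
    · have h0 : F v = 0 := by simp only [hF, hv, zero_mul, mul_zero]
      simp only [h0, ite_self, Finset.sum_const_zero]
    · obtain ⟨g, ⟨hg, hgv⟩, hu⟩ := hO v.1 v.2 hv
      rw [Finset.sum_eq_single_of_mem g, if_pos (show P g v from hgv)]
      · obtain ⟨γ, hγ, h1, h2⟩ := hgv
        refine Finset.mem_filter.2 ⟨hg, ?_⟩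
        rwa [← normB_row hγ g, ← h1, ← h2]
      · intro g' hg' hne
        exact if_neg fun h1 => hne (hu g' ⟨(Finset.mem_filter.1 hg').1, h1⟩)

/-- The unfolding at one cusp. -/
theorem normB_cusp {ξ : E → E → ℂ} (h : Adm ξ) {g : Mt E} (hg : g.det = 1) (η η' : Pl E → ℝ)
    (hs : ∀ w : HH E,
      Summable fun γ : Stab ξ => seed (Lg (Stab ξ) g) η' (act g ((γ : SO E) • w))) :
    Integrable (fun w => (wOf (Stab ξ) w : ℂ) * (thY ξ η w *
      conj (∑' γ : Stab ξ, seed (Lg (Stab ξ) g) η' (act g ((γ : SO E) • w))))) (μE E) ∧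
    ∫ w, (wOf (Stab ξ) w : ℂ) * (thY ξ η w *
      conj (∑' γ : Stab ξ, seed (Lg (Stab ξ) g) η' (act g ((γ : SO E) • w)))) ∂μE E =
      vol (Lg (Stab ξ) g) * (E1 (R312.sl ξ g⁻¹) η η' +
        (2 * Real.pi : ℂ) ^ rk E * Phi1 (R312.sl ξ g⁻¹) (η + η')) := by
  have hg0 : g.det ≠ 0 := by rw [hg]; exact one_ne_zero
  have hgi : g⁻¹.det ≠ 0 := by
    rw [Matrix.det_nonsing_inv, hg, Ring.inverse_one]; exact one_ne_zero
  have hL := isLat_Lg h.fin hg
  have h' := h.sl hgi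
  have hmp := measurePreserving_act hg0
  have hint := h'.integrable_seed hL η η'
  have e : ∀ w, thY (R312.sl ξ g⁻¹) η (act g w) = thY ξ η w := fun w => by
    rw [thY_act_one _ hg, ← sl_mul ξ hgi hg0,
      Matrix.nonsing_inv_mul g (by rw [hg]; exact isUnit_one), sl_one]
  have hint' : Integrable (fun w => thY ξ η w * conj (seed (Lg (Stab ξ) g) η' (act g w)))
      (μE E) := by
    simpa only [Function.comp_def, e] using hmp.integrable_comp_of_integrable hint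
  obtain ⟨h1, h2⟩ := (isWt_wOf (Stab ξ)).inner_unfold (μ := μE E)
    (fun γ => measurePreserving_smul (γ : SO E)) (fun _ => 1)
    (φ := fun w => seed (Lg (Stab ξ) g) η' (act g w))
    (h.continuous_thY η).measurable ((measurable_seed hL η').comp hmp.measurable)
    (fun γ w => by rw [one_mul]; exact thY_aut γ.2 η w) hint'
    (fun w => by simp only [map_one, one_mul]; exact hs w)
  simp only [map_one, one_mul] at h1 h2
  refine ⟨h1, h2.trans ?_⟩
  rw [← h'.integral_seed hL (fun t ht c d => sl_inv_transl hg ht c d) η η']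
  conv_rhs => rw [← hmp.map_eq]
  rw [integral_map hmp.measurable.aemeasurable (hmp.map_eq.symm ▸ hint.aestronglyMeasurable)]
  simp only [e]

/-- The inner product formula (`IsWt.inner_unfold` with `κ = 1`, `measurePreserving_act`,
`thY_act_one`, `sl_inv_transl`, `Adm.integral_seed`). -/
theorem Adm.inner_thY {ξ : E → E → ℂ} (h : Adm ξ) : ∃ (T : Finset (Mt E)) (a : Mt E → ℂ),
    (∀ g ∈ T, g.det = 1) ∧ ∀ η η' : Pl E → ℝ,
      Integrable (fun w => (wOf (Stab ξ) w : ℂ) * (thY ξ η w * conj (thY ξ η' w))) (μE E) ∧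
      ∫ w, (wOf (Stab ξ) w : ℂ) * (thY ξ η w * conj (thY ξ η' w)) ∂μE E =
        ∑ g ∈ T, a g * (E1 (R312.sl ξ g) η η' + (2 * Real.pi : ℂ) ^ rk E * Phi1 (R312.sl ξ g) (η + η')) := by
  classical
  obtain ⟨T, hT, hY⟩ := h.thY_eq
  have hii : ∀ g ∈ T, g⁻¹⁻¹ = g := fun g hg =>
    Matrix.nonsing_inv_nonsing_inv g (by rw [hT g hg]; exact isUnit_one)
  refine ⟨T.image (·⁻¹), fun g => conj (ξ (g⁻¹ 1 0) (g⁻¹ 1 1)) * vol (Lg (Stab ξ) g⁻¹),
    fun g hg => ?_, fun η η' => ?_⟩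
  · obtain ⟨g', hg', rfl⟩ := Finset.mem_image.1 hg
    rw [Matrix.det_nonsing_inv, hT g' hg', Ring.inverse_one]
  have e : ∀ w, (wOf (Stab ξ) w : ℂ) * (thY ξ η w * conj (thY ξ η' w)) =
      ∑ g ∈ T, conj (ξ (g 1 0) (g 1 1)) * ((wOf (Stab ξ) w : ℂ) * (thY ξ η w *
        conj (∑' γ : Stab ξ, seed (Lg (Stab ξ) g) η' (act g ((γ : SO E) • w))))) := fun w => by
    rw [(hY η' w).2, map_sum, Finset.mul_sum, Finset.mul_sum]
    refine Finset.sum_congr rfl fun g _ => ?_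
    rw [map_mul]
    ring
  have hc := fun g (hg : g ∈ T) => normB_cusp h (hT g hg) η η' fun w => (hY η' w).1 g hg
  simp only [e]
  refine ⟨integrable_finsetSum _ fun g hg => (hc g hg).1.const_mul _, ?_⟩
  rw [integral_finsetSum _ fun g hg => (hc g hg).1.const_mul _,
    Finset.sum_image fun g hg g' hg' hgg => by rw [← hii g hg, ← hii g' hg']; exact congrArg _ hgg]
  refine Finset.sum_congr rfl fun g hg => ?_
  rw [integral_const_mul, (hc g hg).2, hii g hg, mul_assoc]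

theorem normB_N2_eq {Γ : Subgroup (SO E)} {f : HH E → ℂ}
    (hf : Integrable (fun w => (wOf Γ w : ℂ) * (f w * conj (f w))) (μE E)) :
    N2 Γ f = ENNReal.ofReal ‖∫ w, (wOf Γ w : ℂ) * (f w * conj (f w)) ∂μE E‖ := by
  have h0 : ∀ w, 0 ≤ wOf Γ w := (isWt_wOf Γ).nonneg
  have e : ∀ w, (wOf Γ w : ℂ) * (f w * conj (f w)) = ((wOf Γ w * ‖f w‖ ^ 2 : ℝ) : ℂ) := by
    intro w
    rw [Complex.mul_conj, Complex.normSq_eq_norm_sq]
    push_cast
    ring
  simp only [e] at hf ⊢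
  have hn : ∀ w, 0 ≤ wOf Γ w * ‖f w‖ ^ 2 := fun w => mul_nonneg (h0 w) (by positivity)
  have hf' : Integrable (fun w => wOf Γ w * ‖f w‖ ^ 2) (μE E) := by
    refine hf.norm.congr (Eventually.of_forall fun w => ?_)
    simp only
    rw [Complex.norm_real, Real.norm_of_nonneg (hn w)]
  rw [integral_complex_ofReal, Complex.norm_real, Real.norm_of_nonneg (integral_nonneg hn),
    ofReal_integral_eq_lintegral_ofReal hf' (Eventually.of_forall hn)]
  unfold N2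
  refine lintegral_congr fun w => ?_
  rw [ENNReal.ofReal_mul (h0 w), ENNReal.ofReal_pow (norm_nonneg _), ofReal_norm]

theorem normB_add : Tendsto (fun p : (Pl E → ℝ) × (Pl E → ℝ) => p.1 + p.2) (lB E ×ˢ lB E)
    (lB E) := by
  refine tendsto_comap_iff.2 ?_
  have h1 : Tendsto (fun η : Pl E → ℝ => ∑ σ, η σ) (lB E) atBot := tendsto_comap
  refine ((h1.comp tendsto_fst).atBot_add_atBot (h1.comp tendsto_snd)).congr fun p => ?_
  simp only [Function.comp, Pi.add_apply, Finset.sum_add_distrib]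

theorem normB_E1 {ξ : E → E → ℂ} (h : Adm ξ) :
    Tendsto (fun p : (Pl E → ℝ) × (Pl E → ℝ) => E1 ξ p.1 p.2) (lB E ×ˢ lB E) (𝓝 0) := by
  obtain ⟨C, hC⟩ := h.norm_E1_le
  refine squeeze_zero_norm (fun p => hC p.1 p.2) ?_
  have h1 : Tendsto (fun η : Pl E → ℝ => ∑ σ, η σ) (lB E) atBot := tendsto_comap
  have h2 := (Real.tendsto_exp_atBot.comp
    ((h1.comp normB_add).atBot_div_const (r := 3) (by norm_num))).const_mul C
  rw [mul_zero] at h2
  exact h2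

/-- The inner products converge. -/
theorem normB_close {ξ : E → E → ℂ} (h : Adm ξ) {L : Mt E → ℂ}
    (hL : ∀ g : Mt E, g.det = 1 → Tendsto (P0 (R312.sl ξ g)) (lB E) (𝓝 (L g))) :
    ∃ (T : Finset (Mt E)) (b : Mt E → ℂ), Tendsto (fun p : (Pl E → ℝ) × (Pl E → ℝ) =>
      ∫ w, (wOf (Stab ξ) w : ℂ) * (thY ξ p.1 w * conj (thY ξ p.2 w)) ∂μE E) (lB E ×ˢ lB E)
      (𝓝 (∑ g ∈ T, b g * L g)) := by
  obtain ⟨T, a, hT, hI⟩ := h.inner_thY
  refine ⟨T, fun g => a g * ((2 * Real.pi : ℂ) ^ rk E * (Real.Gamma (4 / 3) : ℂ) ^ rk E), ?_⟩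
  simp only [fun η η' => (hI η η').2]
  refine tendsto_finsetSum _ fun g hg => ?_
  have h' : Adm (R312.sl ξ g) := h.sl (by rw [hT g hg]; exact one_ne_zero)
  have h1 := ((normB_E1 h').add (((h'.tendsto_Phi1 (hL g (hT g hg))).comp normB_add).const_mul
    ((2 * Real.pi : ℂ) ^ rk E))).const_mul (a g)
  rw [zero_add, ← mul_assoc, ← mul_assoc, mul_assoc (a g)] at h1
  exact h1

theorem normB_close' {ξ : E → E → ℂ} (h : Adm ξ) (hc : CT ξ) :
    ∃ Λ : ℂ, Tendsto (fun p : (Pl E → ℝ) × (Pl E → ℝ) =>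
      ∫ w, (wOf (Stab ξ) w : ℂ) * (thY ξ p.1 w * conj (thY ξ p.2 w)) ∂μE E) (lB E ×ˢ lB E)
      (𝓝 Λ) := by
  choose! L hL using hc
  obtain ⟨T, b, h1⟩ := normB_close h hL
  exact ⟨_, h1⟩

theorem Adm.N2_le {ξ : E → E → ℂ} (h : Adm ξ) (hc : CT ξ) :
    ∃ C : ℝ, ∀ᶠ η in lB E, N2 (Stab ξ) (thY ξ η) ≤ ENNReal.ofReal C := by
  obtain ⟨Λ, hΛ⟩ := normB_close' h hc
  obtain ⟨_, _, -, hI⟩ := h.inner_thY
  refine ⟨‖Λ‖ + 1, ?_⟩
  filter_upwards [(hΛ.comp (tendsto_id.prodMk tendsto_id)).norm.eventually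
    (gt_mem_nhds (lt_add_one ‖Λ‖))] with η hη
  rw [normB_N2_eq (hI η η).1]
  exact ENNReal.ofReal_le_ofReal hη.le
theorem Adm.N2_cauchy {ξ : E → E → ℂ} (h : Adm ξ) (hc : CT ξ) :
    Tendsto (fun p : (Pl E → ℝ) × (Pl E → ℝ) => N2 (Stab ξ) (thY ξ p.1 - thY ξ p.2))
      (lB E ×ˢ lB E) (𝓝 0) := by
  obtain ⟨Λ, hΛ⟩ := normB_close' h hc
  obtain ⟨_, _, -, hI⟩ := h.inner_thY
  have h1 := ENNReal.tendsto_ofReal
    (((hΛ.comp ((tendsto_fst (f := lB E) (g := lB E)).prodMk tendsto_fst)).sub hΛ).sub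
    ((hΛ.comp (tendsto_snd.prodMk tendsto_fst)).sub
      (hΛ.comp (tendsto_snd.prodMk tendsto_snd)))).norm
  rw [sub_self, norm_zero, ENNReal.ofReal_zero] at h1
  refine h1.congr fun p => ?_
  have i1 := (hI p.1 p.1).1
  have i2 := (hI p.1 p.2).1
  have i3 := (hI p.2 p.1).1
  have i4 := (hI p.2 p.2).1
  have e : ∀ w, (wOf (Stab ξ) w : ℂ) *
      ((thY ξ p.1 - thY ξ p.2) w * conj ((thY ξ p.1 - thY ξ p.2) w)) =
      ((wOf (Stab ξ) w : ℂ) * (thY ξ p.1 w * conj (thY ξ p.1 w)) -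
        (wOf (Stab ξ) w : ℂ) * (thY ξ p.1 w * conj (thY ξ p.2 w))) -
      ((wOf (Stab ξ) w : ℂ) * (thY ξ p.2 w * conj (thY ξ p.1 w)) -
        (wOf (Stab ξ) w : ℂ) * (thY ξ p.2 w * conj (thY ξ p.2 w))) := by
    intro w
    simp only [Pi.sub_apply, map_sub]
    ring
  have i5 : Integrable (fun w => (wOf (Stab ξ) w : ℂ) *
      ((thY ξ p.1 - thY ξ p.2) w * conj ((thY ξ p.1 - thY ξ p.2) w))) (μE E) := by
    simp only [e]
    exact (i1.sub i2).sub (i3.sub i4)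
  rw [normB_N2_eq i5]
  simp only [e]
  have j := integral_sub (i1.sub i2) (i3.sub i4)
  simp only [Pi.sub_apply] at j
  rw [j, integral_sub i1 i2, integral_sub i3 i4]
  rfl
theorem Adm.N2_zero {ξ : E → E → ℂ} (h : Adm ξ)
    (hc : ∀ g : Mt E, g.det = 1 → Tendsto (P0 (R312.sl ξ g)) (lB E) (𝓝 0)) :
    Tendsto (fun η => N2 (Stab ξ) (thY ξ η)) (lB E) (𝓝 0) := by
  obtain ⟨T, b, hΛ⟩ := normB_close h (L := fun _ => 0) hc
  obtain ⟨_, _, -, hI⟩ := h.inner_thY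
  have h1 := ENNReal.tendsto_ofReal (hΛ.comp (tendsto_id.prodMk tendsto_id)).norm
  simp only [mul_zero, Finset.sum_const_zero, norm_zero, ENNReal.ofReal_zero] at h1
  exact h1.congr fun η => (normB_N2_eq (hI η η).1).symm

end Crest.Agent.R312
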