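import Crest.Agent.R312.ThEis

/-!
# Row 312: auxiliary lemmas for `ThUnf` (part 1): summability over `SL₂(𝓞)`, slopes, units
-/

set_option autoImplicit false

noncomputable section

namespace Crest.Agent.R312

open NumberField
open scoped ComplexConjugate

open MeasureTheory Filter Topology
open Crest.Agent.R17 (H Qf hy hy_pos)

/-- The slope of modulus at most one. -/
def u1_slope (u u' : ℂ) : ℂ := if ‖u‖ ≤ ‖u'‖ then u / u' else u' / u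

theorem u1_slope_le (u u' : ℂ) : ‖u1_slope u u'‖ ≤ 1 := by
  unfold u1_slope
  split_ifs with h
  · rw [norm_div]; exact div_le_one_of_le₀ h (norm_nonneg _)
  · rw [norm_div]; exact div_le_one_of_le₀ (not_le.1 h).le (norm_nonneg _)

theorem u1_det_aux {a b a' b' : ℂ} {B : ℝ} (hb : b ≠ 0) (hb' : b' ≠ 0) (h : ‖b‖ ^ 2 ≤ B)
    (h' : ‖b'‖ ^ 2 ≤ B) : ‖a * b' - a' * b‖ ^ 2 ≤ B ^ 2 * ‖a / b - a' / b'‖ ^ 2 := by
  have e : a * b' - a' * b = b * b' * (a / b - a' / b') := by field_simp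
  rw [e, norm_mul, norm_mul, mul_pow, mul_pow, sq B]
  exact mul_le_mul_of_nonneg_right (mul_le_mul h h' (sq_nonneg _) ((sq_nonneg _).trans h))
    (sq_nonneg _)

theorem u1_slope_det {a b a' b' : ℂ} {B : ℝ} (h0 : 0 < ‖a‖ ^ 2 + ‖b‖ ^ 2)
    (h0' : 0 < ‖a'‖ ^ 2 + ‖b'‖ ^ 2) (h : ‖a‖ ^ 2 + ‖b‖ ^ 2 ≤ B) (h' : ‖a'‖ ^ 2 + ‖b'‖ ^ 2 ≤ B)
    (hc : ‖a‖ ≤ ‖b‖ ↔ ‖a'‖ ≤ ‖b'‖) :
    ‖a * b' - a' * b‖ ^ 2 ≤ B ^ 2 * ‖u1_slope a b - u1_slope a' b'‖ ^ 2 := by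
  have key : ∀ {x y : ℂ}, 0 < ‖x‖ ^ 2 + ‖y‖ ^ 2 → ‖x‖ ≤ ‖y‖ → y ≠ 0 := by
    intro x y h1 h2 h3
    rw [h3, norm_zero] at h1 h2
    rw [le_antisymm h2 (norm_nonneg x)] at h1
    simp at h1
  unfold u1_slope
  by_cases h1 : ‖a‖ ≤ ‖b‖
  · rw [if_pos h1, if_pos (hc.1 h1)]
    exact u1_det_aux (key h0 h1) (key h0' (hc.1 h1)) (by linarith [sq_nonneg ‖a‖])
      (by linarith [sq_nonneg ‖a'‖])
  · have h2 : ¬ ‖a'‖ ≤ ‖b'‖ := fun h2 => h1 (hc.2 h2)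
    rw [if_neg h1, if_neg h2, ← norm_neg (a * b' - a' * b),
      show -(a * b' - a' * b) = b * a' - b' * a by ring]
    exact u1_det_aux (key (x := b) (by linarith) (not_le.1 h1).le)
      (key (x := b') (by linarith) (not_le.1 h2).le) (by linarith [sq_nonneg ‖b‖])
      (by linarith [sq_nonneg ‖b'‖])

theorem u1_Qf (w : H) (c d : ℂ) :
    ‖c * (hy w : ℂ)‖ ^ 2 + ‖c * w.1 + d‖ ^ 2 = hy w * Qf w c d := by
  have h := hy_pos w
  rw [norm_mul, Complex.norm_real, Real.norm_of_nonneg h.le, Qf]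
  field_simp
  ring

/-- Two vectors in the same chart. -/
theorem u1_det_le (w : H) {c d c' d' : ℂ} {T : ℝ} (h0 : 0 < Qf w c d) (h0' : 0 < Qf w c' d')
    (h : Qf w c d ≤ T) (h' : Qf w c' d' ≤ T)
    (hc : ‖c * (hy w : ℂ)‖ ≤ ‖c * w.1 + d‖ ↔ ‖c' * (hy w : ℂ)‖ ≤ ‖c' * w.1 + d'‖) :
    ‖c * d' - c' * d‖ ^ 2 ≤ T ^ 2 *
      ‖u1_slope (c * (hy w : ℂ)) (c * w.1 + d) - u1_slope (c' * (hy w : ℂ)) (c' * w.1 + d')‖ ^ 2 := by
  have hy0 := hy_pos w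
  have h1 := u1_slope_det (B := hy w * T) (by rw [u1_Qf]; exact mul_pos hy0 h0)
    (by rw [u1_Qf]; exact mul_pos hy0 h0')
    (by rw [u1_Qf]; exact mul_le_mul_of_nonneg_left h hy0.le)
    (by rw [u1_Qf]; exact mul_le_mul_of_nonneg_left h' hy0.le) hc
  rw [show c * (hy w : ℂ) * (c' * w.1 + d') - c' * (hy w : ℂ) * (c * w.1 + d) =
      (hy w : ℂ) * (c * d' - c' * d) by ring, norm_mul, Complex.norm_real,
    Real.norm_of_nonneg hy0.le, mul_pow, mul_pow, mul_assoc] at h1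
  exact le_of_mul_le_mul_left h1 (by positivity)

variable {E : Type} [Field E] [NumberField E]

theorem u1_det (γ : SO E) : toM γ 0 0 * toM γ 1 1 - toM γ 0 1 * toM γ 1 0 = 1 := by
  rw [← Matrix.det_fin_two, det_toM]

theorem u1_ne (γ : SO E) : toM γ 1 0 ≠ 0 ∨ toM γ 1 1 ≠ 0 := by
  by_contra h
  rw [not_or, not_not, not_not] at h
  have := u1_det γ
  rw [h.1, h.2] at this
  simp at this

/-- Proportional primitive vectors differ by a unit. -/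
theorem u1_unit (γ γ' : SO E) (h : toM γ 1 0 * toM γ' 1 1 - toM γ' 1 0 * toM γ 1 1 = 0) :
    ∃ u : (𝓞 E)ˣ, toM γ' 1 0 = ((u : 𝓞 E) : E) * toM γ 1 0 ∧
      toM γ' 1 1 = ((u : 𝓞 E) : E) * toM γ 1 1 := by
  have h1 := u1_det γ
  have h2 := u1_det γ'
  let U : 𝓞 E := ⟨toM γ 0 0 * toM γ' 1 1 - toM γ 0 1 * toM γ' 1 0,
    ((isIntegral_toM γ 0 0).mul (isIntegral_toM γ' 1 1)).sub
      ((isIntegral_toM γ 0 1).mul (isIntegral_toM γ' 1 0))⟩
  let U' : 𝓞 E := ⟨toM γ' 0 0 * toM γ 1 1 - toM γ' 0 1 * toM γ 1 0,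
    ((isIntegral_toM γ' 0 0).mul (isIntegral_toM γ 1 1)).sub
      ((isIntegral_toM γ' 0 1).mul (isIntegral_toM γ 1 0))⟩
  have hU : (U : E) = toM γ 0 0 * toM γ' 1 1 - toM γ 0 1 * toM γ' 1 0 := rfl
  have hU' : (U' : E) = toM γ' 0 0 * toM γ 1 1 - toM γ' 0 1 * toM γ 1 0 := rfl
  have e1 : toM γ' 1 0 = (U : E) * toM γ 1 0 := by
    rw [hU]; linear_combination (-toM γ' 1 0) * h1 - toM γ 0 0 * h
  have e2 : toM γ' 1 1 = (U : E) * toM γ 1 1 := by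
    rw [hU]; linear_combination (-toM γ' 1 1) * h1 - toM γ 0 1 * h
  have e3 : U * U' = 1 := by
    refine RingOfIntegers.ext ?_
    have : ((U * U' : 𝓞 E) : E) = (U : E) * (U' : E) := rfl
    rw [this, hU']
    have h1' : ((1 : 𝓞 E) : E) = 1 := rfl
    rw [h1']
    linear_combination h2 - toM γ' 0 0 * e2 + toM γ' 0 1 * e1
  exact ⟨Units.mkOfMulEqOne U U' e3, e1, e2⟩

variable [Om E]

theorem u1_Qv_act (γ : SO E) (w : HH E) (σ : Pl E) :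
    Qv (act (toM γ) w) 1 0 σ + Qv (act (toM γ) w) 0 1 σ =
      Qv w (toM γ 0 0) (toM γ 0 1) σ + Qv w (toM γ 1 0) (toM γ 1 1) σ := by
  have h : (toM γ).det ≠ 0 := by rw [det_toM]; exact one_ne_zero
  rw [Qv_act h, Qv_act h, det_toM]
  simp

theorem u1_summable (Γ : Subgroup (SO E)) (w : HH E) : Summable fun γ : Γ =>
    Real.exp (-∑ σ, (Qv (act (toM γ) w) 1 0 σ + Qv (act (toM γ) w) 0 1 σ)) := by
  classical
  have hs := summable_exp_Qv (D := 1) one_ne_zero 0 w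
  have h0 : ∀ v : E × E, 0 ≤ if IsIntegral ℤ (((1 : ℕ) : E) * v.1) ∧
      IsIntegral ℤ (((1 : ℕ) : E) * v.2) then
      Real.exp (-∑ σ, Real.exp ((0 : Pl E → ℝ) σ) * Qv w v.1 v.2 σ) else 0 := fun v => by
    split_ifs
    · exact (Real.exp_pos _).le
    · exact le_rfl
  have h2 := hs.mul_of_nonneg hs h0 h0
  have hi : Function.Injective fun γ : Γ =>
      (((toM (γ : SO E) 0 0, toM (γ : SO E) 0 1), (toM (γ : SO E) 1 0, toM (γ : SO E) 1 1)) :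
        (E × E) × E × E) := by
    intro γ γ' h
    simp only [Prod.mk.injEq] at h
    refine Subtype.ext (toM_injective (Matrix.ext fun i j => ?_))
    fin_cases i <;> fin_cases j
    exacts [h.1.1, h.1.2, h.2.1, h.2.2]
  refine (h2.comp_injective hi).congr fun γ => ?_
  simp only [Function.comp, Nat.cast_one, one_mul, isIntegral_toM, and_self, if_true,
    Pi.zero_apply, Real.exp_zero, u1_Qv_act]
  rw [← Real.exp_add, Finset.sum_add_distrib, neg_add]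

end Crest.Agent.R312
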