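import Crest.Agent.R312.ThEis
import Crest.Agent.R312.ThUnfAux1

/-!
# Row 312: theta module F: the weight `wOf`, multiplicity of strips (port of B1, B3 of `R17/ThetaUnf.lean`)
-/

set_option autoImplicit false

noncomputable section

namespace Crest.Agent.R312

open NumberField
open scoped ComplexConjugate

open MeasureTheory Filter Topology
open scoped ENNReal
open Crest.Agent.R17 (H actC Qf μH Fk Mk IsWt W0 U1)

variable {E : Type} [Field E] [NumberField E] [Om E]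

theorem isWt_wOf (Γ : Subgroup (SO E)) : IsWt Γ (wOf (E := E) Γ) := by
  have hE : Continuous fun w : HH E => Real.exp (-∑ σ, (Qv w 1 0 σ + Qv w 0 1 σ)) :=
    Real.continuous_exp.comp (continuous_finsetSum _ fun σ _ =>
      (continuous_Qv 1 0 σ).add (continuous_Qv 0 1 σ)).neg
  have hd : ∀ γ : SO E, (toM γ).det ≠ 0 := fun γ => by rw [det_toM]; exact one_ne_zero
  refine ⟨hE.measurable.div (Measurable.tsum fun γ : Γ =>
    (hE.comp (continuous_act (hd γ))).measurable), fun w =>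
    div_nonneg (Real.exp_pos _).le (tsum_nonneg fun _ => (Real.exp_pos _).le), fun w => ?_⟩
  have hpos := (u1_summable Γ w).tsum_pos (fun _ => (Real.exp_pos _).le) 1 (Real.exp_pos _)
  have h1 := (u1_summable Γ w).hasSum.div_const
    (∑' γ : Γ, Real.exp (-∑ σ, (Qv (act (toM γ) w) 1 0 σ + Qv (act (toM γ) w) 0 1 σ)))
  rw [div_self hpos.ne'] at h1
  refine (funext fun γ => ?_ : _ = fun γ : Γ => wOf Γ (γ • w)) ▸ h1
  unfold wOf
  congr 1
  rw [← (Equiv.mulRight γ).tsum_eq fun δ : Γ =>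
    Real.exp (-∑ σ, (Qv (act (toM δ) w) 1 0 σ + Qv (act (toM δ) w) 0 1 σ))]
  refine tsum_congr fun δ => ?_
  have e : act (toM ((Equiv.mulRight γ δ : Γ) : SO E)) w = act (toM (δ : SO E)) (γ • w) := by
    rw [Equiv.coe_mulRight, Subgroup.coe_mul, toM_mul, act_mul (hd _) (hd _)]
    rfl
  rw [e]
theorem wOf_pos (Γ : Subgroup (SO E)) (w : HH E) : 0 < wOf Γ w :=
  div_pos (Real.exp_pos _)
    ((u1_summable Γ w).tsum_pos (fun _ => (Real.exp_pos _).le) 1 (Real.exp_pos _))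

/-- Lines.  For `v ≠ 0` and a place `σ` write `u = σ c · y`, `u' = σ c · z + σ d`, so that
`y Q = |u|² + |u'|²`; the slope `u/u'` or `u'/u` (the one of modulus `≤ 1`) is a point of one of
two discs, and `|σ det (v, v')| ≤ T_σ |slope - slope'|` in the same chart.  Cut all the discs in
cells of the same size `λ` with `λ^{2r} ∏ T² < 1`: in a cell `nr (det) < 1`, so `det = 0`. -/
theorem card_lines_le : ∃ C : ℝ, 0 < C ∧ ∀ (w : HH E) (a : Pl E → ℝ) (S : Finset (E × E)),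
    (∀ v ∈ S, IsIntegral ℤ v.1 ∧ IsIntegral ℤ v.2 ∧ (v.1 ≠ 0 ∨ v.2 ≠ 0) ∧
      ∀ σ, Qv w v.1 v.2 σ ≤ Real.exp (-a σ)) →
    (∀ v ∈ S, ∀ v' ∈ S, v.1 * v'.2 - v'.1 * v.2 = 0 → v = v') →
    (S.card : ℝ) ≤ C * (1 + Real.exp (-2 * ∑ σ, a σ)) := by
  classical
  refine ⟨2 ^ rk E * 50 ^ rk E, by positivity, fun w a S hS hinj => ?_⟩
  obtain ⟨N, hN, h1, h2⟩ := b1a_mesh (rk_pos (E := E)) (Real.exp_pos (-2 * ∑ σ, a σ)).le
  have hN' : (0 : ℝ) < N := by exact_mod_cast hN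
  set ch : E × E → Pl E → Bool := fun v σ =>
    decide (‖σ.1 v.1 * (R17.hy (w σ) : ℂ)‖ ≤ ‖σ.1 v.1 * (w σ).1 + σ.1 v.2‖) with hch
  have hfib : ∀ b : Pl E → Bool, ((S.filter fun v => ch v = b).card : ℝ) ≤
      50 ^ rk E * (1 + Real.exp (-2 * ∑ σ, a σ)) := by
    intro b
    refine (b1a_cell_card (S.filter fun v => ch v = b)
      (fun v σ => u1_slope (σ.1 v.1 * (R17.hy (w σ) : ℂ)) (σ.1 v.1 * (w σ).1 + σ.1 v.2)) hN
      (fun _ _ _ => u1_slope_le _ _) fun v hv v' hv' hvv => ?_).trans h2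
    obtain ⟨hv, hb⟩ := Finset.mem_filter.1 hv
    obtain ⟨hv', hb'⟩ := Finset.mem_filter.1 hv'
    refine hinj v hv v' hv' ?_
    by_contra hne
    obtain ⟨i1, i2, n1, q1⟩ := hS v hv
    obtain ⟨j1, j2, n2, q2⟩ := hS v' hv'
    have h4 := one_le_nr hne ((i1.mul j2).sub (j1.mul i2))
    have h5 : nr (v.1 * v'.2 - v'.1 * v.2) ≤
        ∏ σ : Pl E, (2 / (N : ℝ) ^ 2 * Real.exp (-2 * a σ)) := by
      refine Finset.prod_le_prod (fun σ _ => by positivity) fun σ _ => ?_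
      have h6 := u1_det_le (w σ) (Qv_pos w n1 σ) (Qv_pos w n2 σ) (q1 σ) (q2 σ)
        (decide_eq_decide.1 (congrFun (hb.trans hb'.symm) σ))
      have h7 : Real.exp (-a σ) ^ 2 = Real.exp (-2 * a σ) := by
        rw [← Real.exp_nat_mul]
        congr 1
        push_cast
        ring
      rw [map_sub, map_mul, map_mul, mul_comm (2 / (N : ℝ) ^ 2), ← h7]
      exact h6.trans (mul_le_mul_of_nonneg_left (hvv σ) (sq_nonneg _))
    rw [Finset.prod_mul_distrib, Finset.prod_const, Finset.card_univ, ← Real.exp_sum, div_pow,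
      ← pow_mul, ← Finset.mul_sum, div_mul_eq_mul_div] at h5
    exact absurd (h4.trans h5) (not_le.2 ((div_lt_one (by positivity)).2 h1))
  have hcard : S.card = ∑ b : Pl E → Bool, (S.filter fun v => ch v = b).card :=
    Finset.card_eq_sum_card_fiberwise fun _ _ => Finset.mem_univ _
  rw [hcard, Nat.cast_sum]
  refine (Finset.sum_le_sum fun b _ => hfib b).trans (le_of_eq ?_)
  rw [Finset.sum_const, Finset.card_univ, Fintype.card_fun, Fintype.card_bool, nsmul_eq_mul]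
  push_cast
  ring

/-- Primitive vectors in a box: proportional primitive vectors differ by a unit
(`card_units_le`). -/
theorem card_primitive_le : ∃ C : ℝ, 0 < C ∧ ∀ (w : HH E) (a : Pl E → ℝ) (S : Finset (E × E)),
    (∀ v ∈ S, (∃ γ : SO E, v = (toM γ 1 0, toM γ 1 1)) ∧
      ∀ σ, Real.exp (-(a σ + 1)) ≤ Qv w v.1 v.2 σ ∧ Qv w v.1 v.2 σ ≤ Real.exp (-a σ)) →
    (S.card : ℝ) ≤ C * (1 + Real.exp (-2 * ∑ σ, a σ)) := by
  classical
  obtain ⟨C₁, hC₁, h₁⟩ := card_lines_le (E := E)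
  obtain ⟨C₂, h₂⟩ := card_units_le (E := E) 1
  have hC₂ : 0 ≤ C₂ := by simpa using h₂ 0 ∅ (by simp)
  refine ⟨(C₂ + 1) * C₁, by positivity, fun w a S hS => ?_⟩
  set k : E × E → Option E := fun v => if v.1 = 0 then none else some (v.2 / v.1) with hk
  have hne : ∀ v ∈ S, v.1 ≠ 0 ∨ v.2 ≠ 0 := fun v hv => by
    obtain ⟨⟨γ, rfl⟩, -⟩ := hS v hv
    exact u1_ne γ
  have hkd : ∀ v ∈ S, ∀ v' ∈ S, k v = k v' ↔ v.1 * v'.2 - v'.1 * v.2 = 0 := by
    intro v hv v' hv'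
    by_cases h : v.1 = 0 <;> by_cases h' : v'.1 = 0
    · simp [hk, h, h']
    · simp [hk, h, h', (hne v hv).resolve_left (not_not.2 h)]
    · simp [hk, h, h', (hne v' hv').resolve_left (not_not.2 h')]
    · simp only [hk, if_neg h, if_neg h', Option.some.injEq]
      rw [div_eq_div_iff h h']
      constructor <;> intro e <;> linear_combination -e
  obtain ⟨S', hS', hinj, himg⟩ := Finset.exists_subset_injOn_image_eq_of_surjOn (f := k)
    (S : Set (E × E)) (S.image k) (by rw [Finset.coe_image]; exact Set.surjOn_image _ _)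
  have h3 : ((S.image k).card : ℝ) ≤ C₁ * (1 + Real.exp (-2 * ∑ σ, a σ)) := by
    rw [← himg, Finset.card_image_of_injOn hinj]
    refine h₁ w a S' (fun v hv => ?_) fun v hv v' hv' h =>
      hinj hv hv' ((hkd v (hS' hv) v' (hS' hv')).2 h)
    obtain ⟨⟨γ, e⟩, h⟩ := hS v (hS' hv)
    refine ⟨?_, ?_, hne v (hS' hv), fun σ => (h σ).2⟩
    · rw [e]; exact isIntegral_toM γ 1 0
    · rw [e]; exact isIntegral_toM γ 1 1
  have h4 : ∀ b ∈ S.image k, ((S.filter fun v => k v = b).card : ℝ) ≤ C₂ := by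
    intro b hb
    obtain ⟨v₀, hv₀, rfl⟩ := Finset.mem_image.1 hb
    have hex : ∀ v ∈ S.filter fun v => k v = k v₀, ∃ u : (𝓞 E)ˣ,
        v.1 = ((u : 𝓞 E) : E) * v₀.1 ∧ v.2 = ((u : 𝓞 E) : E) * v₀.2 := by
      intro v hv
      obtain ⟨hv1, e⟩ := Finset.mem_filter.1 hv
      have hd := (hkd v₀ hv₀ v hv1).1 e.symm
      obtain ⟨⟨γ, e₀⟩, -⟩ := hS v₀ hv₀
      obtain ⟨⟨γ', e₁⟩, -⟩ := hS v hv1
      rw [e₀, e₁] at hd ⊢
      exact u1_unit γ γ' hd
    choose! u hu using hex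
    have hui : Set.InjOn u (S.filter fun v => k v = k v₀) := fun v hv v' hv' e =>
      Prod.ext (by rw [(hu v hv).1, (hu v' hv').1, e]) (by rw [(hu v hv).2, (hu v' hv').2, e])
    rw [← Finset.card_image_of_injOn hui]
    refine h₂ 0 _ fun x hx σ => ?_
    obtain ⟨v, hv, rfl⟩ := Finset.mem_image.1 hx
    have h5 := (hS v (Finset.mem_filter.1 hv).1).2 σ
    have h6 := (hS v₀ hv₀).2 σ
    rw [(hu v hv).1, (hu v hv).2, Qv_mul, ← exp_lg (BoxU_ne _)] at h5
    have hp := Real.exp_pos (lg (((u v : (𝓞 E)ˣ) : 𝓞 E) : E) σ)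
    have h7 := h5.1.trans (mul_le_mul_of_nonneg_left h6.2 hp.le)
    have h8 := (mul_le_mul_of_nonneg_left h6.1 hp.le).trans h5.2
    rw [← Real.exp_add, Real.exp_le_exp] at h7 h8
    rw [Pi.zero_apply, zero_add, abs_le]
    constructor <;> linarith
  rw [Finset.card_eq_sum_card_image k S, Nat.cast_sum]
  refine (Finset.sum_le_sum h4).trans ?_
  rw [Finset.sum_const, nsmul_eq_mul, mul_comm, mul_assoc]
  exact mul_le_mul (by linarith) h3 (Nat.cast_nonneg _) (by linarith)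

omit [NumberField E] [Om E] in
theorem unf2_det (t : E) : (!![1, t; 0, 1] : Mt E).det = 1 := by simp [Matrix.det_fin_two]

omit [NumberField E] [Om E] in
theorem unf2_row (t : E) (m : Mt E) (j : Fin 2) : ((!![1, t; 0, 1] : Mt E) * m) 1 j = m 1 j := by
  simp [Matrix.mul_apply, Fin.sum_univ_two]

/-- The weights of the elements of `g Γ` with a given second row add up to `1`. -/
theorem unf2_fiber {Γ : Subgroup (SO E)} {g : Mt E} (hg : g.det = 1) (hL : IsLat (Lg Γ g))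
    (w : HH E) {v : E × E} (hv : ∃ γ ∈ Γ, v.1 = (g * toM γ) 1 0 ∧ v.2 = (g * toM γ) 1 1) :
    HasSum (fun γ : {γ : Γ // ((g * toM (γ : SO E)) 1 0, (g * toM (γ : SO E)) 1 1) = v} =>
      wtL (Lg Γ g) (zc (act (g * toM (γ.1 : SO E)) w))) 1 := by
  obtain ⟨γ₀, hγ₀, h0, h1⟩ := hv
  have hex : ∀ t : Lg Γ g, ∃ γ ∈ Γ, g * toM γ = !![1, (t : E); 0, 1] * g := fun t => t.2
  choose δ hδ hδ' using hex
  have e : ∀ t : Lg Γ g, g * toM (δ t * γ₀) = !![1, (t : E); 0, 1] * (g * toM γ₀) := fun t => by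
    rw [toM_mul, ← Matrix.mul_assoc, hδ', Matrix.mul_assoc]
  have hd : (g * toM γ₀).det = 1 := by rw [Matrix.det_mul, hg, det_toM, one_mul]
  let f : Lg Γ g → {γ : Γ // ((g * toM (γ : SO E)) 1 0, (g * toM (γ : SO E)) 1 1) = v} :=
    fun t => ⟨⟨δ t * γ₀, Γ.mul_mem (hδ t) hγ₀⟩, Prod.ext
      (by simp only [e, unf2_row]; exact h0.symm) (by simp only [e, unf2_row]; exact h1.symm)⟩
  have hf : Function.Bijective f := by
    refine ⟨fun s t hst => ?_, fun γ => ?_⟩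
    · have e1 : δ s * γ₀ = δ t * γ₀ := congrArg (fun x => (x.1 : SO E)) hst
      have e2 := (e s).symm.trans (e1 ▸ e t)
      have hu : IsUnit (g * toM γ₀) :=
        (Matrix.isUnit_iff_isUnit_det _).2 (by rw [hd]; exact isUnit_one)
      have e3 := congrFun (congrFun (hu.mul_right_cancel e2) 0) 1
      exact Subtype.ext (by simpa using e3)
    · obtain ⟨t, ht, h2⟩ := exists_Lg hg hγ₀ γ.1.2
        (h0.symm.trans (congrArg Prod.fst γ.2).symm) (h1.symm.trans (congrArg Prod.snd γ.2).symm)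
      have hu : IsUnit g := (Matrix.isUnit_iff_isUnit_det _).2 (by rw [hg]; exact isUnit_one)
      exact ⟨⟨t, ht⟩, Subtype.ext (Subtype.ext
        (toM_injective (hu.mul_left_cancel ((e ⟨t, ht⟩).trans h2.symm))))⟩
  rw [← (Equiv.ofBijective f hf).hasSum_iff]
  convert hasSum_wtL hL (zc (act (g * toM γ₀) w)) using 2 with t
  change wtL _ (zc (act (g * toM (δ t * γ₀)) w)) = _
  rw [e, act_mul (by rw [unf2_det]; exact one_ne_zero) (by rw [hd]; exact one_ne_zero), act_transl,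
    zc_mkH]

open Classical in
/-- Multiplicity with which a strip covers `Γ \ HH`. -/
theorem tsum_strip_le : ∃ C : ℝ, 0 < C ∧ ∀ (Γ : Subgroup (SO E)) (a : Pl E → ℝ) (w : HH E),
    IsLat (Lg Γ 1) →
    ∑' γ : Γ, (if vc ((γ : SO E) • w) ∈ bx a then
        ENNReal.ofReal (wtL (Lg Γ 1) (zc ((γ : SO E) • w))) else 0) ≤
      ENNReal.ofReal (C * (1 + Real.exp (-2 * ∑ σ, a σ))) := by
  obtain ⟨C, hC, h⟩ := card_primitive_le (E := E)
  refine ⟨C, hC, fun Γ a w hL => ?_⟩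
  set row : Γ → E × E := fun γ =>
    (((1 : Mt E) * toM (γ : SO E)) 1 0, ((1 : Mt E) * toM (γ : SO E)) 1 1) with hrow
  set P : E × E → Prop := fun v => (∃ γ : SO E, v = (toM γ 1 0, toM γ 1 1)) ∧
    ∀ σ, Real.exp (-(a σ + 1)) ≤ Qv w v.1 v.2 σ ∧ Qv w v.1 v.2 σ ≤ Real.exp (-a σ) with hP
  have hPr : ∀ γ : Γ, vc ((γ : SO E) • w) ∈ bx a → P (row γ) := fun γ hγ => by
    simp only [hP, hrow, Matrix.one_mul]
    refine ⟨⟨γ, rfl⟩, fun σ => ?_⟩
    have h1 := exp_vc_act (g := toM (γ : SO E)) (by rw [det_toM]; exact one_ne_zero) w σ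
    rw [det_toM, map_one, norm_one, ← smul_def, one_div, ← inv_eq_iff_eq_inv, ← Real.exp_neg] at h1
    rw [← h1]
    exact ⟨Real.exp_le_exp.2 (neg_le_neg (hγ.2 σ)), Real.exp_le_exp.2 (neg_le_neg (hγ.1 σ))⟩
  have h1 : ∀ v : E × E, ∑' γ : {γ : Γ // row γ = v}, (if vc ((γ.1 : SO E) • w) ∈ bx a then
      ENNReal.ofReal (wtL (Lg Γ 1) (zc ((γ.1 : SO E) • w))) else 0) ≤ if P v then 1 else 0 := by
    intro v
    by_cases hv : ∃ γ : Γ, row γ = v ∧ vc ((γ : SO E) • w) ∈ bx a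
    · obtain ⟨γ₀, rfl, hγ₀⟩ := hv
      have hs := unf2_fiber Matrix.det_one hL w (v := row γ₀) ⟨γ₀, γ₀.2, rfl, rfl⟩
      rw [if_pos (hPr γ₀ hγ₀), ← ENNReal.ofReal_one, ← hs.tsum_eq,
        ENNReal.ofReal_tsum_of_nonneg (fun _ => (wtL_pos hL _).le) hs.summable]
      refine ENNReal.tsum_le_tsum fun γ => ?_
      rw [Matrix.one_mul, ← smul_def]
      split_ifs
      exacts [le_rfl, zero_le]
    · rw [ENNReal.tsum_eq_zero.2 fun γ => if_neg fun hγ => hv ⟨γ.1, γ.2, hγ⟩]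
      exact zero_le
  rw [← (Equiv.sigmaFiberEquiv row).tsum_eq, ENNReal.tsum_sigma']
  refine (ENNReal.tsum_le_tsum h1).trans ?_
  rw [ENNReal.tsum_eq_iSup_sum]
  refine iSup_le fun T => ?_
  rw [Finset.sum_boole, ← ENNReal.ofReal_natCast]
  exact ENNReal.ofReal_le_ofReal (h w a _ fun v hv => (Finset.mem_filter.1 hv).2)

/-- Passing from the global norm to the Fourier coefficients (`lintegral_strip`,
`IsWt.lintegral_le`, `tsum_strip_le`). -/
theorem strip_le_N2 {Γ : Subgroup (SO E)} (hΓ : Γ.FiniteIndex) : ∃ C : ℝ, 0 < C ∧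
    ∀ (f : HH E → ℂ) (A : E → (Pl E → ℝ) → ℂ) (a : Pl E → ℝ), FExp (Lg Γ 1) f A →
      (∀ γ ∈ Γ, ∀ w, f (γ • w) = f w) →
      ∑' ν, ∫⁻ v in bx a, ‖A ν v‖ₑ ^ 2 ≤
        ENNReal.ofReal (C * (1 + Real.exp (2 * ∑ σ, a σ))) * N2 Γ f := by
  classical
  obtain ⟨C, hC, h⟩ := tsum_strip_le (E := E)
  have hL : IsLat (Lg Γ 1) := isLat_Lg hΓ Matrix.det_one
  have hV := vol_pos hL
  refine ⟨(vol (Lg Γ 1))⁻¹ * Real.exp (2 * rk E) * C, by positivity, fun f A a hA hinv => ?_⟩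
  have hS : MeasurableSet (bx a) := measurableSet_Icc
  have key := lintegral_strip hL hA hS
  have hφm : Measurable ((vc ⁻¹' bx a).indicator
      fun w : HH E => ENNReal.ofReal (wtL (Lg Γ 1) (zc w))) :=
    (((continuous_wtL hL).comp continuous_zc).measurable.ennreal_ofReal).indicator
      (continuous_vc.measurable hS)
  have h1 := (isWt_wOf Γ).lintegral_le (μ := μE E)
    (fun γ => measurePreserving_smul (γ : SO E)) (F := fun w => ‖f w‖ₑ ^ 2) hφm
    (hA.1.enorm.pow_const 2) (fun γ w => congrArg (fun x => ‖x‖ₑ ^ 2) (hinv γ γ.2 w))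
    (m := ENNReal.ofReal (C * (1 + Real.exp (-2 * ∑ σ, a σ)))) (fun w => by
      refine le_trans (le_of_eq (tsum_congr fun δ => ?_)) (h Γ a w hL)
      rw [Set.indicator_apply]
      rfl)
  rw [key] at h1
  set K : ℝ := Real.exp (2 * rk E) * Real.exp (2 * ∑ σ, a σ) with hK
  have h2 : ∑' ν, ∫⁻ v in bx a, ‖A ν v‖ₑ ^ 2 ≤ ENNReal.ofReal K *
      ∑' ν, ∫⁻ v in bx a, ‖A ν v‖ₑ ^ 2 * ENNReal.ofReal (Real.exp (-2 * ∑ σ, v σ)) := by
    rw [← ENNReal.tsum_mul_left]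
    refine ENNReal.tsum_le_tsum fun ν => ?_
    rw [← lintegral_const_mul' _ _ ENNReal.ofReal_ne_top]
    refine setLIntegral_mono' hS fun v hv => ?_
    rw [mul_left_comm, ← ENNReal.ofReal_mul (by positivity)]
    refine le_mul_of_one_le_right' (ENNReal.one_le_ofReal.2 ?_)
    rw [hK, ← Real.exp_add, ← Real.exp_add]
    refine Real.one_le_exp ?_
    have h3 : ∑ σ, v σ ≤ ∑ σ, (a σ + 1) := Finset.sum_le_sum fun σ _ => hv.2 σ
    rw [Finset.sum_add_distrib, Finset.sum_const, Finset.card_univ, nsmul_eq_mul, mul_one] at h3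
    linarith
  have hV' : ENNReal.ofReal (vol (Lg Γ 1))⁻¹ * ENNReal.ofReal (vol (Lg Γ 1)) = 1 := by
    rw [← ENNReal.ofReal_mul (inv_pos.2 hV).le, inv_mul_cancel₀ hV.ne', ENNReal.ofReal_one]
  refine h2.trans ?_
  calc _ = ENNReal.ofReal K * (ENNReal.ofReal (vol (Lg Γ 1))⁻¹ * (ENNReal.ofReal (vol (Lg Γ 1)) *
        ∑' ν, ∫⁻ v in bx a, ‖A ν v‖ₑ ^ 2 * ENNReal.ofReal (Real.exp (-2 * ∑ σ, v σ)))) := by
        rw [← mul_assoc (ENNReal.ofReal (vol (Lg Γ 1))⁻¹), hV', one_mul]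
    _ ≤ ENNReal.ofReal K * (ENNReal.ofReal (vol (Lg Γ 1))⁻¹ *
        (ENNReal.ofReal (C * (1 + Real.exp (-2 * ∑ σ, a σ))) * N2 Γ f)) := by
        exact mul_le_mul_right (mul_le_mul_right h1 _) _
    _ = _ := by
        rw [← mul_assoc, ← mul_assoc, ← ENNReal.ofReal_mul (by positivity),
          ← ENNReal.ofReal_mul (by positivity)]
        congr 2
        have : Real.exp (2 * ∑ σ, a σ) * Real.exp (-2 * ∑ σ, a σ) = 1 := by
          rw [← Real.exp_add]; simp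
        rw [hK]
        linear_combination ((vol (Lg Γ 1))⁻¹ * Real.exp (2 * rk E) * C) * this

/-- Folding a sum over an orbit of row vectors into a sum over the group
(as `R17.hasSum_fold`; the fibres are the cosets of `Lg Γ g`, `exists_Lg`, `hasSum_wtL`). -/
theorem hasSum_fold {Γ : Subgroup (SO E)} (hΓ : Γ.FiniteIndex) {g : Mt E} (hg : g.det = 1)
    (w : HH E) {G : E × E → ℂ} (hG : Summable fun v => ‖G v‖)
    (h0 : ∀ v, G v ≠ 0 → ∃ γ ∈ Γ, v.1 = (g * toM γ) 1 0 ∧ v.2 = (g * toM γ) 1 1) :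
    HasSum (fun γ : Γ => (wtL (Lg Γ g) (zc (act (g * toM (γ : SO E)) w)) : ℂ) *
      G ((g * toM (γ : SO E)) 1 0, (g * toM (γ : SO E)) 1 1)) (∑' v, G v) := by
  have hL := isLat_Lg hΓ hg
  set row : Γ → E × E := fun γ => ((g * toM (γ : SO E)) 1 0, (g * toM (γ : SO E)) 1 1) with hrow
  have f1 : ∀ v, HasSum (fun γ : {γ : Γ // row γ = v} =>
      (wtL (Lg Γ g) (zc (act (g * toM (γ.1 : SO E)) w)) : ℂ) * G (row γ.1)) (G v) := fun v => by
    simp only [fun γ : {γ : Γ // row γ = v} => γ.2]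
    by_cases hv : G v = 0
    · simp only [hv, mul_zero]; exact hasSum_zero
    · simpa using (Complex.hasSum_ofReal.2 (unf2_fiber hg hL w (h0 v hv))).mul_right (G v)
  have f2 : ∀ v, HasSum (fun γ : {γ : Γ // row γ = v} =>
      ‖(wtL (Lg Γ g) (zc (act (g * toM (γ.1 : SO E)) w)) : ℂ) * G (row γ.1)‖) ‖G v‖ := fun v => by
    simp only [fun γ : {γ : Γ // row γ = v} => γ.2, norm_mul, Complex.norm_real,
      Real.norm_of_nonneg (wtL_pos hL _).le]
    by_cases hv : G v = 0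
    · simp only [hv, norm_zero, mul_zero]; exact hasSum_zero
    · simpa using (unf2_fiber hg hL w (h0 v hv)).mul_right ‖G v‖
  rw [← (Equiv.sigmaFiberEquiv row).hasSum_iff]
  have s : Summable fun x : Σ v, {γ : Γ // row γ = v} =>
      (wtL (Lg Γ g) (zc (act (g * toM (x.2.1 : SO E)) w)) : ℂ) * G (row x.2.1) := by
    refine Summable.of_norm ((summable_sigma_of_nonneg fun _ => norm_nonneg _).2
      ⟨fun v => (f2 v).summable, ?_⟩)
    simpa only [fun v => (f2 v).tsum_eq] using hG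
  rw [(s.hasSum.sigma f1).tsum_eq]
  exact s.hasSum

end Crest.Agent.R312
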