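import Mathlib

/-!
# Row 312 (B): adjoining an `l`-th root to a number field generated by one element
-/

set_option autoImplicit false

noncomputable section

namespace Crest.Agent.R312

open Polynomial

theorem ZAC.adjoin_two {K E : Type} [Field K] [CharZero K] [Field E] [CharZero E] [Algebra K E]
    {ζ : K} {α : E} (hζ : Algebra.adjoin ℚ ({ζ} : Set K) = ⊤)
    (hα : Algebra.adjoin K ({α} : Set E) = ⊤) :
    Algebra.adjoin ℚ ({algebraMap K E ζ, α} : Set E) = ⊤ := by
  set T := Algebra.adjoin ℚ ({algebraMap K E ζ, α} : Set E) with hT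
  have h1 : ∀ x : K, algebraMap K E x ∈ T := fun x => by
    have hx : x ∈ Algebra.adjoin ℚ ({ζ} : Set K) := hζ ▸ Algebra.mem_top
    induction hx using Algebra.adjoin_induction with
    | mem y hy =>
      rw [Set.mem_singleton_iff.1 hy]
      exact Algebra.subset_adjoin (by simp)
    | algebraMap q =>
      rw [← IsScalarTower.algebraMap_apply]
      exact T.algebraMap_mem q
    | add y z _ _ hy hz => rw [map_add]; exact T.add_mem hy hz
    | mul y z _ _ hy hz => rw [map_mul]; exact T.mul_mem hy hz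
  refine eq_top_iff.2 fun x hx0 => ?_
  clear hx0
  have hx : x ∈ Algebra.adjoin K ({α} : Set E) := hα ▸ Algebra.mem_top
  induction hx using Algebra.adjoin_induction with
  | mem y hy =>
    rw [Set.mem_singleton_iff.1 hy]
    exact Algebra.subset_adjoin (by simp)
  | algebraMap q => exact h1 q
  | add y z _ _ hy hz => exact T.add_mem hy hz
  | mul y z _ _ hy hz => exact T.mul_mem hy hz

theorem ZAC.exists_ext {K : Type} [Field K] [NumberField K] {l : ℕ} (hl : 0 < l) {c : K}
    (h : ¬ ∃ α : K, α ^ l = c) :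
    ∃ (E : Type) (_ : Field E) (_ : NumberField E) (_ : Algebra K E) (α : E),
      α ^ l = algebraMap K E c ∧ Algebra.adjoin K ({α} : Set E) = ⊤ ∧
      2 * Module.finrank ℚ K ≤ Module.finrank ℚ E := by
  obtain ⟨f, hf, hfd⟩ := exists_irreducible_of_degree_pos (f := (X ^ l - C c : K[X]))
    (by rw [degree_X_pow_sub_C hl]; exact_mod_cast hl)
  have : Fact (Irreducible f) := ⟨hf⟩
  have hfin : Module.Finite K (AdjoinRoot f) := (AdjoinRoot.powerBasis hf.ne_zero).finite
  have hnf : NumberField (AdjoinRoot f) := NumberField.of_module_finite K (AdjoinRoot f)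
  refine ⟨AdjoinRoot f, inferInstance, hnf, inferInstance, AdjoinRoot.root f, ?_,
    AdjoinRoot.adjoinRoot_eq_top, ?_⟩
  · have h1 : aeval (AdjoinRoot.root f) (X ^ l - C c : K[X]) = 0 := by
      rw [AdjoinRoot.aeval_eq, AdjoinRoot.mk_eq_zero]; exact hfd
    simpa [sub_eq_zero] using h1
  · have h1 : Module.finrank K (AdjoinRoot f) = f.natDegree := by
      rw [(AdjoinRoot.powerBasis hf.ne_zero).finrank, AdjoinRoot.powerBasis_dim]
    have h2 : 2 ≤ f.natDegree := by
      by_contra hc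
      have h3 : f.natDegree = 1 := by
        have := hf.natDegree_pos
        omega
      obtain ⟨x, hx⟩ := exists_root_of_degree_eq_one ((degree_eq_iff_natDegree_eq_of_pos one_pos).2 h3)
      refine h ⟨x, ?_⟩
      have h4 := hx.dvd hfd
      simpa [sub_eq_zero] using h4
    have h3 := Module.finrank_mul_finrank ℚ K (AdjoinRoot f)
    rw [h1] at h3
    calc 2 * Module.finrank ℚ K ≤ f.natDegree * Module.finrank ℚ K := Nat.mul_le_mul_right _ h2
      _ = _ := by rw [mul_comm]; convert h3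

theorem ZAC.omega {F : Type} [Field F] {l : ℕ} (hl : 0 < l) {ζ : F}
    (hζ : IsPrimitiveRoot ζ (3 * l)) : ∃ ω : F, ω ^ 2 + ω + 1 = 0 := by
  have h1 : IsPrimitiveRoot (ζ ^ l) 3 := hζ.pow (by omega) (mul_comm _ _)
  have h2 := h1.geom_sum_eq_zero (by norm_num)
  refine ⟨ζ ^ l, ?_⟩
  simp only [Finset.sum_range_succ, Finset.sum_range_zero] at h2
  linear_combination h2

theorem ZAC.log_le {p : ℕ} (h3 : 3 < p) :
    (2 : ℝ) ≤ Nat.log 2 p ∧ Real.log p ≤ 2 * Nat.log 2 p := by
  have h1 : 2 ≤ Nat.log 2 p := Nat.le_log_of_pow_le (by norm_num) (by omega)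
  have h2 : (2 : ℝ) ≤ Nat.log 2 p := by exact_mod_cast h1
  refine ⟨h2, ?_⟩
  have h4 : (p : ℝ) ≤ 2 ^ (Nat.log 2 p + 1) := by
    exact_mod_cast (Nat.lt_pow_succ_log_self (b := 2) (by norm_num) p).le
  have h5 := Real.log_le_log (by exact_mod_cast (show 0 < p by omega)) h4
  rw [Real.log_pow] at h5
  push_cast at h5
  have h6 := Real.log_two_lt_d9
  nlinarith

theorem ZAC.num {l g : ℝ} (hl : 1 ≤ l) (hg : 2 ≤ g) :
    3 * l + 18 * l ^ 2 ≤ 100 * (l * g + 2) ^ 4 ∧
      3 * l ^ 2 + 18 * l ^ 4 + 12 * (l ^ 2 * g) ≤ 100 * (l * g + 2) ^ 4 := by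
  set L := l * g + 2 with hL
  have h1 : l ≤ L := by nlinarith
  have h2 : l * g ≤ L := by linarith
  have h3 : 1 ≤ L := hl.trans h1
  have h4 : l ^ 2 ≤ L ^ 2 := pow_le_pow_left₀ (by linarith) h1 2
  have h5 : l ^ 4 ≤ L ^ 4 := pow_le_pow_left₀ (by linarith) h1 4
  have h6 : L ^ 2 ≤ L ^ 4 := pow_le_pow_right₀ h3 (by norm_num)
  have h7 : L ≤ L ^ 4 := le_self_pow₀ h3 (by norm_num)
  have h8 : l ^ 2 * g ≤ L ^ 2 := by
    rw [sq, sq, mul_assoc]
    exact mul_le_mul h1 h2 (by positivity) (by linarith)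
  constructor <;> linarith

end Crest.Agent.R312
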