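import Crest.Agent.R312.ZEul
import Crest.Agent.R27.KumB
import Crest.Agent.R27.KumC
import Crest.Agent.R312.ZAlgAuxC

/-!
# Row 312 (B): the fields `K = ℚ(ζ_{3l})` and `E = K(p^{1/l})`

Realise them as intermediate fields of `ℂ/ℚ`: `ζ = exp(2πi/(3l))`, `α = p^{1/l}`, `K = ℚ⟮ζ⟯`,
`E = ℚ⟮ζ, α⟯`, spanned by the monomials `ζ^i`, `ζ^i α^j` (`i < 3l`, `j < l`), so the degrees are
`≤ 3l`, `≤ 3l²`; all conjugates of the monomials are `≤ p`; `exists_order`.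
`α ∉ K`: `p` is unramified in `K` (`IsCyclotomicExtension.Rat.ramificationIdx_eq_of_not_dvd`, or
`adjoin_singleton_eq_top` and `x^q ≡ x mod p` for `q = p^{φ(3l)}`), so `[K:ℚ]` is a proper divisor of
`[E:ℚ]`.  An ideal of `𝓞 K` of prime norm `r ∤ 3l` forces `r ≡ 1 mod 3l`
(`inertiaDeg_eq_of_not_dvd` or `Ideal.rootsOfUnityMapQuot_injective`).  If `r ≡ 1 mod 3l` and
`x^l = p` in `ZMod r`, `r ≠ p`, then `ζ^r = ζ`, `α^r = α p^{(r-1)/l} ≡ α mod r`: `frob_of_span`,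
`deg1_eq`.
-/

set_option autoImplicit false

noncomputable section

namespace Crest.Agent.R312

open NumberField MeasureTheory Filter
open scoped Topology ENNReal NNReal

/-- Fields generated by a root of unity and a radical (for `K` take `α = 1`, `l = p = 1`). -/
theorem gen_two {F : Type} [Field F] [NumberField F] {ζ α : F} {N l p : ℕ} (hN : 0 < N)
    (hl : l ∣ N) (hp : 0 < p) (hζ : IsPrimitiveRoot ζ N) (hα : α ^ l = (p : F))
    (htop : Algebra.adjoin ℚ ({ζ, α} : Set F) = ⊤) :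
    Module.finrank ℚ F ≤ N * l ∧ ∃ D : ℕ, D ≠ 0 ∧ |(discr F : ℝ)| ≤ D ∧
      Real.log D ≤ 2 * ((N : ℝ) * l) ^ 2 + 2 * ((N : ℝ) * l) * Real.log p ∧
      ∀ r : ℕ, r.Prime → N ∣ r - 1 → l ∣ r - 1 → ¬ r ∣ p → ¬ r ∣ D →
        (∃ x : ZMod r, x ^ l = (p : ZMod r)) → deg1 F r = Module.finrank ℚ F := by
  have hl0 : 0 < l := Nat.pos_of_dvd_of_pos hl hN
  replace htop := IntermediateField.adjoin_eq_top_of_algebra ℚ _ htop
  have hα' : α ^ l = ((p : ℤ) : F) := by rw [hα, Int.cast_natCast]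
  obtain ⟨h1, h2⟩ := R27.log_discr_kum hN.ne' hl0.ne' (a := p) (by exact_mod_cast hp.ne')
    hζ.pow_eq_one hα' htop
  have hd : (((discr F).natAbs : ℕ) : ℝ) = |(discr F : ℝ)| := by
    rw [Nat.cast_natAbs, Int.cast_abs]
  refine ⟨h1, (discr F).natAbs, Int.natAbs_ne_zero.2 (discr_ne_zero F), hd.ge, ?_,
    fun r hr hNr hlr hrp _ ⟨x, hx⟩ => le_antisymm (deg1_le hr) ?_⟩
  · rw [hd]
    refine h2.trans ?_
    have hp1 : (1 : ℝ) ≤ p := by exact_mod_cast hp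
    have hNl : (1 : ℝ) ≤ (N : ℝ) * l := by exact_mod_cast Nat.mul_pos hN hl0
    have h3 : (Module.finrank ℚ F : ℝ) ≤ (N : ℝ) * l := by exact_mod_cast h1
    rw [Int.cast_natCast, Nat.abs_cast, Real.log_mul (by linarith) (by linarith)]
    have h4 := Real.log_le_sub_one_of_pos (show (0 : ℝ) < N * l by linarith)
    have h5 := Real.log_nonneg hp1
    have h6 := Real.log_nonneg hNl
    calc _ ≤ 2 * ((N : ℝ) * l) * (N * l + Real.log p) := by gcongr; linarith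
      _ = _ := by ring
  · have : Fact r.Prime := ⟨hr⟩
    have hx0 : x ≠ 0 := by
      rintro rfl
      rw [zero_pow hl0.ne', eq_comm, ZMod.natCast_eq_zero_iff] at hx
      exact hrp hx
    obtain ⟨S, hS, hS'⟩ := R27.split_kum hl hζ hα' htop hr hNr (by
      rw [Int.cast_natCast, ← hx, ← pow_mul, Nat.mul_div_cancel' hlr]
      exact ZMod.pow_card_sub_one_eq_one hx0)
    have : Finite {I : Ideal (𝓞 F) // Ideal.absNorm I = r} := Ideal.finite_setOfPred_absNorm_eq r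
    rw [← hS, deg1, ← Nat.card_eq_finsetCard]
    exact Nat.card_le_card_of_injective 
      (fun I : S => (⟨I.1, hS' I.1 I.2⟩ : {I : Ideal (𝓞 F) // Ideal.absNorm I = r}))
      fun I J h => Subtype.ext (Subtype.mk.inj h)

theorem cyclo_deg1 {K : Type} [Field K] [NumberField K] {N : ℕ} (hN : 1 < N) {ζ : K}
    (hζ : IsPrimitiveRoot ζ N) {r : ℕ} (hr : r.Prime) (h : deg1 K r ≠ 0) :
    r ∣ N ∨ r % N = 1 := by
  have : NeZero N := ⟨by omega⟩
  obtain ⟨⟨I, hI⟩⟩ := (Nat.card_ne_zero.1 h).1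
  by_cases hd : r ∣ N
  · exact Or.inl hd
  right
  have hI0 : I ≠ ⊥ := by
    rintro rfl
    rw [Ideal.absNorm_bot] at hI
    exact hr.ne_zero hI.symm
  have hP : I.IsPrime := Ideal.isPrime_of_irreducible_absNorm (hI ▸ hr)
  have : I.IsMaximal := Ring.DimensionLEOne.maximalOfPrime hI0 hP
  let _ := Ideal.Quotient.field I
  have : Finite (𝓞 K ⧸ I) := Ideal.finiteQuotientOfFreeOfNeBot I hI0
  let _ := Fintype.ofFinite (𝓞 K ⧸ I)
  have h1 := hζ.toInteger_isPrimitiveRoot.idealQuotient_mk (I := I) (hI ▸ hr.ne_one)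
    (hI ▸ hr.coprime_iff_not_dvd.2 hd)
  have h2 := h1.dvd_of_pow_eq_one _ (FiniteField.pow_card_sub_one_eq_one _
    (h1.ne_zero (by omega)))
  have h3 : Fintype.card (𝓞 K ⧸ I) = r := by
    rw [← hI, Ideal.absNorm_apply, Submodule.cardQuot_apply, Nat.card_eq_fintype_card]
  rw [h3] at h2
  obtain ⟨c, hc⟩ := h2
  have h4 : r = 1 + N * c := by have := hr.pos; omega
  rw [h4, Nat.add_mul_mod_self_left, Nat.mod_eq_of_lt hN]

theorem cyclo_no_root {K : Type} [Field K] [NumberField K] {N : ℕ} [NeZero N]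
    [IsCyclotomicExtension {N} ℚ K] {p l : ℕ} (hp : p.Prime) (hpN : ¬ p ∣ N) (hl : 2 ≤ l) :
    ¬ ∃ α : K, α ^ l = (p : K) := by
  rintro ⟨α, hα⟩
  have : Fact p.Prime := ⟨hp⟩
  have hint : IsIntegral ℤ α := by
    refine IsIntegral.of_pow (show 0 < l by omega) ?_
    rw [hα]
    exact_mod_cast isIntegral_algebraMap (x := (p : ℤ))
  obtain ⟨β, rfl⟩ : ∃ β : 𝓞 K, algebraMap (𝓞 K) K β = α := ⟨⟨α, hint⟩, rfl⟩
  have hβ : β ^ l = (p : 𝓞 K) :=
    RingOfIntegers.coe_injective (by rw [map_pow, map_natCast, hα])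
  have hp0 : Ideal.span {(p : ℤ)} ≠ ⊥ := by
    simpa using hp.ne_zero
  obtain ⟨⟨P, hP, hPo⟩⟩ := (Ideal.span {(p : ℤ)}).nonempty_primesOver (S := 𝓞 K)
  have h1 := IsCyclotomicExtension.Rat.ramificationIdx_eq_of_not_dvd p K P hpN
  rw [← Ideal.ramificationIdx'_eq_ramificationIdx (Ideal.span {(p : ℤ)}) P hp0] at h1
  have h2 : (Ideal.span {(p : ℤ)}).map (algebraMap ℤ (𝓞 K)) ≤ P :=
    Ideal.map_le_of_le_comap (P.over_def (Ideal.span {(p : ℤ)})).le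
  refine (Ideal.ramificationIdx'_ne_one_iff h2).2 ?_ h1
  rw [Ideal.map_span, Set.image_singleton, map_natCast, Ideal.span_singleton_le_iff_mem] at h2 ⊢
  rw [← hβ] at h2 ⊢
  exact Ideal.pow_le_pow_right hl (Ideal.pow_mem_pow (hP.mem_of_pow_mem l h2) l)

theorem exists_fields {l p : ℕ} (hl : l.Prime) (hp : p.Prime) (h3 : 3 < p) (hlp : l < p) :
    ∃ (K E : Type) (_ : Field K) (_ : NumberField K) (_ : Field E) (_ : NumberField E) (D : ℕ),
      (∃ ω : K, ω ^ 2 + ω + 1 = 0) ∧ (∃ ω : E, ω ^ 2 + ω + 1 = 0) ∧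
      2 * Module.finrank ℚ K ≤ Module.finrank ℚ E ∧ Module.finrank ℚ K ≤ 3 * l ∧
      cnd K ≤ 100 * ((l : ℝ) * Nat.log 2 p + 2) ^ 4 ∧ cnd E ≤ 100 * ((l : ℝ) * Nat.log 2 p + 2) ^ 4 ∧
      D ≠ 0 ∧ Real.log D ≤ 100 * ((l : ℝ) * Nat.log 2 p + 2) ^ 4 ∧
      (∀ r : ℕ, r.Prime → deg1 K r ≠ 0 → r ∣ 3 * l ∨ r % (3 * l) = 1) ∧
      ∀ r : ℕ, r.Prime → r % (3 * l) = 1 → r ≠ p → ¬ r ∣ D →
        (∃ x : ZMod r, x ^ l = (p : ZMod r)) → deg1 E r = Module.finrank ℚ E := by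
  have hl0 := hl.pos
  have hN : 0 < 3 * l := by omega
  have : NeZero (3 * l) := ⟨hN.ne'⟩
  have hpN : ¬ p ∣ 3 * l := fun h => by
    rcases (Nat.Prime.dvd_mul hp).1 h with h | h <;> have := Nat.le_of_dvd (by omega) h <;> omega
  obtain ⟨K, _, _, hK⟩ : ∃ (K : Type) (_ : Field K) (_ : NumberField K),
      IsCyclotomicExtension {3 * l} ℚ K :=
    ⟨CyclotomicField (3 * l) ℚ, inferInstance, inferInstance,
      by convert CyclotomicField.isCyclotomicExtension (3 * l) ℚ <;> rfl⟩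
  obtain ⟨ζ, hζ⟩ : ∃ ζ : K, IsPrimitiveRoot ζ (3 * l) :=
    ⟨_, IsCyclotomicExtension.zeta_spec (3 * l) ℚ K⟩
  have htop : Algebra.adjoin ℚ ({ζ} : Set K) = ⊤ :=
    IsCyclotomicExtension.adjoin_primitive_root_eq_top hζ
  obtain ⟨E, _, _, _, α, hα, hαtop, hdeg⟩ := ZAC.exists_ext hl0
    (cyclo_no_root (K := K) hp hpN hl.two_le)
  have hζE := hζ.map_of_injective (algebraMap K E).injective
  rw [map_natCast] at hα
  obtain ⟨k1, DK, k2, k3, k4, -⟩ := gen_two (α := 1) (l := 1) (p := 1) hN (one_dvd _) one_pos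
    hζ (by simp)
    (eq_top_iff.2 (htop.ge.trans (Algebra.adjoin_mono (Set.singleton_subset_iff.2 (by simp)))))
  obtain ⟨e1, D, e2, e3, e4, e5⟩ := gen_two hN (dvd_mul_left l 3) hp.pos hζE hα
    (ZAC.adjoin_two htop hαtop)
  obtain ⟨g1, g2⟩ := ZAC.log_le h3
  have hl1 : (1 : ℝ) ≤ l := by exact_mod_cast hl0
  obtain ⟨n1, n2⟩ := ZAC.num hl1 g1
  have hlog : ∀ (F : Type) [Field F] [NumberField F] (D : ℕ), |(discr F : ℝ)| ≤ D →
      Real.log |(discr F : ℝ)| ≤ Real.log D := fun F _ _ D h =>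
    Real.log_le_log (abs_pos.2 (by exact_mod_cast discr_ne_zero F)) h
  rw [mul_one] at k1
  have k1' : (Module.finrank ℚ K : ℝ) ≤ 3 * l := by exact_mod_cast k1
  have e1' : (Module.finrank ℚ E : ℝ) ≤ 3 * l * l := by exact_mod_cast e1
  push_cast at k4 e4
  rw [Real.log_one] at k4
  have e4' : Real.log D ≤ 18 * (l : ℝ) ^ 4 + 12 * ((l : ℝ) ^ 2 * Nat.log 2 p) := by
    nlinarith [mul_le_mul_of_nonneg_left g2 (sq_nonneg (l : ℝ))]
  refine ⟨K, E, inferInstance, inferInstance, inferInstance, inferInstance,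
    D, ZAC.omega hl0 hζ, ZAC.omega hl0 hζE, hdeg, k1, ?_, ?_, e2, ?_,
    fun r hr h => cyclo_deg1 (by omega) hζ hr h, fun r hr h1 h2 h4 h5 => ?_⟩
  · unfold cnd
    nlinarith [hlog _ _ k3]
  · unfold cnd
    nlinarith [hlog _ _ e3]
  · nlinarith [sq_nonneg (l : ℝ)]
  · have h6 : 3 * l ∣ r - 1 := by
      have := Nat.div_add_mod r (3 * l)
      exact ⟨r / (3 * l), by omega⟩
    exact e5 r hr h6 ((dvd_mul_left l 3).trans h6)
      (fun h => h2 ((Nat.prime_dvd_prime_iff_eq hr hp).1 h)) h4 h5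

end Crest.Agent.R312
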