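import Crest.Agent.R312.ZDefs
import Crest.Agent.R312.ZMelAux1

/-!
# Row 312 (B): abstract analytic continuation of a Mellin transform
-/

set_option autoImplicit false

noncomputable section

namespace Crest.Agent.R312

open NumberField MeasureTheory Filter
open scoped Topology ENNReal NNReal

/-- Holomorphy of a Laplace transform. -/
theorem differentiableOn_laplace {X : Type} [MeasurableSpace X] {μ : Measure X} {w : X → ℝ}
    (hw : Measurable w) {R : X → ℂ} (hR : AEStronglyMeasurable R μ) {a b : ℝ}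
    (ha : Integrable (fun x => ‖R x‖ * Real.exp (a * w x)) μ)
    (hb : Integrable (fun x => ‖R x‖ * Real.exp (b * w x)) μ) :
    DifferentiableOn ℂ (fun s : ℂ => ∫ x, R x * Complex.exp (s * w x) ∂μ)
      {s | a < s.re ∧ s.re < b} :=
  zmel_differentiableOn_laplace hw hR ha hb

/-- A translation invariant measure on `ℝ` with a finite moment is a multiple of the Lebesgue
measure (`isAddLeftInvariant_eq_smul`; `∫_{x<0} (e^{3x} - e^{4x}) dx = 1/12`). -/
theorem eq_smul_volume {ν : Measure ℝ} (hinv : ∀ c : ℝ, ν.map (fun x => x + c) = ν) {B : ℝ}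
    (hB0 : 0 ≤ B)
    (hB : ∫⁻ x in Set.Iio (0 : ℝ), ENNReal.ofReal (Real.exp (3 * x) - Real.exp (4 * x)) ∂ν ≤
      ENNReal.ofReal B) :
    ∃ V : ℝ≥0, ν = V • (volume : Measure ℝ) ∧ (V : ℝ) ≤ 12 * B :=
  zmel_eq_smul_volume hinv hB0 hB

theorem ZMelB_exp {X : Type} [MeasurableSpace X] {μ : Measure X} {w : X → ℝ} (hw : Measurable w)
    {V : ℝ≥0} (hV : μ.map w = V • (volume : Measure ℝ)) {z : ℂ} (hz : 0 < z.re) :
    IntegrableOn (fun x => Complex.exp (z * w x)) (w ⁻¹' Set.Iic 0) μ ∧
      ∫ x in w ⁻¹' Set.Iic 0, Complex.exp (z * w x) ∂μ = V / z := by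
  have hc : Continuous fun y : ℝ => Complex.exp (z * y) := by fun_prop
  constructor
  · have h1 : IntegrableOn (fun y : ℝ => Complex.exp (z * y)) (Set.Iic 0) (μ.map w) := by
      rw [hV, IntegrableOn, Measure.restrict_smul]
      exact (integrableOn_exp_mul_complex_Iic hz 0).smul_measure_nnreal
    rw [IntegrableOn, Measure.restrict_map hw measurableSet_Iic,
      integrable_map_measure hc.aestronglyMeasurable hw.aemeasurable] at h1
    exact h1
  · rw [← setIntegral_map (f := fun y : ℝ => Complex.exp (z * y)) measurableSet_Iic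
      hc.aestronglyMeasurable hw.aemeasurable, hV, Measure.restrict_smul,
      integral_smul_nnreal_measure, integral_exp_mul_complex_Iic hz]
    simp [NNReal.smul_def, div_eq_mul_inv]

theorem ZMelB_dom {X : Type} [MeasurableSpace X] {μ : Measure X} {w : X → ℝ} (hw : Measurable w)
    {R : X → ℂ} (hR : Measurable R) {S : Set X} (hS : MeasurableSet S) {G : X → ℝ}
    (hG : Integrable G μ) (hG0 : ∀ x, 0 ≤ G x) {σ : ℝ}
    (h : ∀ x ∈ S, ‖R x‖ * Real.exp (σ * w x) ≤ G x) :
    Integrable (fun x => ‖R x‖ * Real.exp (σ * w x)) (μ.restrict S) ∧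
      ∀ s : ℂ, s.re = σ → IntegrableOn (fun x => R x * Complex.exp (s * w x)) S μ ∧
        ‖∫ x in S, R x * Complex.exp (s * w x) ∂μ‖ ≤ ∫ x, G x ∂μ := by
  refine ⟨hG.integrableOn.mono' (Measurable.aestronglyMeasurable (by fun_prop)) ?_, fun s hs => ?_⟩
  · filter_upwards [ae_restrict_mem hS] with x hx
    rw [Real.norm_of_nonneg (by positivity)]
    exact h x hx
  · have hb : ∀ᵐ x ∂μ.restrict S, ‖R x * Complex.exp (s * w x)‖ ≤ G x := by
      filter_upwards [ae_restrict_mem hS] with x hx
      rw [norm_mul, Complex.norm_exp, Complex.mul_re, Complex.ofReal_im, Complex.ofReal_re,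
        mul_zero, sub_zero, hs]
      exact h x hx
    exact ⟨hG.integrableOn.mono' (Measurable.aestronglyMeasurable (by fun_prop)) hb,
      (norm_integral_le_of_norm_le hG.integrableOn hb).trans
        (setIntegral_le_integral hG (Eventually.of_forall hG0))⟩

/-- Split the integral at `w = 0`:
`Λ s = (s-1) ∫_{w ≥ 0} R e^{sw} + (s-1) ∫_{w<0} R' e^{(s-1)w} + V a - V a₀ (s-1)/s`. -/
theorem mel_cont {X : Type} [MeasurableSpace X] {μ : Measure X} {w : X → ℝ} (hw : Measurable w)
    {V : ℝ≥0} (hV : μ.map w = V • (volume : Measure ℝ)) {R R' : X → ℂ} (hR : Measurable R)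
    (hR' : Measurable R') {a a₀ : ℂ}
    (hfe : ∀ x, R x + a₀ = Complex.exp (-w x) * (R' x + a))
    (h1 : Integrable (fun x => ‖R x‖ * Real.exp (4 * w x)) μ)
    (h2 : Integrable (fun x => ‖R' x‖ * Real.exp (-4 * w x)) μ) :
    ∃ Λ : ℂ → ℂ, DifferentiableOn ℂ Λ Str ∧
      (∀ s : ℂ, 1 < s.re → s.re < 4 → Λ s = (s - 1) * ∫ x, R x * Complex.exp (s * w x) ∂μ) ∧
      (∀ s : ℂ, 1 / 2 ≤ s.re → s.re < 4 → ‖Λ s‖ ≤
        ‖s - 1‖ * ((∫ x, ‖R x‖ * Real.exp (4 * w x) ∂μ) + ∫ x, ‖R' x‖ * Real.exp (-4 * w x) ∂μ) +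
          V * (‖a‖ + 3 * ‖a₀‖)) ∧
      Λ 1 = V * a := by
  set N : Set X := w ⁻¹' Set.Iic 0 with hN
  have mN : MeasurableSet N := hw measurableSet_Iic
  have mR : Measurable fun x => R' x * Complex.exp (-w x) := by fun_prop
  have dP : ∀ σ : ℝ, σ ≤ 4 → _ := fun σ hσ => ZMelB_dom hw hR mN.compl h1 (fun _ => by positivity)
    (σ := σ) fun x hx => by
      have hx' : 0 < w x := not_le.1 hx
      gcongr
  have dN : ∀ σ : ℝ, 0 ≤ σ → _ := fun σ hσ => ZMelB_dom hw mR mN h2 (fun _ => by positivity)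
    (σ := σ) fun x hx => by
      have hx' : w x ≤ 0 := hx
      rw [norm_mul, Complex.norm_exp, mul_assoc, ← Real.exp_add]
      simp only [Complex.neg_re, Complex.ofReal_re]
      gcongr
      nlinarith
  refine ⟨fun s => (s - 1) * (∫ x in Nᶜ, R x * Complex.exp (s * w x) ∂μ) +
    (s - 1) * (∫ x in N, R' x * Complex.exp (-w x) * Complex.exp (s * w x) ∂μ) + V * a -
      V * a₀ * ((s - 1) / s), ?_, fun s hs1 hs4 => ?_, fun s hs1 hs4 => ?_, by simp⟩
  · have d1 := differentiableOn_laplace hw hR.aestronglyMeasurable (dP 0 (by norm_num)).1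
      (dP 4 le_rfl).1
    have d2 := differentiableOn_laplace hw mR.aestronglyMeasurable (dN 0 le_rfl).1
      (dN 4 (by norm_num)).1
    have d0 : DifferentiableOn ℂ (fun s : ℂ => s - 1) Str := by fun_prop
    refine (((d0.mul d1).add (d0.mul d2)).add_const _).sub
      ((d0.div differentiableOn_id fun s hs h0 => ?_).const_mul _)
    have := hs.1
    rw [show s = 0 from h0] at this
    simp at this
  · have hs0 : 0 < s.re := by linarith
    have hs' : 0 < (s - 1).re := by simpa using hs1
    obtain ⟨i1, e1⟩ := ZMelB_exp hw hV hs0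
    obtain ⟨i2, e2⟩ := ZMelB_exp hw hV hs'
    have i3 := ((dN s.re hs0.le).2 s rfl).1
    have i4 := ((dP s.re hs4.le).2 s rfl).1
    have e : ∀ x, R x * Complex.exp (s * w x) =
        R' x * Complex.exp (-w x) * Complex.exp (s * w x) + a * Complex.exp ((s - 1) * w x) -
          a₀ * Complex.exp (s * w x) := fun x => by
      rw [show (s - 1) * w x = -w x + s * w x by ring, Complex.exp_add]
      linear_combination Complex.exp (s * w x) * hfe x
    have i5 : IntegrableOn (fun x => R' x * Complex.exp (-w x) * Complex.exp (s * w x) +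
        a * Complex.exp ((s - 1) * w x)) N μ := i3.add (i2.const_mul a)
    have i6 : IntegrableOn (fun x => R x * Complex.exp (s * w x)) N μ := by
      simp only [e]
      exact i5.sub (i1.const_mul a₀)
    have e3 : ∫ x in N, R x * Complex.exp (s * w x) ∂μ =
        (∫ x in N, R' x * Complex.exp (-w x) * Complex.exp (s * w x) ∂μ) + a * (V / (s - 1)) -
          a₀ * (V / s) := by
      rw [← e1, ← e2, ← integral_const_mul, ← integral_const_mul,
        ← integral_add i3 (i2.const_mul a), ← integral_sub i5 (i1.const_mul a₀)]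
      exact integral_congr_ae (Eventually.of_forall e)
    have i7 : Integrable (fun x => R x * Complex.exp (s * w x)) μ := by
      rw [← integrableOn_univ, ← Set.union_compl_self N]
      exact i6.union i4
    have hne : s - 1 ≠ 0 := fun h0 => by simp [h0] at hs'
    rw [← integral_add_compl mN i7, e3]
    field_simp
    ring
  · have b1 := ((dP s.re hs4.le).2 s rfl).2
    have b2 := ((dN s.re (by linarith)).2 s rfl).2
    have hs : 1 / 2 ≤ ‖s‖ := hs1.trans (Complex.re_le_norm s)
    have b3 : ‖(s - 1) / s‖ ≤ 3 := by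
      rw [norm_div, div_le_iff₀ (by linarith)]
      have := norm_sub_le s 1
      rw [norm_one] at this
      linarith
    refine (norm_sub_le _ _).trans ?_
    refine (add_le_add_left (norm_add₃_le) _).trans ?_
    simp only [norm_mul, Complex.norm_real, Real.norm_of_nonneg V.coe_nonneg]
    have c1 := mul_le_mul_of_nonneg_left b1 (norm_nonneg (s - 1))
    have c2 := mul_le_mul_of_nonneg_left b2 (norm_nonneg (s - 1))
    have c3 := mul_le_mul_of_nonneg_left b3 (mul_nonneg V.coe_nonneg (norm_nonneg a₀))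
    linarith

end Crest.Agent.R312
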