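import Crest.Agent.R312.ZUnf
import Crest.Agent.R312.ZMel

/-!
# Row 312 (B): the completed partial zeta functions at `4`, and the volume `V`
-/

set_option autoImplicit false

noncomputable section

namespace Crest.Agent.R312

open NumberField MeasureTheory Filter
open scoped Topology ENNReal NNReal

variable {F : Type} [Field F] [NumberField F] [IsTotallyComplex F]

theorem ZC1_integral_norm_thz {A : Ideal (𝓞 F)} (hA : A ≠ ⊥) :
    ∫ v, ‖thz A (fun _ => 1) v‖ * Real.exp (4 * wz A v) ∂muF F =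
      ‖cmp F 4‖ * ‖Dz F (cls A fun _ => 1) 4‖ := by
  have h := integral_thz hA (f := fun _ => 1) (g := fun _ => 1) (fun _ => by simp)
    (fun _ => by simp) (fun _ _ _ _ => rfl) (s := 4) (by norm_num)
  have e : ∀ v, thz A (fun _ => 1) v * Complex.exp (4 * wz A v) =
      ((‖thz A (fun _ => 1) v‖ * Real.exp (4 * wz A v) : ℝ) : ℂ) := by
    intro v
    conv_lhs => rw [thz_one_eq]
    push_cast
    rfl
  simp only [e, integral_complex_ofReal] at h
  rw [← norm_mul, ← h, Complex.norm_real, Real.norm_of_nonneg]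
  exact integral_nonneg fun v => by positivity

theorem ZC1_wz_unit (A : Ideal (𝓞 F)) (u : (𝓞 F)ˣ) (v : InfinitePlace F → ℝ) :
    wz A (v + lz (uF u)) = wz A v := by
  simp only [wz, Pi.add_apply, Finset.sum_add_distrib, sum_lz_unit, add_zero]

theorem ZC1_ne_bot {A B : Ideal (𝓞 F)} {t : 𝓞 F} (ht : t ≠ 0)
    (h : A * differentIdeal ℤ (𝓞 F) * B = Ideal.span {t}) : A ≠ ⊥ ∧ B ≠ ⊥ := by
  have h0 : Ideal.span {t} ≠ ⊥ := by simpa using ht
  constructor
  · rintro rfl
    simp only [Ideal.bot_mul] at h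
    exact h0 h.symm
  · rintro rfl
    simp only [Ideal.mul_bot] at h
    exact h0 h.symm

theorem ZC1_integral_norm_thz_dual {A B : Ideal (𝓞 F)} {t : 𝓞 F} (ht : t ≠ 0)
    (h : A * differentIdeal ℤ (𝓞 F) * B = Ideal.span {t}) :
    Integrable (fun v => ‖thz B (fun _ => 1) (-v - lz (t : F))‖ * Real.exp (-4 * wz A v)) (muF F) ∧
    ∫ v, ‖thz B (fun _ => 1) (-v - lz (t : F))‖ * Real.exp (-4 * wz A v) ∂muF F =
      ‖cmp F 4‖ * ‖Dz F (cls B fun _ => 1) 4‖ := by
  have hB := (ZC1_ne_bot ht h).2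
  set G : (InfinitePlace F → ℝ) → ℝ := fun v =>
    ‖thz B (fun _ => 1) v‖ * Real.exp (4 * wz B v) with hG
  have hG0 : ∀ v, 0 ≤ G v := fun v => by positivity
  have hGm : Measurable G := (measurable_thz B (f := fun _ => 1) fun _ => by simp).norm.mul
    ((measurable_wz B).const_mul 4).exp
  have e : (fun v => ‖thz B (fun _ => 1) (-v - lz (t : F))‖ * Real.exp (-4 * wz A v)) =
      fun v => G (-v - lz (t : F)) := by
    funext v
    simp only [hG, wz_dual ht h]
    congr 2
    ring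
  have hm' : Measurable fun v => G (-v - lz (t : F)) := hGm.comp (measurable_neg.sub_const _)
  have key := lintegral_reflect (G := fun v => ENNReal.ofReal (G v)) hGm.ennreal_ofReal
    (fun u v => by simp only [hG, thz_one_unit, ZC1_wz_unit]) (lz (t : F))
  have iG : Integrable G (muF F) := integrable_thz hB (by norm_num)
  rw [e]
  refine ⟨⟨hm'.aestronglyMeasurable, ?_⟩, ?_⟩
  · rw [hasFiniteIntegral_iff_ofReal (Eventually.of_forall fun v => hG0 _), key]
    exact (hasFiniteIntegral_iff_ofReal (Eventually.of_forall hG0)).1 iG.2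
  · rw [integral_eq_lintegral_of_nonneg_ae (Eventually.of_forall fun v => hG0 _)
      hm'.aestronglyMeasurable, key, ← ZC1_integral_norm_thz hB,
      integral_eq_lintegral_of_nonneg_ae (Eventually.of_forall hG0) hGm.aestronglyMeasurable]

theorem ZC1_map_wz (A : Ideal (𝓞 F)) :
    (muF F).map (wz A) = (muF F).map fun v => ∑ w, v w := map_sum_shift _

theorem ZC1_le_thz {A : Ideal (𝓞 F)} (hA : A ≠ ⊥) (v : InfinitePlace F → ℝ) :
    Real.exp (-wz A v) - 1 ≤ ‖thz A (fun _ => 1) v‖ := by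
  obtain ⟨B, t, ht, -, h⟩ := exists_dual hA
  have h1 := thz_fe ht h v
  rw [thz_one_eq A, thz_one_eq B] at h1
  have h2 : ‖thz A (fun _ => 1) v‖ + 1 =
      Real.exp (-wz A v) * (‖thz B (fun _ => 1) (-v - lz (t : F))‖ + 1) := by
    exact_mod_cast h1
  have h3 := mul_nonneg (Real.exp_pos (-wz A v)).le
    (norm_nonneg (thz B (fun _ => 1) (-v - lz (t : F))))
  linarith

theorem ZC1_exists_V' {A : Ideal (𝓞 F)} (hA : A ≠ ⊥) : ∃ V : ℝ≥0,
    (muF F).map (wz A) = V • (volume : Measure ℝ) ∧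
      (V : ℝ) ≤ 12 * (‖cmp F 4‖ * ‖Dz F (cls A fun _ => 1) 4‖) := by
  have hs : Measurable fun v : InfinitePlace F → ℝ => ∑ w, v w :=
    Finset.measurable_fun_sum _ fun w _ => measurable_pi_apply w
  refine eq_smul_volume (fun c => ?_) (by positivity) ?_
  · rw [ZC1_map_wz, Measure.map_map (measurable_add_const c) hs]
    exact map_sum_shift c
  · have hm : Measurable fun x : ℝ => ENNReal.ofReal (Real.exp (3 * x) - Real.exp (4 * x)) := by
      fun_prop
    rw [setLIntegral_map measurableSet_Iio hm (measurable_wz A), ← ZC1_integral_norm_thz hA,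
      ofReal_integral_eq_lintegral_ofReal (integrable_thz hA (by norm_num))
        (Eventually.of_forall fun v => by positivity)]
    refine (setLIntegral_le_lintegral _ _).trans (lintegral_mono fun v => ?_)
    refine ENNReal.ofReal_le_ofReal ?_
    have h1 := mul_le_mul_of_nonneg_right (ZC1_le_thz hA v) (Real.exp_pos (4 * wz A v)).le
    rw [sub_mul, ← Real.exp_add, one_mul, show -wz A v + 4 * wz A v = 3 * wz A v by ring] at h1
    exact h1

theorem ZC1_exists_V : ∃ V : ℝ≥0, V ≠ 0 ∧ ∀ A : Ideal (𝓞 F), A ≠ ⊥ →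
    (muF F).map (wz A) = V • (volume : Measure ℝ) ∧
      (V : ℝ) ≤ 12 * (‖cmp F 4‖ * ‖Dz F (cls A fun _ => 1) 4‖) := by
  obtain ⟨V, hV, -⟩ := ZC1_exists_V' (F := F) (A := ⊤) top_ne_bot
  refine ⟨V, ?_, fun A hA => ?_⟩
  · rintro rfl
    rw [zero_smul, Measure.map_eq_zero_iff (measurable_wz _).aemeasurable] at hV
    exact muF_ne_zero hV
  · obtain ⟨V', hV', h⟩ := ZC1_exists_V' hA
    have e : V' • (volume : Measure ℝ) = V • volume := by
      rw [← hV', ← hV, ZC1_map_wz, ZC1_map_wz]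
    have e2 := congrArg (fun μ : Measure ℝ => μ (Set.Icc 0 1)) e
    simp only [Measure.smul_apply, Real.volume_Icc, sub_zero, ENNReal.ofReal_one,
      ENNReal.smul_def, smul_eq_mul, mul_one, ENNReal.coe_inj] at e2
    rw [← e2]
    exact ⟨hV', h⟩

/-- the continuation for one class -/
theorem ZC1_class {V : ℝ≥0} {A B : Ideal (𝓞 F)} {t : 𝓞 F} (ht : t ≠ 0)
    (h : A * differentIdeal ℤ (𝓞 F) * B = Ideal.span {t})
    (hV : (muF F).map (wz A) = V • (volume : Measure ℝ)) :
    ∃ Λ : ℂ → ℂ, DifferentiableOn ℂ Λ Str ∧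
      (∀ s : ℂ, 1 < s.re → s.re < 4 → Λ s = (s - 1) * (cmp F s * Dz F (cls A fun _ => 1) s)) ∧
      (∀ s : ℂ, 1 / 2 ≤ s.re → s.re < 4 → ‖Λ s‖ ≤
        ‖s - 1‖ * (‖cmp F 4‖ * ‖Dz F (cls A fun _ => 1) 4‖ +
          ‖cmp F 4‖ * ‖Dz F (cls B fun _ => 1) 4‖) + V * 4) ∧ Λ 1 = V := by
  have hA := (ZC1_ne_bot ht h).1
  obtain ⟨i2, e2⟩ := ZC1_integral_norm_thz_dual ht h
  obtain ⟨Λ, h1, h2, h3, h4⟩ := mel_cont (measurable_wz A) hV
    (measurable_thz A (f := fun _ => 1) fun _ => by simp)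
    ((measurable_thz B (f := fun _ => 1) fun _ => by simp).comp
      (measurable_neg.sub_const (lz (t : F)))) (a := 1) (a₀ := 1) (thz_fe ht h)
    (integrable_thz hA (by norm_num)) i2
  refine ⟨Λ, h1, fun s hs hs' => ?_, fun s hs hs' => ?_, by rw [h4, mul_one]⟩
  · rw [h2 s hs hs', integral_thz hA (f := fun _ => 1) (g := fun _ => 1) (fun _ => by simp)
      (fun _ => by simp) (fun _ _ _ _ => rfl) hs]
  · have := h3 s hs hs'
    simp only [Function.comp_apply] at this
    rw [ZC1_integral_norm_thz hA, e2, norm_one] at this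
    refine this.trans (le_of_eq ?_)
    norm_num

end Crest.Agent.R312
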