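import Crest.Agent.R312.ZClassAux1

/-!
# Row 312 (B): class representatives and the decomposition of Dirichlet series into classes
-/

set_option autoImplicit false

noncomputable section

namespace Crest.Agent.R312

open NumberField
open scoped nonZeroDivisors

variable {F : Type} [Field F] [NumberField F]

theorem ZC2_princ_iff {A I : Ideal (𝓞 F)} (hA : A ≠ ⊥) (hI : I ≠ ⊥) :
    (A * I).IsPrincipal ↔ ClassGroup.mk0 ⟨A, mem_nonZeroDivisors_of_ne_zero hA⟩ *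
      ClassGroup.mk0 ⟨I, mem_nonZeroDivisors_of_ne_zero hI⟩ = 1 := by
  rw [← map_mul, ← ClassGroup.mk0_eq_one_iff
    (mul_mem (mem_nonZeroDivisors_of_ne_zero hA) (mem_nonZeroDivisors_of_ne_zero hI))]
  rfl

theorem ZC2_exists_reps : ∃ (κ : Type) (_ : Fintype κ) (_ : Nonempty κ) (A B : κ → Ideal (𝓞 F))
    (t : κ → 𝓞 F), (∀ c, A c ≠ ⊥ ∧ t c ≠ 0 ∧
      A c * differentIdeal ℤ (𝓞 F) * B c = Ideal.span {t c}) ∧
    (∀ I, I ≠ ⊥ → ∃! c, (A c * I).IsPrincipal) ∧ ∀ I, I ≠ ⊥ → ∃! c, (B c * I).IsPrincipal := by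
  choose A hA using ClassGroup.mk0_surjective (R := 𝓞 F)
  have hA0 : ∀ c, (A c : Ideal (𝓞 F)) ≠ ⊥ := fun c => nonZeroDivisors.ne_zero (A c).2
  choose B t ht hB h using fun c => exists_dual (hA0 c)
  have hD : differentIdeal ℤ (𝓞 F) ≠ ⊥ := differentIdeal_ne_bot
  set d := ClassGroup.mk0 ⟨differentIdeal ℤ (𝓞 F), mem_nonZeroDivisors_of_ne_zero hD⟩ with hd
  have hA' : ∀ c, ClassGroup.mk0 ⟨(A c : Ideal (𝓞 F)), mem_nonZeroDivisors_of_ne_zero (hA0 c)⟩ = c :=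
    hA
  have hB' : ∀ c, ClassGroup.mk0 ⟨B c, mem_nonZeroDivisors_of_ne_zero (hB c)⟩ = (c * d)⁻¹ := by
    intro c
    have h1 : ((A c : Ideal (𝓞 F)) * differentIdeal ℤ (𝓞 F) * B c).IsPrincipal := ⟨t c, h c⟩
    rw [ZC2_princ_iff (mul_ne_zero (hA0 c) hD) (hB c)] at h1
    rw [eq_inv_iff_mul_eq_one, mul_comm, ← h1, ← hA' c, hd, ← map_mul, hA' c]
    rfl
  refine ⟨ClassGroup (𝓞 F), inferInstance, inferInstance, fun c => A c, B, t,
    fun c => ⟨hA0 c, ht c, h c⟩, fun I hI => ?_, fun I hI => ?_⟩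
  · simp only [ZC2_princ_iff (hA0 _) hI, hA', ← eq_inv_iff_mul_eq_one]
    exact existsUnique_eq
  · simp only [ZC2_princ_iff (hB _) hI, hB', inv_mul_eq_one]
    simp only [← eq_mul_inv_iff_mul_eq]
    exact existsUnique_eq

omit [NumberField F] in
theorem ZC2_norm_cls_le (A : Ideal (𝓞 F)) {g : Ideal (𝓞 F) → ℂ} (hg : ∀ I, ‖g I‖ ≤ 1)
    (I : Ideal (𝓞 F)) : ‖cls A g I‖ ≤ 1 := by
  unfold cls
  split_ifs
  exacts [hg I, by simp]

omit [NumberField F] in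
theorem ZC2_sum_cls {κ : Type} [Fintype κ] {A : κ → Ideal (𝓞 F)}
    (h : ∀ I, I ≠ ⊥ → ∃! c, (A c * I).IsPrincipal) (g : Ideal (𝓞 F) → ℂ) {I : Ideal (𝓞 F)}
    (hI : I ≠ ⊥) : ∃ c₀, cls (A c₀) g I = g I ∧ ∀ c, c ≠ c₀ → cls (A c) g I = 0 := by
  obtain ⟨c₀, h1, h2⟩ := h I hI
  exact ⟨c₀, if_pos h1, fun c hc => if_neg fun h3 => hc (h2 c h3)⟩

theorem ZC2_sum_Dz_cls {κ : Type} [Fintype κ] {A : κ → Ideal (𝓞 F)}
    (h : ∀ I, I ≠ ⊥ → ∃! c, (A c * I).IsPrincipal) {g : Ideal (𝓞 F) → ℂ} (hg : ∀ I, ‖g I‖ ≤ 1)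
    {s : ℂ} (hs : 1 < s.re) : ∑ c, Dz F (cls (A c) g) s = Dz F g s := by
  unfold Dz
  rw [← Summable.tsum_finsetSum fun c _ =>
    (summable_norm_Dz (ZC2_norm_cls_le (A c) hg) hs).of_norm]
  refine tsum_congr fun I => ?_
  rw [← Finset.sum_mul]
  by_cases hI : I = ⊥
  · have h0 : -s ≠ 0 := fun h0 => by
      rw [neg_eq_zero.1 h0, Complex.zero_re] at hs
      linarith
    rw [hI, Ideal.absNorm_bot, Nat.cast_zero, Complex.zero_cpow h0, mul_zero, mul_zero]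
  · obtain ⟨c₀, h1, h2⟩ := ZC2_sum_cls h g hI
    rw [Finset.sum_eq_single c₀ (fun c _ hc => h2 c hc) (by simp), h1]

theorem ZC2_sum_norm_Dz_cls {κ : Type} [Fintype κ] {A : κ → Ideal (𝓞 F)}
    (h : ∀ I, I ≠ ⊥ → ∃! c, (A c * I).IsPrincipal) :
    ∑ c, ‖Dz F (cls (A c) fun _ => 1) 4‖ ≤ Real.exp (2 * Module.finrank ℚ F) := by
  have hs : ∀ c, Summable fun I => ‖cls (A c) (fun _ => 1) I * (Ideal.absNorm I : ℂ) ^ (-(4 : ℂ))‖ :=
    fun c => summable_norm_Dz (ZC2_norm_cls_le (A c) fun _ => by simp) (by norm_num)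
  refine (Finset.sum_le_sum fun c _ => norm_tsum_le_tsum_norm (hs c)).trans ?_
  rw [← Summable.tsum_finsetSum fun c _ => hs c]
  refine le_trans (le_of_eq (tsum_congr fun I => ?_)) (tsum_absNorm_rpow_le (σ := 4) (by norm_num))
  have e : ‖(Ideal.absNorm I : ℂ) ^ (-(4 : ℂ))‖ = (Ideal.absNorm I : ℝ) ^ (-(4 : ℝ)) := by
    rw [Complex.norm_natCast_cpow_of_re_ne_zero _ (by norm_num)]
    norm_num
  simp only [norm_mul, e]
  rw [← Finset.sum_mul]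
  by_cases hI : I = ⊥
  · rw [hI, Ideal.absNorm_bot, Nat.cast_zero, Real.zero_rpow (by norm_num), mul_zero]
  · obtain ⟨c₀, h1, h2⟩ := ZC2_sum_cls h (fun _ => 1) hI
    rw [Finset.sum_eq_single c₀ (fun c _ hc => by rw [h2 c hc, norm_zero]) (by simp), h1,
      norm_one, one_mul]

end Crest.Agent.R312
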