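import Crest.Agent.R312.ZUnf
import Crest.Agent.R312.ZMel
import Crest.Agent.R312.ZClassAux1
import Crest.Agent.R312.ZClassAux2

/-!
# Row 312 (B): continuation of the zeta function with a uniform bound
-/

set_option autoImplicit false

noncomputable section

namespace Crest.Agent.R312

open NumberField MeasureTheory Filter
open scoped Topology ENNReal NNReal

variable {F : Type} [Field F] [NumberField F] [IsTotallyComplex F]

/-- the real value of the completed partial zeta function at `4` -/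
theorem integral_norm_thz {A : Ideal (𝓞 F)} (hA : A ≠ ⊥) :
    ∫ v, ‖thz A (fun _ => 1) v‖ * Real.exp (4 * wz A v) ∂muF F =
      ‖cmp F 4‖ * ‖Dz F (cls A fun _ => 1) 4‖ := ZC1_integral_norm_thz hA

/-- the dual side (`lintegral_reflect`, `wz_dual`) -/
theorem integral_norm_thz_dual {A B : Ideal (𝓞 F)} {t : 𝓞 F} (ht : t ≠ 0)
    (h : A * differentIdeal ℤ (𝓞 F) * B = Ideal.span {t}) :
    Integrable (fun v => ‖thz B (fun _ => 1) (-v - lz (t : F))‖ * Real.exp (-4 * wz A v)) (muF F) ∧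
    ∫ v, ‖thz B (fun _ => 1) (-v - lz (t : F))‖ * Real.exp (-4 * wz A v) ∂muF F =
      ‖cmp F 4‖ * ‖Dz F (cls B fun _ => 1) 4‖ := ZC1_integral_norm_thz_dual ht h

/-- `thz A 1 ≥ e^{-w} - 1` by `thz_fe` -/
theorem exists_V : ∃ V : ℝ≥0, V ≠ 0 ∧ ∀ A : Ideal (𝓞 F), A ≠ ⊥ →
    (muF F).map (wz A) = V • (volume : Measure ℝ) ∧
      (V : ℝ) ≤ 12 * (‖cmp F 4‖ * ‖Dz F (cls A fun _ => 1) 4‖) := ZC1_exists_V

omit [IsTotallyComplex F] in
/-- Representatives of the classes and their duals. -/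
theorem exists_repsZ : ∃ (κ : Type) (_ : Fintype κ) (_ : Nonempty κ) (A B : κ → Ideal (𝓞 F))
    (t : κ → 𝓞 F), (∀ c, A c ≠ ⊥ ∧ t c ≠ 0 ∧
      A c * differentIdeal ℤ (𝓞 F) * B c = Ideal.span {t c}) ∧
    (∀ I, I ≠ ⊥ → ∃! c, (A c * I).IsPrincipal) ∧ ∀ I, I ≠ ⊥ → ∃! c, (B c * I).IsPrincipal :=
  ZC2_exists_reps

omit [IsTotallyComplex F] in
theorem sum_Dz_cls {κ : Type} [Fintype κ] {A : κ → Ideal (𝓞 F)}
    (h : ∀ I, I ≠ ⊥ → ∃! c, (A c * I).IsPrincipal) {g : Ideal (𝓞 F) → ℂ} (hg : ∀ I, ‖g I‖ ≤ 1)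
    {s : ℂ} (hs : 1 < s.re) : ∑ c, Dz F (cls (A c) g) s = Dz F g s := ZC2_sum_Dz_cls h hg hs

omit [IsTotallyComplex F] in
theorem sum_norm_Dz_cls {κ : Type} [Fintype κ] {A : κ → Ideal (𝓞 F)}
    (h : ∀ I, I ≠ ⊥ → ∃! c, (A c * I).IsPrincipal) :
    ∑ c, ‖Dz F (cls (A c) fun _ => 1) 4‖ ≤ Real.exp (2 * Module.finrank ℚ F) :=
  ZC2_sum_norm_Dz_cls h

omit [IsTotallyComplex F] in
theorem exists_Z : ∃ C : ℝ, 0 < C ∧ ∀ (F : Type) [Field F] [NumberField F] [IsTotallyComplex F],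
    ∃ Z, IsZ F (fun _ => 1) Z ∧ Z 1 ≠ 0 ∧ ∀ s : ℂ, 1 / 2 ≤ s.re → s.re < 4 →
      ‖Z s‖ ≤ Real.exp (C * cnd F * (1 + |s.im|)) := by
  obtain ⟨C, hC, hinv⟩ := norm_cmp_inv_le
  refine ⟨C + 64, by positivity, fun F _ _ _ => ?_⟩
  obtain ⟨V, hV0, hV⟩ := exists_V (F := F)
  obtain ⟨κ, _, _, A, B, t, hA, hAu, hBu⟩ := exists_repsZ (F := F)
  choose Λ h1 h2 h3 h4 using fun c => ZC1_class (hA c).2.1 (hA c).2.2 (hV _ (hA c).1).1
  refine ⟨fun s => (cmp F s)⁻¹ * ∑ c, Λ c s, ⟨?_, fun s hs hs' => ?_⟩, ?_, fun s hs hs' => ?_⟩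
  · exact ((differentiableOn_cmp.mono fun s hs => hs.1).inv fun s hs => cmp_ne_zero hs.1).mul
      (DifferentiableOn.fun_sum fun c _ => h1 c)
  · have hc := cmp_ne_zero (F := F) (s := s) (by linarith)
    simp only [h2 _ s hs hs', ← Finset.mul_sum]
    rw [sum_Dz_cls hAu (fun _ => by simp) hs]
    field_simp
  · simp only [h4, Finset.sum_const, Finset.card_univ, nsmul_eq_mul]
    refine mul_ne_zero (inv_ne_zero (cmp_ne_zero (by simp))) (mul_ne_zero ?_ ?_)
    · exact_mod_cast Fintype.card_ne_zero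
    · exact_mod_cast hV0
  · have hc1 := one_le_cnd (F := F)
    have hn : (Module.finrank ℚ F : ℝ) ≤ cnd F := by
      have : (1 : ℝ) ≤ |(discr F : ℝ)| := by exact_mod_cast Int.one_le_abs (discr_ne_zero F)
      exact le_add_of_nonneg_right (Real.log_nonneg this)
    have ht := abs_nonneg s.im
    have hs1 : ‖s - 1‖ ≤ 3 + |s.im| := by
      refine (Complex.norm_le_abs_re_add_abs_im _).trans ?_
      simp only [Complex.sub_re, Complex.one_re, Complex.sub_im, Complex.one_im, sub_zero]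
      have : |s.re - 1| ≤ 3 := abs_le.2 ⟨by linarith, by linarith⟩
      linarith
    have hK : ∀ A' : κ → Ideal (𝓞 F), (∀ I, I ≠ ⊥ → ∃! c, (A' c * I).IsPrincipal) →
        ∑ c, ‖cmp F 4‖ * ‖Dz F (cls (A' c) fun _ => 1) 4‖ ≤ Real.exp (4 * cnd F) := by
      intro A' h
      rw [← Finset.mul_sum, show 4 * cnd F = 2 * cnd F + 2 * cnd F by ring, Real.exp_add]
      exact mul_le_mul norm_cmp_four_le ((sum_norm_Dz_cls h).trans
        (Real.exp_le_exp.2 (by linarith))) (Finset.sum_nonneg fun _ _ => norm_nonneg _)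
        (Real.exp_pos _).le
    have hKA := hK A hAu
    have hKB := hK B hBu
    have hS : ‖∑ c, Λ c s‖ ≤ 54 * (1 + |s.im|) * Real.exp (4 * cnd F) := by
      refine (norm_sum_le _ _).trans ((Finset.sum_le_sum fun c _ => (h3 c s hs hs').trans
        (add_le_add le_rfl (mul_le_mul_of_nonneg_right (hV _ (hA c).1).2 (by norm_num)))).trans ?_)
      rw [Finset.sum_add_distrib, ← Finset.mul_sum, Finset.sum_add_distrib, ← Finset.sum_mul,
        ← Finset.mul_sum (a := (12 : ℝ))]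
      have e0 := Real.exp_pos (4 * cnd F)
      have e1 := mul_le_mul hs1 (add_le_add hKA hKB) (add_nonneg
        (Finset.sum_nonneg fun _ _ => by positivity) (Finset.sum_nonneg fun _ _ => by positivity))
        (by positivity)
      nlinarith [mul_nonneg ht e0.le]
    have h54 : 54 * (1 + |s.im|) ≤ Real.exp (60 * cnd F * (1 + |s.im|)) := by
      have := Real.add_one_le_exp (60 * cnd F * (1 + |s.im|))
      nlinarith
    rw [norm_mul]
    calc _ ≤ Real.exp (C * cnd F * (1 + |s.im|)) *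
          (Real.exp (60 * cnd F * (1 + |s.im|)) * Real.exp (4 * cnd F * (1 + |s.im|))) := by
          refine mul_le_mul (hinv F s hs hs'.le) (hS.trans (mul_le_mul h54 (Real.exp_le_exp.2 ?_)
            (Real.exp_pos _).le (Real.exp_pos _).le)) (norm_nonneg _) (Real.exp_pos _).le
          nlinarith
      _ = _ := by
          rw [← Real.exp_add, ← Real.exp_add]
          congr 1
          ring

end Crest.Agent.R312
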