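import Crest.Agent.R312.Iface

/-!
# Row 312, module (B): definitions (arbitrary number fields, no cube root of unity needed)

DO NOT change a definition of this file.
-/

set_option autoImplicit false

noncomputable section

namespace Crest.Agent.R312

open NumberField MeasureTheory Filter
open scoped Topology ENNReal NNReal

section
variable (F : Type) [Field F] [NumberField F]

/-- Dirichlet series over the ideals (the zero ideal contributes `0` for `s ≠ 0`). -/
def Dz (g : Ideal (𝓞 F) → ℂ) (s : ℂ) : ℂ := ∑' I, g I * (Ideal.absNorm I : ℂ) ^ (-s)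

/-- The strip on which the continuations live. -/
def Str : Set ℂ := {s | 0 < s.re ∧ s.re < 4}

/-- `Z` continues `(s - 1) Dz g s` to the strip `0 < Re s < 4`. -/
def IsZ (g : Ideal (𝓞 F) → ℂ) (Z : ℂ → ℂ) : Prop :=
  DifferentiableOn ℂ Z Str ∧ ∀ s : ℂ, 1 < s.re → s.re < 4 → Z s = (s - 1) * Dz F g s

/-- `ζ_F` has no zero with `Re s > 11/12`. -/
def ZF : Prop :=
  ∀ Z, IsZ F (fun _ => 1) Z → ∀ s : ℂ, 11 / 12 < s.re → s.re < 4 → Z s ≠ 0

/-- The size `n + log |d|` of the field. -/
def cnd : ℝ := Module.finrank ℚ F + Real.log |(discr F : ℝ)|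

/-- The number of ideals of norm `r`. -/
def deg1 (r : ℕ) : ℕ := Nat.card {I : Ideal (𝓞 F) // Ideal.absNorm I = r}

/-- The weight `exp(-(log y)²)` (`= R17.Wc y 0`). -/
def Wr (y : ℝ) : ℝ := Real.exp (-(Real.log y) ^ 2)

/-- The smooth sum over the primes of degree one. -/
def thW (y : ℝ) : ℝ := ∑' r : ℕ, if r.Prime then (deg1 F r : ℝ) * (Real.log r * Wr (r / y)) else 0

/-- Prime powers `P^(k+1)`. -/
abbrev PP : Type := IsDedekindDomain.HeightOneSpectrum (𝓞 F) × ℕ

variable {F}

/-- The norm of a prime power. -/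
def PP.nm (q : PP F) : ℝ := (Ideal.absNorm q.1.asIdeal : ℝ) ^ (q.2 + 1)

/-- The von Mangoldt weight of a prime power. -/
def PP.lam (q : PP F) : ℝ := Real.log (Ideal.absNorm q.1.asIdeal : ℝ)

variable (F)

/-- The smooth sum over all the prime powers. -/
def psiW (y : ℝ) : ℝ := ∑' q : PP F, q.lam * Wr (q.nm / y)

/-- `-ζ'/ζ`. -/
def Lam (s : ℂ) : ℂ := ∑' q : PP F, (q.lam : ℂ) * (q.nm : ℂ) ^ (-s)

/-- The number of infinite places. -/
abbrev npl : ℕ := Fintype.card (InfinitePlace F)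

variable {F}

/-- Logarithmic coordinates `log |x|_w²`. -/
def lz (x : F) : InfinitePlace F → ℝ := fun w => Real.log (w x ^ 2)

/-- The Gaussian `exp(-2π ∑ |x|_w² e^{v_w})`. -/
def gsZ (x : F) (v : InfinitePlace F → ℝ) : ℝ :=
  Real.exp (-(2 * Real.pi) * ∑ w : InfinitePlace F, w x ^ 2 * Real.exp (v w))

/-- `e(Tr x)`. -/
def eTr (x : F) : ℂ := Complex.exp (2 * Real.pi * Complex.I * ((Algebra.trace ℚ F x : ℚ) : ℂ))

/-- A unit as an element of the field. -/
abbrev uF (u : (𝓞 F)ˣ) : F := ((u : 𝓞 F) : F)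

/-- A partition of unity for the action of the units on the logarithmic space. -/
def phi (v : InfinitePlace F → ℝ) : ℝ := gsZ 1 v / ∑' u : (𝓞 F)ˣ, gsZ (uF u) v

variable (F) in
/-- The measure which replaces a fundamental domain for the units. -/
def muF : Measure (InfinitePlace F → ℝ) :=
  volume.withDensity fun v => ENNReal.ofReal (phi v)

open Classical in
/-- The theta series of the ideal `A` with coefficients `f`, without the term `x = 0`. -/
def thz (A : Ideal (𝓞 F)) (f : 𝓞 F → ℂ) (v : InfinitePlace F → ℝ) : ℂ :=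
  ∑' x : 𝓞 F, if x ∈ A ∧ x ≠ 0 then f x * (gsZ (x : F) v : ℂ) else 0

/-- The normalised scale `∑ v + log (N A √|d|)`. -/
def wz (A : Ideal (𝓞 F)) (v : InfinitePlace F → ℝ) : ℝ :=
  ∑ w, v w + Real.log ((Ideal.absNorm A : ℝ) * Real.sqrt |(discr F : ℝ)|)

/-- The gamma factor of a complex place. -/
def gmz (s : ℂ) : ℂ := (2 * Real.pi : ℂ) ^ (-s) * Complex.Gamma s

variable (F) in
/-- The completing factor `|d|^{s/2} γ(s)^r`. -/
def cmp (s : ℂ) : ℂ := ((Real.sqrt |(discr F : ℝ)| : ℝ) : ℂ) ^ s * gmz s ^ npl F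

open Classical in
/-- The coefficients `g` restricted to the ideals `I` such that `A I` is principal. -/
def cls (A : Ideal (𝓞 F)) (g : Ideal (𝓞 F) → ℂ) (I : Ideal (𝓞 F)) : ℂ :=
  if (A * I).IsPrincipal then g I else 0

end

end Crest.Agent.R312
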