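import Crest.Agent.R312.ZDefs

/-!
# Row 312 (B): absolute convergence with constants which are uniform in the field

At most `n` primes of `𝓞 F` lie over a rational prime `p` (`Ideal.sum_ramification_inertia` or
`Ideal.card_primesOverFinset_le_finrank`), and their norms are powers `p^f`, `f ≥ 1`.
For a finite set `S` of primes, `∑_{I S-smooth} N I^{-σ} ≤ ∏_{P ∈ S} (1 - N P^{-σ})⁻¹` (induction on `S`;
compare `CountA1_euler` in `R312/Count.lean`).
-/

set_option autoImplicit false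

noncomputable section

namespace Crest.Agent.R312

open NumberField MeasureTheory Filter
open scoped Topology ENNReal NNReal

variable {F : Type} [Field F] [NumberField F]

open IsDedekindDomain

theorem exists_under (P : HeightOneSpectrum (𝓞 F)) : ∃ p f : ℕ, p.Prime ∧ 1 ≤ f ∧
    Ideal.absNorm P.asIdeal = p ^ f := by
  have := P.isMaximal
  obtain ⟨p, f, hf, -, hp, h⟩ := Ideal.exists_prime_and_absNorm_eq_pow P.asIdeal
  exact ⟨p, f, hp, hf, h⟩

/-- At most `n` primes contain a given rational prime. -/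
theorem ZEulA_card {p : ℕ} (hp : p.Prime) (S : Finset (Ideal (𝓞 F)))
    (hS : ∀ I ∈ S, I.IsPrime ∧ (p : 𝓞 F) ∈ I) : S.card ≤ Module.finrank ℚ F := by
  have hp' : Prime (p : ℤ) := Nat.prime_iff_prime_int.1 hp
  have h0 : Ideal.span {(p : ℤ)} ≠ ⊥ := by
    rw [Ne, Ideal.span_singleton_eq_bot]
    exact hp'.ne_zero
  have hmax : (Ideal.span {(p : ℤ)}).IsMaximal :=
    ((Ideal.span_singleton_prime hp'.ne_zero).2 hp').isMaximal h0
  refine le_trans (Finset.card_le_card fun I hI => ?_)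
    (Ideal.card_primesOverFinset_le_finrank (𝓞 F) ℚ F h0)
  obtain ⟨h1, h2⟩ := hS I hI
  refine (IsDedekindDomain.mem_primesOverFinset_iff h0 _).2 ⟨h1, ⟨hmax.eq_of_le ?_ ?_⟩⟩
  · exact (h1.comap (algebraMap ℤ (𝓞 F))).ne_top
  · rw [Ideal.span_singleton_le_iff_mem, Ideal.mem_comap, map_natCast]
    exact h2

/-- Sums over the primes of `F` are bounded by `n` times a sum over the rational primes. -/
theorem tsum_primes_le {g : HeightOneSpectrum (𝓞 F) → ℝ} {h : ℕ → ℝ} (hg0 : ∀ P, 0 ≤ g P)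
    (hh0 : ∀ p, 0 ≤ h p) (hh : Summable h)
    (hg : ∀ (P : HeightOneSpectrum (𝓞 F)) (p : ℕ), p.Prime → p ∣ Ideal.absNorm P.asIdeal →
      g P ≤ h p) :
    Summable g ∧ ∑' P, g P ≤ Module.finrank ℚ F * ∑' p, h p := by
  classical
  have hex : ∀ P : HeightOneSpectrum (𝓞 F), ∃ p : ℕ, p.Prime ∧ (p : 𝓞 F) ∈ P.asIdeal ∧
      p ∣ Ideal.absNorm P.asIdeal := fun P => by
    have := P.isMaximal
    obtain ⟨p, f, hf, hm, hp, h⟩ := Ideal.exists_prime_and_absNorm_eq_pow P.asIdeal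
    exact ⟨p, hp, hm, h ▸ dvd_pow_self p hf.ne'⟩
  choose pr h1 h2 h3 using hex
  have key : ∀ T : Finset (HeightOneSpectrum (𝓞 F)),
      ∑ P ∈ T, g P ≤ Module.finrank ℚ F * ∑' p, h p := by
    intro T
    rw [← Finset.sum_fiberwise_of_maps_to (t := T.image pr) (g := pr)
      fun P hP => Finset.mem_image_of_mem pr hP]
    refine le_trans (Finset.sum_le_sum (g := fun p => Module.finrank ℚ F * h p) fun p hp => ?_) ?_
    · obtain ⟨P₀, -, rfl⟩ := Finset.mem_image.1 hp
      refine (Finset.sum_le_card_nsmul _ _ (h (pr P₀)) fun P hP => ?_).trans ?_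
      · rw [← (Finset.mem_filter.1 hP).2]
        exact hg P _ (h1 P) (h3 P)
      · rw [nsmul_eq_mul]
        refine mul_le_mul_of_nonneg_right (Nat.cast_le.2 ?_) (hh0 _)
        rw [← Finset.card_image_of_injective _ HeightOneSpectrum.asIdeal_injective]
        refine ZEulA_card (h1 P₀) _ fun I hI => ?_
        obtain ⟨P, hP, rfl⟩ := Finset.mem_image.1 hI
        rw [← (Finset.mem_filter.1 hP).2]
        exact ⟨P.isPrime, h2 P⟩
    · rw [← Finset.mul_sum]
      exact mul_le_mul_of_nonneg_left (hh.sum_le_tsum _ fun p _ => hh0 p) (Nat.cast_nonneg _)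
  exact ⟨summable_of_sum_le hg0 key, Real.tsum_le_of_sum_le hg0 key⟩

theorem ZEB.euler {M ι : Type} [CommMonoid M] (f : M →* ℝ) (hf : ∀ j, 0 ≤ f j) (q : ι → M)
    (hq : ∀ i, f (q i) ≤ 1 / 2) (P : Finset ι) :
    ∀ S : Finset M, (∀ j ∈ S, ∃ e : ι → ℕ, j = ∏ i ∈ P, q i ^ e i) →
      ∑ j ∈ S, f j ≤ Real.exp (2 * ∑ i ∈ P, f (q i)) := by
  classical
  induction P using Finset.induction_on with
  | empty =>
    intro S hS
    simp only [Finset.prod_empty] at hS
    refine (Finset.sum_le_sum_of_subset_of_nonneg (t := {1}) (fun j hj => ?_)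
      fun j _ _ => hf j).trans (by simp)
    obtain ⟨-, rfl⟩ := hS j hj
    exact Finset.mem_singleton_self _
  | insert a P ha ih =>
    intro S hS
    choose! e he using hS
    have h1 := ih (S.image fun j => ∏ i ∈ P, q i ^ e j i) fun j hj => by
      obtain ⟨j, -, rfl⟩ := Finset.mem_image.1 hj
      exact ⟨_, rfl⟩
    have h2 : f (q a) < 1 := (hq a).trans_lt (by norm_num)
    have h3 : ∑ k ∈ Finset.range (S.sup (e · a) + 1), f (q a) ^ k ≤ Real.exp (2 * f (q a)) := by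
      refine ((summable_geometric_of_lt_one (hf _) h2).sum_le_tsum _
        fun k _ => pow_nonneg (hf _) k).trans ?_
      rw [tsum_geometric_of_lt_one (hf _) h2]
      refine le_trans ?_ (Real.add_one_le_exp _)
      rw [inv_le_iff_one_le_mul₀ (by linarith)]
      nlinarith [hf (q a), hq a]
    calc ∑ j ∈ S, f j ≤ ∑ x ∈ Finset.range (S.sup (e · a) + 1) ×ˢ
          (S.image fun j => ∏ i ∈ P, q i ^ e j i), f (q a ^ x.1 * x.2) := by
          refine (Finset.sum_le_sum_of_subset_of_nonneg (fun j hj => ?_)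
            fun j _ _ => hf j).trans (Finset.sum_image_le_of_nonneg fun j _ => hf j)
          refine Finset.mem_image.2 ⟨(e j a, ∏ i ∈ P, q i ^ e j i), Finset.mem_product.2
            ⟨Finset.mem_range.2 (Nat.lt_succ_of_le (Finset.le_sup (f := (e · a)) hj)),
              Finset.mem_image_of_mem _ hj⟩, ?_⟩
          conv_rhs => rw [he j hj, Finset.prod_insert ha]
      _ ≤ _ := by
          simp only [map_mul, map_pow]
          rw [Finset.sum_product' (f := fun k j => f (q a) ^ k * f j), ← Finset.sum_mul_sum,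
            Finset.sum_insert ha, mul_add, Real.exp_add]
          exact mul_le_mul h3 h1 (Finset.sum_nonneg fun j _ => hf j) (Real.exp_pos _).le

theorem ZEB.exists_finsupp {I : Ideal (𝓞 F)} (hI : I ≠ 0) :
    ∃ e : HeightOneSpectrum (𝓞 F) →₀ ℕ, I = e.prod fun P k => P.asIdeal ^ k := by
  induction I using UniqueFactorizationMonoid.induction_on_prime with
  | h₁ => exact (hI rfl).elim
  | h₂ x hx => exact ⟨0, by rw [Finsupp.prod_zero_index, isUnit_iff_eq_one.1 hx]⟩
  | h₃ a p ha hp ih =>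
    obtain ⟨e, rfl⟩ := ih ha
    refine ⟨Finsupp.single ⟨p, Ideal.isPrime_of_prime hp, hp.ne_zero⟩ 1 + e, ?_⟩
    rw [Finsupp.prod_add_index' (fun _ => pow_zero _) fun _ _ _ => pow_add _ _ _,
      Finsupp.prod_single_index (h := fun (P : HeightOneSpectrum (𝓞 F)) (k : ℕ) => P.asIdeal ^ k)
        (pow_zero _), pow_one]

theorem ZEB.main {σ : ℝ} (hσ : 1 < σ) {h : ℕ → ℝ} (hh0 : ∀ p, 0 ≤ h p) (hh : Summable h)
    (hp : ∀ p : ℕ, p.Prime → (p : ℝ) ^ (-σ) ≤ h p) (T : Finset (Ideal (𝓞 F))) :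
    ∑ I ∈ T, (Ideal.absNorm I : ℝ) ^ (-σ) ≤ Real.exp (2 * (Module.finrank ℚ F * ∑' p, h p)) := by
  classical
  let f : Ideal (𝓞 F) →* ℝ :=
    { toFun := fun I => (Ideal.absNorm I : ℝ) ^ (-σ)
      map_one' := by rw [map_one, Nat.cast_one, Real.one_rpow]
      map_mul' := fun I J => by
        rw [map_mul, Nat.cast_mul, Real.mul_rpow (Nat.cast_nonneg _) (Nat.cast_nonneg _)] }
  have hf : ∀ I, 0 ≤ f I := fun I => Real.rpow_nonneg (Nat.cast_nonneg _) _
  have key : ∀ (P : HeightOneSpectrum (𝓞 F)) (p : ℕ), p.Prime → p ∣ Ideal.absNorm P.asIdeal →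
      f P.asIdeal ≤ (p : ℝ) ^ (-σ) := fun P p h1 h2 =>
    Real.rpow_le_rpow_of_nonpos (by exact_mod_cast h1.pos) (by
      exact_mod_cast Nat.le_of_dvd (Nat.pos_of_ne_zero fun h =>
        P.ne_bot (Ideal.absNorm_eq_zero_iff.1 h)) h2) (by linarith)
  have hq : ∀ P : HeightOneSpectrum (𝓞 F), f P.asIdeal ≤ 1 / 2 := fun P => by
    obtain ⟨p, k, h1, h2, h3⟩ := exists_under P
    refine (key P p h1 (h3 ▸ dvd_pow_self p (by omega))).trans ?_
    have h4 : (2 : ℝ) ≤ p := by exact_mod_cast h1.two_le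
    calc (p : ℝ) ^ (-σ) ≤ 2 ^ (-σ) := Real.rpow_le_rpow_of_nonpos two_pos h4 (by linarith)
      _ ≤ 2 ^ (-1 : ℝ) := Real.rpow_le_rpow_of_exponent_le one_le_two (by linarith)
      _ = 1 / 2 := by rw [Real.rpow_neg_one, one_div]
  obtain ⟨hs, hle⟩ := tsum_primes_le (g := fun P : HeightOneSpectrum (𝓞 F) => f P.asIdeal)
    (fun P => hf _) hh0 hh fun P p h1 h2 => (key P p h1 h2).trans (hp p h1)
  have hex : ∀ I : Ideal (𝓞 F), ∃ e : HeightOneSpectrum (𝓞 F) →₀ ℕ,
      I ≠ 0 → I = e.prod fun P k => P.asIdeal ^ k := fun I => by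
    by_cases hI : I = 0
    · exact ⟨0, fun h => (h hI).elim⟩
    · exact (ZEB.exists_finsupp hI).imp fun _ h _ => h
  choose e he using hex
  have h1 := ZEB.euler f hf (fun P : HeightOneSpectrum (𝓞 F) => P.asIdeal) hq
    (T.biUnion fun I => (e I).support) (T.erase 0) fun I hI => ⟨e I, by
      obtain ⟨h2, h3⟩ := Finset.mem_erase.1 hI
      exact (he I h2).trans (Finsupp.prod_of_support_subset _
        (Finset.subset_biUnion_of_mem (fun I => (e I).support) h3) _ fun _ _ => pow_zero _)⟩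
  rw [Finset.sum_erase _ (show f 0 = 0 by
    change ((Ideal.absNorm (0 : Ideal (𝓞 F)) : ℕ) : ℝ) ^ (-σ) = 0
    rw [map_zero, Nat.cast_zero, Real.zero_rpow (by linarith)])] at h1
  refine h1.trans (Real.exp_le_exp.2 (mul_le_mul_of_nonneg_left ?_ zero_le_two))
  exact (hs.sum_le_tsum _ fun P _ => hf _).trans hle

theorem summable_absNorm_rpow {σ : ℝ} (hσ : 1 < σ) :
    Summable fun I : Ideal (𝓞 F) => (Ideal.absNorm I : ℝ) ^ (-σ) :=
  summable_of_sum_le (fun _ => Real.rpow_nonneg (Nat.cast_nonneg _) _)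
    (ZEB.main hσ (h := fun p => (p : ℝ) ^ (-σ)) (fun _ => Real.rpow_nonneg (Nat.cast_nonneg _) _)
      (Real.summable_nat_rpow.2 (by linarith)) fun _ _ => le_rfl)

theorem tsum_absNorm_rpow_le {σ : ℝ} (hσ : 2 ≤ σ) :
    ∑' I : Ideal (𝓞 F), (Ideal.absNorm I : ℝ) ^ (-σ) ≤ Real.exp (2 * Module.finrank ℚ F) := by
  have hs := hasSum_zeta_two.sub (hasSum_ite_eq 1 (1 : ℝ))
  refine (summable_absNorm_rpow (by linarith)).tsum_le_of_sum_le fun T => ?_
  refine (ZEB.main (by linarith) (fun p => ?_) hs.summable (fun p hp => ?_) T).trans ?_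
  · split_ifs with h
    · simp [h]
    · rw [sub_zero]; positivity
  · rw [if_neg hp.one_lt.ne', sub_zero, one_div, ← Real.rpow_two, ← Real.rpow_neg (Nat.cast_nonneg _)]
    exact Real.rpow_le_rpow_of_exponent_le (by exact_mod_cast hp.one_lt.le) (by linarith)
  · rw [hs.tsum_eq]
    refine Real.exp_le_exp.2 (mul_le_mul_of_nonneg_left ?_ zero_le_two)
    refine mul_le_of_le_one_right (Nat.cast_nonneg _) ?_
    nlinarith [Real.pi_lt_d2, Real.pi_pos]

theorem ZEB.norm_le {g : Ideal (𝓞 F) → ℂ} (hg : ∀ I, ‖g I‖ ≤ 1) {s : ℂ} (hs : 1 < s.re)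
    (I : Ideal (𝓞 F)) :
    ‖g I * (Ideal.absNorm I : ℂ) ^ (-s)‖ ≤ (Ideal.absNorm I : ℝ) ^ (-s.re) := by
  rw [norm_mul, Complex.norm_natCast_cpow_of_re_ne_zero _ (by rw [Complex.neg_re]; linarith),
    Complex.neg_re]
  exact mul_le_of_le_one_left (Real.rpow_nonneg (Nat.cast_nonneg _) _) (hg I)

theorem summable_norm_Dz {g : Ideal (𝓞 F) → ℂ} (hg : ∀ I, ‖g I‖ ≤ 1) {s : ℂ} (hs : 1 < s.re) :
    Summable fun I => ‖g I * (Ideal.absNorm I : ℂ) ^ (-s)‖ :=
  Summable.of_nonneg_of_le (fun _ => norm_nonneg _) (ZEB.norm_le hg hs) (summable_absNorm_rpow hs)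

theorem norm_Dz_le {g : Ideal (𝓞 F) → ℂ} (hg : ∀ I, ‖g I‖ ≤ 1) {s : ℂ} (hs : 2 ≤ s.re) :
    ‖Dz F g s‖ ≤ Real.exp (2 * Module.finrank ℚ F) := by
  have h1 : 1 < s.re := by linarith
  exact (norm_tsum_le_tsum_norm (summable_norm_Dz hg h1)).trans
    (((summable_norm_Dz hg h1).tsum_le_tsum (ZEB.norm_le hg h1) (summable_absNorm_rpow h1)).trans
      (tsum_absNorm_rpow_le hs))

theorem ZEulA_two_le (P : HeightOneSpectrum (𝓞 F)) : (2 : ℝ) ≤ Ideal.absNorm P.asIdeal := by
  obtain ⟨p, f, hp, hf, h⟩ := exists_under P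
  rw [h]
  exact_mod_cast hp.two_le.trans (Nat.le_self_pow (by omega) p)

theorem PP.two_le_nm (q : PP F) : 2 ≤ q.nm := by
  unfold PP.nm
  exact (ZEulA_two_le q.1).trans
    (le_self_pow₀ (one_le_two.trans (ZEulA_two_le q.1)) (Nat.succ_ne_zero _))

theorem PP.lam_nonneg (q : PP F) : 0 ≤ q.lam := by
  exact Real.log_natCast_nonneg _

theorem summable_lam {σ : ℝ} (hσ : 1 < σ) : Summable fun q : PP F => q.lam * q.nm ^ (-σ) := by
  have hδ : 0 < (σ - 1) / 2 := by linarith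
  have h1 : Summable fun P : HeightOneSpectrum (𝓞 F) =>
      Real.log (Ideal.absNorm P.asIdeal : ℝ) * (Ideal.absNorm P.asIdeal : ℝ) ^ (-σ) := by
    refine (tsum_primes_le (h := fun p => ((σ - 1) / 2)⁻¹ * (p : ℝ) ^ (-((σ + 1) / 2)))
      (fun P => mul_nonneg (Real.log_natCast_nonneg _) (by positivity)) (fun p => by positivity)
      ((Real.summable_nat_rpow.2 (by linarith)).mul_left _) fun P p hp hd => ?_).1
    have h2 := ZEulA_two_le P
    have h3 : (p : ℝ) ≤ Ideal.absNorm P.asIdeal :=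
      Nat.cast_le.2 (Nat.le_of_dvd (Nat.cast_pos.1 (two_pos.trans_le h2)) hd)
    generalize (Ideal.absNorm P.asIdeal : ℝ) = N at h2 h3
    have hN : 0 < N := two_pos.trans_le h2
    have h4 := Real.log_le_rpow_div hN.le hδ
    have h5 : N ^ (-((σ + 1) / 2)) ≤ (p : ℝ) ^ (-((σ + 1) / 2)) :=
      Real.rpow_le_rpow_of_nonpos (Nat.cast_pos.2 hp.pos) h3 (by linarith)
    calc Real.log N * N ^ (-σ) ≤ N ^ ((σ - 1) / 2) / ((σ - 1) / 2) * N ^ (-σ) :=
          mul_le_mul_of_nonneg_right h4 (by positivity)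
      _ = ((σ - 1) / 2)⁻¹ * N ^ (-((σ + 1) / 2)) := by
          rw [div_eq_inv_mul, mul_assoc, ← Real.rpow_add hN]
          congr 2
          ring
      _ ≤ _ := mul_le_mul_of_nonneg_left h5 (by positivity)
  have h2 := h1.mul_of_nonneg summable_geometric_two
    (fun P => mul_nonneg (Real.log_natCast_nonneg _) (by positivity)) fun k => by positivity
  refine Summable.of_nonneg_of_le (fun q => mul_nonneg q.lam_nonneg
    (Real.rpow_nonneg (zero_le_two.trans q.two_le_nm) _)) (fun q => ?_) h2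
  unfold PP.lam PP.nm
  have h3 := ZEulA_two_le q.1
  rw [mul_assoc]
  refine mul_le_mul_of_nonneg_left ?_ (Real.log_natCast_nonneg _)
  generalize (Ideal.absNorm q.1.asIdeal : ℝ) = N at h3
  have hN : 0 < N := two_pos.trans_le h3
  have h4 : N ^ (-σ) ≤ 1 / 2 := by
    refine (Real.rpow_le_rpow_of_exponent_le (by linarith) (show -σ ≤ -1 by linarith)).trans ?_
    rw [Real.rpow_neg_one, ← one_div]
    exact one_div_le_one_div_of_le two_pos h3
  rw [← Real.rpow_pow_comm hN.le, pow_succ']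
  exact mul_le_mul_of_nonneg_left (pow_le_pow_left₀ (by positivity) h4 _) (by positivity)

theorem deg1_le {r : ℕ} (hr : r.Prime) : deg1 F r ≤ Module.finrank ℚ F := by
  have hfin := Ideal.finite_setOfPred_absNorm_eq (S := 𝓞 F) r
  have h1 : deg1 F r = hfin.toFinset.card := Nat.card_eq_card_finite_toFinset hfin
  rw [h1]
  refine ZEulA_card hr _ fun I hI => ?_
  have h2 : Ideal.absNorm I = r := hfin.mem_toFinset.1 hI
  exact ⟨Ideal.isPrime_of_irreducible_absNorm (h2 ▸ hr), h2 ▸ Ideal.absNorm_mem I⟩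

/-- The continuation is unique (identity theorem on the convex set `Str`). -/
theorem IsZ.unique {g : Ideal (𝓞 F) → ℂ} {Z Z' : ℂ → ℂ} (h : IsZ F g Z) (h' : IsZ F g Z') :
    Set.EqOn Z Z' Str := by
  have hopen : ∀ a b : ℝ, IsOpen {s : ℂ | a < s.re ∧ s.re < b} := fun a b =>
    (isOpen_lt continuous_const Complex.continuous_re).inter
      (isOpen_lt Complex.continuous_re continuous_const)
  have hconv : Convex ℝ Str := (convex_halfSpace_re_gt 0).inter (convex_halfSpace_re_lt 4)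
  refine (h.1.analyticOnNhd (hopen 0 4)).eqOn_of_preconnected_of_eventuallyEq
    (h'.1.analyticOnNhd (hopen 0 4)) hconv.isPreconnected (z₀ := 2)
    ⟨by norm_num, by norm_num⟩ ?_
  filter_upwards [(hopen 1 4).mem_nhds (x := 2) ⟨by norm_num, by norm_num⟩] with s hs
  rw [h.2 s hs.1 hs.2, h'.2 s hs.1 hs.2]

end Crest.Agent.R312
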