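import Crest.Agent.R312.ZIdeal

/-!
# Row 312 (B): the measure `muF` (unfolding over the units)

`phi` is measurable, `0 ≤ phi`, and `∑' u, phi (v + lz u) = 1` (`gsZ_mul`, `summable_gs`).  All the
statements follow by Tonelli and translation invariance of the Lebesgue measure.  For an invariant `G` and
any measurable `ψ` with `∑' u, ψ (v + lz u) = 1` one has `∫ G dμ = ∫ G ψ` (apply `lintegral_unfold` to
`G ψ`); use `ψ v = phi (v - a)` and `ψ v = phi (-v)`.
-/

set_option autoImplicit false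

noncomputable section

namespace Crest.Agent.R312

open NumberField MeasureTheory Filter
open scoped Topology ENNReal NNReal

variable {F : Type} [Field F] [NumberField F] [IsTotallyComplex F]

instance : SFinite (muF F) := by unfold muF; infer_instance

omit [NumberField F] [IsTotallyComplex F] in
theorem ZFd_ne (u : (𝓞 F)ˣ) : uF u ≠ 0 := RingOfIntegers.coe_ne_zero_iff.2 u.ne_zero

omit [IsTotallyComplex F] in
theorem ZFd_gs (u u' : (𝓞 F)ˣ) (v : InfinitePlace F → ℝ) :
    gsZ (uF u') (v + lz (uF u)) = gsZ (uF (u * u')) v := by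
  rw [← gsZ_mul (ZFd_ne u)]
  simp [uF]

omit [IsTotallyComplex F] in
theorem ZFd_lz_inv (u : (𝓞 F)ˣ) : lz (uF u⁻¹) = -lz (uF u) := by
  rw [← lz_inv]
  congr 1
  refine eq_inv_of_mul_eq_one_left ?_
  rw [uF, uF, ← map_mul, Units.inv_mul, map_one]

theorem ZFd_summable (v : InfinitePlace F → ℝ) : Summable fun u : (𝓞 F)ˣ => gsZ (uF u) v := by
  have h := (summable_gs (0 : F) v).comp_injective (Units.val_injective (α := 𝓞 F))
  simpa only [Function.comp_def, add_zero] using h

theorem ZFd_pos (v : InfinitePlace F → ℝ) : 0 < ∑' u : (𝓞 F)ˣ, gsZ (uF u) v :=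
  (ZFd_summable v).tsum_pos (fun _ => (gs_pos _ _).le) 1 (gs_pos _ _)

theorem ZFd_phi_eq (v : InfinitePlace F → ℝ) : ENNReal.ofReal (phi v) =
    ENNReal.ofReal (gsZ (1 : F) v) / ∑' u : (𝓞 F)ˣ, ENNReal.ofReal (gsZ (uF u) v) := by
  rw [phi, ENNReal.ofReal_div_of_pos (ZFd_pos v),
    ENNReal.ofReal_tsum_of_nonneg (fun _ => (gs_pos _ _).le) (ZFd_summable v)]

theorem ZFd_meas : Measurable fun v : InfinitePlace F → ℝ => ENNReal.ofReal (phi v) := by
  simp only [ZFd_phi_eq]
  exact (continuous_gs _).measurable.ennreal_ofReal.div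
    (Measurable.tsum fun u => (continuous_gs _).measurable.ennreal_ofReal)

theorem ZFd_sum (v : InfinitePlace F → ℝ) :
    ∑' u : (𝓞 F)ˣ, ENNReal.ofReal (phi (v + lz (uF u))) = 1 := by
  have h1 : ∀ u : (𝓞 F)ˣ, phi (v + lz (uF u)) = gsZ (uF u) v / ∑' u : (𝓞 F)ˣ, gsZ (uF u) v :=
    fun u => by
      have h2 : gsZ (1 : F) (v + lz (uF u)) = gsZ (uF u) v := by
        rw [← gsZ_mul (ZFd_ne u), mul_one]
      have h3 : ∑' u' : (𝓞 F)ˣ, gsZ (uF (u * u')) v = ∑' u' : (𝓞 F)ˣ, gsZ (uF u') v :=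
        (Equiv.mulLeft u).tsum_eq fun u' => gsZ (uF u') v
      rw [phi, h2]
      simp only [ZFd_gs u, h3]
  simp only [h1]
  rw [← ENNReal.ofReal_tsum_of_nonneg (fun u => div_nonneg (gs_pos _ _).le (ZFd_pos v).le)
    ((ZFd_summable v).div_const _), tsum_div_const, div_self (ZFd_pos v).ne', ENNReal.ofReal_one]

theorem ZFd_sum' (v : InfinitePlace F → ℝ) :
    ∑' u : (𝓞 F)ˣ, ENNReal.ofReal (phi (v - lz (uF u))) = 1 := by
  rw [← ZFd_sum v, ← (Equiv.inv (𝓞 F)ˣ).tsum_eq]
  simp only [Equiv.inv_apply, ZFd_lz_inv, sub_neg_eq_add]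

theorem ZFd_lint {G : (InfinitePlace F → ℝ) → ℝ≥0∞} (hG : Measurable G) :
    ∫⁻ v, G v ∂muF F = ∫⁻ v, ENNReal.ofReal (phi v) * G v :=
  lintegral_withDensity_eq_lintegral_mul _ ZFd_meas hG

theorem lintegral_unfold {H : (InfinitePlace F → ℝ) → ℝ≥0∞} (hH : Measurable H) :
    ∑' u : (𝓞 F)ˣ, ∫⁻ v, H (v + lz (uF u)) ∂muF F = ∫⁻ v, H v := by
  have h1 : ∀ u : (𝓞 F)ˣ, ∫⁻ v, H (v + lz (uF u)) ∂muF F =
      ∫⁻ v, ENNReal.ofReal (phi (v - lz (uF u))) * H v := fun u => by
    have h2 : Measurable fun v => H (v + lz (uF u)) := hH.comp (measurable_add_const _)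
    rw [ZFd_lint h2, ← lintegral_add_right_eq_self
      (fun v => ENNReal.ofReal (phi (v - lz (uF u))) * H v) (lz (uF u))]
    simp only [add_sub_cancel_right]
  have h3 : ∀ u : (𝓞 F)ˣ,
      AEMeasurable fun v => ENNReal.ofReal (phi (v - lz (uF u))) * H v := fun u =>
    ((ZFd_meas.comp (measurable_sub_const _)).mul hH).aemeasurable
  simp only [h1]
  rw [← lintegral_tsum h3]
  simp only [ENNReal.tsum_mul_right, ZFd_sum', one_mul]

theorem integral_unfold {H : (InfinitePlace F → ℝ) → ℂ} (hm : Measurable H) (hH : Integrable H) :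
    (∀ u : (𝓞 F)ˣ, Integrable (fun v => H (v + lz (uF u))) (muF F)) ∧
    HasSum (fun u : (𝓞 F)ˣ => ∫ v, H (v + lz (uF u)) ∂muF F) (∫ v, H v) := by
  have h1 : (Measure.sum fun u : (𝓞 F)ˣ => (muF F).map fun v => v + lz (uF u)) = volume := by
    ext s hs
    rw [Measure.sum_apply _ hs, ← lintegral_indicator_one hs,
      ← lintegral_unfold (measurable_one.indicator hs)]
    refine tsum_congr fun u => ?_
    rw [← lintegral_indicator_one hs,
      lintegral_map (measurable_one.indicator hs) (measurable_add_const _)]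
  rw [← h1] at hH
  refine ⟨fun u => ?_, ?_⟩
  · exact (hH.mono_measure (Measure.le_sum _ u)).comp_measurable (measurable_add_const _)
  · have h2 := hasSum_integral_measure hH
    rw [h1] at h2
    simpa only [(measurableEmbedding_addRight _).integral_map] using h2

theorem ZFd_inv {G ψ : (InfinitePlace F → ℝ) → ℝ≥0∞} (hG : Measurable G) (hψ : Measurable ψ)
    (hu : ∀ (u : (𝓞 F)ˣ) v, G (v + lz (uF u)) = G v)
    (h1 : ∀ v, ∑' u : (𝓞 F)ˣ, ψ (v + lz (uF u)) = 1) :
    ∫⁻ v, ψ v * G v = ∫⁻ v, G v ∂muF F := by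
  have h2 : Measurable fun v => ψ v * G v := hψ.mul hG
  have h3 : ∀ u : (𝓞 F)ˣ,
      AEMeasurable (fun v => ψ (v + lz (uF u)) * G (v + lz (uF u))) (muF F) := fun u =>
    (h2.comp (measurable_add_const _)).aemeasurable
  rw [← lintegral_unfold h2, ← lintegral_tsum h3]
  simp only [hu, ENNReal.tsum_mul_right, h1, one_mul]

theorem lintegral_shift {G : (InfinitePlace F → ℝ) → ℝ≥0∞} (hG : Measurable G)
    (hu : ∀ (u : (𝓞 F)ˣ) v, G (v + lz (uF u)) = G v) (a : InfinitePlace F → ℝ) :
    ∫⁻ v, G (v + a) ∂muF F = ∫⁻ v, G v ∂muF F := by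
  have h2 : Measurable fun v => G (v + a) := hG.comp (measurable_add_const _)
  rw [ZFd_lint h2, ← ZFd_inv (ψ := fun v => ENNReal.ofReal (phi (v - a))) hG
    (ZFd_meas.comp (measurable_sub_const _)) hu fun v => by
      simpa only [add_sub_right_comm] using ZFd_sum (v - a),
    ← lintegral_add_right_eq_self (fun v => ENNReal.ofReal (phi (v - a)) * G v) a]
  simp only [add_sub_cancel_right]

theorem lintegral_reflect {G : (InfinitePlace F → ℝ) → ℝ≥0∞} (hG : Measurable G)
    (hu : ∀ (u : (𝓞 F)ˣ) v, G (v + lz (uF u)) = G v) (a : InfinitePlace F → ℝ) :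
    ∫⁻ v, G (-v - a) ∂muF F = ∫⁻ v, G v ∂muF F := by
  have h1 : Measurable fun v : InfinitePlace F → ℝ => -v - a := measurable_neg.sub_const a
  have h2 : Measurable fun v => G (-v - a) := hG.comp h1
  rw [ZFd_lint h2, ← ZFd_inv (ψ := fun v => ENNReal.ofReal (phi (-v - a))) hG
    (ZFd_meas.comp h1) hu fun v => by
      simpa only [neg_add', sub_right_comm] using ZFd_sum' (-v - a),
    ← lintegral_sub_left_eq_self (fun v => ENNReal.ofReal (phi (-v - a)) * G v) (-a)]
  refine lintegral_congr fun v => ?_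
  rw [show -(-a - v) - a = v by abel, show -a - v = -v - a by abel]

theorem muF_ne_zero : muF F ≠ 0 := by
  intro h
  have h1 := lintegral_unfold (F := F) (H := fun _ => 1) measurable_const
  rw [h] at h1
  simp only [lintegral_zero_measure, tsum_zero] at h1
  rw [lintegral_one] at h1
  exact (isOpen_univ.measure_pos volume Set.univ_nonempty).ne h1

/-- The image of `muF` under `v ↦ ∑ v + c` does not depend on `c`. -/
theorem map_sum_shift (c : ℝ) :
    (muF F).map (fun v => ∑ w, v w + c) = (muF F).map fun v => ∑ w, v w := by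
  classical
  have h1 : Measurable fun v : InfinitePlace F → ℝ => ∑ w, v w := by fun_prop
  ext s hs
  have h2 : Measurable (s.indicator (1 : ℝ → ℝ≥0∞)) := measurable_one.indicator hs
  rw [← lintegral_indicator_one hs, ← lintegral_indicator_one hs,
    lintegral_map h2 (h1.add_const c), lintegral_map h2 h1]
  have h3 := lintegral_shift (G := fun v : InfinitePlace F → ℝ =>
    s.indicator (1 : ℝ → ℝ≥0∞) (∑ w, v w)) (h2.comp h1) (fun u v => by
      simp only [Pi.add_apply, Finset.sum_add_distrib, sum_lz_unit, add_zero])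
    (Pi.single (Classical.arbitrary _) c)
  simpa only [Pi.add_apply, Finset.sum_add_distrib, Finset.sum_pi_single', Finset.mem_univ,
    if_true] using h3

end Crest.Agent.R312
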