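import Crest.Agent.R312.ZDefs
import Crest.Agent.R17.ReflMelAuxA

/-!
# Row 312 (B): the gamma factor of one place
-/

set_option autoImplicit false

noncomputable section

namespace Crest.Agent.R312.ZGA

open MeasureTheory Filter

theorem two_pi : (2 * Real.pi : ℂ) = ((2 * Real.pi : ℝ) : ℂ) := by push_cast; rfl

theorem two_pi_ne : (2 * Real.pi : ℂ) ≠ 0 := by
  rw [two_pi]; exact Complex.ofReal_ne_zero.2 Real.two_pi_pos.ne'

theorem integral_eq {s : ℂ} (hs : 0 < s.re) :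
    ∫ v : ℝ, (Real.exp (-(2 * Real.pi) * Real.exp v) : ℂ) * Complex.exp (s * v) = gmz s := by
  have h := integral_image_eq_integral_abs_deriv_smul (s := Set.univ) (f := Real.exp)
    (f' := Real.exp) MeasurableSet.univ (fun x _ => (Real.hasDerivAt_exp x).hasDerivWithinAt)
    Real.exp_injective.injOn
    (fun t : ℝ => (t : ℂ) ^ (s - 1) * Complex.exp (-(((2 * Real.pi : ℝ) : ℂ) * t)))
  rw [Set.image_univ, Real.range_exp, Measure.restrict_univ,
    Complex.integral_cpow_mul_exp_neg_mul_Ioi hs Real.two_pi_pos, one_div, Complex.inv_cpow _ _ (by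
      rw [Complex.arg_ofReal_of_nonneg Real.two_pi_pos.le]; exact Real.pi_pos.ne),
    ← Complex.cpow_neg, ← two_pi] at h
  rw [gmz, h]
  refine integral_congr_ae (Eventually.of_forall fun v => ?_)
  have h1 : ((Real.exp v : ℝ) : ℂ) ^ (s - 1) = Complex.exp (v * (s - 1)) := by
    rw [Complex.cpow_def_of_ne_zero (Complex.ofReal_ne_zero.2 (Real.exp_pos v).ne'),
      ← Complex.ofReal_log (Real.exp_pos v).le, Real.log_exp]
  simp only [h1, abs_of_pos (Real.exp_pos v), Complex.real_smul]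
  push_cast
  simp only [← Complex.exp_add]
  congr 1
  ring

theorem ne_zero {s : ℂ} (hs : 0 < s.re) : gmz s ≠ 0 :=
  mul_ne_zero (fun h => two_pi_ne ((Complex.cpow_eq_zero_iff _ _).1 h).1)
    (Complex.Gamma_ne_zero_of_re_pos hs)

theorem diff : DifferentiableOn ℂ gmz {s | 0 < s.re} := fun s hs => by
  refine (DifferentiableAt.mul (differentiableAt_id.neg.const_cpow (Or.inl two_pi_ne))
    (Complex.differentiableAt_Gamma s fun m hm => ?_)).differentiableWithinAt
  have h : 0 < s.re := hs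
  rw [hm, Complex.neg_re, Complex.natCast_re] at h
  linarith [Nat.cast_nonneg (α := ℝ) m]

theorem norm_cpow (s : ℂ) : ‖(2 * Real.pi : ℂ) ^ s‖ = (2 * Real.pi) ^ s.re := by
  rw [two_pi, Complex.norm_cpow_eq_rpow_re_of_pos Real.two_pi_pos]

theorem four_le : ‖gmz 4‖ ≤ 1 := by
  have h : Complex.Gamma 4 = 6 := by
    rw [show (4 : ℂ) = (3 : ℕ) + 1 by norm_num, Complex.Gamma_nat_eq_factorial]
    norm_num [Nat.factorial]
  have h2 : (-4 : ℂ).re = -((4 : ℕ) : ℝ) := by simp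
  rw [gmz, norm_mul, norm_cpow, h, h2, Real.rpow_neg Real.two_pi_pos.le, Real.rpow_natCast,
    inv_mul_le_iff₀ (by positivity), Complex.norm_ofNat, mul_one]
  have h3 : (2 : ℝ) ^ 4 ≤ (2 * Real.pi) ^ 4 :=
    pow_le_pow_left₀ zero_le_two (by linarith [Real.pi_gt_three]) 4
  linarith

theorem inv_le : ∃ C : ℝ, 0 < C ∧ ∀ s : ℂ, 1 / 2 ≤ s.re → s.re ≤ 4 →
    ‖(gmz s)⁻¹‖ ≤ Real.exp (C * (1 + |s.im|)) := by
  obtain ⟨C, hC, h⟩ := R17.RMA.norm_inv_Gamma_le (1 / 2) 4
  set K : ℝ := (2 * Real.pi) ^ (4 : ℝ) * C with hK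
  have hK0 : 0 < K := by positivity
  refine ⟨K + 4, by positivity, fun s h1 h2 => ?_⟩
  rw [gmz, mul_inv, ← Complex.cpow_neg, neg_neg, norm_mul, norm_cpow]
  have h3 : (2 * Real.pi) ^ s.re ≤ (2 * Real.pi) ^ (4 : ℝ) :=
    Real.rpow_le_rpow_of_exponent_le (by linarith [Real.pi_gt_three]) h2
  calc _ ≤ (2 * Real.pi) ^ (4 : ℝ) * (C * Real.exp (4 * |s.im|)) :=
        mul_le_mul h3 (h s h1 h2) (norm_nonneg _) (by positivity)
    _ = K * Real.exp (4 * |s.im|) := by rw [hK, mul_assoc]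
    _ ≤ Real.exp K * Real.exp (4 * |s.im|) :=
        mul_le_mul_of_nonneg_right (by linarith [Real.add_one_le_exp K]) (Real.exp_pos _).le
    _ ≤ _ := by
        rw [← Real.exp_add]
        exact Real.exp_le_exp.2 (by nlinarith [abs_nonneg s.im])

end Crest.Agent.R312.ZGA
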