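import Crest.Agent.R312.ZTheta
import Crest.Agent.R312.ZGamAux1

/-!
# Row 312 (B): the gamma factor
-/

set_option autoImplicit false

noncomputable section

namespace Crest.Agent.R312

open NumberField MeasureTheory Filter
open scoped Topology ENNReal NNReal

theorem integrable_gam_kernel {s : ℂ} (hs : 0 < s.re) : Integrable fun v : ℝ =>
    (Real.exp (-(2 * Real.pi) * Real.exp v) : ℂ) * Complex.exp (s * v) :=
  Integrable.of_integral_ne_zero ((ZGA.integral_eq hs).trans_ne (ZGA.ne_zero hs))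

/-- substitute `x = e^v` in `Complex.integral_cpow_mul_exp_neg_mul_Ioi` -/
theorem integral_gam_kernel {s : ℂ} (hs : 0 < s.re) :
    ∫ v : ℝ, (Real.exp (-(2 * Real.pi) * Real.exp v) : ℂ) * Complex.exp (s * v) = gmz s :=
  ZGA.integral_eq hs

theorem gmz_ne_zero {s : ℂ} (hs : 0 < s.re) : gmz s ≠ 0 := ZGA.ne_zero hs

theorem differentiableOn_gmz : DifferentiableOn ℂ gmz {s | 0 < s.re} := ZGA.diff

theorem norm_gmz_four_le : ‖gmz 4‖ ≤ 1 := ZGA.four_le

/-- `1/Γ` is entire, hence bounded for `|Im s| ≤ 1`; otherwise `1/Γ(s) = Γ(1-s) sin(πs)/π` and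
`Γ(1-s) = Γ(5-s)/((4-s)(3-s)(2-s)(1-s))`, `|Γ(5-s)| ≤ Γ(5 - Re s)`. -/
theorem norm_gmz_inv_le : ∃ C : ℝ, 0 < C ∧ ∀ s : ℂ, 1 / 2 ≤ s.re → s.re ≤ 4 →
    ‖(gmz s)⁻¹‖ ≤ Real.exp (C * (1 + |s.im|)) := ZGA.inv_le

variable {F : Type} [Field F] [NumberField F] [IsTotallyComplex F]

omit [IsTotallyComplex F] in
theorem ZGamB.prod_eq (s : ℂ) (v : InfinitePlace F → ℝ) :
    (gsZ (1 : F) v : ℂ) * Complex.exp (s * ((∑ w, v w : ℝ) : ℂ)) =
      ∏ w, ((Real.exp (-(2 * Real.pi) * Real.exp (v w)) : ℂ) * Complex.exp (s * v w)) := by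
  rw [Finset.prod_mul_distrib, ← Complex.exp_sum, ← Complex.ofReal_prod, ← Real.exp_sum, gsZ,
    ← Finset.mul_sum, ← Finset.mul_sum, Complex.ofReal_sum]
  simp only [map_one, one_pow, one_mul]

theorem ZGamB.shift {x : 𝓞 F} (hx : x ≠ 0) (s : ℂ) (v : InfinitePlace F → ℝ) :
    (gsZ (x : F) v : ℂ) * Complex.exp (s * ((∑ w, v w : ℝ) : ℂ)) =
      (Ideal.absNorm (Ideal.span {x}) : ℂ) ^ (-s) *
        ∏ w, ((Real.exp (-(2 * Real.pi) * Real.exp ((v + lz (x : F)) w)) : ℂ) *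
          Complex.exp (s * (v + lz (x : F)) w)) := by
  have hx' : (x : F) ≠ 0 := RingOfIntegers.coe_ne_zero_iff.2 hx
  have hN : Ideal.absNorm (Ideal.span {x}) ≠ 0 := by
    rw [Ne, Ideal.absNorm_eq_zero_iff, Ideal.span_singleton_eq_bot]
    exact hx
  have hN' : (Ideal.absNorm (Ideal.span {x}) : ℂ) ≠ 0 := Nat.cast_ne_zero.2 hN
  rw [← ZGamB.prod_eq, ← gsZ_mul hx', mul_one]
  simp only [Pi.add_apply]
  rw [Finset.sum_add_distrib, sum_lz hx, Complex.cpow_def_of_ne_zero hN', Complex.ofReal_add,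
    Complex.ofReal_log (Nat.cast_nonneg _), Complex.ofReal_natCast, mul_left_comm,
    ← Complex.exp_add]
  congr 2
  ring

omit [IsTotallyComplex F] in
theorem ZGamB.one_le_discr : (1 : ℝ) ≤ |(discr F : ℝ)| := by
  have h := Int.one_le_abs (discr_ne_zero F)
  exact_mod_cast h

omit [IsTotallyComplex F] in
theorem ZGamB.one_le_sqrt : (1 : ℝ) ≤ Real.sqrt |(discr F : ℝ)| :=
  Real.one_le_sqrt.2 ZGamB.one_le_discr

theorem ZGamB.npl_le : (npl F : ℝ) ≤ cnd F := by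
  have h1 : (2 * npl F : ℝ) = Module.finrank ℚ F := by exact_mod_cast two_mul_npl (F := F)
  have h2 : 0 ≤ Real.log |(discr F : ℝ)| := Real.log_nonneg ZGamB.one_le_discr
  have h3 : (0 : ℝ) ≤ npl F := Nat.cast_nonneg _
  rw [cnd]
  linarith

theorem integrable_gs_exp {x : 𝓞 F} (hx : x ≠ 0) {s : ℂ} (hs : 0 < s.re) :
    Integrable fun v : InfinitePlace F → ℝ =>
      (gsZ (x : F) v : ℂ) * Complex.exp (s * ((∑ w, v w : ℝ) : ℂ)) := by
  simp only [ZGamB.shift hx s]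
  refine Integrable.const_mul ?_ _
  have h : Integrable fun v : InfinitePlace F → ℝ =>
      ∏ w, ((Real.exp (-(2 * Real.pi) * Real.exp (v w)) : ℂ) * Complex.exp (s * v w)) :=
    Integrable.fintype_prod (f := fun (_ : InfinitePlace F) (t : ℝ) =>
      (Real.exp (-(2 * Real.pi) * Real.exp t) : ℂ) * Complex.exp (s * t))
      fun _ => integrable_gam_kernel hs
  exact h.comp_add_right (lz (x : F))

/-- translate by `lz x` (`gsZ_mul`, `sum_lz`), then `integral_fintype_prod_volume_eq_pow` -/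
theorem integral_gs_exp {x : 𝓞 F} (hx : x ≠ 0) {s : ℂ} (hs : 0 < s.re) :
    ∫ v : InfinitePlace F → ℝ, (gsZ (x : F) v : ℂ) * Complex.exp (s * ((∑ w, v w : ℝ) : ℂ)) =
      (Ideal.absNorm (Ideal.span {x}) : ℂ) ^ (-s) * gmz s ^ npl F := by
  simp only [ZGamB.shift hx s]
  rw [integral_const_mul]
  congr 1
  rw [integral_add_right_eq_self (fun v : InfinitePlace F → ℝ =>
      ∏ w, ((Real.exp (-(2 * Real.pi) * Real.exp (v w)) : ℂ) * Complex.exp (s * v w)))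
      (lz (x : F)),
    integral_fintype_prod_volume_eq_pow (fun t : ℝ =>
      (Real.exp (-(2 * Real.pi) * Real.exp t) : ℂ) * Complex.exp (s * t)), integral_gam_kernel hs]

theorem cmp_ne_zero {s : ℂ} (hs : 0 < s.re) : cmp F s ≠ 0 := by
  refine mul_ne_zero ?_ (pow_ne_zero _ (gmz_ne_zero hs))
  rw [Ne, Complex.cpow_eq_zero_iff, not_and_or]
  left
  exact Complex.ofReal_ne_zero.2 (lt_of_lt_of_le one_pos ZGamB.one_le_sqrt).ne'

theorem differentiableOn_cmp : DifferentiableOn ℂ (cmp F) {s | 0 < s.re} := by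
  refine DifferentiableOn.mul ?_ (differentiableOn_gmz.pow _)
  refine (Differentiable.const_cpow differentiable_id (Or.inl ?_)).differentiableOn
  exact Complex.ofReal_ne_zero.2 (lt_of_lt_of_le one_pos ZGamB.one_le_sqrt).ne'

theorem one_le_cnd : 1 ≤ cnd F := by
  have h1 : (1 : ℝ) ≤ Module.finrank ℚ F := by exact_mod_cast Module.finrank_pos
  have h2 : 0 ≤ Real.log |(discr F : ℝ)| := Real.log_nonneg ZGamB.one_le_discr
  rw [cnd]
  linarith

theorem norm_cmp_four_le : ‖cmp F 4‖ ≤ Real.exp (2 * cnd F) := by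
  have h0 : (0 : ℝ) < |(discr F : ℝ)| := lt_of_lt_of_le one_pos ZGamB.one_le_discr
  have h1 : ‖gmz 4 ^ npl F‖ ≤ 1 := by
    rw [norm_pow]
    exact pow_le_one₀ (norm_nonneg _) norm_gmz_four_le
  have h2 : ‖((Real.sqrt |(discr F : ℝ)| : ℝ) : ℂ) ^ (4 : ℂ)‖ =
      Real.exp (2 * Real.log |(discr F : ℝ)|) := by
    rw [Complex.norm_cpow_eq_rpow_re_of_pos (Real.sqrt_pos.2 h0),
      Real.rpow_def_of_pos (Real.sqrt_pos.2 h0), Real.log_sqrt h0.le]
    congr 1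
    simp only [Complex.re_ofNat]
    ring
  have h3 : (0 : ℝ) ≤ Module.finrank ℚ F := Nat.cast_nonneg _
  rw [cmp, norm_mul, h2]
  calc Real.exp (2 * Real.log |(discr F : ℝ)|) * ‖gmz 4 ^ npl F‖
      ≤ Real.exp (2 * Real.log |(discr F : ℝ)|) * 1 := by gcongr
    _ ≤ Real.exp (2 * cnd F) := by
      rw [mul_one, cnd]
      exact Real.exp_le_exp.2 (by linarith)

omit [IsTotallyComplex F] in
theorem norm_cmp_inv_le : ∃ C : ℝ, 0 < C ∧ ∀ (F : Type) [Field F] [NumberField F]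
    [IsTotallyComplex F] (s : ℂ), 1 / 2 ≤ s.re → s.re ≤ 4 →
    ‖(cmp F s)⁻¹‖ ≤ Real.exp (C * cnd F * (1 + |s.im|)) := by
  obtain ⟨C, hC, h⟩ := norm_gmz_inv_le
  refine ⟨C, hC, fun F _ _ _ s h1 h2 => ?_⟩
  have h0 : (0 : ℝ) < Real.sqrt |(discr F : ℝ)| := lt_of_lt_of_le one_pos ZGamB.one_le_sqrt
  have h3 : ‖(((Real.sqrt |(discr F : ℝ)| : ℝ) : ℂ) ^ s)⁻¹‖ ≤ 1 := by
    rw [norm_inv, Complex.norm_cpow_eq_rpow_re_of_pos h0]
    exact inv_le_one_of_one_le₀ (Real.one_le_rpow ZGamB.one_le_sqrt (by linarith))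
  have h4 : ‖(gmz s ^ npl F)⁻¹‖ ≤ Real.exp (C * cnd F * (1 + |s.im|)) := by
    rw [← inv_pow, norm_pow]
    refine (pow_le_pow_left₀ (norm_nonneg _) (h s h1 h2) _).trans ?_
    rw [← Real.exp_nat_mul]
    refine Real.exp_le_exp.2 ?_
    have h5 := ZGamB.npl_le (F := F)
    have h6 : 0 ≤ C * (1 + |s.im|) := by positivity
    nlinarith
  rw [cmp, mul_inv, norm_mul]
  calc _ ≤ 1 * Real.exp (C * cnd F * (1 + |s.im|)) := by gcongr
    _ = _ := one_mul _

end Crest.Agent.R312
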