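import Crest.Agent.R312.ZThetaAux2

/-!
# Row 312 (B): theta inversion in a totally complex field

For a `ℚ`-basis `b` put `Q i j = ∑_φ e^{v (mk φ)} Re (conj (φ (b i)) φ (b j))` (sum over all embeddings
`φ : F →+* ℂ`, two over each place), `M φ i = φ (b i)`, `M' φ i = φ (b.traceDual i)`: `M'ᵀ M = 1`,
`Q = Mᴴ D M`, `Q⁻¹ = M'ᵀ D⁻¹ conj M'`, `det Q = |discr b| e^{2 ∑ v}`.
-/

set_option autoImplicit false

noncomputable section

namespace Crest.Agent.R312

open NumberField MeasureTheory Filter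
open scoped Topology ENNReal NNReal

variable {F : Type} [Field F] [NumberField F]

instance countable_ringOfIntegers : Countable (𝓞 F) :=
  (RingOfIntegers.basis F).equivFun.injective.countable
instance countable_units : Countable (𝓞 F)ˣ := Units.val_injective.countable
instance countable_ideal : Countable (Ideal (𝓞 F)) :=
  Function.Surjective.countable (f := fun S : Finset (𝓞 F) => Ideal.span (S : Set (𝓞 F)))
    fun I => IsNoetherian.noetherian I
theorem gs_pos (x : F) (v : InfinitePlace F → ℝ) : 0 < gsZ x v := Real.exp_pos _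
theorem gs_le_one (x : F) (v : InfinitePlace F → ℝ) : gsZ x v ≤ 1 :=
  Real.exp_le_one_iff.2 (mul_nonpos_of_nonpos_of_nonneg (neg_nonpos.2 (by positivity))
    (by positivity))
@[simp] theorem gs_zero (v : InfinitePlace F → ℝ) : gsZ (0 : F) v = 1 := by simp [gsZ]
theorem gsZ_mul {c : F} (hc : c ≠ 0) (x : F) (v : InfinitePlace F → ℝ) :
    gsZ (c * x) v = gsZ x (v + lz c) := by
  unfold gsZ
  congr 2
  refine Finset.sum_congr rfl fun w _ => ?_
  have hw : 0 < w c ^ 2 := pow_pos (InfinitePlace.pos_iff.2 hc) 2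
  rw [Pi.add_apply, Real.exp_add, lz, Real.exp_log hw, map_mul]
  ring
theorem continuous_gs (x : F) : Continuous (gsZ x) := by
  unfold gsZ
  fun_prop
theorem lz_mul {x y : F} (hx : x ≠ 0) (hy : y ≠ 0) : lz (x * y) = lz x + lz y := by
  funext w
  rw [Pi.add_apply, lz, lz, lz, map_mul, mul_pow,
    Real.log_mul (pow_pos (InfinitePlace.pos_iff.2 hx) 2).ne'
      (pow_pos (InfinitePlace.pos_iff.2 hy) 2).ne']
theorem lz_inv (x : F) : lz x⁻¹ = -lz x := by
  funext w
  rw [Pi.neg_apply, lz, lz, map_inv₀, inv_pow, Real.log_inv]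
theorem norm_eTr (x : F) : ‖eTr x‖ = 1 := by
  rw [eTr, show (2 * Real.pi * Complex.I * ((Algebra.trace ℚ F x : ℚ) : ℂ)) =
    ((2 * Real.pi * ((Algebra.trace ℚ F x : ℚ) : ℝ) : ℝ) : ℂ) * Complex.I by push_cast; ring,
    Complex.norm_exp_ofReal_mul_I]
@[simp] theorem eTr_zero : eTr (0 : F) = 1 := by simp [eTr]

variable [IsTotallyComplex F]

theorem two_mul_npl : 2 * npl F = Module.finrank ℚ F := by
  rw [← InfinitePlace.sum_mult_eq]
  simp [IsTotallyComplex.mult_eq, mul_comm]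
theorem sum_lz {x : 𝓞 F} (hx : x ≠ 0) :
    ∑ w, lz (x : F) w = Real.log (Ideal.absNorm (Ideal.span {x}) : ℝ) := by
  have hx' : (x : F) ≠ 0 := RingOfIntegers.coe_ne_zero_iff.2 hx
  have h := InfinitePlace.prod_eq_abs_norm (x : F)
  simp only [IsTotallyComplex.mult_eq] at h
  simp only [lz]
  rw [← Real.log_prod fun w _ => (pow_pos (InfinitePlace.pos_iff.2 hx') 2).ne', h,
    Ideal.absNorm_span_singleton, ← Algebra.coe_norm_int, Nat.cast_natAbs]
  norm_cast
theorem sum_lz_unit (u : (𝓞 F)ˣ) : ∑ w, lz (uF u) w = 0 := by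
  rw [uF, sum_lz u.ne_zero, Ideal.span_singleton_eq_top.2 u.isUnit, Ideal.absNorm_top]
  simp

section basis
variable {ι : Type} [Fintype ι] [DecidableEq ι]

theorem summable_gs_basis (b : Module.Basis ι ℚ F) (c : F) (v : InfinitePlace F → ℝ) :
    Summable fun m : ι → ℤ => gsZ (∑ i, (m i : F) * b i + c) v := ZTh.summable_gs b c v

theorem theta_basis (b : Module.Basis ι ℚ F) (c : F) (v : InfinitePlace F → ℝ) :
    ∑' m : ι → ℤ, (gsZ (∑ i, (m i : F) * b i + c) v : ℂ) =
      (((Real.sqrt |((Algebra.discr ℚ b : ℚ) : ℝ)|)⁻¹ * Real.exp (-∑ w, v w) : ℝ) : ℂ) *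
        ∑' k : ι → ℤ, (gsZ (∑ i, (k i : F) * b.traceDual i) (-v) : ℂ) *
          eTr ((∑ i, (k i : F) * b.traceDual i) * c) := ZTh.theta b c v
end basis

end Crest.Agent.R312
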