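import Crest.Agent.R312.ZIdealAux1
import Crest.Agent.R312.ZTheta

/-!
# Row 312 (B): theta inversion for ideals

Take a `ℤ`-basis of `A` (a `ℚ`-basis `b` of `F`, `|discr b| = N(A)² |d|`); the `ℤ`-span of
`b.traceDual` is the trace dual of `A` (`traceDual_span_of_basis`), which is `t⁻¹ B`
(`FractionalIdeal.dual_eq_mul_inv`, `coeIdeal_differentIdeal`).
-/

set_option autoImplicit false

noncomputable section

namespace Crest.Agent.R312

open NumberField MeasureTheory Filter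
open scoped Topology ENNReal NNReal

variable {F : Type} [Field F] [NumberField F]

/-- Existence of the dual ideal. -/
theorem exists_dual {A : Ideal (𝓞 F)} (hA : A ≠ ⊥) : ∃ (B : Ideal (𝓞 F)) (t : 𝓞 F), t ≠ 0 ∧ B ≠ ⊥ ∧
    A * differentIdeal ℤ (𝓞 F) * B = Ideal.span {t} := by
  have h0 : A * differentIdeal ℤ (𝓞 F) ≠ ⊥ := fun h0 =>
    (Ideal.mul_eq_bot.1 h0).elim hA ZIA.different_ne_bot
  obtain ⟨t, htm, ht⟩ := Submodule.exists_mem_ne_zero_of_ne_bot h0
  obtain ⟨B, hB⟩ : A * differentIdeal ℤ (𝓞 F) ∣ Ideal.span {t} :=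
    Ideal.dvd_iff_le.2 ((Ideal.span_singleton_le_iff_mem _).2 htm)
  exact ⟨B, t, ht, (ZIA.ne_bot_of_mul ht hB.symm).2, hB.symm⟩

variable [IsTotallyComplex F]

theorem summable_gs (c : F) (v : InfinitePlace F → ℝ) :
    Summable fun x : 𝓞 F => gsZ ((x : F) + c) v := by
  classical
  have h := summable_gs_basis (integralBasis F) c v
  rw [← (RingOfIntegers.basis F).equivFun.symm.toEquiv.summable_iff]
  refine h.congr fun m => congrArg (fun x : F => gsZ (x + c) v) ?_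
  simp only [LinearEquiv.coe_toEquiv, Module.Basis.equivFun_symm_apply,
    integralBasis_apply, zsmul_eq_mul, map_sum, map_mul, map_intCast]

open Classical in
theorem theta_ideal {A B : Ideal (𝓞 F)} {t : 𝓞 F} (ht : t ≠ 0)
    (h : A * differentIdeal ℤ (𝓞 F) * B = Ideal.span {t}) (c : F) (v : InfinitePlace F → ℝ) :
    ∑' x : 𝓞 F, (if x ∈ A then (gsZ ((x : F) + c) v : ℂ) else 0) =
      (Real.exp (-wz A v) : ℂ) * ∑' y : 𝓞 F, if y ∈ B then
        (gsZ (y : F) (-v - lz (t : F)) : ℂ) * eTr ((y : F) / (t : F) * c) else 0 := by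
  obtain ⟨hA, -⟩ := ZIA.ne_bot_of_mul ht h
  obtain ⟨b, hb, hd⟩ := ZIA.exists_basis hA
  have ht' : (t : F) ≠ 0 := RingOfIntegers.coe_ne_zero_iff.2 ht
  have e1 := ZIA.tsum_ideal A (one_ne_zero (α := F)) (Submodule.span ℤ (Set.range b))
    (fun x => by
      rw [hb, FractionalIdeal.mem_coeIdeal]
      exact ⟨fun ⟨y, hy, e⟩ => ⟨y, hy, by rw [div_one]; exact e.symm⟩,
        fun ⟨y, hy, e⟩ => ⟨y, hy, by rw [e, div_one]⟩⟩)
    (fun x => (gsZ (x + c) v : ℂ))
  replace e1 := e1.trans (tsum_congr (g := fun x : 𝓞 F =>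
    if x ∈ A then (gsZ ((x : F) + c) v : ℂ) else 0) fun y => by rw [div_one])
  have e2 := ZIA.tsum_ideal B ht' (Submodule.span ℤ (Set.range b.traceDual))
    (fun x => by rw [ZIA.mem_span_traceDual hA b hb, ZIA.mem_dual_iff ht h])
    (fun x => (gsZ x (-v) : ℂ) * eTr (x * c))
  have e3 := ZIA.tsum_basis b (fun x => (gsZ (x + c) v : ℂ))
  have e4 := ZIA.tsum_basis b.traceDual (fun x => (gsZ x (-v) : ℂ) * eTr (x * c))
  rw [← e1, ← e3, theta_basis b c v, e4, e2]
  have hN : (0 : ℝ) < Ideal.absNorm A := by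
    exact_mod_cast Nat.pos_of_ne_zero (Ideal.absNorm_eq_zero_iff.not.2 hA)
  have hD : (0 : ℝ) < Real.sqrt |(discr F : ℝ)| :=
    Real.sqrt_pos.2 (abs_pos.2 (Int.cast_ne_zero.2 (discr_ne_zero F)))
  have hs : Real.sqrt |((Algebra.discr ℚ b : ℚ) : ℝ)| =
      (Ideal.absNorm A : ℝ) * Real.sqrt |(discr F : ℝ)| := by
    have h1 : |((Algebra.discr ℚ b : ℚ) : ℝ)| = (Ideal.absNorm A : ℝ) ^ 2 * |(discr F : ℝ)| := by
      exact_mod_cast congrArg (fun q : ℚ => (q : ℝ)) hd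
    rw [h1, Real.sqrt_mul (sq_nonneg _), Real.sqrt_sq hN.le]
  have hw : (Real.sqrt |((Algebra.discr ℚ b : ℚ) : ℝ)|)⁻¹ * Real.exp (-∑ w, v w) =
      Real.exp (-wz A v) := by
    unfold wz
    rw [hs, neg_add, Real.exp_add, Real.exp_neg (Real.log _), Real.exp_log (mul_pos hN hD),
      mul_comm]
  rw [hw]
  congr 1
  refine tsum_congr fun y => ?_
  rw [div_eq_inv_mul (y : F), gsZ_mul (inv_ne_zero ht'), lz_inv, ← sub_eq_add_neg]

/-- The scales match (\`absNorm_differentIdeal\`, \`sum_lz\`). -/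
theorem wz_dual {A B : Ideal (𝓞 F)} {t : 𝓞 F} (ht : t ≠ 0)
    (h : A * differentIdeal ℤ (𝓞 F) * B = Ideal.span {t}) (v : InfinitePlace F → ℝ) :
    wz B (-v - lz (t : F)) = -wz A v := by
  obtain ⟨hA, hB⟩ := ZIA.ne_bot_of_mul ht h
  have hNA : (0 : ℝ) < Ideal.absNorm A := by
    exact_mod_cast Nat.pos_of_ne_zero (Ideal.absNorm_eq_zero_iff.not.2 hA)
  have hNB : (0 : ℝ) < Ideal.absNorm B := by
    exact_mod_cast Nat.pos_of_ne_zero (Ideal.absNorm_eq_zero_iff.not.2 hB)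
  have hd : (0 : ℝ) < |(discr F : ℝ)| := abs_pos.2 (Int.cast_ne_zero.2 (discr_ne_zero F))
  have hD : (0 : ℝ) < Real.sqrt |(discr F : ℝ)| := Real.sqrt_pos.2 hd
  have h1 : (Ideal.absNorm (Ideal.span {t}) : ℝ) =
      ((Ideal.absNorm A : ℝ) * Real.sqrt |(discr F : ℝ)|) *
        ((Ideal.absNorm B : ℝ) * Real.sqrt |(discr F : ℝ)|) := by
    rw [← h, map_mul, map_mul, absNorm_differentIdeal F]
    push_cast
    rw [Nat.cast_natAbs, Int.cast_abs]
    linear_combination (-(Ideal.absNorm A : ℝ) * (Ideal.absNorm B : ℝ)) *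
      Real.mul_self_sqrt hd.le
  unfold wz
  simp only [Pi.sub_apply, Pi.neg_apply, Finset.sum_sub_distrib, Finset.sum_neg_distrib]
  rw [sum_lz ht, h1, Real.log_mul (mul_pos hNA hD).ne' (mul_pos hNB hD).ne']
  ring

theorem ZIB_summable (v : InfinitePlace F → ℝ) (p : 𝓞 F → Prop) [DecidablePred p] :
    Summable fun x : 𝓞 F => if p x then gsZ (x : F) v else 0 := by
  refine Summable.of_nonneg_of_le (fun x => ?_) (fun x => ?_) (summable_gs 0 v)
  · split_ifs
    · exact (gs_pos _ _).le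
    · exact le_rfl
  · rw [add_zero]
    split_ifs
    · exact le_rfl
    · exact (gs_pos _ _).le

open Classical in
theorem ZIB_thz_one (A : Ideal (𝓞 F)) (v : InfinitePlace F → ℝ) :
    thz A (fun _ => 1) v = ((∑' x : 𝓞 F, if x ∈ A ∧ x ≠ 0 then gsZ (x : F) v else 0 : ℝ) : ℂ) := by
  rw [Complex.ofReal_tsum, thz]
  refine tsum_congr fun x => ?_
  split_ifs <;> simp

open Classical in
theorem ZIB_norm (A : Ideal (𝓞 F)) (v : InfinitePlace F → ℝ) :
    ‖thz A (fun _ => 1) v‖ = ∑' x : 𝓞 F, if x ∈ A ∧ x ≠ 0 then gsZ (x : F) v else 0 := by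
  rw [ZIB_thz_one, Complex.norm_real, Real.norm_of_nonneg (tsum_nonneg fun x => ?_)]
  split_ifs
  · exact (gs_pos _ _).le
  · exact le_rfl

open Classical in
theorem ZIB_add_one (A : Ideal (𝓞 F)) (v : InfinitePlace F → ℝ) :
    thz A (fun _ => 1) v + 1 = ∑' x : 𝓞 F, if x ∈ A then (gsZ (x : F) v : ℂ) else 0 := by
  have h : Summable fun x : 𝓞 F => if x ∈ A then (gsZ (x : F) v : ℂ) else 0 := by
    refine (Complex.summable_ofReal.2 (ZIB_summable v (· ∈ A))).congr fun x => ?_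
    split_ifs <;> simp
  rw [h.tsum_eq_add_tsum_ite 0, add_comm, thz]
  congr 1
  · simp
  · refine tsum_congr fun x => ?_
    by_cases h : x = 0 <;> by_cases h' : x ∈ A <;> simp [h, h']

/-- The functional equation of the theta series. -/
theorem thz_fe {A B : Ideal (𝓞 F)} {t : 𝓞 F} (ht : t ≠ 0)
    (h : A * differentIdeal ℤ (𝓞 F) * B = Ideal.span {t}) (v : InfinitePlace F → ℝ) :
    thz A (fun _ => 1) v + 1 =
      Complex.exp (-wz A v) * (thz B (fun _ => 1) (-v - lz (t : F)) + 1) := by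
  have h1 := theta_ideal ht h 0 v
  simp only [add_zero, mul_zero, eTr_zero, mul_one] at h1
  rw [ZIB_add_one, ZIB_add_one, h1]
  push_cast
  rfl

theorem measurable_thz (A : Ideal (𝓞 F)) {f : 𝓞 F → ℂ} (hf : ∀ x, ‖f x‖ ≤ 1) :
    Measurable (thz A f) := by
  classical
  have _ := hf
  refine Measurable.tsum fun x => ?_
  split_ifs
  · exact (Complex.continuous_ofReal.comp (continuous_gs _)).measurable.const_mul _
  · exact measurable_const

/-- `thz A 1` is a non-negative real number which dominates the series with bounded coefficients. -/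
theorem thz_one_eq (A : Ideal (𝓞 F)) (v : InfinitePlace F → ℝ) :
    thz A (fun _ => 1) v = (‖thz A (fun _ => 1) v‖ : ℝ) := by
  rw [ZIB_norm, ZIB_thz_one]

theorem norm_thz_le (A : Ideal (𝓞 F)) {f : 𝓞 F → ℂ} (hf : ∀ x, ‖f x‖ ≤ 1)
    (v : InfinitePlace F → ℝ) : ‖thz A f v‖ ≤ ‖thz A (fun _ => 1) v‖ := by
  classical
  rw [ZIB_norm, thz]
  refine tsum_of_norm_bounded (ZIB_summable v _).hasSum fun x => ?_
  split_ifs
  · rw [norm_mul, Complex.norm_real, Real.norm_of_nonneg (gs_pos _ _).le]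
    exact mul_le_of_le_one_left (gs_pos _ _).le (hf x)
  · simp

theorem thz_one_unit (A : Ideal (𝓞 F)) (u : (𝓞 F)ˣ) (v : InfinitePlace F → ℝ) :
    thz A (fun _ => 1) (v + lz (uF u)) = thz A (fun _ => 1) v := by
  classical
  unfold thz
  refine (tsum_congr fun x => ?_).trans ((Units.mulLeft u).tsum_eq _)
  have h0 : uF u ≠ 0 := RingOfIntegers.coe_ne_zero_iff.2 u.ne_zero
  rw [← gsZ_mul h0]
  simp only [Units.mulLeft_apply, Ideal.unit_mul_mem_iff_mem _ u.isUnit, ne_eq,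
    Units.mul_right_eq_zero, map_mul]

end Crest.Agent.R312
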