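import Crest.Agent.R312.ZTheta

/-!
# Row 312 (B): auxiliary lemmas for `ZIdeal.lean` (bases of ideals, trace duals, reindexing)
-/

set_option autoImplicit false

noncomputable section

namespace Crest.Agent.R312
namespace ZIA

open NumberField Module
open scoped nonZeroDivisors

variable {F : Type} [Field F] [NumberField F]

section basis
variable {ι : Type} [Fintype ι]

theorem comb_eq (b : Basis ι ℚ F) (m : ι → ℤ) :
    ∑ i, (m i : F) * b i = ∑ i, ((m i : ℤ) : ℚ) • b i :=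
  Finset.sum_congr rfl fun i _ => by rw [Rat.smul_def, Rat.cast_intCast]

theorem comb_injective (b : Basis ι ℚ F) :
    Function.Injective fun m : ι → ℤ => ∑ i, (m i : F) * b i := by
  intro m m' h
  simp only [comb_eq] at h
  funext i
  have h1 := congrFun (b.repr_sum_self fun i => ((m i : ℤ) : ℚ)) i
  have h2 := congrFun (b.repr_sum_self fun i => ((m' i : ℤ) : ℚ)) i
  rw [h, h2] at h1
  exact_mod_cast h1.symm

theorem mem_span_iff (b : Basis ι ℚ F) (x : F) :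
    x ∈ Submodule.span ℤ (Set.range b) ↔ ∃ m : ι → ℤ, ∑ i, (m i : F) * b i = x := by
  rw [Submodule.mem_span_range_iff_exists_fun]
  simp only [zsmul_eq_mul]

open Classical in
theorem tsum_basis (b : Basis ι ℚ F) (g : F → ℂ) :
    ∑' m : ι → ℤ, g (∑ i, (m i : F) * b i) =
      ∑' x : F, if x ∈ Submodule.span ℤ (Set.range b) then g x else 0 := by
  rw [← (comb_injective b).tsum_eq
    (f := fun x : F => if x ∈ Submodule.span ℤ (Set.range b) then g x else 0)]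
  · refine tsum_congr fun m => ?_
    rw [if_pos ((mem_span_iff b _).2 ⟨m, rfl⟩)]
  · intro x hx
    by_cases h : x ∈ Submodule.span ℤ (Set.range b)
    · exact (mem_span_iff b x).1 h
    · exact absurd (if_neg h) hx

end basis

omit [NumberField F] in
open Classical in
theorem tsum_ideal (B : Ideal (𝓞 F)) {t : F} (ht : t ≠ 0) (L : Submodule ℤ F)
    (hL : ∀ x : F, x ∈ L ↔ ∃ y ∈ B, x = (y : F) / t) (g : F → ℂ) :
    (∑' x : F, if x ∈ L then g x else 0) = ∑' y : 𝓞 F, if y ∈ B then g ((y : F) / t) else 0 := by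
  have hi : Function.Injective fun y : 𝓞 F => (y : F) / t := by
    intro y y' h
    exact RingOfIntegers.ext ((div_left_inj' ht).1 h)
  rw [← hi.tsum_eq (f := fun x : F => if x ∈ L then g x else 0)]
  · refine tsum_congr fun y => ?_
    by_cases hy : y ∈ B
    · rw [if_pos hy, if_pos ((hL _).2 ⟨y, hy, rfl⟩)]
    · rw [if_neg hy, if_neg]
      intro h
      obtain ⟨y', hy', e⟩ := (hL _).1 h
      exact hy (hi e ▸ hy')
  · intro x hx
    by_cases h : x ∈ L
    · obtain ⟨y, -, e⟩ := (hL x).1 h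
      exact ⟨y, e.symm⟩
    · exact absurd (if_neg h) hx

/-- a `ℤ`-basis of a nonzero ideal, as a `ℚ`-basis of the field -/
theorem exists_basis {A : Ideal (𝓞 F)} (hA : A ≠ ⊥) :
    ∃ b : Basis (Free.ChooseBasisIndex ℤ (𝓞 F)) ℚ F,
      (∀ x : F, x ∈ Submodule.span ℤ (Set.range b) ↔ x ∈ (A : FractionalIdeal (𝓞 F)⁰ F)) ∧
      |Algebra.discr ℚ b| = (Ideal.absNorm A : ℚ) ^ 2 * |(discr F : ℚ)| := by
  classical
  have h0 : (A : FractionalIdeal (𝓞 F)⁰ F) ≠ 0 := FractionalIdeal.coeIdeal_ne_zero.2 hA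
  let I : (FractionalIdeal (𝓞 F)⁰ F)ˣ := Units.mk0 _ h0
  have hc : Fintype.card (Free.ChooseBasisIndex ℤ (𝓞 F)) =
      Fintype.card (Free.ChooseBasisIndex ℤ I) := by
    rw [← finrank_eq_card_chooseBasisIndex, ← finrank_eq_card_chooseBasisIndex,
      fractionalIdeal_rank]
  let e := Fintype.equivOfCardEq hc
  refine ⟨(basisOfFractionalIdeal F I).reindex e.symm, fun x => ?_, ?_⟩
  · rw [Basis.range_reindex, mem_span_basisOfFractionalIdeal]
    rfl
  · have h1 := det_basisOfFractionalIdeal_eq_absNorm F I e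
    have h2 : FractionalIdeal.absNorm I.1 = (Ideal.absNorm A : ℚ) :=
      FractionalIdeal.coeIdeal_absNorm A
    rw [h2, Basis.det_apply] at h1
    rw [← (integralBasis F).toMatrix_map_vecMul ((basisOfFractionalIdeal F I).reindex e.symm),
      Algebra.discr_of_matrix_vecMul, ← coe_discr, abs_mul, abs_pow, h1]

theorem different_ne_bot : differentIdeal ℤ (𝓞 F) ≠ ⊥ := by
  rw [ne_eq, ← Ideal.absNorm_eq_zero_iff, absNorm_differentIdeal F, Int.natAbs_eq_zero]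
  exact discr_ne_zero F

theorem ne_bot_of_mul {A B : Ideal (𝓞 F)} {t : 𝓞 F} (ht : t ≠ 0)
    (h : A * differentIdeal ℤ (𝓞 F) * B = Ideal.span {t}) : A ≠ ⊥ ∧ B ≠ ⊥ := by
  have h1 : A * differentIdeal ℤ (𝓞 F) * B ≠ ⊥ := by
    rw [h, ne_eq, Ideal.span_singleton_eq_bot]; exact ht
  constructor
  · rintro rfl; exact h1 (by rw [Ideal.bot_mul, Ideal.bot_mul])
  · rintro rfl; exact h1 (by rw [Ideal.mul_bot])

/-- the trace dual of `A` is `t⁻¹ B` -/
theorem mem_dual_iff {A B : Ideal (𝓞 F)} {t : 𝓞 F} (ht : t ≠ 0)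
    (h : A * differentIdeal ℤ (𝓞 F) * B = Ideal.span {t}) (x : F) :
    x ∈ FractionalIdeal.dual ℤ ℚ (A : FractionalIdeal (𝓞 F)⁰ F) ↔
      ∃ y ∈ B, x = (y : F) / (t : F) := by
  have hA := (ne_bot_of_mul ht h).1
  have h0 : (A : FractionalIdeal (𝓞 F)⁰ F) ≠ 0 := FractionalIdeal.coeIdeal_ne_zero.2 hA
  have hD : ((differentIdeal ℤ (𝓞 F) : Ideal (𝓞 F)) : FractionalIdeal (𝓞 F)⁰ F) ≠ 0 :=
    FractionalIdeal.coeIdeal_ne_zero.2 different_ne_bot
  have ht' : (t : F) ≠ 0 := RingOfIntegers.coe_ne_zero_iff.2 ht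
  have h1 : (A : FractionalIdeal (𝓞 F)⁰ F) *
      ((differentIdeal ℤ (𝓞 F) : Ideal (𝓞 F)) : FractionalIdeal (𝓞 F)⁰ F) * B =
      FractionalIdeal.spanSingleton (𝓞 F)⁰ (t : F) := by
    rw [← FractionalIdeal.coeIdeal_mul, ← FractionalIdeal.coeIdeal_mul, h,
      FractionalIdeal.coeIdeal_span_singleton]
  have h2 : FractionalIdeal.dual ℤ ℚ (1 : FractionalIdeal (𝓞 F)⁰ F) =
      ((differentIdeal ℤ (𝓞 F) : Ideal (𝓞 F)) : FractionalIdeal (𝓞 F)⁰ F)⁻¹ := by
    rw [coeIdeal_differentIdeal ℤ ℚ F (𝓞 F), inv_inv]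
  have hs : FractionalIdeal.spanSingleton (𝓞 F)⁰ (t : F) ≠ 0 :=
    FractionalIdeal.spanSingleton_ne_zero_iff.2 ht'
  have h3 : FractionalIdeal.dual ℤ ℚ (A : FractionalIdeal (𝓞 F)⁰ F) =
      FractionalIdeal.spanSingleton (𝓞 F)⁰ (t : F)⁻¹ * B := by
    rw [FractionalIdeal.dual_eq_mul_inv, h2, ← FractionalIdeal.spanSingleton_inv, ← h1]
    have hB : (B : FractionalIdeal (𝓞 F)⁰ F) ≠ 0 :=
      FractionalIdeal.coeIdeal_ne_zero.2 (ne_bot_of_mul ht h).2
    field_simp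
  rw [h3, FractionalIdeal.mem_singleton_mul]
  constructor
  · rintro ⟨y, hy, rfl⟩
    obtain ⟨z, hz, rfl⟩ := (FractionalIdeal.mem_coeIdeal _).1 hy
    exact ⟨z, hz, by rw [div_eq_inv_mul]⟩
  · rintro ⟨z, hz, rfl⟩
    exact ⟨z, (FractionalIdeal.mem_coeIdeal _).2 ⟨z, hz, rfl⟩, by rw [div_eq_inv_mul]⟩

theorem mem_span_traceDual {ι : Type} [Fintype ι] [DecidableEq ι] {A : Ideal (𝓞 F)} (hA : A ≠ ⊥)
    (b : Basis ι ℚ F)
    (hb : ∀ x : F, x ∈ Submodule.span ℤ (Set.range b) ↔ x ∈ (A : FractionalIdeal (𝓞 F)⁰ F))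
    (x : F) : x ∈ Submodule.span ℤ (Set.range b.traceDual) ↔
      x ∈ FractionalIdeal.dual ℤ ℚ (A : FractionalIdeal (𝓞 F)⁰ F) := by
  have h0 : (A : FractionalIdeal (𝓞 F)⁰ F) ≠ 0 := FractionalIdeal.coeIdeal_ne_zero.2 hA
  have h1 := Submodule.traceDual_span_of_basis ℤ
    ((A : FractionalIdeal (𝓞 F)⁰ F) : Submodule (𝓞 F) F) b (by
      ext y
      rw [Submodule.restrictScalars_mem, hb, FractionalIdeal.mem_coe])
  rw [← h1, Submodule.restrictScalars_mem, ← FractionalIdeal.coe_dual ℤ ℚ h0,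
    FractionalIdeal.mem_coe]

end ZIA
end Crest.Agent.R312
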