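import Crest.Agent.R312.ZPit
import Crest.Agent.R312.ZZero
import Crest.Agent.R312.ZAlg

/-!
# Row 312 (B): small auxiliary primes

Put `L = l log₂ p + 2 ≥ 2`, `y = L^{24 b}`, `Y = y⁴`.  If no prime `r ≤ Y` works, then termwise
`2 deg1 K r · log r · Wr ≤ deg1 E r · log r · Wr + 2 n_K (bad r + tail r)`, where `bad r = log r` for
`r ∣ 3 l p D` (`∑ ≤ log (3 l p D)`) and `tail r = log r · Wr (r/y) ≤ e⁴ y⁴ r^{-3} ≤ e⁴ r^{-2}` for `r > Y`
(`Wr_le_rpow 4`).  With `pit` for `K` and `E`: `√π e^{1/4} y ≤ C L⁵ y^{23/24}`, false when `2^{b-5} > C`.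
-/

set_option autoImplicit false

noncomputable section

namespace Crest.Agent.R312

open NumberField MeasureTheory Filter
open scoped Topology ENNReal NNReal

theorem zmain_log_le {M : ℕ} (hM : M ≠ 0) :
    ∑ r ∈ M.primeFactors, Real.log r ≤ Real.log M := by
  have h1 : ∀ r ∈ M.primeFactors, (r : ℝ) ≠ 0 := fun r hr =>
    Nat.cast_ne_zero.2 (Nat.prime_of_mem_primeFactors hr).ne_zero
  rw [← Real.log_prod h1]
  refine Real.log_le_log (Finset.prod_pos fun r hr => ?_) ?_
  · exact Nat.cast_pos.2 (Nat.prime_of_mem_primeFactors hr).pos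
  · rw [← Nat.cast_prod]
    exact Nat.cast_le.2 (Nat.le_of_dvd (Nat.pos_of_ne_zero hM) (Nat.prod_primeFactors_dvd M))

theorem zmain_tail {y r : ℝ} (hy : 0 < y) (hr : 1 ≤ r) (h : y ^ 4 ≤ r) :
    Real.log r * Wr (r / y) ≤ Real.exp 4 * (1 / r ^ 2) := by
  have hr0 : 0 < r := by linarith
  have h1 := Wr_le_rpow 4 (div_pos hr0 hy)
  rw [show (4 : ℝ) ^ 2 / 4 = 4 by norm_num, Real.rpow_neg (div_pos hr0 hy).le,
    show (4 : ℝ) = (4 : ℕ) by norm_num, Real.rpow_natCast] at h1
  have h2 : Real.log r ≤ r := (Real.log_le_sub_one_of_pos hr0).trans (by linarith)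
  calc Real.log r * Wr (r / y) ≤ r * (Real.exp (4 : ℕ) * ((r / y) ^ 4)⁻¹) :=
        mul_le_mul h2 h1 (Wr_pos _).le hr0.le
    _ = Real.exp 4 * (1 / r ^ 2) * (y ^ 4 / r) := by
        push_cast
        field_simp
    _ ≤ _ := mul_le_of_le_one_right (by positivity) ((div_le_one hr0).2 h)

/-- The comparison of the two smooth sums. -/
theorem zmain_cmp {K E : Type} [Field K] [NumberField K] [Field E] [NumberField E] {M : ℕ}
    (hM : M ≠ 0) {y : ℝ} (hy : 0 < y)
    (h : ∀ r : ℕ, r.Prime → ¬ r ∣ M → (r : ℝ) ≤ y ^ 4 → 2 * deg1 K r ≤ deg1 E r) :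
    2 * thW K y ≤ thW E y + 2 * Module.finrank ℚ K * (Real.log M + Real.exp 4 * 2) := by
  classical
  have h1 : HasSum (fun r : ℕ => if r ∈ M.primeFactors then Real.log r else 0)
      (∑ r ∈ M.primeFactors, Real.log r) := by
    have := hasSum_sum_of_ne_finset_zero (L := SummationFilter.unconditional ℕ)
      (f := fun r : ℕ => if r ∈ M.primeFactors then Real.log r else 0) (s := M.primeFactors)
      fun r hr => if_neg hr
    rwa [Finset.sum_congr rfl fun r hr => if_pos hr] at this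
  have h2 := ((summable_thW E hy).hasSum.add ((h1.add (hasSum_zeta_two.mul_left
    (Real.exp 4))).mul_left (2 * Module.finrank ℚ K : ℝ)))
  have h3 := (summable_thW K hy).hasSum.mul_left 2
  have h4 := hasSum_le (fun r => ?_) h3 h2
  · refine h4.trans (add_le_add le_rfl (mul_le_mul_of_nonneg_left
      (add_le_add (zmain_log_le hM) (mul_le_mul_of_nonneg_left ?_ (Real.exp_pos _).le))
      (by positivity)))
    have := Real.pi_lt_d2
    have := Real.pi_pos
    nlinarith
  · have hb : 0 ≤ if r ∈ M.primeFactors then Real.log r else 0 := by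
      split_ifs
      exacts [Real.log_natCast_nonneg r, le_rfl]
    have ht : 0 ≤ Real.exp 4 * (1 / (r : ℝ) ^ 2) := by positivity
    by_cases hr : r.Prime
    · have hW : 0 ≤ Real.log r * Wr (r / y) := mul_nonneg (Real.log_natCast_nonneg r) (Wr_pos _).le
      have hn : (deg1 K r : ℝ) ≤ Module.finrank ℚ K := Nat.cast_le.2 (deg1_le hr)
      have hE : 0 ≤ (deg1 E r : ℝ) * (Real.log r * Wr (r / y)) := by positivity
      have key : Real.log r * Wr (r / y) ≤ (if r ∈ M.primeFactors then Real.log r else 0) +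
          Real.exp 4 * (1 / (r : ℝ) ^ 2) → 2 * ((deg1 K r : ℝ) * (Real.log r * Wr (r / y))) ≤
          (deg1 E r : ℝ) * (Real.log r * Wr (r / y)) + 2 * Module.finrank ℚ K *
            ((if r ∈ M.primeFactors then Real.log r else 0) + Real.exp 4 * (1 / (r : ℝ) ^ 2)) := by
        intro h5
        have h6 := mul_le_mul hn h5 hW (Nat.cast_nonneg _)
        linarith
      simp only [if_pos hr]
      by_cases hd : r ∣ M
      · refine key ?_
        rw [if_pos (Nat.mem_primeFactors.2 ⟨hr, hd, hM⟩)]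
        have := mul_le_of_le_one_right (Real.log_natCast_nonneg r) (Wr_le_one (r / y))
        linarith
      by_cases hY : (r : ℝ) ≤ y ^ 4
      · have h5 : 2 * (deg1 K r : ℝ) ≤ deg1 E r := by exact_mod_cast h r hr hd hY
        have h6 := mul_le_mul_of_nonneg_right h5 hW
        have h7 : 0 ≤ 2 * (Module.finrank ℚ K : ℝ) *
            ((if r ∈ M.primeFactors then Real.log r else 0) + Real.exp 4 * (1 / (r : ℝ) ^ 2)) := by
          positivity
        linarith
      · refine key ?_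
        have := zmain_tail hy (by exact_mod_cast hr.one_lt.le) (not_le.1 hY).le
        linarith
    · simp only [if_neg hr, mul_zero, zero_add]
      positivity

theorem auxPrime_of_mobAll : MobAll → AuxPrime := by
  intro hM
  obtain ⟨C, hC, hpit⟩ := pit
  obtain ⟨b, hb⟩ := pow_unbounded_of_one_lt (300 * C + 6 * (103 + Real.exp 4 * 2))
    (one_lt_two (α := ℝ))
  refine ⟨24 * (b + 5) * 4, fun l p hl hp h3 hlp => ?_⟩
  by_contra hno
  obtain ⟨K, E, _, _, _, _, D, hK, hE, h2, hKl, hcK, hcE, hD, hlD, hdK, hdE⟩ :=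
    exists_fields hl hp h3 hlp
  have := isTotallyComplex_of_om hK
  have := isTotallyComplex_of_om hE
  obtain ⟨L, hL⟩ : ∃ L : ℝ, L = (l : ℝ) * Nat.log 2 p + 2 := ⟨_, rfl⟩
  rw [← hL] at hcK hcE hlD
  have hlg : 1 ≤ Nat.log 2 p := Nat.log_pos one_lt_two hp.two_le
  have hlg' : (1 : ℝ) ≤ Nat.log 2 p := by exact_mod_cast hlg
  have hl1 : (1 : ℝ) ≤ l := by exact_mod_cast hl.one_lt.le
  have hlL : (l : ℝ) ≤ L := by nlinarith
  have hL2 : 2 ≤ L := by nlinarith
  have hL1 : 1 ≤ L := by linarith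
  have hL0 : 0 < L := by linarith
  obtain ⟨y, hy⟩ : ∃ y : ℝ, y = L ^ (24 * (b + 5)) := ⟨_, rfl⟩
  obtain ⟨y', hy''⟩ : ∃ y : ℝ, y = L ^ (23 * (b + 5)) := ⟨_, rfl⟩
  have hy1 : 1 ≤ y := hy ▸ one_le_pow₀ hL1
  have hy' : y ^ (23 / 24 : ℝ) = y' := by
    rw [hy, hy'', ← Real.rpow_natCast, ← Real.rpow_mul hL0.le, ← Real.rpow_natCast]
    congr 1
    push_cast
    ring
  have hM0 : 3 * l * p * D ≠ 0 :=
    mul_ne_zero (mul_ne_zero (mul_ne_zero three_ne_zero hl.ne_zero) hp.ne_zero) hD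
  have hcmp := zmain_cmp (K := K) (E := E) hM0 (one_pos.trans_le hy1) fun r hr hd hY => by
    by_cases h0 : deg1 K r = 0
    · rw [h0]
      exact Nat.zero_le _
    have h4 : r % (3 * l) = 1 := (hdK r hr h0).resolve_left fun h =>
      hd ((h.mul_right p).mul_right D)
    have h5 : r ≠ p := fun h => hd (h ▸ (Dvd.intro_left _ rfl).mul_right D)
    have h6 : ¬ r ∣ D := fun h => hd (h.mul_left _)
    have h7 : r ≤ (l * Nat.log 2 p + 2) ^ (24 * (b + 5) * 4) := by
      rw [hy, ← pow_mul, hL] at hY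
      exact_mod_cast hY
    rw [hdE r hr h4 h5 h6 (by_contra fun h => hno ⟨r, hr, h5, h7, h4, h⟩)]
    exact (Nat.mul_le_mul_left 2 (deg1_le hr)).trans h2
  have hpK := abs_le.1 (hpit K (zf_of_mob (hM K hK)) y hy1)
  have hpE := abs_le.1 (hpit E (zf_of_mob (hM E hE)) y hy1)
  rw [hy'] at hpK hpE
  have hy'1 : 1 ≤ y' := hy'' ▸ one_le_pow₀ hL1
  have hc : y ≤ Real.sqrt Real.pi * Real.exp (1 / 4) * y := by
    refine le_mul_of_one_le_left (by linarith) (one_le_mul_of_one_le_of_one_le ?_ ?_)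
    · exact Real.one_le_sqrt.2 (by linarith [Real.pi_gt_three])
    · exact Real.one_le_exp (by norm_num)
  have hL4 : L ≤ L ^ 4 := le_self_pow₀ hL1 (by norm_num)
  have hlogM : Real.log ((3 * l * p * D : ℕ) : ℝ) ≤ 103 * L ^ 4 := by
    have hp0 : (0 : ℝ) < p := Nat.cast_pos.2 hp.pos
    have hD0 : (D : ℝ) ≠ 0 := Nat.cast_ne_zero.2 hD
    push_cast
    rw [Real.log_mul (by positivity) hD0, Real.log_mul (by positivity) hp0.ne',
      Real.log_mul (by positivity) (by positivity)]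
    have e1 := Real.log_le_sub_one_of_pos (show (0 : ℝ) < 3 by norm_num)
    have e2 := Real.log_le_sub_one_of_pos (show (0 : ℝ) < l by linarith)
    have e3 : Real.log p ≤ L := by
      have e4 : (p : ℝ) ≤ 2 ^ (Nat.log 2 p + 1) := by
        exact_mod_cast (Nat.lt_pow_succ_log_self one_lt_two p).le
      refine (Real.log_le_log hp0 e4).trans ?_
      rw [Real.log_pow]
      have e5 := Real.log_le_sub_one_of_pos (show (0 : ℝ) < 2 by norm_num)
      push_cast
      nlinarith
    linarith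
  have hn : (Module.finrank ℚ K : ℝ) ≤ 3 * L := by
    have : (Module.finrank ℚ K : ℝ) ≤ 3 * l := by exact_mod_cast hKl
    linarith
  have hL41 : 1 ≤ L ^ 4 := one_le_pow₀ hL1
  have he := Real.exp_pos 4
  have e1 : 2 * (Module.finrank ℚ K : ℝ) * (Real.log ((3 * l * p * D : ℕ) : ℝ) + Real.exp 4 * 2) ≤
      2 * (3 * L) * ((103 + Real.exp 4 * 2) * L ^ 4) * y' := by
    refine le_trans ?_ (le_mul_of_one_le_right (by positivity) hy'1)
    refine mul_le_mul (by linarith) (by nlinarith) ?_ (by positivity)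
    have := Real.log_natCast_nonneg (3 * l * p * D)
    positivity
  have e2 : C * cnd K * y' ≤ C * (100 * L ^ 4) * L * y' := by
    refine mul_le_mul_of_nonneg_right ((mul_le_mul_of_nonneg_left hcK hC.le).trans
      (le_mul_of_one_le_right (by positivity) hL1)) (by linarith)
  have e3 : C * cnd E * y' ≤ C * (100 * L ^ 4) * L * y' := by
    refine mul_le_mul_of_nonneg_right ((mul_le_mul_of_nonneg_left hcE hC.le).trans
      (le_mul_of_one_le_right (by positivity) hL1)) (by linarith)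
  have e4 : y ≤ (300 * C + 6 * (103 + Real.exp 4 * 2)) * (L ^ 5 * y') := by
    linarith [hpK.1, hpE.2]
  have e5 : y = L ^ b * (L ^ 5 * y') := by
    rw [hy, hy'']
    ring
  have e6 : (2 : ℝ) ^ b ≤ L ^ b := pow_le_pow_left₀ zero_le_two hL2 b
  rw [e5] at e4
  have e7 := le_of_mul_le_mul_right e4 (by positivity)
  linarith

end Crest.Agent.R312
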