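import Mathlib

/-!
# Row 312 (B): Poisson summation on `ℝ^ι`
-/

set_option autoImplicit false

noncomputable section

namespace Crest.Agent.R312.ZP1

open MeasureTheory Filter Set
open scoped Topology

variable {ι : Type} [Fintype ι]

/-- the unit box with corner `m` -/
def box (m : ι → ℤ) : Set (ι → ℝ) := {x | ∀ i, x i ∈ Ioc (m i : ℝ) (m i + 1)}

/-- the translation by `m` -/
def sh (m : ι → ℤ) (u : ι → ℝ) : ι → ℝ := fun i => (m i : ℝ) + u i

theorem measurableSet_box (m : ι → ℤ) : MeasurableSet (box m) :=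
  MeasurableSet.univ_pi' fun _ => measurableSet_Ioc

theorem volume_box (m : ι → ℤ) : volume (box m) = 1 := by
  have : box m = Set.pi univ fun i => Ioc (m i : ℝ) (m i + 1) := by
    ext x
    simp [box]
  rw [this, Real.volume_pi_Ioc]
  simp

omit [Fintype ι] in
theorem mem_box_iff {m : ι → ℤ} {x : ι → ℝ} : x ∈ box m ↔ m = fun i => ⌈x i⌉ - 1 := by
  rw [box, mem_ofPred_eq, funext_iff]
  refine forall_congr' fun i => ?_
  rw [eq_sub_iff_add_eq, eq_comm, Int.ceil_eq_iff]
  simp

omit [Fintype ι] in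
theorem iUnion_box : ⋃ m : ι → ℤ, box m = univ :=
  eq_univ_of_forall fun _ => mem_iUnion.2 ⟨_, mem_box_iff.2 rfl⟩

omit [Fintype ι] in
theorem disjoint_box : Pairwise (Function.onFun Disjoint (box (ι := ι))) := fun _ _ h =>
  disjoint_left.2 fun _ h1 h2 => h ((mem_box_iff.1 h1).trans (mem_box_iff.1 h2).symm)

theorem norm_le_of_mem {u : ι → ℝ} (hu : u ∈ box 0) : ‖u‖ ≤ 1 := by
  refine (pi_norm_le_iff_of_nonneg zero_le_one).2 fun i => ?_
  have := hu i
  simp only [Pi.zero_apply, Int.cast_zero, zero_add, mem_Ioc] at this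
  rw [Real.norm_of_nonneg this.1.le]
  exact this.2

theorem integral_box {E : Type} [NormedAddCommGroup E] [NormedSpace ℝ E] (h : (ι → ℝ) → E)
    (m : ι → ℤ) : ∫ x in box m, h x = ∫ u in box 0, h (sh m u) := by
  have e := (measurePreserving_add_left volume fun i => (m i : ℝ)).setIntegral_preimage_emb
    (measurableEmbedding_addLeft _) h (box m)
  have e2 : (fun x => (fun i => (m i : ℝ)) + x) ⁻¹' box m = box 0 := by
    ext x
    simp [box]
  rw [e2] at e
  exact e.symm

omit [Fintype ι] in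
theorem continuous_sh (m : ι → ℤ) : Continuous (sh m) := by
  unfold sh
  fun_prop

theorem glue {h : (ι → ℝ) → ℂ} (hc : Continuous h) {g : (ι → ℤ) → ℝ} (hg : Summable g)
    (hb : ∀ u ∈ box 0, ∀ m, ‖h (sh m u)‖ ≤ g m) :
    ∫ u in box 0, ∑' m, h (sh m u) = ∫ x, h x := by
  have : IsFiniteMeasure (volume.restrict (box (0 : ι → ℤ))) :=
    isFiniteMeasure_restrict.2 (by rw [volume_box]; exact ENNReal.one_ne_top)
  have hae : ∀ m, ∀ᵐ u ∂volume.restrict (box 0), ‖h (sh m u)‖ ≤ g m := fun m =>
    (ae_restrict_mem (measurableSet_box 0)).mono fun u hu => hb u hu m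
  have hi : ∀ m, Integrable (fun u => h (sh m u)) (volume.restrict (box 0)) := fun m =>
    .of_bound (hc.comp (continuous_sh m)).aestronglyMeasurable _ (hae m)
  have hs : Summable fun m => ∫ u in box 0, ‖h (sh m u)‖ := by
    refine hg.of_nonneg_of_le (fun m => integral_nonneg fun _ => norm_nonneg _) fun m => ?_
    have := integral_mono_ae (hi m).norm (integrable_const (g m)) (hae m)
    simpa [Measure.real, volume_box] using this
  have hi' : ∀ m : ι → ℤ, IntegrableOn h (box m) := by
    intro m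
    refine (hc.continuousOn.integrableOn_compact
      (isCompact_Icc (a := fun i => (m i : ℝ)) (b := fun i => (m i : ℝ) + 1))).mono_set ?_
    exact fun x hx => ⟨fun i => (hx i).1.le, fun i => (hx i).2⟩
  have hI : IntegrableOn h (⋃ m, box m) :=
    integrableOn_iUnion_of_summable_integral_norm hi'
      (by simpa only [integral_box (fun x => ‖h x‖)] using hs)
  have h1 := hasSum_integral_iUnion measurableSet_box disjoint_box hI
  rw [iUnion_box, Measure.restrict_univ] at h1
  simp only [integral_box h] at h1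
  exact (hasSum_integral_of_summable_integral_norm hi hs).unique h1

/-- the projection to the torus -/
def proj (x : ι → ℝ) : UnitAddTorus ι := fun i => (x i : UnitAddCircle)

omit [Fintype ι] in
theorem isOpenQuotientMap_proj : IsOpenQuotientMap (proj (ι := ι)) :=
  IsOpenQuotientMap.piMap fun _ : ι => QuotientAddGroup.isOpenQuotientMap_mk

omit [Fintype ι] in
theorem exists_of_proj_eq {x y : ι → ℝ} (h : proj x = proj y) : ∃ n : ι → ℤ, y = sh n x := by
  have : ∀ i, ∃ n : ℤ, y i = n + x i := by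
    intro i
    obtain ⟨n, hn⟩ := AddSubgroup.mem_zmultiples_iff.1 (QuotientAddGroup.eq.1 (congrFun h i))
    refine ⟨n, ?_⟩
    rw [zsmul_eq_mul, mul_one] at hn
    linarith
  choose n hn using this
  exact ⟨n, funext hn⟩

theorem mFourier_proj (k : ι → ℤ) (x : ι → ℝ) : UnitAddTorus.mFourier k (proj x) =
    Complex.exp (2 * Real.pi * Complex.I * ((∑ i, (k i : ℝ) * x i : ℝ) : ℂ)) := by
  simp only [UnitAddTorus.mFourier, ContinuousMap.coe_mk, proj, fourier_coe_apply,
    ← Complex.exp_sum]
  congr 1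
  push_cast
  rw [Finset.mul_sum]
  exact Finset.sum_congr rfl fun i _ => by ring

theorem poisson {f : (ι → ℝ) → ℂ} (hf : Continuous f)
    (hb : ∀ R : ℝ, ∃ g : (ι → ℤ) → ℝ, Summable g ∧
      ∀ u : ι → ℝ, ‖u‖ ≤ R → ∀ m : ι → ℤ, ‖f fun i => (m i : ℝ) + u i‖ ≤ g m)
    (hs : Summable fun k : ι → ℤ => ∫ x : ι → ℝ, f x *
      Complex.exp (-(2 * Real.pi * Complex.I * ((∑ i, (k i : ℝ) * x i : ℝ) : ℂ)))) (u : ι → ℝ) :
    ∑' m : ι → ℤ, f (fun i => (m i : ℝ) + u i) = ∑' k : ι → ℤ, (∫ x : ι → ℝ, f x *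
      Complex.exp (-(2 * Real.pi * Complex.I * ((∑ i, (k i : ℝ) * x i : ℝ) : ℂ)))) *
        Complex.exp (2 * Real.pi * Complex.I * ((∑ i, (k i : ℝ) * u i : ℝ) : ℂ)) := by
  set P : (ι → ℝ) → ℂ := fun u => ∑' m, f (sh m u) with hP
  have hPc : Continuous P := by
    refine continuous_iff_continuousAt.2 fun x => ?_
    obtain ⟨g, hg, h⟩ := hb (‖x‖ + 1)
    have := continuousOn_tsum (s := Metric.ball 0 (‖x‖ + 1)) (f := fun m u => f (sh m u))
      (fun m => (hf.comp (continuous_sh m)).continuousOn) hg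
      (fun m u hu => h u (mem_ball_zero_iff.1 hu).le m)
    exact this.continuousAt (Metric.isOpen_ball.mem_nhds (by simp))
  have hPp : ∀ x y, proj x = proj y → P x = P y := by
    intro x y h
    obtain ⟨n, rfl⟩ := exists_of_proj_eq h
    simp only [hP]
    rw [← (Equiv.addRight n).tsum_eq]
    refine tsum_congr fun m => congrArg f (funext fun i => ?_)
    simp [sh, add_assoc]
  have hsurj := (isOpenQuotientMap_proj (ι := ι)).surjective
  have hG : ∀ x, P (Function.surjInv hsurj (proj x)) = P x := fun x =>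
    hPp _ _ (Function.surjInv_eq hsurj _)
  let G : C(UnitAddTorus ι, ℂ) := ⟨fun z => P (Function.surjInv hsurj z),
    isOpenQuotientMap_proj.isQuotientMap.continuous_iff.2 (hPc.congr fun x => (hG x).symm)⟩
  have hcoef : ∀ k : ι → ℤ, UnitAddTorus.mFourierCoeff G k = ∫ x : ι → ℝ, f x *
      Complex.exp (-(2 * Real.pi * Complex.I * ((∑ i, (k i : ℝ) * x i : ℝ) : ℂ))) := by
    intro k
    obtain ⟨g, hg, h⟩ := hb 1
    have hm : ∀ x : ι → ℝ,
        Complex.exp (-(2 * Real.pi * Complex.I * ((∑ i, (k i : ℝ) * x i : ℝ) : ℂ))) =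
          UnitAddTorus.mFourier (-k) (proj x) := by
      intro x
      rw [mFourier_proj]
      congr 1
      simp
    have hper : ∀ (m : ι → ℤ) (x : ι → ℝ), proj (sh m x) = proj x := by
      intro m x
      funext i
      simp only [proj, sh]
      rw [AddCircle.coe_add, (AddCircle.coe_eq_zero_iff (1 : ℝ)).2 ⟨m i, by simp⟩, zero_add]
    simp only [hm]
    rw [← glue (g := g) (h := fun x => f x * UnitAddTorus.mFourier (-k) (proj x)) (hf.mul ((UnitAddTorus.mFourier (-k)).continuous.comp
      isOpenQuotientMap_proj.continuous)) hg (fun u hu m => by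
        rw [norm_mul, ← hm, Complex.norm_exp]
        have h' : ‖f (sh m u)‖ ≤ g m := h u (norm_le_of_mem hu) m
        simpa using h'),
      UnitAddTorus.mFourierCoeff_eq_integral G k fun i => ((0 : ι → ℤ) i : ℝ)]
    refine integral_congr_ae (Eventually.of_forall fun x => ?_)
    simp only [hper, tsum_mul_right, smul_eq_mul]
    rw [mul_comm]
    exact congrArg (· * _) (hG x)
  have key := UnitAddTorus.hasSum_mFourier_series_apply_of_summable (f := G)
    (hs.congr fun k => (hcoef k).symm) (proj u)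
  simp only [hcoef, mFourier_proj, smul_eq_mul] at key
  rw [key.tsum_eq]
  exact (hG u).symm

end Crest.Agent.R312.ZP1
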