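import Crest.Agent.R312.ZDefs
import Crest.Agent.R312.ZPoisAux1

/-!
# Row 312 (B): theta inversion for a positive definite real matrix

Periodise `f x = exp(-π xᵀQx)` on `ι → ℝ`, lift to `UnitAddTorus ι`, compute `mFourierCoeff` by
unfolding (`UnitAddTorus.mFourierCoeff_eq_integral`), Fourier transform of the Gaussian by the change of
variables `x = B⁻¹ y`, `Q = Bᵀ B`, and `UnitAddTorus.hasSum_mFourier_series_apply_of_summable`.
-/

set_option autoImplicit false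

noncomputable section

namespace Crest.Agent.R312

open NumberField MeasureTheory Filter
open scoped Topology ENNReal NNReal

open Matrix

variable {ι : Type} [Fintype ι] [DecidableEq ι]

/-- **Poisson summation on `ℝ^ι`**. -/
theorem poisson_pi {f : (ι → ℝ) → ℂ} (hf : Continuous f)
    (hb : ∀ R : ℝ, ∃ g : (ι → ℤ) → ℝ, Summable g ∧
      ∀ u : ι → ℝ, ‖u‖ ≤ R → ∀ m : ι → ℤ, ‖f fun i => (m i : ℝ) + u i‖ ≤ g m)
    (hs : Summable fun k : ι → ℤ => ∫ x : ι → ℝ, f x *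
      Complex.exp (-(2 * Real.pi * Complex.I * ((∑ i, (k i : ℝ) * x i : ℝ) : ℂ)))) (u : ι → ℝ) :
    ∑' m : ι → ℤ, f (fun i => (m i : ℝ) + u i) = ∑' k : ι → ℤ, (∫ x : ι → ℝ, f x *
      Complex.exp (-(2 * Real.pi * Complex.I * ((∑ i, (k i : ℝ) * x i : ℝ) : ℂ)))) *
        Complex.exp (2 * Real.pi * Complex.I * ((∑ i, (k i : ℝ) * u i : ℝ) : ℂ)) :=
  ZP1.poisson hf hb hs u

open scoped MatrixOrder in
theorem zpB_factor {Q : Matrix ι ι ℝ} (hQ : Q.PosDef) :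
    ∃ B : Matrix ι ι ℝ, Q = Bᵀ * B ∧ B.det ≠ 0 := by
  obtain ⟨B, hB⟩ := CStarAlgebra.nonneg_iff_eq_star_mul_self.mp hQ.posSemidef.nonneg
  have h1 : Q = Bᵀ * B := hB
  refine ⟨B, h1, fun h => ?_⟩
  have h2 := hQ.det_pos
  rw [h1, det_mul, h, mul_zero] at h2
  exact lt_irrefl _ h2

omit [DecidableEq ι] in
theorem zpB_quad (B : Matrix ι ι ℝ) (x : ι → ℝ) :
    x ⬝ᵥ (Bᵀ * B) *ᵥ x = ∑ i, (B *ᵥ x) i ^ 2 := by
  rw [← mulVec_mulVec, dotProduct_mulVec, vecMul_transpose]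
  simp only [dotProduct, sq]

theorem zpB_change {B : Matrix ι ι ℝ} (hB : B.det ≠ 0) {G : (ι → ℝ) → ℂ} (hG : Continuous G) :
    ∫ x : ι → ℝ, G (B *ᵥ x) = ((|B.det|⁻¹ : ℝ) : ℂ) * ∫ y, G y := by
  have h1 := integral_map (μ := volume) (φ := toLin' B) (f := G)
    (LinearMap.continuous_of_finiteDimensional _).aemeasurable hG.aestronglyMeasurable
  rw [Real.map_matrix_volume_pi_eq_smul_volume_pi hB, integral_smul_measure,
    ENNReal.toReal_ofReal (abs_nonneg _), abs_inv] at h1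
  exact h1.symm

theorem zpB_lower {Q : Matrix ι ι ℝ} (hQ : Q.PosDef) :
    ∃ c : ℝ, 0 < c ∧ ∀ x : ι → ℝ, c * ∑ i, x i ^ 2 ≤ x ⬝ᵥ Q *ᵥ x := by
  obtain ⟨B, rfl, hB⟩ := zpB_factor hQ
  have h0 : 0 ≤ ∑ i, ∑ j, B⁻¹ i j ^ 2 := by positivity
  refine ⟨(∑ i, ∑ j, B⁻¹ i j ^ 2 + 1)⁻¹, by positivity, fun x => ?_⟩
  rw [zpB_quad, inv_mul_le_iff₀ (by positivity)]
  have h1 : x = B⁻¹ *ᵥ (B *ᵥ x) := by
    rw [mulVec_mulVec, nonsing_inv_mul _ (Ne.isUnit hB), one_mulVec]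
  generalize B *ᵥ x = y at h1
  have h2 : 0 ≤ ∑ i, y i ^ 2 := by positivity
  have h3 : ∑ i, x i ^ 2 ≤ (∑ i, ∑ j, B⁻¹ i j ^ 2) * ∑ i, y i ^ 2 := by
    rw [Finset.sum_mul, h1]
    exact Finset.sum_le_sum fun i _ => Finset.sum_mul_sq_le_sq_mul_sq _ _ _
  linarith

theorem zpB_summable {c : ℝ} (hc : 0 < c) :
    Summable fun m : ι → ℤ => ∏ i, Real.exp (-Real.pi * (c * (m i : ℝ) ^ 2)) := by
  have h1 : Summable fun n : ℤ => Real.exp (-Real.pi * (c * (n : ℝ) ^ 2)) := by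
    simpa using summable_pow_mul_jacobiTheta₂_term_bound 0 hc 0
  refine summable_of_sum_le (c := ∏ _i : ι, ∑' n : ℤ, Real.exp (-Real.pi * (c * (n : ℝ) ^ 2)))
    (fun m => Finset.prod_nonneg fun _ _ => (Real.exp_pos _).le) fun S => ?_
  refine (Finset.sum_le_sum_of_subset_of_nonneg (t := Fintype.piFinset fun i => S.image (· i))
    (fun m hm => Fintype.mem_piFinset.2 fun i => Finset.mem_image_of_mem _ hm)
    fun _ _ _ => Finset.prod_nonneg fun _ _ => (Real.exp_pos _).le).trans ?_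
  rw [← Finset.prod_univ_sum (fun i => S.image (· i))
    fun _ (n : ℤ) => Real.exp (-Real.pi * (c * (n : ℝ) ^ 2))]
  exact Finset.prod_le_prod (fun _ _ => Finset.sum_nonneg fun _ _ => (Real.exp_pos _).le)
    fun _ _ => h1.sum_le_tsum _ fun _ _ => (Real.exp_pos _).le

/-- The Fourier transform of a Gaussian. -/
theorem fourier_gauss {Q : Matrix ι ι ℝ} (hQ : Q.PosDef) (k : ι → ℝ) :
    ∫ x : ι → ℝ, (Real.exp (-Real.pi * (x ⬝ᵥ Q *ᵥ x)) : ℂ) *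
      Complex.exp (-(2 * Real.pi * Complex.I * ((∑ i, k i * x i : ℝ) : ℂ))) =
    ((Real.sqrt Q.det)⁻¹ : ℝ) * (Real.exp (-Real.pi * (k ⬝ᵥ Q⁻¹ *ᵥ k)) : ℂ) := by
  obtain ⟨B, rfl, hB⟩ := zpB_factor hQ
  have hπ : (Real.pi : ℂ) ≠ 0 := Complex.ofReal_ne_zero.2 Real.pi_ne_zero
  have h1 := zpB_change hB (G := fun y => Complex.exp (-(Real.pi : ℂ) * ∑ i, (y i : ℂ) ^ 2 +
    ∑ i, (-(2 * Real.pi * Complex.I * (((B⁻¹)ᵀ *ᵥ k) i : ℝ))) * y i)) (by fun_prop)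
  rw [GaussianFourier.integral_cexp_neg_mul_sum_add (by simpa using Real.pi_pos), div_self hπ,
    Complex.one_cpow, one_mul] at h1
  have h2 : (Bᵀ * B)⁻¹ = ((B⁻¹)ᵀ)ᵀ * (B⁻¹)ᵀ := by
    rw [Matrix.mul_inv_rev, transpose_transpose, transpose_nonsing_inv]
  rw [h2, zpB_quad, det_mul, det_transpose, Real.sqrt_mul_self_eq_abs]
  refine Eq.trans (integral_congr_ae (Eventually.of_forall fun x => ?_)) (h1.trans ?_)
  · have h3 : ∑ i, k i * x i = ∑ i, ((B⁻¹)ᵀ *ᵥ k) i * (B *ᵥ x) i := by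
      change k ⬝ᵥ x = ((B⁻¹)ᵀ *ᵥ k) ⬝ᵥ (B *ᵥ x)
      rw [mulVec_transpose, ← dotProduct_mulVec, mulVec_mulVec, nonsing_inv_mul _ (Ne.isUnit hB),
        one_mulVec]
    simp only
    rw [zpB_quad, h3, Complex.ofReal_exp, ← Complex.exp_add]
    congr 1
    push_cast
    simp only [Finset.mul_sum, ← Finset.sum_neg_distrib, mul_assoc, neg_mul]
  · rw [Complex.ofReal_exp]
    congr 2
    push_cast
    rw [Finset.sum_div, Finset.mul_sum]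
    refine Finset.sum_congr rfl fun i _ => ?_
    field_simp
    rw [Complex.I_sq]
    ring

/-- `xᵀ Q x ≥ c ∑ x_i²` and `(m + u)² ≥ m²/2 - R²`. -/
theorem gauss_majorant {Q : Matrix ι ι ℝ} (hQ : Q.PosDef) (R : ℝ) :
    ∃ g : (ι → ℤ) → ℝ, Summable g ∧ ∀ u : ι → ℝ, ‖u‖ ≤ R → ∀ m : ι → ℤ, Real.exp
      (-Real.pi * ((fun i => (m i : ℝ) + u i) ⬝ᵥ Q *ᵥ fun i => (m i : ℝ) + u i)) ≤ g m := by
  obtain ⟨c, hc, h⟩ := zpB_lower hQ
  refine ⟨fun m => (∏ _i : ι, Real.exp (Real.pi * (c * R ^ 2))) *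
    ∏ i, Real.exp (-Real.pi * (c / 2 * (m i : ℝ) ^ 2)),
    (zpB_summable (half_pos hc)).mul_left _, fun u hu m => ?_⟩
  simp only
  rw [← Finset.prod_mul_distrib]
  simp only [← Real.exp_add]
  rw [← Real.exp_sum]
  refine Real.exp_le_exp.2 ((mul_le_mul_of_nonpos_left (h _) (by linarith [Real.pi_pos])).trans ?_)
  rw [Finset.mul_sum, Finset.mul_sum]
  refine Finset.sum_le_sum fun i _ => ?_
  have h1 : u i ^ 2 ≤ R ^ 2 := by
    rw [← sq_abs]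
    exact pow_le_pow_left₀ (abs_nonneg _) ((norm_le_pi_norm u i).trans hu) 2
  have h2 : (m i : ℝ) ^ 2 / 2 - R ^ 2 ≤ ((m i : ℝ) + u i) ^ 2 := by
    nlinarith [sq_nonneg ((m i : ℝ) + 2 * u i)]
  nlinarith [mul_le_mul_of_nonneg_left h2 (mul_pos Real.pi_pos hc).le]

theorem summable_theta {Q : Matrix ι ι ℝ} (hQ : Q.PosDef) (u : ι → ℝ) :
    Summable fun m : ι → ℤ => Real.exp
      (-Real.pi * ((fun i => (m i : ℝ) + u i) ⬝ᵥ Q *ᵥ fun i => (m i : ℝ) + u i)) := by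
  obtain ⟨g, hg, h⟩ := gauss_majorant hQ ‖u‖
  exact hg.of_nonneg_of_le (fun _ => (Real.exp_pos _).le) (h u le_rfl)

theorem theta_inv {Q : Matrix ι ι ℝ} (hQ : Q.PosDef) (u : ι → ℝ) :
    ∑' m : ι → ℤ, (Real.exp
      (-Real.pi * ((fun i => (m i : ℝ) + u i) ⬝ᵥ Q *ᵥ fun i => (m i : ℝ) + u i)) : ℂ) =
    ((Real.sqrt Q.det)⁻¹ : ℝ) * ∑' k : ι → ℤ,
      (Real.exp (-Real.pi * ((fun i => (k i : ℝ)) ⬝ᵥ Q⁻¹ *ᵥ fun i => (k i : ℝ))) : ℂ) *
        Complex.exp (2 * Real.pi * Complex.I * ((∑ i, (k i : ℝ) * u i : ℝ) : ℂ)) := by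
  have h1 := poisson_pi (f := fun x : ι → ℝ => (Real.exp (-Real.pi * (x ⬝ᵥ Q *ᵥ x)) : ℂ))
    (by fun_prop) (fun R => ?_) ?_ u
  · simp only [fourier_gauss hQ] at h1
    rw [h1, ← tsum_mul_left]
    simp only [mul_assoc]
  · obtain ⟨g, hg, h⟩ := gauss_majorant hQ R
    refine ⟨g, hg, fun u hu m => ?_⟩
    rw [Complex.norm_real, Real.norm_of_nonneg (Real.exp_pos _).le]
    exact h u hu m
  · simp only [fourier_gauss hQ]
    refine Summable.mul_left _ (Complex.summable_ofReal.2 ?_)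
    simpa only [Pi.zero_apply, add_zero] using summable_theta hQ.inv 0

end Crest.Agent.R312
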