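import Crest.Agent.R312.ZPois

/-!
# Row 312 (B): the Gram matrix of a basis of a totally complex field
-/

set_option autoImplicit false

noncomputable section

namespace Crest.Agent.R312

open NumberField MeasureTheory Filter Matrix
open scoped Topology ComplexConjugate

namespace ZTh

variable {F : Type} [Field F] [NumberField F] {ι : Type}

/-- The Gram matrix. -/
def Qm (b : ι → F) (v : InfinitePlace F → ℝ) : Matrix ι ι ℝ := Matrix.of fun i j =>
  ∑ φ : F →+* ℂ, Real.exp (v (InfinitePlace.mk φ)) * (conj (φ (b i)) * φ (b j)).re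

theorem sum_emb [IsTotallyComplex F] (g : InfinitePlace F → ℝ) :
    ∑ φ : F →+* ℂ, g (InfinitePlace.mk φ) = 2 * ∑ w, g w := by
  classical
  rw [← Finset.sum_fiberwise Finset.univ InfinitePlace.mk, Finset.mul_sum]
  refine Finset.sum_congr rfl fun w _ => ?_
  rw [Finset.sum_congr rfl (g := fun _ => g w) fun φ hφ => by rw [(Finset.mem_filter.1 hφ).2],
    Finset.sum_const, InfinitePlace.card_filter_mk_eq, (IsTotallyComplex.isComplex w).mult_eq_two]
  simp

theorem trace_eq (x : F) : ((Algebra.trace ℚ F x : ℚ) : ℂ) = ∑ φ : F →+* ℂ, φ x := by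
  rw [Fintype.sum_equiv (RingHom.equivRatAlgHom F ℂ) (fun φ => φ x) (fun σ => σ x)
    fun _ => by simp [RingHom.equivRatAlgHom_apply], ← trace_eq_sum_embeddings]
  simp

theorem sum_conj (E : InfinitePlace F → ℂ) (x y : F) :
    ∑ φ : F →+* ℂ, φ x * E (InfinitePlace.mk φ) * conj (φ y) =
      ∑ φ : F →+* ℂ, conj (φ x) * E (InfinitePlace.mk φ) * φ y := by
  refine Fintype.sum_equiv (ComplexEmbedding.involutive_conjugate F).toPerm _ _ fun φ => ?_
  simp [InfinitePlace.mk_conjugate_eq]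

theorem Qm_cast (b : ι → F) (v : InfinitePlace F → ℝ) (i j : ι) :
    ((Qm b v i j : ℝ) : ℂ) =
      ∑ φ : F →+* ℂ, conj (φ (b i)) * (Real.exp (v (InfinitePlace.mk φ)) : ℂ) * φ (b j) := by
  have h := sum_conj (fun w => (Real.exp (v w) : ℂ)) (b i) (b j)
  have h2 : ((Qm b v i j : ℝ) : ℂ) =
      (∑ φ : F →+* ℂ, conj (φ (b i)) * (Real.exp (v (InfinitePlace.mk φ)) : ℂ) * φ (b j) +
        ∑ φ : F →+* ℂ, φ (b i) * (Real.exp (v (InfinitePlace.mk φ)) : ℂ) * conj (φ (b j))) / 2 := by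
    rw [← Finset.sum_add_distrib, Finset.sum_div, Qm, Matrix.of_apply, Complex.ofReal_sum]
    refine Finset.sum_congr rfl fun φ _ => ?_
    rw [Complex.ofReal_mul, Complex.re_eq_add_conj, map_mul, Complex.conj_conj]
    ring
  rw [h2, h]
  ring

variable [Fintype ι]

theorem Qm_form (b : ι → F) (v : InfinitePlace F → ℝ) (x : ι → ℝ) :
    x ⬝ᵥ Qm b v *ᵥ x =
      ∑ φ : F →+* ℂ, Real.exp (v (InfinitePlace.mk φ)) * ‖∑ i, (x i : ℂ) * φ (b i)‖ ^ 2 := by
  apply Complex.ofReal_injective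
  simp only [dotProduct, mulVec, Complex.ofReal_sum, Complex.ofReal_mul, Qm_cast,
    Complex.ofReal_pow, ← Complex.conj_mul', map_sum, map_mul, Complex.conj_ofReal, Finset.mul_sum,
    Finset.sum_mul]
  rw [Finset.sum_comm (s := (Finset.univ : Finset (F →+* ℂ)))]
  simp_rw [Finset.sum_comm (s := (Finset.univ : Finset (F →+* ℂ)))]
  rw [Finset.sum_comm]
  refine Finset.sum_congr rfl fun i _ => Finset.sum_congr rfl fun j _ =>
    Finset.sum_congr rfl fun φ _ => ?_
  ring

theorem Qm_form_rat [IsTotallyComplex F] (b : ι → F) (v : InfinitePlace F → ℝ) (x : ι → ℝ) (y : F)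
    (h : ∀ φ : F →+* ℂ, ∑ i, (x i : ℂ) * φ (b i) = φ y) :
    Real.exp (-Real.pi * (x ⬝ᵥ Qm b v *ᵥ x)) = gsZ y v := by
  rw [Qm_form, gsZ]
  congr 1
  have := sum_emb fun w => w y ^ 2 * Real.exp (v w)
  simp only [InfinitePlace.apply] at this
  simp only [h, mul_comm (Real.exp _), this]
  ring

/-- The matrix of the embeddings. -/
def Mm (e : ι ≃ (F →+* ℂ)) (b : ι → F) : Matrix ι ι ℂ := Matrix.of fun k i => e k (b i)

theorem Mm_tr (e : ι ≃ (F →+* ℂ)) (a b : ι → F) (i j : ι) :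
    ((Mm e a)ᵀ * Mm e b) i j = ((Algebra.trace ℚ F (a i * b j) : ℚ) : ℂ) := by
  rw [trace_eq, Matrix.mul_apply, ← e.sum_comp]
  simp [Mm]

variable [DecidableEq ι]

theorem Qm_map (e : ι ≃ (F →+* ℂ)) (b : ι → F) (v : InfinitePlace F → ℝ) :
    (Qm b v).map Complex.ofRealHom =
      (Mm e b)ᴴ * diagonal (fun k => (Real.exp (v (InfinitePlace.mk (e k))) : ℂ)) * Mm e b := by
  ext i j
  rw [Matrix.map_apply, Complex.ofRealHom_eq_coe, Qm_cast, ← e.sum_comp, Matrix.mul_apply]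
  simp [Mm]

theorem Qm_map' (e : ι ≃ (F →+* ℂ)) (b : ι → F) (v : InfinitePlace F → ℝ) :
    (Qm b v).map Complex.ofRealHom =
      (Mm e b)ᵀ * diagonal (fun k => (Real.exp (v (InfinitePlace.mk (e k))) : ℂ)) *
        ((Mm e b)ᵀ)ᴴ := by
  ext i j
  rw [Matrix.map_apply, Complex.ofRealHom_eq_coe, Qm_cast,
    ← sum_conj (fun w => (Real.exp (v w) : ℂ)), ← e.sum_comp, Matrix.mul_apply]
  simp [Mm]

omit [DecidableEq ι] in
theorem nonempty_equiv (b : Module.Basis ι ℚ F) : Nonempty (ι ≃ (F →+* ℂ)) :=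
  ⟨Fintype.equivOfCardEq (by rw [Embeddings.card, Module.finrank_eq_card_basis b])⟩

theorem Mm_dual (e : ι ≃ (F →+* ℂ)) (b : Module.Basis ι ℚ F) :
    (Mm e b.traceDual)ᵀ * Mm e b = 1 := by
  ext i j
  rw [Mm_tr, Module.Basis.trace_traceDual_mul, Matrix.one_apply]
  by_cases h : i = j
  · simp [h]
  · simp [h, Ne.symm h]

theorem Qm_mul (b : Module.Basis ι ℚ F) (v : InfinitePlace F → ℝ) :
    Qm b.traceDual (-v) * Qm b v = 1 := by
  obtain ⟨e⟩ := nonempty_equiv b
  have h1 := Mm_dual e b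
  have h2 : ((Mm e b.traceDual)ᵀ)ᴴ * (Mm e b)ᴴ = 1 := by
    rw [← conjTranspose_mul, mul_eq_one_comm.1 h1, conjTranspose_one]
  apply Matrix.map_injective (f := Complex.ofRealHom) Complex.ofReal_injective
  simp only
  rw [Matrix.map_mul, Qm_map' e, Qm_map e, Matrix.map_one _ (map_zero _) (map_one _)]
  simp only [Matrix.mul_assoc]
  rw [← Matrix.mul_assoc _ (Mm e b)ᴴ, h2, Matrix.one_mul, ← Matrix.mul_assoc (diagonal _),
    diagonal_mul_diagonal]
  simp only [← Complex.ofReal_mul, ← Real.exp_add, Pi.neg_apply, neg_add_cancel, Real.exp_zero,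
    Complex.ofReal_one, diagonal_one, Matrix.one_mul, h1]

theorem Qm_posDef (b : Module.Basis ι ℚ F) (v : InfinitePlace F → ℝ) : (Qm b v).PosDef := by
  obtain ⟨e⟩ := nonempty_equiv b
  refine Matrix.PosDef.of_dotProduct_mulVec_pos ?_ fun x hx => ?_
  · ext i j
    simp only [conjTranspose_apply, star_trivial, Qm, Matrix.of_apply]
    refine Finset.sum_congr rfl fun φ _ => ?_
    simp only [Complex.mul_re, Complex.conj_re, Complex.conj_im]
    ring
  · rw [star_trivial, Qm_form]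
    have hne : ∃ φ : F →+* ℂ, ∑ i, (x i : ℂ) * φ (b i) ≠ 0 := by
      by_contra! h
      have h1 : Mm e b *ᵥ (fun i => (x i : ℂ)) = 0 := by
        funext k
        simpa [Mm, mulVec, dotProduct, mul_comm] using h (e k)
      have h2 := congrArg ((Mm e b.traceDual)ᵀ *ᵥ ·) h1
      simp only [mulVec_mulVec, Mm_dual, one_mulVec, mulVec_zero] at h2
      exact hx (funext fun i => by simpa using congrFun h2 i)
    obtain ⟨φ, hφ⟩ := hne
    exact Finset.sum_pos' (fun _ _ => by positivity) ⟨φ, Finset.mem_univ _, by positivity⟩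

theorem Qm_det [IsTotallyComplex F] (b : Module.Basis ι ℚ F) (v : InfinitePlace F → ℝ) :
    (Qm b v).det = |((Algebra.discr ℚ b : ℚ) : ℝ)| * Real.exp (∑ w, v w) ^ 2 := by
  obtain ⟨e⟩ := nonempty_equiv b
  have h1 : ((Algebra.discr ℚ b : ℚ) : ℂ) = (Mm e b).det ^ 2 := by
    have : (Algebra.traceMatrix ℚ b).map (Rat.castHom ℂ) = (Mm e b)ᵀ * Mm e b := by
      ext i j
      rw [Mm_tr]
      simp
    have h0 := RingHom.map_det (Rat.castHom ℂ) (Algebra.traceMatrix ℚ b)
    rw [RingHom.mapMatrix_apply, this, det_mul, det_transpose] at h0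
    rw [Algebra.discr_def, sq]
    exact h0
  have h2 : |((Algebra.discr ℚ b : ℚ) : ℝ)| = ‖(Mm e b).det‖ ^ 2 := by
    rw [← norm_pow, ← h1, ← Real.norm_eq_abs, ← Complex.norm_real, Complex.ofReal_ratCast]
  have h3 : ∏ k, Real.exp (v (InfinitePlace.mk (e k))) = Real.exp (∑ w, v w) ^ 2 := by
    rw [← Real.exp_sum, e.sum_comp fun φ => v (InfinitePlace.mk φ), sum_emb, ← Real.exp_nat_mul]
    norm_num
  apply Complex.ofReal_injective
  have h4 := RingHom.map_det Complex.ofRealHom (Qm b v)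
  rw [RingHom.mapMatrix_apply, Qm_map e, det_mul, det_mul, det_conjTranspose, det_diagonal,
    ← Complex.ofReal_prod, h3, Complex.ofRealHom_eq_coe] at h4
  rw [h4, h2, Complex.ofReal_mul, Complex.ofReal_pow ‖_‖, ← Complex.conj_mul', Complex.star_def]
  ring

omit [DecidableEq ι] in
theorem emb_shift (b : Module.Basis ι ℚ F) (c : F) (m : ι → ℤ) (φ : F →+* ℂ) :
    ∑ i, (((m i : ℝ) + ((b.repr c i : ℚ) : ℝ) : ℝ) : ℂ) * φ (b i) =
      φ (∑ i, (m i : F) * b i + c) := by
  conv_rhs => rw [← b.sum_repr c]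
  simp only [map_add, map_sum, map_mul, map_intCast, Rat.smul_def, map_ratCast,
    ← Finset.sum_add_distrib]
  refine Finset.sum_congr rfl fun i _ => ?_
  push_cast
  ring

theorem summable_gs [IsTotallyComplex F] (b : Module.Basis ι ℚ F) (c : F)
    (v : InfinitePlace F → ℝ) :
    Summable fun m : ι → ℤ => gsZ (∑ i, (m i : F) * b i + c) v :=
  (summable_theta (Qm_posDef b v) fun i => ((b.repr c i : ℚ) : ℝ)).congr fun m =>
    Qm_form_rat b v _ _ (emb_shift b c m)

theorem theta [IsTotallyComplex F] (b : Module.Basis ι ℚ F) (c : F) (v : InfinitePlace F → ℝ) :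
    ∑' m : ι → ℤ, (gsZ (∑ i, (m i : F) * b i + c) v : ℂ) =
      (((Real.sqrt |((Algebra.discr ℚ b : ℚ) : ℝ)|)⁻¹ * Real.exp (-∑ w, v w) : ℝ) : ℂ) *
        ∑' k : ι → ℤ, (gsZ (∑ i, (k i : F) * b.traceDual i) (-v) : ℂ) *
          eTr ((∑ i, (k i : F) * b.traceDual i) * c) := by
  have h := theta_inv (Qm_posDef b v) fun i => ((b.repr c i : ℚ) : ℝ)
  rw [Matrix.inv_eq_left_inv (Qm_mul b v), Qm_det, Real.sqrt_mul (abs_nonneg _),
    Real.sqrt_sq (Real.exp_pos _).le, mul_inv, ← Real.exp_neg] at h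
  refine Eq.trans (tsum_congr fun m => ?_) (h.trans ?_)
  · rw [Qm_form_rat b v _ _ (emb_shift b c m)]
  · congr 1
    refine tsum_congr fun k => ?_
    rw [Qm_form_rat b.traceDual (-v) _ (∑ i, (k i : F) * b.traceDual i) fun φ => by simp, eTr]
    congr 3
    have hr : ∀ i, Algebra.trace ℚ F (b.traceDual i * c) = b.repr c i := fun i => by
      have := b.traceDual.traceDual_repr_apply c i
      rw [Module.Basis.traceDual_traceDual, Algebra.traceForm_apply, mul_comm] at this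
      exact this.symm
    simp only [Finset.sum_mul, map_sum, ← zsmul_eq_mul, smul_mul_assoc, map_zsmul, hr]
    simp

end ZTh

end Crest.Agent.R312
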