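import Crest.Agent.R312.ZClass

/-!
# Row 312 (B): continuation of Dirichlet series with periodic coefficients
-/

set_option autoImplicit false

noncomputable section

namespace Crest.Agent.R312.ZTw

open NumberField MeasureTheory Filter
open scoped Topology ENNReal NNReal ComplexOrder

variable {F : Type} [Field F] [NumberField F]

theorem norm_modEq {K : ℕ} {x y : 𝓞 F} (h : (K : 𝓞 F) ∣ x - y) :
    ((Algebra.norm ℤ x : ℤ) : ZMod K) = ((Algebra.norm ℤ y : ℤ) : ZMod K) := by
  classical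
  obtain ⟨z, hz⟩ := h
  have e : x = y + K • z := by rw [nsmul_eq_mul, ← hz]; ring
  let b := RingOfIntegers.basis F
  rw [Algebra.norm_eq_matrix_det b, Algebra.norm_eq_matrix_det b]
  change Int.castRingHom (ZMod K) _ = Int.castRingHom (ZMod K) _
  rw [RingHom.map_det, RingHom.map_det, e, map_add, map_nsmul, map_add, map_nsmul]
  congr 1
  ext i j
  simp

variable [IsTotallyComplex F]

theorem norm_nonneg' (x : F) : 0 ≤ Algebra.norm ℚ x := by
  classical
  have h1 := Algebra.norm_eq_prod_embeddings ℚ ℂ x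
  rw [← Fintype.prod_equiv (RingHom.equivRatAlgHom F ℂ) (fun f => f x) (fun φ => φ x)
    fun _ => by simp [RingHom.equivRatAlgHom_apply],
    ← Finset.prod_fiberwise Finset.univ InfinitePlace.mk (fun φ => φ x), eq_ratCast] at h1
  have h2 : (0 : ℂ) ≤ ((Algebra.norm ℚ x : ℚ) : ℂ) := by
    rw [h1]
    refine Finset.prod_nonneg fun w _ => ?_
    have hw : w.IsComplex := IsTotallyComplex.isComplex w
    have e : ({φ | InfinitePlace.mk φ = w} : Finset (F →+* ℂ)) =
        {w.embedding, ComplexEmbedding.conjugate w.embedding} := by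
      ext φ
      rw [Finset.mem_filter, Finset.mem_insert, Finset.mem_singleton]
      conv_lhs => rw [← InfinitePlace.mk_embedding w, eq_comm, InfinitePlace.mk_eq_iff]
      simp [eq_comm]
    have hne : w.embedding ≠ ComplexEmbedding.conjugate w.embedding := by
      rw [Ne, eq_comm, ← ComplexEmbedding.isReal_iff, ← InfinitePlace.isReal_iff]
      exact InfinitePlace.not_isReal_iff_isComplex.2 hw
    rw [e, Finset.prod_pair hne, ComplexEmbedding.conjugate_coe_eq, Complex.mul_conj]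
    exact_mod_cast Complex.normSq_nonneg _
  rw [← Complex.ofReal_ratCast] at h2
  exact_mod_cast h2

theorem absNorm_cast (x : 𝓞 F) : ((Ideal.absNorm (Ideal.span {x}) : ℕ) : ℤ) = Algebra.norm ℤ x := by
  rw [Ideal.absNorm_span_singleton, Int.natAbs_of_nonneg]
  have := norm_nonneg' (x : F)
  rw [← Algebra.coe_norm_int] at this
  exact_mod_cast this

theorem absNorm_modEq {K : ℕ} {x y : 𝓞 F} (h : (K : 𝓞 F) ∣ x - y) :
    Ideal.absNorm (Ideal.span {x}) ≡ Ideal.absNorm (Ideal.span {y}) [MOD K] := by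
  rw [← ZMod.natCast_eq_natCast_iff, ← Int.cast_natCast, ← Int.cast_natCast (R := ZMod K)
    (Ideal.absNorm (Ideal.span {y})), absNorm_cast, absNorm_cast]
  exact norm_modEq h

theorem summable_gs0 (v : InfinitePlace F → ℝ) {f : 𝓞 F → ℂ} (hf : ∀ x, ‖f x‖ ≤ 1) :
    Summable fun x : 𝓞 F => f x * (gsZ (x : F) v : ℂ) := by
  refine Summable.of_norm_bounded (summable_gs 0 v) fun x => ?_
  rw [add_zero, norm_mul, Complex.norm_real, Real.norm_of_nonneg (gs_pos _ _).le]
  exact mul_le_of_le_one_left (gs_pos _ _).le (hf x)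

open Classical in
theorem thz_add (A : Ideal (𝓞 F)) {f : 𝓞 F → ℂ} (hf : ∀ x, ‖f x‖ ≤ 1)
    (v : InfinitePlace F → ℝ) :
    thz A f v + f 0 = ∑' x : 𝓞 F, (if x ∈ A then f x else 0) * (gsZ (x : F) v : ℂ) := by
  rw [(summable_gs0 v (f := fun x => if x ∈ A then f x else 0) fun x => by
    split_ifs
    · exact hf x
    · simp).tsum_eq_add_tsum_ite 0, add_comm, thz]
  congr 1
  · simp
  · refine tsum_congr fun x => ?_
    by_cases h : x = 0 <;> by_cases h' : x ∈ A <;> simp [h, h']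

open Classical in
theorem tsum_split (A : Ideal (𝓞 F)) [Fintype (𝓞 F ⧸ A)] {f : 𝓞 F → ℂ}
    (hp : ∀ x y, x - y ∈ A → f x = f y) (v : InfinitePlace F → ℝ) :
    ∑' x : 𝓞 F, f x * (gsZ (x : F) v : ℂ) = ∑ q : 𝓞 F ⧸ A, f q.out *
      ∑' x : 𝓞 F, if x ∈ A then (gsZ ((x : F) + (q.out : 𝓞 F)) v : ℂ) else 0 := by
  have h1 : ∀ q : 𝓞 F ⧸ A,
      (∑' x : 𝓞 F, if x ∈ A then (gsZ ((x : F) + (q.out : 𝓞 F)) v : ℂ) else 0) =
        ∑' x : 𝓞 F, (if Ideal.Quotient.mk A x = q then 1 else 0) * (gsZ (x : F) v : ℂ) := by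
    intro q
    refine (tsum_congr fun x => ?_).trans ((Equiv.addRight (q.out : 𝓞 F)).tsum_eq _)
    have e : Ideal.Quotient.mk A (x + q.out) = q ↔ x ∈ A := by
      rw [map_add, Ideal.Quotient.mk_out, add_eq_right, Ideal.Quotient.eq_zero_iff_mem]
    simp only [Equiv.coe_addRight, e]
    split_ifs <;> simp
  simp only [h1, ← tsum_mul_left]
  rw [← Summable.tsum_finsetSum fun q _ => (summable_gs0 v fun x => by
    split_ifs <;> simp).mul_left _]
  refine tsum_congr fun x => ?_
  simp only [← mul_assoc, ← Finset.sum_mul, mul_ite, mul_one, mul_zero, Finset.sum_ite_eq,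
    Finset.mem_univ, if_true]
  congr 1
  exact hp _ _ (by rw [← Ideal.Quotient.eq, Ideal.Quotient.mk_out])

theorem exists_cont {A A' : Ideal (𝓞 F)} (hA : A ≠ ⊥) (hA' : A' ≠ ⊥) (hle : A' ≤ A)
    {f : 𝓞 F → ℂ} (hf : ∀ x, ‖f x‖ ≤ 1) (hp : ∀ x y, x - y ∈ A' → f x = f y) :
    ∃ Λ : ℂ → ℂ, DifferentiableOn ℂ Λ Str ∧ ∀ s : ℂ, 1 < s.re → s.re < 4 →
      Λ s = (s - 1) * ∫ v, thz A f v * Complex.exp (s * wz A v) ∂muF F := by
  classical
  obtain ⟨V, -, hV⟩ := exists_V (F := F)
  obtain ⟨B, t, ht, -, hB⟩ := exists_dual hA'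
  have := A'.finiteQuotientOfFreeOfNeBot hA'
  have : Fintype (𝓞 F ⧸ A') := Fintype.ofFinite _
  set d : ℝ := Real.log ((Ideal.absNorm A' : ℝ) * Real.sqrt |(discr F : ℝ)|) -
    Real.log ((Ideal.absNorm A : ℝ) * Real.sqrt |(discr F : ℝ)|) with hd
  have hw : ∀ v, wz A' v = wz A v + d := fun v => by rw [wz, wz, hd]; ring
  set g : 𝓞 F → ℂ := fun x => if x ∈ A then f x else 0 with hg
  have hg1 : ∀ x, ‖g x‖ ≤ 1 := fun x => by
    simp only [hg]
    split_ifs
    · exact hf x
    · simp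
  have hgp : ∀ x y, x - y ∈ A' → g x = g y := fun x y h => by
    have : x ∈ A ↔ y ∈ A := ⟨fun hx => by simpa using sub_mem hx (hle h),
      fun hy => by simpa using add_mem (hle h) hy⟩
    simp only [hg, this, hp x y h]
  set e : 𝓞 F ⧸ A' → 𝓞 F → ℂ := fun q y => eTr ((y : F) / (t : F) * (q.out : 𝓞 F)) with he
  have he1 : ∀ q y, ‖e q y‖ ≤ 1 := fun q y => (norm_eTr _).le
  have hm : Measurable fun v : InfinitePlace F → ℝ => -v - lz (t : F) := by fun_prop
  have hR' : Measurable fun v => (Real.exp (-d) : ℂ) *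
      ∑ q : 𝓞 F ⧸ A', g q.out * thz B (e q) (-v - lz (t : F)) :=
    (Finset.measurable_sum _ fun q _ =>
      ((measurable_thz B (he1 q)).comp hm).const_mul _).const_mul _
  obtain ⟨Λ, h1, h2, -⟩ := mel_cont (measurable_wz A) (hV A hA).1 (measurable_thz A hf) hR'
    (a := (Real.exp (-d) : ℂ) * ∑ q : 𝓞 F ⧸ A', g q.out) (a₀ := f 0) (fun v => by
      rw [thz_add A hf, tsum_split A' hgp, ← mul_add, ← Finset.sum_add_distrib, ← mul_assoc,
        Finset.mul_sum]
      refine Finset.sum_congr rfl fun q _ => ?_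
      have h3 := thz_add B (he1 q) (-v - lz (t : F))
      have h4 : e q 0 = 1 := by simp [he]
      rw [theta_ideal ht hB, hw, ← mul_add_one, ← h4, h3, neg_add, Real.exp_add]
      have h5 : (∑' y : 𝓞 F, if y ∈ B then (gsZ (y : F) (-v - lz (t : F)) : ℂ) *
          eTr ((y : F) / (t : F) * (q.out : 𝓞 F)) else 0) =
          ∑' y : 𝓞 F, (if y ∈ B then e q y else 0) * (gsZ (y : F) (-v - lz (t : F)) : ℂ) := by
        refine tsum_congr fun y => ?_
        split_ifs
        · exact mul_comm _ _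
        · rw [zero_mul]
      rw [h5]
      push_cast
      ring)
    ((integrable_thz hA (σ := 4) (by norm_num)).mono'
      ((measurable_thz A hf).norm.mul
        ((measurable_wz A).const_mul 4).exp).aestronglyMeasurable
      (Eventually.of_forall fun v => by
        rw [Real.norm_of_nonneg (by positivity)]
        exact mul_le_mul_of_nonneg_right (norm_thz_le A hf v) (Real.exp_pos _).le))
    (((integral_norm_thz_dual ht hB).1.const_mul
        (Real.exp (-d) * Fintype.card (𝓞 F ⧸ A') * Real.exp (4 * d))).mono'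
      (hR'.norm.mul ((measurable_wz A).const_mul (-4)).exp).aestronglyMeasurable
      (Eventually.of_forall fun v => by
        have h3 : ‖∑ q : 𝓞 F ⧸ A', g q.out * thz B (e q) (-v - lz (t : F))‖ ≤
            Fintype.card (𝓞 F ⧸ A') * ‖thz B (fun _ => 1) (-v - lz (t : F))‖ := by
          refine (norm_sum_le _ _).trans ((Finset.sum_le_card_nsmul _ _ _ fun q _ => ?_).trans
            (le_of_eq (nsmul_eq_mul _ _)))
          rw [norm_mul]
          exact (mul_le_of_le_one_left (norm_nonneg _) (hg1 _)).trans (norm_thz_le B (he1 q) _)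
        have h4 : Real.exp (-4 * wz A v) = Real.exp (4 * d) * Real.exp (-4 * wz A' v) := by
          rw [← Real.exp_add, hw]; congr 1; ring
        rw [Real.norm_of_nonneg (by positivity), norm_mul, Complex.norm_real,
          Real.norm_of_nonneg (Real.exp_pos _).le, h4]
        calc _ ≤ Real.exp (-d) * (Fintype.card (𝓞 F ⧸ A') *
              ‖thz B (fun _ => 1) (-v - lz (t : F))‖) *
              (Real.exp (4 * d) * Real.exp (-4 * wz A' v)) := by gcongr
          _ = _ := by ring))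
  exact ⟨Λ, h1, h2⟩

theorem exists_Z_twist {M : ℕ} (hM : M ≠ 0) (χ : DirichletCharacter ℂ M) :
    ∃ Z, IsZ F (fun I => χ (Ideal.absNorm I : ZMod M)) Z := by
  obtain ⟨κ, _, _, A, B, t, h1, h2, -⟩ := exists_repsZ (F := F)
  have hg : ∀ I : Ideal (𝓞 F), ‖χ (Ideal.absNorm I : ZMod M)‖ ≤ 1 := fun I => χ.norm_le_one _
  have H : ∀ c, ∃ Λ : ℂ → ℂ, DifferentiableOn ℂ Λ Str ∧ ∀ s : ℂ, 1 < s.re → s.re < 4 →
      Λ s = (s - 1) * (cmp F s * Dz F (cls (A c) fun I => χ (Ideal.absNorm I : ZMod M)) s) := by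
    intro c
    have hA := (h1 c).1
    have hN : Ideal.absNorm (A c) ≠ 0 := fun h => hA (Ideal.absNorm_eq_zero_iff.1 h)
    have hf : ∀ x : 𝓞 F, ‖χ ((Ideal.absNorm (Ideal.span {x}) / Ideal.absNorm (A c) : ℕ) : ZMod M)‖
        ≤ 1 := fun x => χ.norm_le_one _
    obtain ⟨Λ, h3, h4⟩ := exists_cont
      (A' := Ideal.span {((Ideal.absNorm (A c) * M : ℕ) : 𝓞 F)}) hA
      (by rw [Ne, Ideal.span_singleton_eq_bot]; exact_mod_cast mul_ne_zero hN hM)
      (by
        rw [Ideal.span_singleton_le_iff_mem, Nat.cast_mul]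
        exact Ideal.mul_mem_right _ _ (Ideal.absNorm_mem _)) hf (fun x y h => by
        congr 1
        rw [ZMod.natCast_eq_natCast_iff]
        have := absNorm_modEq (Ideal.mem_span_singleton.1 h)
        unfold Nat.ModEq at this ⊢
        rw [← Nat.mod_mul_right_div_self, ← Nat.mod_mul_right_div_self, this])
    refine ⟨Λ, h3, fun s hs hs' => ?_⟩
    rw [h4 s hs hs', integral_thz hA hf hg (fun x I _ h => by
      rw [← h, map_mul, Nat.mul_div_cancel_left _ (Nat.pos_of_ne_zero hN)]) hs]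
  choose Λ h3 h4 using H
  refine ⟨fun s => (∑ c, Λ c s) / cmp F s, ?_, fun s hs hs' => ?_⟩
  · exact (DifferentiableOn.fun_sum fun c _ => h3 c).div
      (differentiableOn_cmp.mono fun s hs => hs.1) fun s hs => cmp_ne_zero hs.1
  · have h0 : cmp F s ≠ 0 := cmp_ne_zero (by linarith)
    simp only [h4 _ s hs hs', ← Finset.mul_sum]
    rw [sum_Dz_cls h2 hg hs]
    field_simp

end Crest.Agent.R312.ZTw
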