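import Crest.Agent.R312.ZFund
import Crest.Agent.R312.ZGam
import Crest.Agent.R312.ZEul

/-!
# Row 312 (B): unfolding the Mellin transform of a theta series

The non-zero `x ∈ A` are in bijection with the pairs `(I, u)`, `I ≠ ⊥` with `A I = (x_I)` principal,
`u` a unit, `x = u x_I`.  Use `lintegral_unfold` for the integrability, `integral_tsum`,
`integral_unfold` and `integral_gs_exp` for the value; `N(x_I) = N A · N I`.
-/

set_option autoImplicit false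

noncomputable section

namespace Crest.Agent.R312

open NumberField MeasureTheory Filter
open scoped Topology ENNReal NNReal

variable {F : Type} [Field F] [NumberField F] [IsTotallyComplex F]

omit [IsTotallyComplex F] in
theorem ZUnf_cont_wz (A : Ideal (𝓞 F)) : Continuous (wz A) := by
  unfold wz
  fun_prop

theorem measurable_wz (A : Ideal (𝓞 F)) : Measurable (wz A) := (ZUnf_cont_wz A).measurable

/-- The ideals `I ≠ ⊥` with `A I` principal. -/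
def ZUnf_S (A : Ideal (𝓞 F)) : Type := {I : Ideal (𝓞 F) // I ≠ ⊥ ∧ (A * I).IsPrincipal}

instance ZUnf_countable (A : Ideal (𝓞 F)) : Countable (ZUnf_S A) := by
  unfold ZUnf_S; infer_instance

/-- A generator of `A I`. -/
def ZUnf_gen {A : Ideal (𝓞 F)} (I : ZUnf_S A) : 𝓞 F := Classical.choose I.2.2.principal

omit [NumberField F] [IsTotallyComplex F] in
theorem ZUnf_gen_spec {A : Ideal (𝓞 F)} (I : ZUnf_S A) : A * I.1 = Ideal.span {ZUnf_gen I} :=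
  Classical.choose_spec I.2.2.principal

omit [NumberField F] [IsTotallyComplex F] in
theorem ZUnf_gen_ne {A : Ideal (𝓞 F)} (hA : A ≠ ⊥) (I : ZUnf_S A) : ZUnf_gen I ≠ 0 := by
  intro h
  have h1 := ZUnf_gen_spec I
  rw [h, Ideal.span_singleton_zero] at h1
  exact (mul_ne_zero hA I.2.1) h1

/-- The parametrisation of the non-zero elements of `A`. -/
def ZUnf_e {A : Ideal (𝓞 F)} (p : ZUnf_S A × (𝓞 F)ˣ) : 𝓞 F := (p.2 : 𝓞 F) * ZUnf_gen p.1

omit [NumberField F] [IsTotallyComplex F] in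
theorem ZUnf_e_span {A : Ideal (𝓞 F)} (p : ZUnf_S A × (𝓞 F)ˣ) :
    A * p.1.1 = Ideal.span {ZUnf_e p} := by
  rw [ZUnf_gen_spec, ZUnf_e, Ideal.span_singleton_mul_left_unit p.2.isUnit]

omit [NumberField F] [IsTotallyComplex F] in
theorem ZUnf_e_ne {A : Ideal (𝓞 F)} (hA : A ≠ ⊥) (p : ZUnf_S A × (𝓞 F)ˣ) : ZUnf_e p ≠ 0 :=
  mul_ne_zero p.2.ne_zero (ZUnf_gen_ne hA p.1)

omit [NumberField F] [IsTotallyComplex F] in
theorem ZUnf_e_mem {A : Ideal (𝓞 F)} (p : ZUnf_S A × (𝓞 F)ˣ) : ZUnf_e p ∈ A := by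
  have h : ZUnf_e p ∈ A * p.1.1 := by
    rw [ZUnf_e_span]; exact Ideal.mem_span_singleton_self _
  exact (Ideal.mul_le_left : A * p.1.1 ≤ A) h

omit [IsTotallyComplex F] in
theorem ZUnf_e_inj {A : Ideal (𝓞 F)} (hA : A ≠ ⊥) :
    Function.Injective (ZUnf_e : ZUnf_S A × (𝓞 F)ˣ → 𝓞 F) := by
  rintro ⟨I, u⟩ ⟨J, w⟩ h
  have h1 : A * I.1 = A * J.1 := by
    rw [ZUnf_e_span (I, u), ZUnf_e_span (J, w), h]
  have h2 : I = J := Subtype.ext (mul_left_cancel₀ hA h1)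
  subst h2
  have h3 : (u : 𝓞 F) = w := mul_right_cancel₀ (ZUnf_gen_ne hA I) h
  rw [Units.ext h3]

omit [IsTotallyComplex F] in
theorem ZUnf_e_surj {A : Ideal (𝓞 F)} {x : 𝓞 F} (hx : x ∈ A) (h0 : x ≠ 0) :
    ∃ p : ZUnf_S A × (𝓞 F)ˣ, ZUnf_e p = x := by
  obtain ⟨I, hI⟩ : A ∣ Ideal.span {x} :=
    Ideal.dvd_iff_le.2 ((Ideal.span_singleton_le_iff_mem _).2 hx)
  have hI0 : I ≠ ⊥ := by
    rintro rfl
    rw [Ideal.mul_bot, Ideal.span_singleton_eq_bot] at hI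
    exact h0 hI
  let J : ZUnf_S A := ⟨I, hI0, by rw [← hI]; exact ⟨x, rfl⟩⟩
  have h1 : Ideal.span {ZUnf_gen J} = Ideal.span {x} := by
    rw [← ZUnf_gen_spec J, hI]
  obtain ⟨u, hu⟩ := Ideal.span_singleton_eq_span_singleton.1 h1
  exact ⟨(J, u), by rw [← hu, mul_comm]; rfl⟩

/-- The kernel attached to an ideal. -/
def ZUnf_H {A : Ideal (𝓞 F)} (I : ZUnf_S A) (s : ℂ) (v : InfinitePlace F → ℝ) : ℂ :=
  (gsZ ((ZUnf_gen I : 𝓞 F) : F) v : ℂ) * Complex.exp (s * wz A v)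

omit [IsTotallyComplex F] in
theorem ZUnf_H_meas {A : Ideal (𝓞 F)} (I : ZUnf_S A) (s : ℂ) : Measurable (ZUnf_H I s) := by
  refine Continuous.measurable ?_
  have h1 := continuous_gs ((ZUnf_gen I : 𝓞 F) : F)
  have h2 := ZUnf_cont_wz A
  unfold ZUnf_H
  fun_prop

omit [IsTotallyComplex F] in
theorem ZUnf_H_eq {A : Ideal (𝓞 F)} (I : ZUnf_S A) (s : ℂ) (v : InfinitePlace F → ℝ) :
    ZUnf_H I s v = (gsZ ((ZUnf_gen I : 𝓞 F) : F) v : ℂ) * Complex.exp (s * ((∑ w, v w : ℝ) : ℂ)) *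
      Complex.exp (s * (Real.log ((Ideal.absNorm A : ℝ) * Real.sqrt |(discr F : ℝ)|) : ℝ)) := by
  unfold ZUnf_H wz
  rw [Complex.ofReal_add, mul_add, Complex.exp_add, mul_assoc]

theorem ZUnf_H_int {A : Ideal (𝓞 F)} (hA : A ≠ ⊥) (I : ZUnf_S A) {s : ℂ} (hs : 0 < s.re) :
    Integrable (ZUnf_H I s) := by
  have := (integrable_gs_exp (ZUnf_gen_ne hA I) hs).mul_const
    (Complex.exp (s * (Real.log ((Ideal.absNorm A : ℝ) * Real.sqrt |(discr F : ℝ)|) : ℝ)))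
  exact this.congr (Eventually.of_forall fun v => (ZUnf_H_eq I s v).symm)

theorem ZUnf_H_integral {A : Ideal (𝓞 F)} (hA : A ≠ ⊥) (I : ZUnf_S A) {s : ℂ} (hs : 0 < s.re) :
    ∫ v, ZUnf_H I s v = cmp F s * (Ideal.absNorm I.1 : ℂ) ^ (-s) := by
  simp_rw [ZUnf_H_eq]
  rw [integral_mul_const, integral_gs_exp (ZUnf_gen_ne hA I) hs, ← ZUnf_gen_spec, map_mul,
    Nat.cast_mul, Complex.natCast_mul_natCast_cpow]
  have hA0 : Ideal.absNorm A ≠ 0 := by rwa [Ne, Ideal.absNorm_eq_zero_iff]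
  have hA1 : (0 : ℝ) < (Ideal.absNorm A : ℝ) := by exact_mod_cast Nat.pos_of_ne_zero hA0
  have hd : (0 : ℝ) < Real.sqrt |(discr F : ℝ)| := by
    refine Real.sqrt_pos.2 (abs_pos.2 ?_)
    exact_mod_cast discr_ne_zero F
  have h1 : Complex.exp (s * (Real.log ((Ideal.absNorm A : ℝ) * Real.sqrt |(discr F : ℝ)|) : ℝ)) =
      (Ideal.absNorm A : ℂ) ^ s * ((Real.sqrt |(discr F : ℝ)| : ℝ) : ℂ) ^ s := by
    rw [← Complex.ofReal_natCast, ← Complex.mul_cpow_ofReal_nonneg hA1.le hd.le,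
      ← Complex.ofReal_mul, Complex.cpow_def_of_ne_zero (by exact_mod_cast (mul_pos hA1 hd).ne'),
      ← Complex.ofReal_log (mul_pos hA1 hd).le, mul_comm]
  have h2 : (Ideal.absNorm A : ℂ) ^ (-s) * (Ideal.absNorm A : ℂ) ^ s = 1 := by
    rw [← Complex.cpow_add _ _ (by exact_mod_cast hA0), neg_add_cancel, Complex.cpow_zero]
  rw [h1, cmp]
  linear_combination ((Ideal.absNorm I.1 : ℂ) ^ (-s) * gmz s ^ npl F *
    ((Real.sqrt |(discr F : ℝ)| : ℝ) : ℂ) ^ s) * h2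

omit [IsTotallyComplex F] in
theorem ZUnf_H_norm {A : Ideal (𝓞 F)} (I : ZUnf_S A) (s : ℂ) (v : InfinitePlace F → ℝ) :
    ((‖ZUnf_H I s v‖ : ℝ) : ℂ) = ZUnf_H I (s.re : ℂ) v := by
  unfold ZUnf_H
  rw [norm_mul, Complex.norm_real, Real.norm_of_nonneg (gs_pos _ _).le, Complex.norm_exp,
    Complex.ofReal_mul, Complex.ofReal_exp]
  simp

theorem ZUnf_wz_unit (A : Ideal (𝓞 F)) (u : (𝓞 F)ˣ) (v : InfinitePlace F → ℝ) :
    wz A (v + lz (uF u)) = wz A v := by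
  unfold wz
  simp only [Pi.add_apply, Finset.sum_add_distrib, sum_lz_unit, add_zero]

theorem ZUnf_H_shift {A : Ideal (𝓞 F)} (p : ZUnf_S A × (𝓞 F)ˣ) (s : ℂ)
    (v : InfinitePlace F → ℝ) :
    ZUnf_H p.1 s (v + lz (uF p.2)) = (gsZ ((ZUnf_e p : 𝓞 F) : F) v : ℂ) * Complex.exp (s * wz A v) := by
  have hu : uF p.2 ≠ 0 := by
    unfold uF
    exact_mod_cast p.2.ne_zero
  unfold ZUnf_H
  rw [ZUnf_wz_unit, ← gsZ_mul hu]
  simp [ZUnf_e]

theorem ZUnf_thz_eq {A : Ideal (𝓞 F)} (hA : A ≠ ⊥) (f : 𝓞 F → ℂ) (s : ℂ)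
    (v : InfinitePlace F → ℝ) :
    thz A f v * Complex.exp (s * wz A v) =
      ∑' p : ZUnf_S A × (𝓞 F)ˣ, f (ZUnf_e p) * ZUnf_H p.1 s (v + lz (uF p.2)) := by
  classical
  unfold thz
  rw [← (ZUnf_e_inj hA).tsum_eq, ← tsum_mul_right]
  · refine tsum_congr fun p => ?_
    rw [if_pos ⟨ZUnf_e_mem p, ZUnf_e_ne hA p⟩, ZUnf_H_shift, mul_assoc]
  · intro x hx
    by_contra h
    apply hx
    refine if_neg fun h1 => h ?_
    exact ZUnf_e_surj h1.1 h1.2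

theorem ZUnf_norm_hasSum {A : Ideal (𝓞 F)} (hA : A ≠ ⊥) (I : ZUnf_S A) {s : ℂ} (hs : 0 < s.re) :
    HasSum (fun u : (𝓞 F)ˣ => ∫ v, ‖ZUnf_H I s (v + lz (uF u))‖ ∂muF F)
      (‖cmp F s.re‖ * (Ideal.absNorm I.1 : ℝ) ^ (-s.re)) := by
  have hs' : 0 < ((s.re : ℝ) : ℂ).re := by simpa using hs
  have h := (integral_unfold (ZUnf_H_meas I (s.re : ℂ)) (ZUnf_H_int hA I hs')).2
  have h2 : ∫ v, ZUnf_H I (s.re : ℂ) v = ((∫ v, ‖ZUnf_H I s v‖ : ℝ) : ℂ) := by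
    rw [← integral_complex_ofReal]
    exact integral_congr_ae (Eventually.of_forall fun v => (ZUnf_H_norm I s v).symm)
  have h3 : ∀ u : (𝓞 F)ˣ, ∫ v, ZUnf_H I (s.re : ℂ) (v + lz (uF u)) ∂muF F =
      ((∫ v, ‖ZUnf_H I s (v + lz (uF u))‖ ∂muF F : ℝ) : ℂ) := by
    intro u
    rw [← integral_complex_ofReal]
    exact integral_congr_ae (Eventually.of_forall fun v => (ZUnf_H_norm I s _).symm)
  have h4 : ∫ v, ‖ZUnf_H I s v‖ = ‖cmp F s.re‖ * (Ideal.absNorm I.1 : ℝ) ^ (-s.re) := by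
    have h5 : ‖((∫ v, ‖ZUnf_H I s v‖ : ℝ) : ℂ)‖ = ∫ v, ‖ZUnf_H I s v‖ := by
      rw [Complex.norm_real, Real.norm_of_nonneg (integral_nonneg fun v => norm_nonneg _)]
    have hI : 0 < Ideal.absNorm I.1 :=
      Nat.pos_of_ne_zero (by rw [Ne, Ideal.absNorm_eq_zero_iff]; exact I.2.1)
    rw [← h5, ← h2, ZUnf_H_integral hA I hs', norm_mul, Complex.norm_natCast_cpow_of_pos hI]
    simp
  simp_rw [h3] at h
  rw [h2, Complex.hasSum_ofReal, h4] at h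
  exact h

theorem ZUnf_summable {A : Ideal (𝓞 F)} (hA : A ≠ ⊥) {s : ℂ} (hs : 1 < s.re) :
    Summable (fun p : ZUnf_S A × (𝓞 F)ˣ => ∫ v, ‖ZUnf_H p.1 s (v + lz (uF p.2))‖ ∂muF F) := by
  have hs0 : 0 < s.re := zero_lt_one.trans hs
  rw [summable_prod_of_nonneg fun p => integral_nonneg fun v => norm_nonneg _]
  refine ⟨fun I => (ZUnf_norm_hasSum hA I hs0).summable, ?_⟩
  have h : ∀ I : ZUnf_S A, ∑' u : (𝓞 F)ˣ, ∫ v, ‖ZUnf_H I s (v + lz (uF u))‖ ∂muF F =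
      ‖cmp F s.re‖ * (Ideal.absNorm I.1 : ℝ) ^ (-s.re) :=
    fun I => (ZUnf_norm_hasSum hA I hs0).tsum_eq
  simp only [h]
  exact ((summable_absNorm_rpow hs).subtype _).mul_left _

theorem ZUnf_int_term {A : Ideal (𝓞 F)} (hA : A ≠ ⊥) {s : ℂ} (hs : 0 < s.re)
    (p : ZUnf_S A × (𝓞 F)ˣ) : Integrable (fun v => ZUnf_H p.1 s (v + lz (uF p.2))) (muF F) :=
  (integral_unfold (ZUnf_H_meas p.1 s) (ZUnf_H_int hA p.1 hs)).1 p.2

theorem integrable_thz {A : Ideal (𝓞 F)} (hA : A ≠ ⊥) {σ : ℝ} (hσ : 1 < σ) :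
    Integrable (fun v => ‖thz A (fun _ => 1) v‖ * Real.exp (σ * wz A v)) (muF F) := by
  have hs : 1 < (σ : ℂ).re := by simpa using hσ
  have hs0 : 0 < (σ : ℂ).re := zero_lt_one.trans hs
  have hm : Measurable fun v => ‖thz A (fun _ => 1) v‖ * Real.exp (σ * wz A v) :=
    (measurable_thz A (f := fun _ => 1) (by simp)).norm.mul
      (Real.measurable_exp.comp ((measurable_wz A).const_mul σ))
  refine ⟨hm.aestronglyMeasurable, ?_⟩
  have h1 : ∀ v, ‖‖thz A (fun _ => 1) v‖ * Real.exp (σ * wz A v)‖ₑ ≤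
      ∑' p : ZUnf_S A × (𝓞 F)ˣ, ‖ZUnf_H p.1 σ (v + lz (uF p.2))‖ₑ := by
    intro v
    have h2 : ‖thz A (fun _ => 1) v‖ * Real.exp (σ * wz A v) =
        ‖thz A (fun _ => 1) v * Complex.exp ((σ : ℂ) * wz A v)‖ := by
      rw [norm_mul, Complex.norm_exp]
      simp
    rw [h2, enorm_norm, ZUnf_thz_eq hA]
    simp only [one_mul]
    exact enorm_tsum_le_tsum_enorm
  refine lt_of_le_of_lt (lintegral_mono h1) ?_
  rw [lintegral_tsum fun p => (ZUnf_int_term hA hs0 p).aestronglyMeasurable.enorm]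
  simp_rw [fun p => (ofReal_integral_norm_eq_lintegral_enorm (ZUnf_int_term hA hs0 p)).symm]
  exact (ZUnf_summable hA hs).tsum_ofReal_lt_top

theorem integral_thz {A : Ideal (𝓞 F)} (hA : A ≠ ⊥) {f : 𝓞 F → ℂ} {g : Ideal (𝓞 F) → ℂ}
    (hf : ∀ x, ‖f x‖ ≤ 1) (hg : ∀ I, ‖g I‖ ≤ 1)
    (hfg : ∀ x I, x ≠ 0 → A * I = Ideal.span {x} → f x = g I) {s : ℂ}
    (hs : 1 < s.re) :
    ∫ v, thz A f v * Complex.exp (s * wz A v) ∂muF F = cmp F s * Dz F (cls A g) s := by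
  classical
  have _ := hf
  have hs0 : 0 < s.re := zero_lt_one.trans hs
  have he : ∀ p : ZUnf_S A × (𝓞 F)ˣ, f (ZUnf_e p) = g p.1.1 :=
    fun p => hfg _ _ (ZUnf_e_ne hA p) (ZUnf_e_span p)
  simp_rw [ZUnf_thz_eq hA, he]
  have h1 := hasSum_integral_of_summable_integral_norm (μ := muF F)
    (F := fun (p : ZUnf_S A × (𝓞 F)ˣ) v => g p.1.1 * ZUnf_H p.1 s (v + lz (uF p.2)))
    (fun p => (ZUnf_int_term hA hs0 p).const_mul _) (by
      refine Summable.of_nonneg_of_le (fun p => integral_nonneg fun v => norm_nonneg _)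
        (fun p => ?_) (ZUnf_summable hA hs)
      refine integral_mono ((ZUnf_int_term hA hs0 p).const_mul _).norm
        (ZUnf_int_term hA hs0 p).norm fun v => ?_
      simp only [norm_mul]
      exact mul_le_of_le_one_left (norm_nonneg _) (hg _))
  have h2 : ∀ I : ZUnf_S A, HasSum
      (fun u : (𝓞 F)ˣ => ∫ v, g I.1 * ZUnf_H I s (v + lz (uF u)) ∂muF F)
      (cmp F s * (g I.1 * (Ideal.absNorm I.1 : ℂ) ^ (-s))) := by
    intro I
    have h := ((integral_unfold (ZUnf_H_meas I s) (ZUnf_H_int hA I hs0)).2).mul_left (g I.1)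
    rw [ZUnf_H_integral hA I hs0, mul_left_comm] at h
    simp_rw [integral_const_mul]
    exact h
  have h3 := (h1.prod_fiberwise h2).tsum_eq
  rw [← h3, tsum_mul_left, Dz]
  congr 1
  have hinj : Function.Injective (fun I : ZUnf_S A => I.1) := Subtype.val_injective
  rw [← hinj.tsum_eq]
  · refine tsum_congr fun I => ?_
    unfold cls
    rw [if_pos I.2.2]
  · intro I hI
    by_contra h
    apply hI
    by_cases h0 : I = ⊥
    · have hs1 : -s ≠ 0 := by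
        intro h1
        rw [neg_eq_zero] at h1
        rw [h1] at hs0
        simp at hs0
      simp [h0, Complex.zero_cpow hs1]
    · have h1 : ¬ (A * I).IsPrincipal := fun h1 => h ⟨⟨I, h0, h1⟩, rfl⟩
      unfold cls
      simp [h1]

end Crest.Agent.R312
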